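import Vale.Agent.P204.Tame.Mfd.Pull
import Vale.Agent.P204.Tame.EllipticTools

/-!
P204, manifold layer: calculus of forms on coordinate space. Pullbacks of closed two-forms are
closed and exact forms are closed.
-/

namespace Vale.Agent.P204.Tame.Mfd

open scoped ContDiff Matrix Topology
open Set Filter

/-- The matrix of partial derivatives of a map. -/
noncomputable def jac (t : E → E) (x : E) : M :=
  Matrix.of fun a j => pd j (fun y => t y a) x

/-- The cyclic sum of derivatives of a two-form. -/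
noncomputable def cyc (u : E → M) (x : E) (i j k : Fin 4) : ℝ :=
  pd i (fun y => u y j k) x + pd j (fun y => u y k i) x + pd k (fun y => u y i j) x

lemma cyc_congr {u v : E → M} {x : E} (h : u =ᶠ[𝓝 x] v) (i j k : Fin 4) :
    cyc u x i j k = cyc v x i j k := by
  have h' : ∀ a b, (fun y => u y a b) =ᶠ[𝓝 x] fun y => v y a b := fun a b =>
    h.fun_comp fun m : M => m a b
  simp only [cyc, pd_congr _ (h' _ _)]

lemma differentiableAt_pd {f : E → ℝ} {x : E} (hf : ContDiffAt ℝ ∞ f x) (a : Fin 4) :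
    DifferentiableAt ℝ (pd a f) x :=
  ((hf.fderiv_right (m := 1) (WithTop.coe_le_coe.2 le_top)).clm_apply
    contDiffAt_const).differentiableAt one_ne_zero

lemma pd_sub_apply {f g : E → ℝ} {x : E} (a : Fin 4) (hf : DifferentiableAt ℝ f x)
    (hg : DifferentiableAt ℝ g x) :
    pd a (fun y => f y - g y) x = pd a f x - pd a g x := by
  unfold pd
  rw [fderiv_fun_sub hf hg, sub_apply]

/-- An exact form is closed. -/
lemma cyc_dOne {S : E → E} {x : E} (hS : ∀ k, ContDiffAt ℝ ∞ (fun y => S y k) x)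
    (i j k : Fin 4) : cyc (dOne S) x i j k = 0 := by
  simp only [cyc, dOne, pd_sub_apply _ (differentiableAt_pd (hS _) _)
    (differentiableAt_pd (hS _) _)]
  linear_combination pd_comm (hS k) i j + pd_comm (hS i) j k + pd_comm (hS j) k i

/-- The exterior derivative commutes with pullbacks. -/
lemma cyc_pullback_eq {t : E → E} {U V : Set E} (hU : IsOpen U) (hV : IsOpen V)
    (ht : ContDiffOn ℝ ∞ t U) (hm : MapsTo t U V) {u : E → M}
    (hu : ∀ a b, ContDiffOn ℝ ∞ (fun y => u y a b) V) (hs : ∀ y ∈ V, (u y)ᵀ = -u y)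
    {x : E} (hx : x ∈ U) (i j k : Fin 4) :
    cyc (fun y => (jac t y)ᵀ * u (t y) * jac t y) x i j k =
      ∑ a, ∑ b, ∑ c, jac t x c i * jac t x a j * jac t x b k * cyc u (t x) c a b := by
  have htA : ∀ a, ContDiffAt ℝ ∞ (fun z => t z a) x := fun a =>
    (contDiffOn_pi.1 ht a).contDiffAt (hU.mem_nhds hx)
  have htd : DifferentiableAt ℝ t x :=
    (ht.contDiffAt (hU.mem_nhds hx)).differentiableAt (by simp)
  have hud : ∀ a b, DifferentiableAt ℝ (fun y => u y a b) (t x) := fun a b =>
    ((hu a b).contDiffAt (hV.mem_nhds (hm hx))).differentiableAt (by simp)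
  have huc : ∀ a b, DifferentiableAt ℝ (fun y => u (t y) a b) x := fun a b =>
    (hud a b).comp x htd
  have hT : ∀ b a, DifferentiableAt ℝ (fun y => pd b (fun z => t z a) y) x := fun b a =>
    differentiableAt_pd (htA a) b
  let T : Fin 4 → Fin 4 → ℝ := fun a b => pd b (fun z => t z a) x
  let H : Fin 4 → Fin 4 → Fin 4 → ℝ := fun a b c => pd b (pd c fun z => t z a) x
  let D : Fin 4 → Fin 4 → Fin 4 → ℝ := fun c a b => pd c (fun y => u y a b) (t x)
  let W : Fin 4 → Fin 4 → ℝ := fun a b => u (t x) a b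
  let A : Fin 4 → Fin 4 → Fin 4 → ℝ := fun i j k =>
    ∑ a, ∑ b, H a i j * W a b * T b k
  let B : Fin 4 → Fin 4 → Fin 4 → ℝ := fun i j k =>
    ∑ a, ∑ b, T a j * W a b * H b i k
  let C : Fin 4 → Fin 4 → Fin 4 → ℝ := fun i j k =>
    ∑ a, ∑ b, ∑ c, T c i * T a j * T b k * D c a b
  have hkey : ∀ i j k, pd i (fun y => ((jac t y)ᵀ * u (t y) * jac t y) j k) x =
      A i j k + B i j k + C i j k := by
    intro i j k
    have he : (fun y => ((jac t y)ᵀ * u (t y) * jac t y) j k) = fun y =>
        ∑ b, ∑ a, pd j (fun z => t z a) y * u (t y) a b * pd k (fun z => t z b) y := by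
      funext y
      simp [jac, Matrix.mul_apply, Finset.sum_mul]
    rw [he, pd_sum i fun b _ => DifferentiableAt.fun_sum fun a _ =>
      ((hT j a).fun_mul (huc a b)).fun_mul (hT k b)]
    simp only [A, B, C, ← Finset.sum_add_distrib]
    rw [Finset.sum_comm (γ := Fin 4) (f := fun a b => H a i j * W a b * T b k +
      T a j * W a b * H b i k + ∑ c, T c i * T a j * T b k * D c a b)]
    refine Finset.sum_congr rfl fun b _ => ?_
    rw [pd_sum i fun a _ => ((hT j a).fun_mul (huc a b)).fun_mul (hT k b)]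
    refine Finset.sum_congr rfl fun a _ => ?_
    rw [pd_mul i ((hT j a).fun_mul (huc a b)) (hT k b), pd_mul i (hT j a) (huc a b),
      pd_comp_chain (hud a b) htd i]
    simp only [T, H, D, W, Finset.mul_sum, Finset.sum_mul, add_mul]
    have e1 : ∀ c, pd j (fun z => t z a) x * (pd i (fun z => t z c) x *
        pd c (fun y => u y a b) (t x)) * pd k (fun z => t z b) x =
        pd i (fun z => t z c) x * pd j (fun z => t z a) x * pd k (fun z => t z b) x *
          pd c (fun y => u y a b) (t x) := fun c => by ring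
    simp only [e1]
    ring
  have hH : ∀ a b c, H a b c = H a c b := fun a b c => pd_comm (htA a) b c
  have hW : ∀ a b, W a b = -W b a := fun a b => skew_apply (hs _ (hm hx)) b a
  have hBA : ∀ i j k, B i j k = -A k i j := by
    intro i j k
    simp only [A, B, ← Finset.sum_neg_distrib]
    rw [Finset.sum_comm]
    refine Finset.sum_congr rfl fun a _ => Finset.sum_congr rfl fun b _ => ?_
    rw [hW b a, hH a i k]
    ring
  have hC : C i j k + C j k i + C k i j =
      ∑ a, ∑ b, ∑ c, T c i * T a j * T b k * (D c a b + D a b c + D b c a) := by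
    simp only [C, Fin.sum_univ_four]
    ring
  have hR : (∑ a, ∑ b, ∑ c, jac t x c i * jac t x a j * jac t x b k * cyc u (t x) c a b) =
      ∑ a, ∑ b, ∑ c, T c i * T a j * T b k * (D c a b + D a b c + D b c a) := rfl
  rw [hR, cyc, hkey, hkey, hkey, hBA, hBA, hBA]
  linear_combination hC

/-- The pullback of a closed two-form is closed. -/
lemma cyc_pullback {t : E → E} {U V : Set E} (hU : IsOpen U) (hV : IsOpen V)
    (ht : ContDiffOn ℝ ∞ t U) (hm : MapsTo t U V) {u : E → M}
    (hu : ∀ a b, ContDiffOn ℝ ∞ (fun y => u y a b) V) (hs : ∀ y ∈ V, (u y)ᵀ = -u y)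
    (hc : ∀ y ∈ V, ∀ i j k, cyc u y i j k = 0) {x : E} (hx : x ∈ U) (i j k : Fin 4) :
    cyc (fun y => (jac t y)ᵀ * u (t y) * jac t y) x i j k = 0 := by
  simp [cyc_pullback_eq hU hV ht hm hu hs hx i j k, fun a b c => hc _ (hm hx) a b c]

lemma toLin_jac {t : E → E} {t' : E →L[ℝ] E} {x : E} (h : HasFDerivAt t t' x) :
    LinearMap.toMatrix' t'.toLinearMap = jac t x := by
  ext a j
  simp only [jac, Matrix.of_apply, LinearMap.toMatrix'_apply, pd]
  rw [(hasFDerivAt_pi'.1 h a).fderiv]
  simp [e]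

end Vale.Agent.P204.Tame.Mfd
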