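import Vale.Agent.P204.Tame.Mfd.SmearDefs
import Vale.Agent.P204.Tame.Loc.Iface

/-!
Statements about the smoother applied to fields supported in a chart and to weakly closed fields.
-/

namespace Vale.Agent.P204.Tame.Mfd

open scoped ContDiff Manifold Matrix
open MeasureTheory Metric Set Filter

variable {X : Type} [TopologicalSpace X] [ChartedSpace E X] [IsManifold 𝓘(ℝ, E) ∞ X]

/-- A field pairs to zero with every exact form. -/
def IsWeakClosed [MeasurableSpace X] (A : Atlas X) (w u : X → M) : Prop :=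
  ∀ S, IsForm1 S → ∫ z, pr (w z) (u z) (dX S z) ∂vol A w = 0

/-- Properties of the smoother used by the regularity and vanishing steps. -/
structure SmearUse [MeasurableSpace X] (B : Atlas X) (ρ : E → ℝ) : Prop where
  chart_field : ∀ p : X, ∀ O : Set E, MeasurableSet O → IsCompact (closure O) →
    closure O ⊆ (chartAt E p).target → ∀ a : E → M, IsL2Field (volume.restrict O) a →
      (∀ x, (a x)ᵀ = -a x) → IsL2X (ext p (O.indicator a))
  linear : ∃ ε₀ > 0, ∀ ε ∈ Ioc (0 : ℝ) ε₀, ∀ u v, IsL2X u → IsL2X v → ∀ r : ℝ,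
    smX B ρ ε (u + v) = smX B ρ ε u + smX B ρ ε v ∧ smX B ρ ε (r • u) = r • smX B ρ ε u
  smear_ext : ∀ p : X, ∀ O : Set E, MeasurableSet O → IsCompact (closure O) →
    closure O ⊆ (chartAt E p).target → ∀ K ⊆ (chartAt E p).target, IsCompact K →
      closure O ⊆ interior K → ∃ ε₀ > 0, ∀ ε ∈ Ioc (0 : ℝ) ε₀, ∀ a : E → M,
        IsL2Field (volume.restrict O) a → (∀ x, (a x)ᵀ = -a x) →
        smX B ρ ε (ext p (O.indicator a)) =
            ext p (K.indicator (smL (readTau B p) (wgtA B.n ρ) ε (O.indicator a))) ∧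
        (∀ i j, ContDiff ℝ ∞
          (fun y => K.indicator (smL (readTau B p) (wgtA B.n ρ) ε (O.indicator a)) y i j)) ∧
        ∀ i j, tsupport
          (fun y => K.indicator (smL (readTau B p) (wgtA B.n ρ) ε (O.indicator a)) y i j) ⊆ K
  closed : ∀ (A : Atlas X) (J w : X → M), IsACX J → IsHerm J w →
    ∃ ε₀ > 0, ∀ ε ∈ Ioc (0 : ℝ) ε₀, ∀ u, IsL2X u → IsWeakClosed A w u →
      IsClosedX (smX B ρ ε u)

/-- Module SmearUse: the properties hold. -/
def SmearUseHolds : Prop :=
  ∀ (X : Type) [TopologicalSpace X] [T2Space X] [CompactSpace X] [MeasurableSpace X]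
    [BorelSpace X] [ChartedSpace E X] [IsManifold 𝓘(ℝ, E) ∞ X] (B : Atlas X) (ρ : E → ℝ),
    SmootherFibre → SmootherSobolev → ClosedSmear → IsMol ρ → SmearFacts B ρ → SmearUse B ρ

end Vale.Agent.P204.Tame.Mfd
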