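import Vale.Agent.P204.Tame.Mfd.GDefs
import Vale.Agent.P204.Tame.Mfd.SmearUseDefs

/-!
Statements of the steps of the regularity proof for obstructions and of the vanishing step.
-/

namespace Vale.Agent.P204.Tame.Mfd

open scoped ContDiff Manifold Matrix ENNReal
open MeasureTheory Metric Set Filter

variable {X : Type} [TopologicalSpace X] [ChartedSpace E X] [IsManifold 𝓘(ℝ, E) ∞ X]

/-- A measure gives balls of radius `r` at most a multiple of `(r * g r)²`. -/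
def Growth [MeasurableSpace X] (μ : Measure X) (g : ℝ → ℝ) : Prop :=
  ∀ p : X, ∀ K ⊆ (chartAt E p).target, IsCompact K → ∃ A : ℝ, ∃ r₀ > 0,
    ∀ y ∈ K, ∀ r ∈ Ioc (0 : ℝ) r₀,
      chartMeas p μ (closedBall y r) ≤ ENNReal.ofReal (A * (r * g r) ^ 2)

/-- Module Core: a gauge for the ball masses bounds the low frequencies of `Φ` near every point. -/
def LowStep : Prop :=
  ∀ (X : Type) [TopologicalSpace X] [T2Space X] [CompactSpace X] [MeasurableSpace X]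
    [BorelSpace X] [ChartedSpace E X] [IsManifold 𝓘(ℝ, E) ∞ X]
    (A : Atlas X) (J w : X → M) (μ : Measure X) (Θ : X → M) (Φ : (X → M) →ₗ[ℝ] ℝ) (ρ : E → ℝ),
    IsACX J → IsHerm J w → IsObstruction A J w μ Θ Φ → IsMol ρ →
    ∀ g : ℝ → ℝ, AntitoneOn g (Ioc 0 1) → (∀ r ∈ Ioc (0 : ℝ) 1, 1 ≤ g r) → Growth μ g →
    ∀ z₀ : X, ∃ (c : X) (O : Set E) (C t₀ : ℝ), 0 < t₀ ∧ IsOpen O ∧ O ⊆ (chartAt E c).target ∧
      z₀ ∈ (chartAt E c).source ∧ chartAt E c z₀ ∈ O ∧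
      LowBound J Φ ρ c O t₀ (fun t =>
        C * Real.sqrt (g t ^ 2 + g t * gPhi A J Φ t + t ^ 2 * gPhi A J Φ t ^ 2))

/-- Module DensityStep: the test potentials turn low frequency bounds into ball bounds. -/
def DensityStep : Prop :=
  ∀ (X : Type) [TopologicalSpace X] [T2Space X] [CompactSpace X] [MeasurableSpace X]
    [BorelSpace X] [ChartedSpace E X] [IsManifold 𝓘(ℝ, E) ∞ X]
    (A : Atlas X) (J w : X → M) (μ : Measure X) (Θ : X → M) (Φ : (X → M) →ₗ[ℝ] ℝ) (ρ : E → ℝ),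
    IsACX J → IsHerm J w → IsObstruction A J w μ Θ Φ → IsMol ρ →
    ∀ (c : X) (O : Set E) (t₀ : ℝ), 0 < t₀ → IsOpen O → O ⊆ (chartAt E c).target →
    ∀ L : ℝ → ℝ, (∀ t, 0 ≤ L t) → LowBound J Φ ρ c O t₀ L →
    ∀ q ∈ Ioc (1 : ℝ) 2, (∀ t ∈ Ioc (0 : ℝ) t₀, ∃ C : ℝ, ∀ j : ℕ, L (t / 2 ^ j) ≤ C * q ^ j) →
    ∀ K ⊆ O, IsCompact K → ∃ R > 0, ∃ A' : ℝ, ∀ m : ℕ, ∀ y ∈ K,
      chartMeas c μ (closedBall y (R / 2 ^ m)) ≤
        ENNReal.ofReal (A' * (R / 2 ^ m) ^ 2 * ∑ i ∈ Finset.range (m + 1), (q / 2) ^ i)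

/-- Module SmearExact: the smoother of an exact form pairs to zero with a current. -/
def SmearExact : Prop :=
  ∀ (X : Type) [TopologicalSpace X] [T2Space X] [CompactSpace X] [MeasurableSpace X]
    [BorelSpace X] [ChartedSpace E X] [IsManifold 𝓘(ℝ, E) ∞ X]
    (J w : X → M) (μ : Measure X) (Θ : X → M) (B : Atlas X) (ρ : E → ℝ),
    IsACX J → IsHerm J w → IsCurrent J w μ Θ → IsMol ρ →
    ∃ ε₀ > 0, ∀ ε ∈ Ioc (0 : ℝ) ε₀, ∀ S, IsForm1 S →
      ∫ z, pr (w z) (Θ z) (smX B ρ ε (dX S) z) ∂μ = 0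

/-- The chart regions of an atlas used to cut a field into chart pieces. -/
structure Regions (B : Atlas X) where
  O : Fin B.n → Set E
  K : Fin B.n → Set E
  isOpen : ∀ i, IsOpen (O i)
  cell : ∀ i, chartAt E (B.c i) '' tsupport (B.φ i) ⊆ O i
  compact : ∀ i, IsCompact (closure (O i)) ∧ IsCompact (K i)
  inside : ∀ i, closure (O i) ⊆ interior (K i)
  target : ∀ i, K i ⊆ (chartAt E (B.c i)).target

/-- The field glued from chart fields by the partition. -/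
noncomputable def glue (B : Atlas X) (R : Regions B) (f : Fin B.n → E → M) : X → M :=
  ∑ i, ext (B.c i) ((R.O i).indicator fun y => B.φ i ((chartAt E (B.c i)).symm y) • f i y)

end Vale.Agent.P204.Tame.Mfd
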