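import Vale.Agent.P204.Tame.Mfd.Basic

/-!
P204, manifold layer: linearity of the chart readings, closure properties of fields, and the
extension of chart fields by zero.
-/

namespace Vale.Agent.P204.Tame.Mfd

open scoped ContDiff Manifold Matrix Topology
open Set

variable {X : Type*} [TopologicalSpace X] [ChartedSpace E X] [IsManifold 𝓘(ℝ, E) ∞ X]

lemma rep_add (p : X) (u v : X → M) (y : E) : rep p (u + v) y = rep p u y + rep p v y := by
  simp [rep, Matrix.mul_add, Matrix.add_mul]

lemma rep_sub (p : X) (u v : X → M) (y : E) : rep p (u - v) y = rep p u y - rep p v y := by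
  simp [rep, Matrix.mul_sub, Matrix.sub_mul]

lemma rep_neg (p : X) (u : X → M) (y : E) : rep p (-u) y = -rep p u y := by
  simp [rep]

lemma rep_smul (p : X) (r : ℝ) (u : X → M) (y : E) : rep p (r • u) y = r • rep p u y := by
  simp [rep]

lemma rep_fun_smul (p : X) (f : X → ℝ) (u : X → M) (y : E) :
    rep p (fun z => f z • u z) y = f ((chartAt E p).symm y) • rep p u y := by
  simp [rep]

lemma rep_zero (p : X) (y : E) : rep p (0 : X → M) y = 0 := by simp [rep]

lemma rep_sum {ι : Type*} (s : Finset ι) (p : X) (u : ι → X → M) (y : E) :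
    rep p (∑ i ∈ s, u i) y = ∑ i ∈ s, rep p (u i) y := by
  simp [rep, Finset.sum_apply, Matrix.mul_sum, Matrix.sum_mul]

lemma skew_rep {u : X → M} (hu : ∀ z, (u z)ᵀ = -u z) (p : X) (y : E) :
    (rep p u y)ᵀ = -rep p u y :=
  skew_congr _ (hu _)

/-- A field at a point, recovered from its reading in a chart. -/
lemma eq_rep (u : X → M) {p z : X} (h : z ∈ (chartAt E p).source) :
    u z = (chg z p z)ᵀ * rep p u (chartAt E p z) * chg z p z := by
  have hu := chg_mul_chg (p := z) (q := p) (mem_chart_source E z) h
  simp only [rep, (chartAt E p).left_inv h]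
  calc u z = (chg p z z * chg z p z)ᵀ * u z * (chg p z z * chg z p z) := by rw [hu]; simp
    _ = _ := by rw [Matrix.transpose_mul]; simp only [Matrix.mul_assoc]

/-- An endomorphism at a point, recovered from its reading in a chart. -/
lemma eq_repEnd (J : X → M) {p z : X} (h : z ∈ (chartAt E p).source) :
    J z = chg p z z * repEnd p J (chartAt E p z) * chg z p z := by
  have hu := chg_mul_chg (p := z) (q := p) (mem_chart_source E z) h
  simp only [repEnd, (chartAt E p).left_inv h]
  calc J z = (chg p z z * chg z p z) * J z * (chg p z z * chg z p z) := by rw [hu]; simp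
    _ = _ := by simp only [Matrix.mul_assoc]

lemma inv_rep {J u : X → M} (h : ∀ z, (J z)ᵀ * u z * J z = u z) {p : X} {y : E}
    (hy : y ∈ (chartAt E p).target) :
    (repEnd p J y)ᵀ * rep p u y * repEnd p J y = rep p u y := by
  have hu := chg_mul_chg (p := (chartAt E p).symm y) (q := p)
    (mem_chart_source E _) ((chartAt E p).map_target hy)
  simp only [rep, repEnd]
  rw [congr_inv hu, h]

lemma tames_rep {w J : X → M} (h : TamesX w J) {p : X} {y : E}
    (hy : y ∈ (chartAt E p).target) (v : E) (hv : v ≠ 0) :
    0 < val (rep p w y) v (repEnd p J y *ᵥ v) := by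
  have hu := chg_mul_chg (p := (chartAt E p).symm y) (q := p)
    (mem_chart_source E _) ((chartAt E p).map_target hy)
  have hu' := chg_mul_chg (p := p) (q := (chartAt E p).symm y)
    ((chartAt E p).map_target hy) (mem_chart_source E _)
  simp only [rep, repEnd]
  rw [val_congr_end hu]
  refine h _ _ fun h0 => hv ?_
  have h1 : chg ((chartAt E p).symm y) p ((chartAt E p).symm y) *ᵥ
      (chg p ((chartAt E p).symm y) ((chartAt E p).symm y) *ᵥ v) = 0 := by
    rw [h0, Matrix.mulVec_zero]
  simpa [Matrix.mulVec_mulVec, hu'] using h1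

omit [IsManifold 𝓘(ℝ, E) ∞ X] in
/-- A continuous function read in a chart. -/
lemma continuousOn_read {f : X → ℝ} (hf : Continuous f) (p : X) :
    ContinuousOn (fun y => f ((chartAt E p).symm y)) (chartAt E p).target :=
  hf.comp_continuousOn (chartAt E p).continuousOn_symm

/-- A smooth function read in a chart. -/
lemma contDiffOn_read {f : X → ℝ} (hf : ContMDiff 𝓘(ℝ, E) 𝓘(ℝ) ∞ f) (p : X) :
    ContDiffOn ℝ ∞ (fun y => f ((chartAt E p).symm y)) (chartAt E p).target :=
  contMDiffOn_iff_contDiffOn.1 (hf.comp_contMDiffOn contMDiffOn_chart_symm)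

lemma IsForm.cont {u : X → M} (h : IsForm u) : IsContForm u :=
  ⟨fun p i j => (h.smooth p i j).continuousOn, h.skew⟩

lemma IsForm.add {u v : X → M} (hu : IsForm u) (hv : IsForm v) : IsForm (u + v) where
  smooth p i j := by
    simp only [rep_add, Matrix.add_apply]
    exact (hu.smooth p i j).add (hv.smooth p i j)
  skew z := by simp [hu.skew z, hv.skew z, add_comm]

lemma IsForm.sub {u v : X → M} (hu : IsForm u) (hv : IsForm v) : IsForm (u - v) where
  smooth p i j := by
    simp only [rep_sub, Matrix.sub_apply]
    exact (hu.smooth p i j).sub (hv.smooth p i j)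
  skew z := by simp [hu.skew z, hv.skew z]; abel

lemma IsForm.fun_smul {f : X → ℝ} {u : X → M} (hf : ContMDiff 𝓘(ℝ, E) 𝓘(ℝ) ∞ f)
    (hu : IsForm u) : IsForm fun z => f z • u z where
  smooth p i j := by
    simp only [rep_fun_smul, Matrix.smul_apply, smul_eq_mul]
    exact (contDiffOn_read hf p).mul (hu.smooth p i j)
  skew z := by simp [hu.skew z]

lemma IsForm.smul {u : X → M} (r : ℝ) (hu : IsForm u) : IsForm (r • u) :=
  hu.fun_smul (f := fun _ => r) contMDiff_const

lemma isForm_zero : IsForm (0 : X → M) where
  smooth p i j := by simp only [rep_zero, Matrix.zero_apply]; exact contDiffOn_const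
  skew z := by simp

lemma isForm_sum {ι : Type*} (s : Finset ι) {u : ι → X → M} (h : ∀ i ∈ s, IsForm (u i)) :
    IsForm (∑ i ∈ s, u i) :=
  Finset.sum_induction u IsForm (fun _ _ => IsForm.add) isForm_zero h

lemma isContForm_zero : IsContForm (0 : X → M) := isForm_zero.cont

lemma IsContForm.add {u v : X → M} (hu : IsContForm u) (hv : IsContForm v) :
    IsContForm (u + v) where
  cont p i j := by
    simp only [rep_add, Matrix.add_apply]
    exact (hu.cont p i j).add (hv.cont p i j)
  skew z := by simp [hu.skew z, hv.skew z, add_comm]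

lemma IsContForm.fun_smul {f : X → ℝ} {u : X → M} (hf : Continuous f) (hu : IsContForm u) :
    IsContForm fun z => f z • u z where
  cont p i j := by
    simp only [rep_fun_smul, Matrix.smul_apply, smul_eq_mul]
    exact (continuousOn_read hf p).mul (hu.cont p i j)
  skew z := by simp [hu.skew z]

lemma IsContForm.smul {u : X → M} (r : ℝ) (hu : IsContForm u) : IsContForm (r • u) :=
  hu.fun_smul (f := fun _ => r) continuous_const

/-- Continuous invariant two-forms. -/
def contInv (J : X → M) : Submodule ℝ (X → M) where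
  carrier := {u | IsContForm u ∧ ∀ z, (J z)ᵀ * u z * J z = u z}
  zero_mem' := ⟨isContForm_zero, fun z => by simp⟩
  add_mem' := fun hu hv => ⟨hu.1.add hv.1, fun z => by
    simp [Matrix.mul_add, Matrix.add_mul, hu.2 z, hv.2 z]⟩
  smul_mem' := fun r _ hu => ⟨hu.1.smul r, fun z => by simp [hu.2 z]⟩

lemma mem_contInv {J u : X → M} :
    u ∈ contInv J ↔ IsContForm u ∧ ∀ z, (J z)ᵀ * u z * J z = u z := Iff.rfl

lemma IsHerm.mem_contInv {J w : X → M} (h : IsHerm J w) : w ∈ contInv J := ⟨h.form.cont, h.inv⟩

lemma fun_smul_mem_contInv {J u : X → M} {f : X → ℝ} (hf : Continuous f) (hu : u ∈ contInv J) :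
    (fun z => f z • u z) ∈ contInv J :=
  ⟨hu.1.fun_smul hf, fun z => by simp [hu.2 z]⟩

lemma skew_ext (p : X) {a : E → M} (h : ∀ y ∈ (chartAt E p).target, (a y)ᵀ = -a y) (z : X) :
    (ext p a z)ᵀ = -ext p a z := by
  simp only [ext]
  split_ifs with hz
  · exact skew_congr _ (h _ ((chartAt E p).map_source hz))
  · simp

/-- The reading in the chart at `q` of a form given in the chart at `p`. -/
lemma rep_ext_trn {p q : X} (a : E → M) {y : E} (hy : y ∈ trnDom q p) :
    rep q (ext p a) y = (chg q p ((chartAt E q).symm y))ᵀ * a (trn q p y) *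
      chg q p ((chartAt E q).symm y) := by
  rw [rep_trn _ hy, rep_ext a (trn_mem hy)]

lemma rep_ext_eq_zero {p q : X} (a : E → M) {y : E}
    (h : (chartAt E q).symm y ∈ (chartAt E p).source →
      a (chartAt E p ((chartAt E q).symm y)) = 0) :
    rep q (ext p a) y = 0 := by
  simp only [rep, ext]
  split_ifs with hz
  · simp [h hz]
  · simp

variable [T2Space X]

/-- Gluing by zero: a property local on the target passes to an extended form. -/
lemma ext_local {p : X} {a : E → M} {K : Set E} (hK : IsCompact K)
    (hKt : K ⊆ (chartAt E p).target) (h0 : ∀ y ∈ (chartAt E p).target, y ∉ K → a y = 0)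
    (q : X) {y : E} (hy : y ∈ (chartAt E q).target) :
    y ∈ trnDom q p ∨ ∀ᶠ x in 𝓝 y, rep q (ext p a) x = 0 := by
  by_cases h : y ∈ trnDom q p
  · exact Or.inl h
  refine Or.inr ?_
  have hC : IsClosed ((chartAt E p).symm '' K) :=
    (hK.image_of_continuousOn ((chartAt E p).continuousOn_symm.mono hKt)).isClosed
  have hopen := (chartAt E q).isOpen_inter_preimage_symm hC.isOpen_compl
  have hy' : (chartAt E q).symm y ∈ ((chartAt E p).symm '' K)ᶜ := by
    rintro ⟨k, hk, hk'⟩
    exact h ⟨hy, show (chartAt E q).symm y ∈ (chartAt E p).source from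
      hk' ▸ (chartAt E p).map_target (hKt hk)⟩
  filter_upwards [hopen.mem_nhds ⟨hy, hy'⟩] with x hx
  refine rep_ext_eq_zero a fun hz => ?_
  refine h0 _ ((chartAt E p).map_source hz) fun hK' => hx.2 ⟨_, hK', (chartAt E p).left_inv hz⟩

lemma isContForm_ext (p : X) {a : E → M} {K : Set E} (hK : IsCompact K)
    (hKt : K ⊆ (chartAt E p).target) (h0 : ∀ y ∈ (chartAt E p).target, y ∉ K → a y = 0)
    (hc : ∀ i j, ContinuousOn (fun y => a y i j) (chartAt E p).target)
    (hs : ∀ y ∈ (chartAt E p).target, (a y)ᵀ = -a y) : IsContForm (ext p a) where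
  skew := skew_ext p hs
  cont q i j := by
    intro y hy
    rcases ext_local hK hKt h0 q hy with h | h
    · have key : ContinuousOn (fun y => rep q (ext p a) y i j) (trnDom q p) := by
        refine ContinuousOn.congr ?_ fun x hx => congrFun (congrFun (rep_ext_trn a hx) i) j
        simp only [Matrix.mul_apply, Matrix.transpose_apply]
        refine continuousOn_finsetSum _ fun k _ => ContinuousOn.mul
          (continuousOn_finsetSum _ fun l _ => ?_) (contDiffOn_chg q p k j).continuousOn
        exact (contDiffOn_chg q p l i).continuousOn.mul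
          ((hc l k).comp (contDiffOn_trn q p).continuousOn fun x hx => trn_mem hx)
      exact ((key y h).continuousAt ((isOpen_trnDom q p).mem_nhds h)).continuousWithinAt
    · refine ContinuousAt.continuousWithinAt ((continuousAt_const (y := (0:ℝ))).congr ?_)
      filter_upwards [h] with x hx
      simp [hx]

lemma isForm_ext (p : X) {a : E → M} {K : Set E} (hK : IsCompact K)
    (hKt : K ⊆ (chartAt E p).target) (h0 : ∀ y ∈ (chartAt E p).target, y ∉ K → a y = 0)
    (hc : ∀ i j, ContDiffOn ℝ ∞ (fun y => a y i j) (chartAt E p).target)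
    (hs : ∀ y ∈ (chartAt E p).target, (a y)ᵀ = -a y) : IsForm (ext p a) where
  skew := skew_ext p hs
  smooth q i j := by
    intro y hy
    rcases ext_local hK hKt h0 q hy with h | h
    · have key : ContDiffOn ℝ ∞ (fun y => rep q (ext p a) y i j) (trnDom q p) := by
        refine ContDiffOn.congr ?_ fun x hx => congrFun (congrFun (rep_ext_trn a hx) i) j
        simp only [Matrix.mul_apply, Matrix.transpose_apply]
        refine ContDiffOn.sum fun k _ => ContDiffOn.mul
          (ContDiffOn.sum fun l _ => ?_) (contDiffOn_chg q p k j)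
        exact (contDiffOn_chg q p l i).mul
          ((hc l k).comp (contDiffOn_trn q p) fun x hx => trn_mem hx)
      exact ((key y h).contDiffAt ((isOpen_trnDom q p).mem_nhds h)).contDiffWithinAt
    · refine ContDiffAt.contDiffWithinAt ((contDiffAt_const (c := (0:ℝ))).congr_of_eventuallyEq ?_)
      filter_upwards [h] with x hx
      simp [hx]

end Vale.Agent.P204.Tame.Mfd
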