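import Vale.Agent.P204.Tame.Mfd.Defs
import Vale.Agent.P204.Tame.Interfaces

/-!
Statements of the global steps of the tamed to compatible theorem. Each definition of type `Prop`
below is proved in the module named in its comment.
-/

namespace Vale.Agent.P204.Tame.Mfd

open scoped ContDiff Manifold Matrix ENNReal
open MeasureTheory Metric Set Filter

variable {X : Type} [TopologicalSpace X] [ChartedSpace E X] [IsManifold 𝓘(ℝ, E) ∞ X]

/-- The invariant part of a field of two-forms. -/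
noncomputable def pinvX (J u : X → M) (z : X) : M := pinv (J z) (u z)

/-- The anti-invariant part of a field of two-forms. -/
noncomputable def pantiX (J u : X → M) (z : X) : M := panti (J z) (u z)

/-- The semiclassical Sobolev size of a two-form, over the supports of the partition. -/
noncomputable def hnorm (A : Atlas X) (k : ℕ) (ε : ℝ) (u : X → M) : ℝ :=
  ∑ i, ∑ a, ∑ b, ∑ l ∈ Finset.range (k + 1), ε ^ l * Real.sqrt
    (∫ y in chartAt E (A.c i) '' tsupport (A.φ i),
      ‖iteratedFDeriv ℝ l (fun x => rep (A.c i) u x a b) y‖ ^ 2)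

/-- The measure read in the chart at `p`, without normalisation. -/
noncomputable def chartMeas [MeasurableSpace X] (p : X) (μ : Measure X) : Measure E :=
  (μ.restrict (chartAt E p).source).map (chartAt E p)

/-- A measure gives small balls at most a multiple of the squared radius. -/
def QuadBound [MeasurableSpace X] (μ : Measure X) : Prop :=
  ∀ p : X, ∀ K ⊆ (chartAt E p).target, IsCompact K → ∃ A : ℝ, ∃ r₀ > 0,
    ∀ y ∈ K, ∀ r ∈ Ioc (0 : ℝ) r₀, chartMeas p μ (closedBall y r) ≤ ENNReal.ofReal (A * r ^ 2)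

/-- The density of a measure at a chart point tends to zero. -/
def NoDensity [MeasurableSpace X] (μ : Measure X) (p : X) (y : E) : Prop :=
  Tendsto (fun r : ℝ => chartMeas p μ (closedBall y r) / ENNReal.ofReal (r ^ 2))
    (nhdsWithin 0 (Ioi 0)) (nhds 0)

/-- The current dominates the Hermitian form on every measurable set. -/
def Dominates [MeasurableSpace X] (A : Atlas X) (J w : X → M) (μ : Measure X) (Θ : X → M) :
    Prop :=
  ∀ Y, MeasurableSet Y → ∀ u, IsContForm u → (∀ z, Psd (J z) (u z)) →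
    ∫ z in Y, pr (w z) (w z) (u z) ∂vol A w ≤ ∫ z in Y, pr (w z) (Θ z) (u z) ∂μ

/-- A positive measure-valued form and an anti-invariant functional vanishing together on all
closed forms. -/
structure IsObstruction [MeasurableSpace X] (A : Atlas X) (J w : X → M) (μ : Measure X)
    (Θ : X → M) (Φ : (X → M) →ₗ[ℝ] ℝ) : Prop where
  finite : IsFiniteMeasure μ
  meas : ∀ p i j, Measurable ((chartAt E p).target.indicator fun y => rep p Θ y i j)
  psd : ∀ᵐ z ∂μ, Psd (J z) (Θ z)
  unit : ∀ᵐ z ∂μ, pr (w z) (Θ z) (w z) = 1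
  bound : ∃ C : ℝ, ∀ u, IsForm u → |Φ u| ≤ C * hnorm A 4 1 u
  vanish : ∀ θ, IsForm θ → IsClosedX θ →
    ∫ z, pr (w z) (Θ z) (θ z) ∂μ + Φ (pantiX J θ) = 0

/-- Module Kaehler: taming gives a closed current dominating the Hermitian form. -/
def KaehlerCurrent : Prop :=
  ∀ (X : Type) [TopologicalSpace X] [T2Space X] [CompactSpace X] [MeasurableSpace X]
    [BorelSpace X] [ChartedSpace E X] [IsManifold 𝓘(ℝ, E) ∞ X]
    (A : Atlas X) (J w W : X → M), IsACX J → IsHerm J w → IsForm W → IsClosedX W → TamesX W J →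
    ∃ (μ : Measure X) (Θ : X → M), IsCurrent J w μ Θ ∧ Dominates A J w μ Θ

/-- Module GlobalPoles: removing the poles. -/
def RemovePoles : Prop :=
  ∀ (X : Type) [TopologicalSpace X] [T2Space X] [CompactSpace X] [MeasurableSpace X]
    [BorelSpace X] [ChartedSpace E X] [IsManifold 𝓘(ℝ, E) ∞ X]
    (A : Atlas X) (J w : X → M) (μ : Measure X) (Θ : X → M), IsACX J → IsHerm J w →
    IsCurrent J w μ Θ → Dominates A J w μ Θ →
    ∃ (μ₀ : Measure X) (Θ₀ : X → M), IsCurrent J w μ₀ Θ₀ ∧ Dominates A J w μ₀ Θ₀ ∧ QuadBound μ₀ ∧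
      (∀ p : X, ∀ᵐ y ∂(chartMeas p μ₀).restrict (chartAt E p).target, NoDensity μ₀ p y) ∧
      ∀ ν : Measure X, IsFiniteMeasure ν → QuadBound ν →
        ∀ p : X, ∀ᵐ y ∂(chartMeas p ν).restrict (chartAt E p).target, NoDensity μ₀ p y

/-- Module Separation: no compatible form gives a nonzero obstruction. -/
def Separation : Prop :=
  ∀ (X : Type) [TopologicalSpace X] [T2Space X] [CompactSpace X] [MeasurableSpace X]
    [BorelSpace X] [ChartedSpace E X] [IsManifold 𝓘(ℝ, E) ∞ X]
    (A : Atlas X) (J w : X → M), IsACX J → IsHerm J w →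
    (¬ ∃ θ, IsForm θ ∧ IsClosedX θ ∧ (∀ z, (J z)ᵀ * θ z * J z = θ z) ∧ TamesX θ J) →
    ∃ (μ : Measure X) (Θ : X → M) (Φ : (X → M) →ₗ[ℝ] ℝ),
      IsObstruction A J w μ Θ Φ ∧ μ ≠ 0

/-- Module Bootstrap: regularity of obstructions. -/
def ObstructionRegular : Prop :=
  ∀ (X : Type) [TopologicalSpace X] [T2Space X] [CompactSpace X] [MeasurableSpace X]
    [BorelSpace X] [ChartedSpace E X] [IsManifold 𝓘(ℝ, E) ∞ X]
    (A : Atlas X) (J w : X → M) (μ : Measure X) (Θ : X → M) (Φ : (X → M) →ₗ[ℝ] ℝ),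
    IsACX J → IsHerm J w → IsObstruction A J w μ Θ Φ →
    QuadBound μ ∧ ∃ C : ℝ, ∀ u, IsForm u → (∀ z, pantiX J u z = u z) →
      |Φ u| ≤ C * hnorm A 0 1 u

/-- Module Conclusion: obstructions vanish. -/
def NoObstruction : Prop :=
  ∀ (X : Type) [TopologicalSpace X] [T2Space X] [CompactSpace X] [MeasurableSpace X]
    [BorelSpace X] [ChartedSpace E X] [IsManifold 𝓘(ℝ, E) ∞ X]
    (A : Atlas X) (J w : X → M) (μ₀ : Measure X) (Θ₀ : X → M) (μ : Measure X) (Θ : X → M)
    (Φ : (X → M) →ₗ[ℝ] ℝ), IsACX J → IsHerm J w →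
    IsCurrent J w μ₀ Θ₀ → Dominates A J w μ₀ Θ₀ → QuadBound μ₀ →
    (∀ p : X, ∀ᵐ y ∂(chartMeas p μ₀).restrict (chartAt E p).target, NoDensity μ₀ p y) →
    IsObstruction A J w μ Θ Φ →
    (∀ p : X, ∀ᵐ y ∂(chartMeas p μ).restrict (chartAt E p).target, NoDensity μ₀ p y) →
    (∃ C : ℝ, ∀ u, IsForm u → (∀ z, pantiX J u z = u z) → |Φ u| ≤ C * hnorm A 0 1 u) →
    μ = 0

end Vale.Agent.P204.Tame.Mfd
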