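import Vale.Agent.P204.Tame.NormLocal
import Vale.Agent.P204.Tame.Mfd.Global
import Vale.Agent.P204.Tame.Mfd.Alg

/-!
The global semiclassical Sobolev size `hnorm`: comparison with sizes in a single chart, the
anti-invariant part, and its dependence on the scale.
-/

namespace Vale.Agent.P204.Tame.Mfd

open scoped ContDiff Manifold Matrix Topology
open MeasureTheory Set Filter Finset

variable {X : Type} [TopologicalSpace X] [ChartedSpace E X] [IsManifold 𝓘(ℝ, E) ∞ X]

/-- The image in the chart of the support of the partition function. -/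
def cell (A : Atlas X) (i : Fin A.n) : Set E := chartAt E (A.c i) '' tsupport (A.φ i)

lemma isCompact_cell (A : Atlas X) (i : Fin A.n) : IsCompact (cell A i) :=
  (A.φ_supp i).1.image_of_continuousOn
    ((chartAt E (A.c i)).continuousOn.mono (A.φ_supp i).2)

lemma cell_subset (A : Atlas X) (i : Fin A.n) : cell A i ⊆ (chartAt E (A.c i)).target := by
  rintro _ ⟨z, hz, rfl⟩
  exact (chartAt E (A.c i)).map_source ((A.φ_supp i).2 hz)

lemma hnorm_eq (A : Atlas X) (k : ℕ) (ε : ℝ) (u : X → M) :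
    hnorm A k ε u = ∑ i, ∑ a, ∑ b, sobS k ε (cell A i) (fun y => rep (A.c i) u y a b) := rfl

lemma hnorm_nonneg (A : Atlas X) (k : ℕ) {ε : ℝ} (hε : 0 ≤ ε) (u : X → M) : 0 ≤ hnorm A k ε u := by
  rw [hnorm_eq]
  exact sum_nonneg fun i _ => sum_nonneg fun a _ => sum_nonneg fun b _ => sobS_nonneg hε _ _

/-- Change of chart for the Sobolev sums of a form. -/
theorem exists_sobS_rep (p q : X) {Z : Set X} (hZ : IsCompact Z)
    (hp : Z ⊆ (chartAt E p).source) (hq : Z ⊆ (chartAt E q).source) (k : ℕ) :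
    ∃ C : ℝ, 0 ≤ C ∧ ∀ u : X → M, IsForm u → ∀ ε ∈ Ioc (0 : ℝ) 1, ∀ a b,
      sobS k ε (chartAt E p '' Z) (fun y => rep p u y a b) ≤
        C * ∑ c, ∑ d, sobS k ε (chartAt E q '' Z) (fun y => rep q u y c d) := by
  classical
  set V := trnDom p q
  set K := chartAt E p '' Z
  have hV : IsOpen V := isOpen_trnDom p q
  have hK : IsCompact K := hZ.image_of_continuousOn ((chartAt E p).continuousOn.mono hp)
  have hKV : K ⊆ V := by
    rintro _ ⟨z, hz, rfl⟩
    exact ⟨(chartAt E p).map_source (hp hz), by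
      simpa [(chartAt E p).left_inv (hp hz)] using hq hz⟩
  have hmap : MapsTo (trn p q) V (chartAt E q).target := fun y hy => trn_mem hy
  have himg : trn p q '' K = chartAt E q '' Z := by
    rw [image_image]
    exact image_congr fun z hz => by rw [trn, (chartAt E p).left_inv (hp hz)]
  have hinj : InjOn (trn p q) V := fun y hy y' hy' h => by
    have h' := congrArg (chartAt E q).symm h
    rw [symm_trn hy, symm_trn hy'] at h'
    exact (chartAt E p).symm.injOn hy.1 hy'.1 h'
  have hdet : ∀ y ∈ K, (fderiv ℝ (trn p q) y).det ≠ 0 := fun y hy => by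
    have hy' := hKV hy
    rw [(hasFDerivAt_trn hy').fderiv]
    have h := (isUnit_chg ((chartAt E p).map_target hy'.1) hy'.2).ne_zero
    rw [chg, LinearMap.det_toMatrix'] at h
    exact h
  obtain ⟨C₁, hC₁, hcomp⟩ := exists_sobS_comp hV (chartAt E q).open_target hK hKV
    (contDiffOn_trn p q) hmap hinj hdet k
  set cf : Fin 4 → Fin 4 → Fin 4 → Fin 4 → E → ℝ := fun a b c d y =>
    chg p q ((chartAt E p).symm y) c a * chg p q ((chartAt E p).symm y) d b
  have hcf : ∀ a b c d, ContDiffOn ℝ ∞ (cf a b c d) V := fun a b c d =>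
    (contDiffOn_chg p q c a).mul (contDiffOn_chg p q d b)
  choose C₂ hC₂ hmul using fun a b c d => exists_sobS_mul hV hK hKV (hcf a b c d) k
  refine ⟨C₁ * ∑ a, ∑ b, ∑ c, ∑ d, C₂ a b c d, mul_nonneg hC₁ (sum_nonneg fun a _ =>
    sum_nonneg fun b _ => sum_nonneg fun c _ => sum_nonneg fun d _ => hC₂ a b c d),
    fun u hu ε hε a b => ?_⟩
  have hft : ∀ c d, ContDiffOn ℝ ∞ (fun y => rep q u (trn p q y) c d) V := fun c d =>
    (hu.smooth q c d).comp (contDiffOn_trn p q) hmap
  have hcongr : sobS k ε K (fun y => rep p u y a b) =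
      sobS k ε K (fun y => ∑ c, ∑ d, cf a b c d y * rep q u (trn p q y) c d) := by
    refine sobS_congr hK.measurableSet fun y hy => ?_
    filter_upwards [hV.mem_nhds (hKV hy)] with x hx
    simp only [rep_trn u hx, Matrix.mul_apply, Matrix.transpose_apply, sum_mul, cf]
    rw [sum_comm]
    exact sum_congr rfl fun c _ => sum_congr rfl fun d _ => by ring
  rw [hcongr]
  refine (sobS_sum_le hV hK hKV _ (fun c _ => ContDiffOn.sum fun d _ =>
    (hcf a b c d).mul (hft c d)) hε.1.le).trans ?_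
  rw [mul_sum]
  refine sum_le_sum fun c _ => ?_
  refine (sobS_sum_le hV hK hKV _ (fun d _ => (hcf a b c d).mul (hft c d)) hε.1.le).trans ?_
  rw [mul_sum]
  refine sum_le_sum fun d _ => ?_
  refine (hmul a b c d _ (hft c d) ε hε).trans ?_
  have h1 := hcomp (fun y => rep q u y c d) (hu.smooth q c d) ε hε
  rw [himg] at h1
  refine (mul_le_mul_of_nonneg_left h1 (hC₂ a b c d)).trans ?_
  rw [← mul_assoc, mul_comm (C₂ a b c d) C₁]
  refine mul_le_mul_of_nonneg_right (mul_le_mul_of_nonneg_left ?_ hC₁) (sobS_nonneg hε.1.le _ _)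
  refine ((single_le_sum (f := fun d => C₂ a b c d) (fun d _ => hC₂ a b c d)
    (Finset.mem_univ d)).trans (single_le_sum (f := fun c => ∑ d, C₂ a b c d)
    (fun c _ => sum_nonneg fun d _ => hC₂ a b c d) (Finset.mem_univ c))).trans ?_
  exact (single_le_sum (f := fun b => ∑ c, ∑ d, C₂ a b c d) (fun b _ => sum_nonneg fun c _ =>
    sum_nonneg fun d _ => hC₂ a b c d) (Finset.mem_univ b)).trans
    (single_le_sum (f := fun a => ∑ b, ∑ c, ∑ d, C₂ a b c d) (fun a _ => sum_nonneg fun b _ =>
      sum_nonneg fun c _ => sum_nonneg fun d _ => hC₂ a b c d) (Finset.mem_univ a))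

/-- (N1) A form given in one chart with support in a compact set. -/
theorem exists_hnorm_ext [T2Space X] (A : Atlas X) (p : X) {K : Set E} (hK : IsCompact K)
    (hKt : K ⊆ (chartAt E p).target) (k : ℕ) :
    ∃ C : ℝ, 0 ≤ C ∧ ∀ a : E → M, (∀ i j, ContDiff ℝ ∞ fun y => a y i j) →
      (∀ y, (a y)ᵀ = -a y) → (∀ i j, tsupport (fun y => a y i j) ⊆ K) →
      IsForm (ext p a) ∧ ∀ ε ∈ Ioc (0 : ℝ) 1, hnorm A k ε (ext p a) ≤
        C * ∑ i, ∑ j, ∑ l ∈ range (k + 1),
          ε ^ l * Real.sqrt (∫ y, ‖iteratedFDeriv ℝ l (fun x => a x i j) y‖ ^ 2) := by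
  classical
  set S : Set X := (chartAt E p).symm '' K
  have hS : IsCompact S := hK.image_of_continuousOn ((chartAt E p).continuousOn_symm.mono hKt)
  have hSs : S ⊆ (chartAt E p).source := by
    rintro _ ⟨y, hy, rfl⟩
    exact (chartAt E p).map_target (hKt hy)
  set Z : Fin A.n → Set X := fun i => tsupport (A.φ i) ∩ S
  have hZ : ∀ i, IsCompact (Z i) := fun i => hS.inter_left (isClosed_tsupport _)
  choose C hC hrep using fun i => exists_sobS_rep (A.c i) p (hZ i)
    (inter_subset_left.trans (A.φ_supp i).2) (inter_subset_right.trans hSs) k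
  refine ⟨16 * ∑ i, C i, mul_nonneg (by norm_num) (sum_nonneg fun i _ => hC i),
    fun a ha hskew hsupp => ?_⟩
  have h0 : ∀ y ∈ (chartAt E p).target, y ∉ K → a y = 0 := fun y _ hy => by
    ext i j
    exact image_eq_zero_of_notMem_tsupport (f := fun y => a y i j) fun h => hy (hsupp i j h)
  have hF : IsForm (ext p a) :=
    isForm_ext p hK hKt h0 (fun i j => (ha i j).contDiffOn) fun y _ => hskew y
  refine ⟨hF, fun ε hε => ?_⟩
  have hε0 : 0 ≤ ε := hε.1.le
  set R := ∑ i, ∑ j, ∑ l ∈ range (k + 1),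
    ε ^ l * Real.sqrt (∫ y, ‖iteratedFDeriv ℝ l (fun x => a x i j) y‖ ^ 2)
  have hcomp : ∀ i j, HasCompactSupport fun y => a y i j := fun i j =>
    hK.of_isClosed_subset (isClosed_tsupport _) (hsupp i j)
  rw [hnorm_eq, mul_comm (16 : ℝ), mul_assoc, sum_mul]
  refine sum_le_sum fun i _ => ?_
  have hb : ∀ c d, sobS k ε (cell A i) (fun y => rep (A.c i) (ext p a) y c d) ≤ C i * R := by
    intro c d
    rw [sobS_eq_of_zero (isCompact_cell A i).measurableSet
      (image_mono (inter_subset_left : Z i ⊆ tsupport (A.φ i))) fun y hy hy' => ?_]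
    · refine (hrep i _ hF ε hε c d).trans (mul_le_mul_of_nonneg_left ?_ (hC i))
      refine sum_le_sum fun i' _ => sum_le_sum fun j' _ => ?_
      have hsub : chartAt E p '' Z i ⊆ (chartAt E p).target := by
        rintro _ ⟨z, hz, rfl⟩
        exact (chartAt E p).map_source (hSs hz.2)
      rw [sobS_congr ((hZ i).image_of_continuousOn ((chartAt E p).continuousOn.mono
        (inter_subset_right.trans hSs))).measurableSet (g := fun y => a y i' j') fun y hy => by
          filter_upwards [(chartAt E p).open_target.mem_nhds (hsub hy)] with x hx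
          rw [rep_ext a hx]]
      refine (sobS_le_univ (ha i' j') (hcomp i' j') _ hε0).trans (le_of_eq ?_)
      simp [sobS, setIntegral_univ]
    · obtain ⟨z, hz, rfl⟩ := hy
      have hzs := (A.φ_supp i).2 hz
      have hzS : z ∉ S := fun h => hy' ⟨z, ⟨hz, h⟩, rfl⟩
      have hcont := (chartAt E (A.c i)).continuousAt_symm ((chartAt E (A.c i)).map_source hzs)
      have hev : ∀ᶠ x in 𝓝 (chartAt E (A.c i) z), (chartAt E (A.c i)).symm x ∉ S :=
        hcont.preimage_mem_nhds (hS.isClosed.isOpen_compl.mem_nhds (by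
          rwa [(chartAt E (A.c i)).left_inv hzs]))
      filter_upwards [hev] with x hx
      rw [rep_ext_eq_zero a fun h => ?_, Matrix.zero_apply]
      by_contra hne
      refine hx ⟨_, ?_, (chartAt E p).left_inv h⟩
      by_contra hK'
      exact hne (h0 _ ((chartAt E p).map_source h) hK')
  refine (sum_le_sum fun c _ => sum_le_sum fun d _ => hb c d).trans (le_of_eq ?_)
  simp only [sum_const, Finset.card_univ, Fintype.card_fin, nsmul_eq_mul, Nat.cast_ofNat]
  ring

/-- (N2) A form cut off to one chart, read in it. -/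
theorem exists_chart_le_hnorm [T2Space X] (A : Atlas X) (p : X) {ψ : X → ℝ}
    (hψ : ContMDiff 𝓘(ℝ, E) 𝓘(ℝ) ∞ ψ) (hψc : IsCompact (tsupport ψ))
    (hψs : tsupport ψ ⊆ (chartAt E p).source) (k : ℕ) :
    ∃ C : ℝ, 0 ≤ C ∧ ∀ u : X → M, IsForm u →
      let b : E → M := (chartAt E p).target.indicator (rep p fun z => ψ z • u z)
      (∀ i j, ContDiff ℝ ∞ fun y => b y i j) ∧ (∀ y, (b y)ᵀ = -b y) ∧
      (∀ i j, tsupport (fun y => b y i j) ⊆ chartAt E p '' tsupport ψ) ∧
      ∀ ε ∈ Ioc (0 : ℝ) 1, ∑ i, ∑ j, ∑ l ∈ range (k + 1),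
        ε ^ l * Real.sqrt (∫ y, ‖iteratedFDeriv ℝ l (fun x => b x i j) y‖ ^ 2) ≤
          C * hnorm A k ε u := by
  classical
  set T := (chartAt E p).target
  set K := chartAt E p '' tsupport ψ
  have hT : IsOpen T := (chartAt E p).open_target
  have hK : IsCompact K := hψc.image_of_continuousOn ((chartAt E p).continuousOn.mono hψs)
  have hKT : K ⊆ T := by
    rintro _ ⟨z, hz, rfl⟩
    exact (chartAt E p).map_source (hψs hz)
  set Z : Fin A.n → Set X := fun i => tsupport ψ ∩ tsupport (A.φ i)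
  have hZ : ∀ i, IsCompact (Z i) := fun i => hψc.inter_right (isClosed_tsupport _)
  have hZp : ∀ i, Z i ⊆ (chartAt E p).source := fun i => inter_subset_left.trans hψs
  set g : E → ℝ := fun y => ψ ((chartAt E p).symm y)
  have hg : ContDiffOn ℝ ∞ g T := contDiffOn_read hψ p
  obtain ⟨C₀, hC₀, hmul⟩ := exists_sobS_mul hT hK hKT hg k
  choose C hC hrep using fun i => exists_sobS_rep p (A.c i) (hZ i) (hZp i)
    (inter_subset_right.trans (A.φ_supp i).2) k
  refine ⟨16 * C₀ * ∑ i, C i, mul_nonneg (mul_nonneg (by norm_num) hC₀)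
    (sum_nonneg fun i _ => hC i), fun u hu => ?_⟩
  intro b
  have hbT : ∀ y ∈ T, b y = g y • rep p u y := fun y hy => by
    simp only [b, g]
    rw [indicator_of_mem hy, rep_fun_smul]
  have hb0 : ∀ y ∉ K, b y = 0 := fun y hy => by
    by_cases h : y ∈ T
    · rw [hbT y h]
      have : g y = 0 := image_eq_zero_of_notMem_tsupport (f := ψ) fun hz =>
        hy ⟨_, hz, (chartAt E p).right_inv h⟩
      simp [this]
    · simp only [b]; rw [indicator_of_notMem h]
  have hsupp : ∀ i j, tsupport (fun y => b y i j) ⊆ K := fun i j =>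
    closure_minimal (fun y hy => by_contra fun h => hy (by simp [hb0 y h])) hK.isClosed
  have hbs : ∀ i j, ContDiff ℝ ∞ fun y => b y i j := fun i j => by
    rw [contDiff_iff_contDiffAt]
    intro y
    by_cases hy : y ∈ K
    · have hyT := hKT hy
      refine (((hg.mul (hu.smooth p i j)).contDiffAt (hT.mem_nhds hyT))).congr_of_eventuallyEq ?_
      filter_upwards [hT.mem_nhds hyT] with x hx
      simp [hbT x hx]
    · refine (contDiffAt_const (c := (0 : ℝ))).congr_of_eventuallyEq ?_
      filter_upwards [hK.isClosed.isOpen_compl.mem_nhds hy] with x hx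
      simp [hb0 x hx]
  refine ⟨hbs, fun y => ?_, hsupp, fun ε hε => ?_⟩
  · by_cases hy : y ∈ T
    · rw [hbT y hy, Matrix.transpose_smul, skew_rep hu.skew, smul_neg]
    · simp only [b]; rw [indicator_of_notMem hy]; simp
  have hε0 : 0 ≤ ε := hε.1.le
  have hone : ∀ c d, sobS k ε univ (fun y => b y c d) ≤ C₀ * ∑ i, C i * hnorm A k ε u := by
    intro c d
    rw [sobS_eq_of_zero MeasurableSet.univ (subset_univ K) fun y _ hy => by
      filter_upwards [hK.isClosed.isOpen_compl.mem_nhds hy] with x hx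
      simp [hb0 x hx]]
    rw [sobS_congr hK.measurableSet (g := fun y => g y * rep p u y c d) fun y hy => by
      filter_upwards [hT.mem_nhds (hKT hy)] with x hx
      simp [hbT x hx]]
    refine (hmul _ (hu.smooth p c d) ε hε).trans (mul_le_mul_of_nonneg_left ?_ hC₀)
    refine (sobS_union_le hT hK hKT (L := fun i => chartAt E p '' Z i)
      (fun i => (hZ i).image_of_continuousOn ((chartAt E p).continuousOn.mono (hZp i)))
      (fun i => by rintro _ ⟨z, hz, rfl⟩; exact (chartAt E p).map_source (hZp i hz))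
      ?_ (hu.smooth p c d) hε0).trans ?_
    · rintro _ ⟨z, hz, rfl⟩
      obtain ⟨i, -, hi⟩ := exists_ne_zero_of_sum_ne_zero (by rw [A.sum_φ z]; exact one_ne_zero)
      exact mem_iUnion.2 ⟨i, z, ⟨hz, subset_tsupport _ hi⟩, rfl⟩
    · refine sum_le_sum fun i _ => (hrep i u hu ε hε c d).trans
        (mul_le_mul_of_nonneg_left ?_ (hC i))
      rw [hnorm_eq]
      refine le_trans ?_ (single_le_sum (f := fun i => ∑ a, ∑ b, sobS k ε (cell A i)
        (fun y => rep (A.c i) u y a b)) (fun j _ => sum_nonneg fun a _ => sum_nonneg fun b _ =>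
        sobS_nonneg hε0 _ _) (Finset.mem_univ i))
      exact sum_le_sum fun a _ => sum_le_sum fun b _ => sobS_mono_set
        (chartAt E (A.c i)).open_target (isCompact_cell A i) (cell_subset A i)
        (image_mono inter_subset_right) (hu.smooth _ a b) hε0
  have := sum_le_sum (s := (Finset.univ : Finset (Fin 4))) fun c _ =>
    sum_le_sum (s := (Finset.univ : Finset (Fin 4))) fun d _ => hone c d
  simp only [sobS, setIntegral_univ] at this ⊢
  refine this.trans (le_of_eq ?_)
  simp only [sum_const, Finset.card_univ, Fintype.card_fin, nsmul_eq_mul, Nat.cast_ofNat, ← sum_mul]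
  ring

lemma rep_pantiX (J u : X → M) {p : X} {y : E} (hy : y ∈ (chartAt E p).target) :
    rep p (pantiX J u) y = panti (repEnd p J y) (rep p u y) :=
  (panti_congr (chg_mul_chg (p := (chartAt E p).symm y) (q := p) (mem_chart_source E _)
    ((chartAt E p).map_target hy))).symm

lemma panti_expand (J u : M) (a b : Fin 4) :
    panti J u a b = ∑ c, ∑ d, (1 / 2 * ((if a = c ∧ b = d then 1 else 0) - J c a * J d b)) * u c d := by
  have h1 : ∑ c, ∑ d, (if a = c ∧ b = d then (1 : ℝ) else 0) * u c d = u a b := by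
    simp [ite_and, Finset.sum_ite_eq]
  have h2 : (Jᵀ * u * J) a b = ∑ c, ∑ d, J c a * J d b * u c d := by
    simp only [Matrix.mul_apply, Matrix.transpose_apply, sum_mul]
    rw [sum_comm]
    exact sum_congr rfl fun c _ => sum_congr rfl fun d _ => by ring
  rw [panti, Matrix.smul_apply, Matrix.sub_apply, h2, ← h1, smul_eq_mul, ← sum_sub_distrib,
    mul_sum]
  refine sum_congr rfl fun c _ => ?_
  rw [← sum_sub_distrib, mul_sum]
  exact sum_congr rfl fun d _ => by ring

theorem isForm_pantiX {J u : X → M} (hJ : IsACX J) (hu : IsForm u) : IsForm (pantiX J u) where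
  skew z := by
    simp [pantiX, panti, Matrix.transpose_mul, hu.skew z, Matrix.mul_assoc, sub_eq_add_neg]
    abel
  smooth p a b := by
    refine ContDiffOn.congr (f := fun y => ∑ c, ∑ d,
      (1 / 2 * ((if a = c ∧ b = d then 1 else 0) - repEnd p J y c a * repEnd p J y d b)) *
        rep p u y c d) ?_ fun y hy => by rw [rep_pantiX J u hy, panti_expand]
    exact ContDiffOn.sum fun c _ => ContDiffOn.sum fun d _ => (contDiffOn_const.mul
      (contDiffOn_const.sub ((hJ.smooth p c a).mul (hJ.smooth p d b)))).mul (hu.smooth p c d)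

theorem isForm_pinvX {J u : X → M} (hJ : IsACX J) (hu : IsForm u) : IsForm (pinvX J u) := by
  have e : pinvX J u = u - pantiX J u := by
    funext z
    simp only [pinvX, pantiX, pinv, panti, Pi.sub_apply]
    module
  rw [e]
  exact hu.sub (isForm_pantiX hJ hu)

/-- (N3) The anti-invariant part. -/
theorem exists_hnorm_pantiX (A : Atlas X) {J : X → M} (hJ : IsACX J) (k : ℕ) :
    ∃ C : ℝ, 0 ≤ C ∧ ∀ u : X → M, IsForm u → ∀ ε ∈ Ioc (0 : ℝ) 1,
      hnorm A k ε (pantiX J u) ≤ C * hnorm A k ε u := by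
  classical
  set cf : Fin A.n → Fin 4 → Fin 4 → Fin 4 → Fin 4 → E → ℝ := fun i a b c d y =>
    1 / 2 * ((if a = c ∧ b = d then 1 else 0) -
      repEnd (A.c i) J y c a * repEnd (A.c i) J y d b)
  have hcf : ∀ i a b c d, ContDiffOn ℝ ∞ (cf i a b c d) (chartAt E (A.c i)).target :=
    fun i a b c d => contDiffOn_const.mul
      (contDiffOn_const.sub ((hJ.smooth _ c a).mul (hJ.smooth _ d b)))
  choose C hC hmul using fun i a b c d => exists_sobS_mul (chartAt E (A.c i)).open_target
    (isCompact_cell A i) (cell_subset A i) (hcf i a b c d) k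
  set K₀ := ∑ i, ∑ a, ∑ b, ∑ c, ∑ d, C i a b c d
  have hK₀ : ∀ i a b c d, C i a b c d ≤ K₀ := fun i a b c d =>
    ((((single_le_sum (f := fun d => C i a b c d) (fun _ _ => hC ..) (Finset.mem_univ d)).trans
      (single_le_sum (f := fun c => ∑ d, C i a b c d) (fun _ _ => sum_nonneg fun _ _ => hC ..)
        (Finset.mem_univ c))).trans
      (single_le_sum (f := fun b => ∑ c, ∑ d, C i a b c d)
        (fun _ _ => sum_nonneg fun _ _ => sum_nonneg fun _ _ => hC ..) (Finset.mem_univ b))).trans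
      (single_le_sum (f := fun a => ∑ b, ∑ c, ∑ d, C i a b c d)
        (fun _ _ => sum_nonneg fun _ _ => sum_nonneg fun _ _ => sum_nonneg fun _ _ => hC ..)
        (Finset.mem_univ a))).trans
      (single_le_sum (f := fun i => ∑ a, ∑ b, ∑ c, ∑ d, C i a b c d)
        (fun _ _ => sum_nonneg fun _ _ => sum_nonneg fun _ _ => sum_nonneg fun _ _ =>
          sum_nonneg fun _ _ => hC ..) (Finset.mem_univ i))
  refine ⟨16 * K₀, mul_nonneg (by norm_num) (sum_nonneg fun _ _ => sum_nonneg fun _ _ =>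
    sum_nonneg fun _ _ => sum_nonneg fun _ _ => sum_nonneg fun _ _ => hC ..), fun u hu ε hε => ?_⟩
  rw [hnorm_eq, hnorm_eq, mul_sum]
  refine sum_le_sum fun i _ => ?_
  set S := ∑ c, ∑ d, sobS k ε (cell A i) (fun y => rep (A.c i) u y c d)
  have hV := (chartAt E (A.c i)).open_target
  have hab : ∀ a b, sobS k ε (cell A i) (fun y => rep (A.c i) (pantiX J u) y a b) ≤ K₀ * S := by
    intro a b
    rw [sobS_congr (isCompact_cell A i).measurableSet
      (g := fun y => ∑ c, ∑ d, cf i a b c d y * rep (A.c i) u y c d) fun y hy => by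
        filter_upwards [hV.mem_nhds (cell_subset A i hy)] with x hx
        rw [rep_pantiX J u hx, panti_expand]]
    refine (sobS_sum_le hV (isCompact_cell A i) (cell_subset A i) _ (fun c _ => ContDiffOn.sum
      fun d _ => (hcf i a b c d).mul (hu.smooth _ c d)) hε.1.le).trans ?_
    rw [mul_sum]
    refine sum_le_sum fun c _ => (sobS_sum_le hV (isCompact_cell A i) (cell_subset A i) _
      (fun d _ => (hcf i a b c d).mul (hu.smooth _ c d)) hε.1.le).trans ?_
    rw [mul_sum]
    exact sum_le_sum fun d _ => (hmul i a b c d _ (hu.smooth _ c d) ε hε).trans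
      (mul_le_mul_of_nonneg_right (hK₀ i a b c d) (sobS_nonneg hε.1.le _ _))
  refine (sum_le_sum fun a _ => sum_le_sum fun b _ => hab a b).trans (le_of_eq ?_)
  simp only [sum_const, Finset.card_univ, Fintype.card_fin, nsmul_eq_mul, Nat.cast_ofNat]
  ring

/-- (N4) Change of scale. -/
theorem hnorm_one_le (A : Atlas X) {k k' : ℕ} (hk : k ≤ k') {ε : ℝ} (hε : ε ∈ Ioc (0 : ℝ) 1)
    (u : X → M) : hnorm A k 1 u ≤ (ε ^ k')⁻¹ * hnorm A k' ε u := by
  rw [hnorm_eq, hnorm_eq, mul_sum]
  refine sum_le_sum fun i _ => ?_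
  rw [mul_sum]
  refine sum_le_sum fun a _ => ?_
  rw [mul_sum]
  refine sum_le_sum fun b _ => ?_
  rw [sobS, sobS, mul_sum]
  refine (sum_le_sum_of_subset_of_nonneg (range_subset_range.2 (by omega : k + 1 ≤ k' + 1))
    fun l _ _ => mul_nonneg (pow_nonneg zero_le_one l) (Real.sqrt_nonneg _)).trans
    (sum_le_sum fun l hl => ?_)
  rw [one_pow, ← mul_assoc]
  refine mul_le_mul_of_nonneg_right ?_ (Real.sqrt_nonneg _)
  rw [le_inv_mul_iff₀ (pow_pos hε.1 k'), mul_one]
  exact pow_le_pow_of_le_one hε.1.le hε.2 (Nat.lt_succ_iff.1 (Finset.mem_range.1 hl))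

lemma hnorm_zero_order (A : Atlas X) (ε : ℝ) (u : X → M) : hnorm A 0 ε u = hnorm A 0 1 u := by
  simp [hnorm]

lemma sobS_scale_zero (k : ℕ) (s : Set E) (f : E → ℝ) : sobS k 0 s f = sobS 0 1 s f := by
  rw [sobS, sobS, sum_range_succ']
  simp

theorem tendsto_hnorm (A : Atlas X) (k : ℕ) (u : X → M) :
    Tendsto (fun ε => hnorm A k ε u) (𝓝[>] 0) (𝓝 (hnorm A 0 1 u)) := by
  have hc : Continuous fun ε => hnorm A k ε u := by unfold hnorm; fun_prop
  have h := (hc.tendsto 0).mono_left (nhdsWithin_le_nhds (s := Ioi (0 : ℝ)))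
  rw [hnorm_eq A k 0 u] at h
  simp only [sobS_scale_zero] at h
  exact h

theorem hnorm_add_le (A : Atlas X) (k : ℕ) {ε : ℝ} (hε : 0 ≤ ε) {u v : X → M} (hu : IsForm u)
    (hv : IsForm v) : hnorm A k ε (u + v) ≤ hnorm A k ε u + hnorm A k ε v := by
  simp only [hnorm_eq, ← sum_add_distrib]
  refine sum_le_sum fun i _ => sum_le_sum fun a _ => sum_le_sum fun b _ => ?_
  simp only [rep_add, Matrix.add_apply]
  exact sobS_add_le (chartAt E (A.c i)).open_target (isCompact_cell A i) (cell_subset A i)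
    (hu.smooth _ a b) (hv.smooth _ a b) hε

theorem hnorm_smul (A : Atlas X) (k : ℕ) (ε : ℝ) (r : ℝ) {u : X → M} (hu : IsForm u) :
    hnorm A k ε (r • u) = |r| * hnorm A k ε u := by
  simp only [hnorm_eq, mul_sum]
  refine sum_congr rfl fun i _ => sum_congr rfl fun a _ => sum_congr rfl fun b _ => ?_
  simp only [rep_smul, Matrix.smul_apply, smul_eq_mul]
  exact sobS_const_mul (chartAt E (A.c i)).open_target (isCompact_cell A i) (cell_subset A i)
    (hu.smooth _ a b) r

theorem hnorm_sum_le (A : Atlas X) (k : ℕ) {ε : ℝ} (hε : 0 ≤ ε) {ι : Type*} (s : Finset ι)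
    {u : ι → X → M} (hu : ∀ i ∈ s, IsForm (u i)) :
    hnorm A k ε (∑ i ∈ s, u i) ≤ ∑ i ∈ s, hnorm A k ε (u i) := by
  classical
  induction s using Finset.induction_on with
  | empty => simp [hnorm_eq, rep_zero, sobS_zero]
  | insert a s ha ih =>
    simp only [sum_insert ha]
    refine (hnorm_add_le A k hε (hu a (mem_insert_self a s))
      (isForm_sum s fun i hi => hu i (mem_insert_of_mem hi))).trans ?_
    linarith [ih fun i hi => hu i (mem_insert_of_mem hi)]

end Vale.Agent.P204.Tame.Mfd
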