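import Vale.Agent.P204.Tame.Mfd.GDefs
import Vale.Agent.P204.Tame.Mfd.Norm
import Vale.Agent.P204.Tame.EllipticTools

/-!
The size of the anti-invariant functional is recovered from its low frequency bounds, by
telescoping over mollifications in the charts of a cover.
-/

namespace Vale.Agent.P204.Tame.Mfd

open scoped ContDiff Manifold Matrix Topology
open MeasureTheory Metric Set Filter Finset

variable {X : Type} [TopologicalSpace X] [ChartedSpace E X] [IsManifold 𝓘(ℝ, E) ∞ X]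

/-- Extension by zero from a chart as a linear map. -/
noncomputable def extL (p : X) : (E → M) →ₗ[ℝ] (X → M) where
  toFun := ext p
  map_add' a b := by
    funext z
    simp only [ext, Pi.add_apply]
    split_ifs <;> simp [Matrix.mul_add, Matrix.add_mul]
  map_smul' r a := by
    funext z
    simp only [ext, Pi.smul_apply, RingHom.id_apply]
    split_ifs <;> simp

/-- The anti-invariant part as a linear map. -/
noncomputable def pantiL (J : X → M) : (X → M) →ₗ[ℝ] (X → M) where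
  toFun := pantiX J
  map_add' u v := by
    funext z
    simp only [pantiX, panti, Pi.add_apply, Matrix.mul_add, Matrix.add_mul]
    module
  map_smul' r u := by
    funext z
    simp only [pantiX, panti, Pi.smul_apply, RingHom.id_apply, Matrix.mul_smul, Matrix.smul_mul]
    module

lemma hnorm_mono (A : Atlas X) {k k' : ℕ} (h : k ≤ k') {ε : ℝ} (hε : 0 ≤ ε) (u : X → M) :
    hnorm A k ε u ≤ hnorm A k' ε u := by
  rw [hnorm_eq, hnorm_eq]
  exact sum_le_sum fun i _ => sum_le_sum fun a _ => sum_le_sum fun b _ =>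
    sum_le_sum_of_subset_of_nonneg (range_subset_range.2 (by omega))
      fun l _ _ => mul_nonneg (pow_nonneg hε l) (Real.sqrt_nonneg _)

theorem exists_abs_panti_le (A : Atlas X) {J : X → M} (hJ : IsACX J)
    {Φ : (X → M) →ₗ[ℝ] ℝ} (hΦ : ∃ B : ℝ, ∀ u, IsForm u → |Φ u| ≤ B * hnorm A 4 1 u) :
    ∃ B : ℝ, 0 ≤ B ∧ ∀ u, IsForm u → |Φ (pantiX J u)| ≤ B * hnorm A 4 1 u := by
  obtain ⟨B, hB⟩ := hΦ
  obtain ⟨C, hC0, hC⟩ := exists_hnorm_pantiX A hJ 4
  refine ⟨max B 0 * C, mul_nonneg (le_max_right _ _) hC0, fun u hu => ?_⟩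
  rw [mul_assoc]
  refine (hB _ (isForm_pantiX hJ hu)).trans ((mul_le_mul_of_nonneg_right (le_max_left B 0)
    (hnorm_nonneg A 4 zero_le_one _)).trans ?_)
  exact mul_le_mul_of_nonneg_left (hC u hu 1 ⟨one_pos, le_rfl⟩) (le_max_right _ _)

theorem gPhi_nonneg (A : Atlas X) (J : X → M) (Φ : (X → M) →ₗ[ℝ] ℝ) {ε : ℝ} (hε : 0 ≤ ε) :
    0 ≤ gPhi A J Φ ε :=
  Real.sSup_nonneg (by
    rintro _ ⟨u, -, rfl⟩
    exact div_nonneg (abs_nonneg _) (hnorm_nonneg A 8 hε u))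

lemma exists_abs_panti_le_scale (A : Atlas X) {J : X → M} (hJ : IsACX J)
    {Φ : (X → M) →ₗ[ℝ] ℝ} (hΦ : ∃ B : ℝ, ∀ u, IsForm u → |Φ u| ≤ B * hnorm A 4 1 u) :
    ∃ B : ℝ, 0 ≤ B ∧ ∀ ε ∈ Ioc (0 : ℝ) 1, ∀ u, IsForm u →
      |Φ (pantiX J u)| ≤ B * (ε ^ 4)⁻¹ * hnorm A 8 ε u := by
  obtain ⟨B, hB0, hB⟩ := exists_abs_panti_le A hJ hΦ
  refine ⟨B, hB0, fun ε hε u hu => (hB u hu).trans ?_⟩
  rw [mul_assoc]
  refine mul_le_mul_of_nonneg_left ((hnorm_one_le A le_rfl hε u).trans ?_) hB0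
  exact mul_le_mul_of_nonneg_left (hnorm_mono A (by norm_num) hε.1.le u)
    (inv_nonneg.2 (pow_nonneg hε.1.le 4))

theorem gPhi_le (A : Atlas X) {J : X → M} (hJ : IsACX J) {Φ : (X → M) →ₗ[ℝ] ℝ}
    (hΦ : ∃ B : ℝ, ∀ u, IsForm u → |Φ u| ≤ B * hnorm A 4 1 u) :
    ∃ B : ℝ, ∀ ε ∈ Ioc (0 : ℝ) 1, gPhi A J Φ ε ≤ B * (ε ^ 4)⁻¹ := by
  obtain ⟨B, hB0, hB⟩ := exists_abs_panti_le_scale A hJ hΦ
  refine ⟨B, fun ε hε => Real.sSup_le ?_ (mul_nonneg hB0 (inv_nonneg.2 (pow_nonneg hε.1.le 4)))⟩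
  rintro _ ⟨u, hu, rfl⟩
  exact div_le_of_le_mul₀ (hnorm_nonneg A 8 hε.1.le u)
    (mul_nonneg hB0 (inv_nonneg.2 (pow_nonneg hε.1.le 4))) (hB ε hε u hu)

theorem abs_le_gPhi (A : Atlas X) {J : X → M} (hJ : IsACX J) {Φ : (X → M) →ₗ[ℝ] ℝ}
    (hΦ : ∃ B : ℝ, ∀ u, IsForm u → |Φ u| ≤ B * hnorm A 4 1 u) {u : X → M} (hu : IsForm u)
    {ε : ℝ} (hε : ε ∈ Ioc (0 : ℝ) 1) :
    |Φ (pantiX J u)| ≤ gPhi A J Φ ε * hnorm A 8 ε u := by
  obtain ⟨B, hB0, hB⟩ := exists_abs_panti_le_scale A hJ hΦ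
  have hbdd : BddAbove {r | ∃ v, IsForm v ∧ r = |Φ (pantiX J v)| / hnorm A 8 ε v} := by
    refine ⟨B * (ε ^ 4)⁻¹, ?_⟩
    rintro _ ⟨v, hv, rfl⟩
    exact div_le_of_le_mul₀ (hnorm_nonneg A 8 hε.1.le v)
      (mul_nonneg hB0 (inv_nonneg.2 (pow_nonneg hε.1.le 4))) (hB ε hε v hv)
  rcases (hnorm_nonneg A 8 hε.1.le u).eq_or_lt with h | h
  · have h0 := hB ε hε u hu
    rw [← h, mul_zero] at h0 ⊢
    exact h0
  · exact (div_le_iff₀ h).1 (le_csSup hbdd ⟨u, hu, rfl⟩)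

/-- First index of the complementary pair of a pair of indices. -/
def cplFst : Fin 4 → Fin 4 → Fin 4 := ![![0, 2, 3, 1], ![3, 1, 0, 2], ![1, 3, 2, 0], ![2, 0, 1, 3]]

/-- Second index of the complementary pair of a pair of indices. -/
def cplSnd : Fin 4 → Fin 4 → Fin 4 := ![![0, 3, 1, 2], ![2, 1, 3, 0], ![3, 0, 2, 1], ![1, 2, 0, 3]]

lemma skew_expand {u : M} (hu : uᵀ = -u) :
    u = (1 / 2 : ℝ) • ∑ a, ∑ b, u (cplFst a b) (cplSnd a b) • starF (wedge2 (e a) (e b)) := by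
  rw [eq_skew6 hu]
  ext i j
  fin_cases i <;> fin_cases j <;>
    simp [Fin.sum_univ_four, cplFst, cplSnd, starF, wedge2, skew6, e] <;> ring

lemma convAt_eq_zero {ρ : E → ℝ} (hρ : IsMol ρ) {t : ℝ} (ht : 0 < t) {f : E → ℝ} {y : E}
    (hy : y ∉ cthickening t (tsupport f)) : convAt ρ t f y = 0 := by
  rw [convAt, integral_eq_zero_of_ae (Eventually.of_forall fun v => ?_), mul_zero]
  by_cases hv : ‖v‖ ≤ t
  · have : y + v ∉ tsupport f := fun h => hy (mem_cthickening_of_dist_le y (y + v) t _ h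
      (by simpa [dist_eq_norm] using hv))
    simp [image_eq_zero_of_notMem_tsupport this]
  · have : t⁻¹ • v ∉ tsupport ρ := fun h => by
      have h1 := mem_closedBall_zero_iff.1 (hρ.supp h)
      rw [norm_smul, norm_inv, Real.norm_of_nonneg ht.le, inv_mul_le_iff₀ ht, mul_one] at h1
      exact hv h1
    simp [image_eq_zero_of_notMem_tsupport this]

lemma sqrt_l2_le_sobS (k : ℕ) {ε : ℝ} (hε : 0 ≤ ε) (f : E → ℝ) :
    Real.sqrt (∫ y, f y ^ 2) ≤ sobS k ε univ f := by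
  refine le_trans (le_of_eq ?_) (single_le_sum
    (f := fun l => ε ^ l * Real.sqrt (∫ y in univ, ‖iteratedFDeriv ℝ l f y‖ ^ 2))
    (fun l _ => mul_nonneg (pow_nonneg hε l) (Real.sqrt_nonneg _))
    (Finset.mem_range.2 (Nat.succ_pos k)))
  simp [norm_iteratedFDeriv_zero, sq_abs]

/-- Bound of a product with a fixed cut-off function on the whole space. -/
lemma exists_sobS_cutoff {V : Set E} (hV : IsOpen V) {χ : E → ℝ} (hχ : IsTest V χ) (k : ℕ) :
    ∃ C : ℝ, 0 ≤ C ∧ ∀ f : E → ℝ, IsTest univ f → ∀ ε ∈ Ioc (0 : ℝ) 1,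
      sobS k ε univ (fun y => χ y * f y) ≤ C * sobS k ε univ f := by
  obtain ⟨C, hC0, hC⟩ := exists_sobS_mul hV hχ.compact hχ.supp hχ.smooth.contDiffOn k
  refine ⟨C, hC0, fun f hf ε hε => ?_⟩
  rw [sobS_eq_of_zero MeasurableSet.univ (subset_univ (tsupport χ)) fun y _ hy => by
    filter_upwards [notMem_tsupport_iff_eventuallyEq.1 hy] with x hx
    simp [hx]]
  exact (hC f hf.smooth.contDiffOn ε hε).trans
    (mul_le_mul_of_nonneg_left (sobS_le_univ hf.smooth hf.compact _ hε.1.le) hC0)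

/-- Telescoping in one chart. -/
theorem exists_tel [T2Space X] (hT : MolTelescope) (A : Atlas X) {J : X → M} (hJ : IsACX J)
    {ρ : E → ℝ} (hρ : IsMol ρ) (m : ℕ) (c : X) {O K : Set E} (hO : IsOpen O)
    (hOt : O ⊆ (chartAt E c).target) (hK : IsCompact K) (hKO : K ⊆ O) {t₀ : ℝ} (ht₀ : 0 < t₀) :
    ∃ C : ℝ, 0 ≤ C ∧ ∃ t₁ > 0, t₁ ≤ 1 ∧ ∀ Φ : (X → M) →ₗ[ℝ] ℝ,
      (∃ B : ℝ, ∀ u, IsForm u → |Φ u| ≤ B * hnorm A 4 1 u) →
      ∀ L : ℝ → ℝ, LowBound J Φ ρ c O t₀ L →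
      ∀ ε ∈ Ioc (0 : ℝ) t₁, ∀ f : E → ℝ, IsTest univ f → tsupport f ⊆ K →
      ∀ a b : Fin 4, ∀ S : ℝ,
        (∀ v : ℕ → ℝ, (∀ j, 0 ≤ v j ∧ v j ≤ Real.sqrt (∫ y, f y ^ 2) ∧
          ∀ i, i ≤ m → i ≤ j → v j ≤ C * (ε / 2 ^ j) ^ (2 * i) *
            Real.sqrt (∫ y, ‖iteratedFDeriv ℝ (2 * i) f y‖ ^ 2)) →
          ∀ N, ∑ j ∈ Finset.range N, L (ε / 2 ^ j) * v j ≤ S) →
        |Φ (pantiX J (ext c fun y => f y • starF (wedge2 (e a) (e b))))| ≤ S := by
  obtain ⟨C, hC⟩ := hT ρ hρ m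
  obtain ⟨δ, hδ, hδO⟩ := hK.exists_cthickening_subset_open hO hKO
  have hKδ : IsCompact (cthickening δ K) := hK.cthickening
  obtain ⟨χ, hχ, -, U, -, hKU, -, hχ1⟩ := Tame.exists_cutoff hO hKδ hδO
  obtain ⟨Cχ, hCχ, hχmul⟩ := exists_sobS_cutoff hO hχ 4
  obtain ⟨C₁, hC₁, hN1⟩ := exists_hnorm_ext A c hχ.compact.isCompact (hχ.supp.trans hOt) 4
  refine ⟨Real.sqrt (max C 0), Real.sqrt_nonneg _, min (min t₀ (δ / 4)) 1,
    lt_min (lt_min ht₀ (by linarith)) one_pos, min_le_right _ _, ?_⟩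
  intro Φ hΦ L hL ε hε f hf hfK a b S hS
  obtain ⟨B, hB0, hB⟩ := exists_abs_panti_le A hJ hΦ
  set P := starF (wedge2 (e a) (e b))
  have hε1 : ε ∈ Ioc (0 : ℝ) 1 := ⟨hε.1, hε.2.trans (min_le_right _ _)⟩
  have hεt : ε ≤ t₀ := hε.2.trans ((min_le_left _ _).trans (min_le_left _ _))
  have hεδ : ε ≤ δ / 4 := hε.2.trans ((min_le_left _ _).trans (min_le_right _ _))
  let χP : (E → ℝ) →ₗ[ℝ] (E → M) :=
    { toFun := fun g y => (χ y * g y) • P
      map_add' := fun g h => by funext y; simp [mul_add, add_smul]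
      map_smul' := fun r g => by funext y; simp [smul_smul]; ring_nf }
  let Λ : (E → ℝ) →ₗ[ℝ] ℝ := Φ ∘ₗ pantiL J ∘ₗ extL c ∘ₗ χP
  have hΛ : ∀ g, Λ g = Φ (pantiX J (ext c fun y => (χ y * g y) • P)) := fun g => rfl
  set P₁ := ∑ i, ∑ j, |P i j|
  have hbound : ∀ g, IsTest univ g → |Λ g| ≤ B * C₁ * P₁ * Cχ *
      ∑ l ∈ Finset.range 5, Real.sqrt (∫ y, ‖iteratedFDeriv ℝ l g y‖ ^ 2) := by
    intro g hg
    have hχg : IsTest O fun y => χ y * g y := hχ.mul_smooth hO hg.smooth.contDiffOn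
    obtain ⟨hF, hle⟩ := hN1 (fun y => (χ y * g y) • P)
      (fun i j => by simpa using hχg.smooth.mul contDiff_const)
      (fun y => by simp [P, starF_skew])
      (fun i j => closure_minimal (fun y hy => by
        by_contra h
        exact hy (by simp [image_eq_zero_of_notMem_tsupport h])) hχ.compact.isCompact.isClosed)
    rw [hΛ]
    refine (hB _ hF).trans ((mul_le_mul_of_nonneg_left (hle 1 ⟨one_pos, le_rfl⟩) hB0).trans ?_)
    rw [mul_assoc B C₁, mul_assoc B, mul_assoc B, mul_assoc C₁, mul_assoc C₁]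
    refine mul_le_mul_of_nonneg_left (mul_le_mul_of_nonneg_left ?_ hC₁) hB0
    rw [sum_mul, sum_mul]
    refine sum_le_sum fun i _ => ?_
    rw [sum_mul, sum_mul]
    refine sum_le_sum fun j _ => ?_
    have h1 : sobS 4 1 univ (fun y => P i j * (χ y * g y)) =
        |P i j| * sobS 4 1 univ (fun y => χ y * g y) := by
      rw [sobS_eq_of_zero MeasurableSet.univ (subset_univ (tsupport fun y => χ y * g y))
        fun y _ hy => ?_, sobS_eq_of_zero MeasurableSet.univ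
        (subset_univ (tsupport fun y => χ y * g y)) fun y _ hy => ?_]
      · exact sobS_const_mul isOpen_univ hχg.compact (subset_univ _) hχg.smooth.contDiffOn _
      · exact notMem_tsupport_iff_eventuallyEq.1 hy
      · filter_upwards [notMem_tsupport_iff_eventuallyEq.1 hy] with x hx
        simp [hx]
    refine le_trans (le_of_eq ?_) ((le_of_eq h1).trans ?_)
    · simp [sobS, mul_comm]
    · rw [mul_assoc]
      refine mul_le_mul_of_nonneg_left ((hχmul g hg 1 ⟨one_pos, le_rfl⟩).trans (le_of_eq ?_))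
        (abs_nonneg _)
      simp [sobS]
  obtain ⟨u, hu, htend⟩ := hC Λ K _ hK (fun g hg _ => hbound g hg) f hf hfK ε hε1
  have hχf : (fun y => (χ y * f y) • P) = fun y => f y • P := by
    funext y
    by_cases hy : y ∈ tsupport f
    · rw [hχ1 y (hKU (self_subset_cthickening K (hfK hy))), one_mul]
    · simp [image_eq_zero_of_notMem_tsupport hy]
  set v := fun j => Real.sqrt (∫ y, u j y ^ 2)
  have hv : ∀ j, 0 ≤ v j ∧ v j ≤ Real.sqrt (∫ y, f y ^ 2) ∧
      ∀ i, i ≤ m → i ≤ j → v j ≤ Real.sqrt (max C 0) * (ε / 2 ^ j) ^ (2 * i) *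
        Real.sqrt (∫ y, ‖iteratedFDeriv ℝ (2 * i) f y‖ ^ 2) := by
    refine fun j => ⟨Real.sqrt_nonneg _, Real.sqrt_le_sqrt (hu j).2.2.1, fun i him hij => ?_⟩
    have hpos : 0 ≤ (ε / 2 ^ j) ^ (2 * i) := pow_nonneg (div_nonneg hε.1.le (by positivity)) _
    rw [← Real.sqrt_sq hpos, ← Real.sqrt_mul (le_max_right _ _),
      ← Real.sqrt_mul (mul_nonneg (le_max_right _ _) (sq_nonneg _))]
    refine Real.sqrt_le_sqrt (((hu j).2.2.2 i him hij).trans ?_)
    rw [← pow_mul, show 2 * i * 2 = 4 * i by ring]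
    exact mul_le_mul_of_nonneg_right (mul_le_mul_of_nonneg_right (le_max_left _ _)
      (pow_nonneg (div_nonneg hε.1.le (by positivity)) _))
      (integral_nonneg fun _ => sq_nonneg _)
  have hterm : ∀ j, |Λ (convAt ρ (ε / 2 ^ j) (u j))| ≤ L (ε / 2 ^ j) * v j := by
    intro j
    set t := ε / 2 ^ j
    have ht : 0 < t := div_pos hε.1 (by positivity)
    have htε : t ≤ ε := div_le_self hε.1.le (one_le_pow₀ one_le_two)
    have hsub : cthickening t (tsupport (u j)) ⊆ cthickening δ K :=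
      (cthickening_subset_of_subset _ (hu j).2.1).trans
        ((cthickening_cthickening_subset ht.le (by linarith [hε.1]) K).trans
          (cthickening_mono (by linarith) K))
    have hconv : (fun y => (χ y * convAt ρ t (u j) y) • P) = fun y => convAt ρ t (u j) y • P := by
      funext y
      by_cases hy : y ∈ cthickening t (tsupport (u j))
      · rw [hχ1 y (hKU (hsub hy)), one_mul]
      · simp [convAt_eq_zero hρ ht hy]
    rw [hΛ, hconv]
    refine hL t ⟨ht, htε.trans hεt⟩ (u j) ⟨(hu j).1.smooth, (hu j).1.compact, ?_⟩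
      (hsub.trans hδO) a b
    exact ((self_subset_cthickening _).trans hsub).trans hδO
  have hlim := htend.abs
  rw [hΛ, hχf] at hlim
  refine le_of_tendsto hlim (Eventually.of_forall fun N => ?_)
  exact (abs_sum_le_sum_abs _ _).trans ((sum_le_sum fun j _ => hterm j).trans (hS v hv N))

theorem gTel (hT : MolTelescope) : GTel := by
  intro X _ _ _ _ _ A J ρ hJ hρ k c O t₀ ht₀ hO hcov
  classical
  set U : Fin k → Set X := fun i => (chartAt E (c i)).source ∩ chartAt E (c i) ⁻¹' O i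
  have hU : ∀ i, IsOpen (U i) := fun i => (chartAt E (c i)).isOpen_inter_preimage (hO i).1
  obtain ⟨ψ, hψ⟩ := SmoothPartitionOfUnity.exists_isSubordinate 𝓘(ℝ, E) isClosed_univ U hU
    fun z _ => mem_iUnion.2 (hcov z)
  have hψc : ∀ i, IsCompact (tsupport (ψ i)) := fun i => (isClosed_tsupport _).isCompact
  have hψs : ∀ i, tsupport (ψ i) ⊆ (chartAt E (c i)).source := fun i z hz => (hψ i hz).1
  set K : Fin k → Set E := fun i => chartAt E (c i) '' tsupport (ψ i)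
  have hKO : ∀ i, K i ⊆ O i := by
    rintro i _ ⟨z, hz, rfl⟩
    exact (hψ i hz).2
  have hK : ∀ i, IsCompact (K i) := fun i =>
    (hψc i).image_of_continuousOn ((chartAt E (c i)).continuousOn.mono (hψs i))
  choose C hC0 t htpos ht1 htel using fun i =>
    exists_tel hT A hJ hρ 4 (c i) (hO i).1 (hO i).2 (hK i) (hKO i) ht₀
  choose D hD0 hD using fun i =>
    exists_chart_le_hnorm A (c i) (ψ i).contMDiff (hψc i) (hψs i) 8
  obtain ⟨t₁, ht₁, hsmall⟩ : ∃ t₁ > 0, ∀ ε ∈ Ioc (0 : ℝ) t₁, ε ≤ 1 ∧ ∀ i, ε ≤ t i := by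
    have h : ∀ᶠ ε in 𝓝[>] (0 : ℝ), ε ≤ 1 ∧ ∀ i, ε ≤ t i :=
      Eventually.and (nhdsWithin_le_nhds (Iic_mem_nhds zero_lt_one))
        (eventually_all.2 fun i => nhdsWithin_le_nhds (Iic_mem_nhds (htpos i)))
    obtain ⟨t₁, ht₁, hsub⟩ := mem_nhdsGT_iff_exists_Ioc_subset.1 h
    exact ⟨t₁, ht₁, fun ε hε => hsub hε⟩
  set Q := fun i => max (C i) (2 ^ 32 : ℝ)
  refine ⟨8 * ∑ i, Q i * D i, t₁, ht₁, fun Φ hΦ L hL hLow ε hε S hS => ?_⟩
  obtain ⟨hε1, hεt⟩ := hsmall ε hε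
  have hε0 : 0 ≤ ε := hε.1.le
  have hS0 : 0 ≤ S := by simpa using hS 0
  have hQ0 : ∀ i, 0 ≤ Q i := fun i => le_max_of_le_left (hC0 i)
  have hone : ∀ i (f : E → ℝ), IsTest univ f → tsupport f ⊆ K i → ∀ a b,
      |Φ (pantiX J (ext (c i) fun y => f y • starF (wedge2 (e a) (e b))))| ≤
        Q i * sobS 8 ε univ f * S := by
    intro i f hf hfK a b
    have hf0 : 0 ≤ sobS 8 ε univ f := sobS_nonneg hε0 _ _
    refine htel i Φ hΦ L (hLow i) ε ⟨hε.1, hεt i⟩ f hf hfK a b _ fun v hv N => ?_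
    have hvj : ∀ j, v j ≤ Q i * sobS 8 ε univ f * (2 ^ (8 * j) : ℝ)⁻¹ := by
      intro j
      rw [← div_eq_mul_inv, le_div_iff₀ (by positivity)]
      by_cases hj : 4 ≤ j
      · refine (mul_le_mul_of_nonneg_right ((hv j).2.2 4 le_rfl hj) (by positivity)).trans ?_
        refine le_trans (le_of_eq ?_) (mul_le_mul (le_max_left _ _) (single_le_sum
          (f := fun l => ε ^ l * Real.sqrt (∫ y in univ, ‖iteratedFDeriv ℝ l f y‖ ^ 2))
          (fun l _ => mul_nonneg (pow_nonneg hε0 l) (Real.sqrt_nonneg _))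
          (Finset.mem_range.2 (by norm_num : 8 < 8 + 1)))
          (mul_nonneg (pow_nonneg hε0 _) (Real.sqrt_nonneg _)) (hQ0 i))
        rw [div_pow, ← pow_mul, mul_comm j, setIntegral_univ]
        field_simp
        ring
      · refine mul_comm (Q i) _ ▸ mul_le_mul ((hv j).2.1.trans (sqrt_l2_le_sobS 8 hε0 f)) ?_
          (by positivity) hf0
        exact (pow_le_pow_right₀ one_le_two (by omega : 8 * j ≤ 32)).trans (le_max_right _ _)
    refine (sum_le_sum fun j _ => (mul_le_mul_of_nonneg_left (hvj j) (hL _)).trans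
      (le_of_eq (by ring : L (ε / 2 ^ j) * (Q i * sobS 8 ε univ f * (2 ^ (8 * j) : ℝ)⁻¹) =
        Q i * sobS 8 ε univ f * ((2 ^ (8 * j) : ℝ)⁻¹ * L (ε / 2 ^ j))))).trans ?_
    rw [← mul_sum]
    exact mul_le_mul_of_nonneg_left (hS N) (mul_nonneg (hQ0 i) hf0)
  have hC8 : 0 ≤ 8 * ∑ i, Q i * D i :=
    mul_nonneg (by norm_num) (sum_nonneg fun i _ => mul_nonneg (hQ0 i) (hD0 i))
  refine Real.sSup_le ?_ (mul_nonneg hC8 hS0)
  rintro _ ⟨u, hu, rfl⟩
  refine div_le_of_le_mul₀ (hnorm_nonneg A 8 hε0 u) (mul_nonneg hC8 hS0) ?_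
  set w : Fin k → X → M := fun i z => ψ i z • u z
  have hsum : u = ∑ i, w i := by
    funext z
    simp only [w, Finset.sum_apply, ← Finset.sum_smul]
    rw [← finsum_eq_sum_of_fintype, ψ.sum_eq_one (mem_univ z), one_smul]
  rw [show pantiX J u = pantiL J u from rfl, hsum, map_sum, map_sum, ← hsum]
  refine (abs_sum_le_sum_abs _ _).trans ?_
  rw [mul_sum, sum_mul, sum_mul]
  refine sum_le_sum fun i _ => ?_
  set β : E → M := (chartAt E (c i)).target.indicator (rep (c i) (w i))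
  obtain ⟨hβs, hβskew, hβK, hβle⟩ := hD i u hu
  have hw : w i = extL (c i) β := by
    funext z
    show w i z = ext (c i) β z
    simp only [ext]
    split_ifs with hz
    · simp only [β]
      rw [indicator_of_mem ((chartAt E (c i)).map_source hz), ← eq_rep (w i) hz]
    · simp [w, image_eq_zero_of_notMem_tsupport fun h => hz (hψs i h)]
  set g : Fin 4 → Fin 4 → E → ℝ := fun a b y => β y (cplFst a b) (cplSnd a b)
  have hβ : β = (1 / 2 : ℝ) • ∑ a, ∑ b, fun y => g a b y • starF (wedge2 (e a) (e b)) := by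
    funext y
    simpa only [g, Pi.smul_apply, Finset.sum_apply] using skew_expand (hβskew y)
  rw [hw, hβ]
  simp only [map_smul, map_sum, smul_eq_mul, abs_mul]
  set R := ∑ p, ∑ q, sobS 8 ε univ (fun y => β y p q)
  have hR : R ≤ D i * hnorm A 8 ε u := by
    simpa [R, sobS, setIntegral_univ] using hβle ε ⟨hε.1, hε1⟩
  have hgR : ∀ a b, sobS 8 ε univ (g a b) ≤ R := fun a b =>
    le_trans (single_le_sum (f := fun q => sobS 8 ε univ (fun y => β y (cplFst a b) q))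
      (fun _ _ => sobS_nonneg hε0 _ _) (Finset.mem_univ (cplSnd a b)))
      (single_le_sum (f := fun p => ∑ q, sobS 8 ε univ (fun y => β y p q))
      (fun _ _ => sum_nonneg fun _ _ => sobS_nonneg hε0 _ _) (Finset.mem_univ (cplFst a b)))
  refine (mul_le_mul_of_nonneg_left ((abs_sum_le_sum_abs _ _).trans (sum_le_sum fun a _ =>
    (abs_sum_le_sum_abs _ _).trans (sum_le_sum fun b _ =>
    ((hone i (g a b) ⟨hβs _ _, (hK i).of_isClosed_subset (isClosed_tsupport _) (hβK _ _),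
      subset_univ _⟩ (hβK _ _) a b).trans (mul_le_mul_of_nonneg_right
      (mul_le_mul_of_nonneg_left ((hgR a b).trans hR) (hQ0 i)) hS0)))))
    (abs_nonneg _)).trans (le_of_eq ?_)
  simp only [sum_const, Finset.card_univ, Fintype.card_fin, nsmul_eq_mul, Nat.cast_ofNat]
  norm_num
  ring

theorem sTel (hT : MolTelescope) : STel := by
  intro X _ _ _ _ _ A J ρ hJ hρ c O K t₀ ht₀ hO hOt hKO hK
  obtain ⟨C, hC0, t₁, ht₁, -, htel⟩ := exists_tel hT A hJ hρ 1 c hO hOt hK hKO ht₀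
  refine ⟨max C 1, t₁, ht₁, fun Φ hΦ L hL hLow ε hε f hf hfK a b S hS => ?_⟩
  have hM : 0 ≤ max C 1 := le_max_of_le_left hC0
  refine htel Φ hΦ L hLow ε hε f ⟨hf.smooth, hf.compact, subset_univ _⟩ hfK a b _ fun v hv N => ?_
  refine le_trans (sum_le_sum fun j _ => ?_)
    ((mul_sum _ _ _).symm.le.trans (mul_le_mul_of_nonneg_left (hS N) hM))
  rw [mul_left_comm]
  refine mul_le_mul_of_nonneg_left ?_ (hL _)
  rw [mul_min_of_nonneg _ _ hM]
  have hf0 : v j ≤ max C 1 * Real.sqrt (∫ y, f y ^ 2) :=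
    (hv j).2.1.trans (le_mul_of_one_le_left (Real.sqrt_nonneg _) (le_max_right _ _))
  refine le_min hf0 ?_
  split_ifs with hj
  · exact hf0
  · refine ((hv j).2.2 1 le_rfl (Nat.one_le_iff_ne_zero.2 hj)).trans ?_
    rw [mul_assoc]
    exact mul_le_mul_of_nonneg_right (le_max_left _ _)
      (mul_nonneg (sq_nonneg _) (Real.sqrt_nonneg _))

end Vale.Agent.P204.Tame.Mfd
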