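import Vale.Agent.P204.Tame.Mfd.Compact

/-!
P204, manifold layer: finite atlases, an atlas with a single plateau near a given point, and the
existence of a Hermitian form.
-/

namespace Vale.Agent.P204.Tame

open scoped Matrix

section Point

variable {J : M}

lemma hmat_pos_def (J : M) : (hmat J).PosDef := by
  refine Matrix.PosDef.one.add_posSemidef ?_
  have := Matrix.posSemidef_self_mul_conjTranspose J
  simpa using this

lemma isUnit_hmat_det (J : M) : IsUnit (hmat J).det :=
  isUnit_iff_ne_zero.2 (hmat_pos_def J).det_pos.ne'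

lemma gmat_transpose (J : M) : (gmat J)ᵀ = gmat J := by
  rw [gmat, Matrix.transpose_nonsing_inv, hmat, Matrix.transpose_add, Matrix.transpose_one,
    Matrix.transpose_mul, Matrix.transpose_transpose]

lemma gmat_mul (hJ : J * J = -1) : gmat J * J = -(Jᵀ * gmat J) := by
  have hT : Jᵀ * Jᵀ = -1 := by rw [← Matrix.transpose_mul, hJ]; simp
  have h : J * hmat J = -(hmat J * Jᵀ) := by
    rw [hmat, Matrix.mul_add, Matrix.add_mul, ← Matrix.mul_assoc, hJ, Matrix.mul_assoc J Jᵀ, hT]
    simp
  have hu := isUnit_hmat_det J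
  calc gmat J * J = gmat J * (J * hmat J) * gmat J := by
        rw [gmat, Matrix.mul_assoc, Matrix.mul_assoc J, Matrix.mul_nonsing_inv _ hu,
          Matrix.mul_one]
    _ = -(Jᵀ * gmat J) := by
        rw [h, Matrix.mul_neg, Matrix.neg_mul, gmat, ← Matrix.mul_assoc,
          Matrix.nonsing_inv_mul _ hu, Matrix.one_mul]

lemma skew_wmat (hJ : J * J = -1) : (wmat J)ᵀ = -wmat J := by
  rw [wmat, Matrix.transpose_mul, Matrix.transpose_transpose, gmat_transpose, gmat_mul hJ]

lemma inv_wmat (hJ : J * J = -1) : Jᵀ * wmat J * J = wmat J := by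
  have hT : Jᵀ * Jᵀ = -1 := by rw [← Matrix.transpose_mul, hJ]; simp
  rw [wmat, Matrix.mul_assoc, Matrix.mul_assoc Jᵀ (gmat J), gmat_mul hJ, Matrix.mul_neg,
    Matrix.mul_neg, ← Matrix.mul_assoc Jᵀ Jᵀ, hT]
  simp

lemma tames_wmat (hJ : J * J = -1) {v : E} (hv : v ≠ 0) : 0 < val (wmat J) v (J *ᵥ v) := by
  have hne : J *ᵥ v ≠ 0 := fun h => hv (by
    have := congrArg (fun x => -(J *ᵥ x)) h
    simpa [Matrix.mulVec_mulVec, hJ, Matrix.neg_mulVec] using this)
  have h := (hmat_pos_def J).inv.dotProduct_mulVec_pos hne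
  rw [val, wmat, ← Matrix.mulVec_mulVec, Matrix.dotProduct_mulVec v Jᵀ, Matrix.vecMul_transpose]
  simpa [gmat] using h

end Point

namespace Mfd

open scoped ContDiff Manifold Topology
open Set

lemma contDiffOn_wmat {V : Set E} {K : E → M} (h : ∀ a b, ContDiffOn ℝ ∞ (fun y => K y a b) V)
    (a b : Fin 4) : ContDiffOn ℝ ∞ (fun y => wmat (K y) a b) V := by
  have hH : ∀ i j, ContDiffOn ℝ ∞ (fun y => hmat (K y) i j) V := fun i j => by
    simp only [hmat, Matrix.add_apply, Matrix.mul_apply, Matrix.transpose_apply]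
    fun_prop
  have hdet : ∀ (B : E → M), (∀ i j, ContDiffOn ℝ ∞ (fun y => B y i j) V) →
      ContDiffOn ℝ ∞ (fun y => (B y).det) V := fun B hB => by
    simp only [Matrix.det_apply]
    refine ContDiffOn.sum fun σ _ => ?_
    simp only [Units.smul_def, zsmul_eq_mul]
    exact contDiffOn_const.mul (contDiffOn_prod fun i _ => hB _ _)
  have hg : ∀ i j, ContDiffOn ℝ ∞ (fun y => gmat (K y) i j) V := fun i j => by
    simp only [gmat, Matrix.inv_def, Matrix.smul_apply, smul_eq_mul, Matrix.adjugate_apply,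
      Ring.inverse_eq_inv']
    refine ((hdet _ hH).inv fun y _ => (hmat_pos_def (K y)).det_pos.ne').mul (hdet _ fun k l => ?_)
    rcases eq_or_ne k j with rfl | hk
    · simp only [Matrix.updateRow_self]
      exact contDiffOn_const
    · simp only [Matrix.updateRow_ne hk]
      exact hH k l
  simp only [wmat, Matrix.mul_apply, Matrix.transpose_apply]
  fun_prop

variable {X : Type*} [TopologicalSpace X] [ChartedSpace E X] [IsManifold 𝓘(ℝ, E) ∞ X]
  [T2Space X] [CompactSpace X]

lemma exists_cutoff {K O : Set X} (hK : IsCompact K) (hO : IsOpen O) (hKO : K ⊆ O) :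
    ∃ f : X → ℝ, ContMDiff 𝓘(ℝ, E) 𝓘(ℝ) ∞ f ∧ IsCompact (tsupport f) ∧ tsupport f ⊆ O ∧
      ∀ x ∈ K, f x = 1 := by
  have : LocallyCompactSpace X := ChartedSpace.locallyCompactSpace E X
  obtain ⟨L, hLc, hKL, hLO⟩ := exists_compact_between hK hO hKO
  obtain ⟨f, hf1, hf0, -⟩ := exists_contMDiffMap_one_nhds_of_subset_interior 𝓘(ℝ, E)
    hK.isClosed hKL (n := (⊤ : ℕ∞))
  have hs : tsupport f ⊆ L :=
    closure_minimal (fun x hx => by_contra fun h => hx (hf0 x h)) hLc.isClosed
  exact ⟨f, f.contMDiff, hLc.of_isClosed_subset (isClosed_tsupport _) hs, hs.trans hLO,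
    fun x hx => hf1.self_of_nhdsSet x hx⟩

/-- An atlas with one plateau function equal to one and the others zero near `z₀`. -/
theorem exists_atlas_at (z₀ : X) :
    ∃ (A : Atlas X) (i₀ : Fin A.n) (B : Set X), IsOpen B ∧ z₀ ∈ B ∧
      B ⊆ (chartAt E (A.c i₀)).source ∧ A.c i₀ = z₀ ∧
      (∀ z ∈ B, A.ζ i₀ z = 1) ∧ ∀ j, j ≠ i₀ → ∀ z ∈ B, A.ζ j z = 0 := by
  classical
  have : LocallyCompactSpace X := ChartedSpace.locallyCompactSpace E X
  obtain ⟨L, hLc, hzL, hLO⟩ := exists_compact_between (isCompact_singleton (x := z₀))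
    (chartAt E z₀).open_source (by simp)
  obtain ⟨L', hL'c, hzL', hL'L⟩ := exists_compact_between (isCompact_singleton (x := z₀))
    isOpen_interior hzL
  have hV : ∀ z : X, ∃ N, IsCompact N ∧ (z ∉ interior L → z ∈ interior N) ∧
      N ⊆ (chartAt E z).source \ L' := by
    intro z
    by_cases hz : z ∈ interior L
    · exact ⟨∅, isCompact_empty, fun h => absurd hz h, empty_subset _⟩
    · obtain ⟨N, hNc, hzN, hN⟩ := exists_compact_between (isCompact_singleton (x := z))
        ((chartAt E z).open_source.sdiff hL'c.isClosed)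
        (singleton_subset_iff.2 ⟨mem_chart_source E z, fun h => hz (hL'L h)⟩)
      exact ⟨N, hNc, fun _ => hzN rfl, hN⟩
  choose N hNc hzN hN using hV
  obtain ⟨t, ht⟩ := (isOpen_interior (s := L)).isClosed_compl.isCompact.elim_finite_subcover
    (fun z => interior (N z)) (fun _ => isOpen_interior)
    fun z hz => mem_iUnion.2 ⟨z, hzN z hz⟩
  set m := t.card
  set e' : Fin m ≃ t := t.equivFin.symm
  let c : Fin (m + 1) → X := Fin.cons z₀ fun k => (e' k : X)
  let K : Fin (m + 1) → Set X := Fin.cons L fun k => N (e' k)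
  have hKc : ∀ i, IsCompact (K i) := Fin.cases hLc fun k => hNc _
  have hKs : ∀ i, K i ⊆ (chartAt E (c i)).source :=
    Fin.cases (by simpa [K, c] using hLO) fun k => by
      simpa [K, c] using (hN _).trans sdiff_subset
  have hcov : univ ⊆ ⋃ i, interior (K i) := by
    intro z _
    by_cases hz : z ∈ interior L
    · exact mem_iUnion.2 ⟨0, by simpa [K] using hz⟩
    · obtain ⟨x, hxt, hx⟩ := mem_iUnion₂.1 (ht hz)
      exact mem_iUnion.2 ⟨(e'.symm ⟨x, hxt⟩).succ, by simpa [K] using hx⟩
  obtain ⟨φ, hφ⟩ := SmoothPartitionOfUnity.exists_isSubordinate 𝓘(ℝ, E) isClosed_univ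
    (fun i => interior (K i)) (fun _ => isOpen_interior) hcov
  have hcut : ∀ i, ∃ f : X → ℝ, ContMDiff 𝓘(ℝ, E) 𝓘(ℝ) ∞ f ∧ IsCompact (tsupport f) ∧
      tsupport f ⊆ (chartAt E (c i)).source ∧ (i ≠ 0 → tsupport f ⊆ L'ᶜ) ∧
      ∀ x ∈ K i, f x = 1 := by
    refine Fin.cases ?_ (fun k => ?_)
    · obtain ⟨f, h1, h2, h3, h4⟩ := exists_cutoff (hKc 0) (chartAt E (c 0)).open_source (hKs 0)
      exact ⟨f, h1, h2, h3, fun h => absurd rfl h, h4⟩
    · obtain ⟨f, h1, h2, h3, h4⟩ := exists_cutoff (hKc k.succ)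
        ((chartAt E (c k.succ)).open_source.sdiff hL'c.isClosed)
        (by simpa [K, c] using hN (e' k))
      exact ⟨f, h1, h2, h3.trans sdiff_subset, fun _ => h3.trans fun x hx => hx.2, h4⟩
  choose ζ hζ1 hζ2 hζ3 hζ4 hζ5 using hcut
  refine ⟨{ n := m + 1, c := c, φ := fun i => φ i, ζ := ζ,
            φ_smooth := fun i => (φ i).contMDiff, ζ_smooth := hζ1,
            φ_nonneg := fun i z => φ.nonneg i z,
            sum_φ := fun z => ?_, φ_supp := fun i => ?_,
            ζ_supp := fun i => ⟨hζ2 i, hζ3 i⟩,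
            ζ_one := fun i z hz => hζ5 i z (interior_subset (hφ i hz)) },
    (⟨0, Nat.succ_pos m⟩ : Fin (m + 1)), interior L', isOpen_interior, hzL' rfl, ?_, rfl, ?_, ?_⟩
  · rw [← finsum_eq_sum_of_fintype]
    exact φ.sum_eq_one (mem_univ z)
  · exact ⟨(hKc i).of_isClosed_subset (isClosed_tsupport _) ((hφ i).trans interior_subset),
      ((hφ i).trans interior_subset).trans (hKs i)⟩
  · exact fun z hz => hLO (interior_subset (hL'L (interior_subset hz)))
  · exact fun z hz => hζ5 0 z (by simpa [K] using interior_subset (hL'L (interior_subset hz)))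
  · exact fun j hj z hz => image_eq_zero_of_notMem_tsupport fun h => hζ4 j hj h
      (interior_subset hz)

theorem nonempty_atlas : Nonempty (Atlas X) := by
  rcases isEmpty_or_nonempty X with hX | ⟨⟨z⟩⟩
  · exact ⟨{ n := 0, c := Fin.elim0, φ := Fin.elim0, ζ := Fin.elim0,
             φ_smooth := fun i => i.elim0, ζ_smooth := fun i => i.elim0,
             φ_nonneg := fun i => i.elim0, sum_φ := fun z => isEmptyElim z,
             φ_supp := fun i => i.elim0, ζ_supp := fun i => i.elim0,
             ζ_one := fun i => i.elim0 }⟩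
  · exact ⟨(exists_atlas_at z).choose⟩

/-- Every almost complex structure has a Hermitian form. -/
theorem exists_isHerm {J : X → M} (hJ : IsACX J) : ∃ w, IsHerm J w := by
  obtain ⟨A⟩ := nonempty_atlas (X := X)
  set a : Fin A.n → E → M := fun i y =>
    A.φ i ((chartAt E (A.c i)).symm y) • wmat (repEnd (A.c i) J y)
  have hs : ∀ i, ∀ y ∈ (chartAt E (A.c i)).target, (a i y)ᵀ = -a i y := fun i y hy => by
    simp [a, skew_wmat (repEnd_sq hJ.sq hy)]
  refine ⟨∑ i, ext (A.c i) (a i), isForm_sum _ fun i _ => ?_, fun z => ?_, fun z v hv => ?_⟩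
  · refine isForm_ext (A.c i) ((A.φ_supp i).1.image_of_continuousOn
      ((chartAt E (A.c i)).continuousOn.mono (A.φ_supp i).2)) ?_ (fun y hy hK => ?_)
      (fun k l => (contDiffOn_read (A.φ_smooth i) _).mul (contDiffOn_wmat (hJ.smooth _) k l))
      (hs i)
    · rintro _ ⟨z, hz, rfl⟩
      exact (chartAt E (A.c i)).map_source ((A.φ_supp i).2 hz)
    · have : A.φ i ((chartAt E (A.c i)).symm y) = 0 :=
        image_eq_zero_of_notMem_tsupport fun h => hK ⟨_, h, (chartAt E (A.c i)).right_inv hy⟩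
      simp [a, this]
  · simp only [Finset.sum_apply, Matrix.mul_sum, Matrix.sum_mul]
    refine Finset.sum_congr rfl fun i _ => ?_
    simp only [ext]
    split_ifs with hz
    · rw [eq_repEnd J hz, congr_inv (chg_mul_chg hz (mem_chart_source E z))]
      simp [a, inv_wmat (repEnd_sq hJ.sq ((chartAt E (A.c i)).map_source hz))]
    · simp
  · have hval : val ((∑ i, ext (A.c i) (a i)) z) v (J z *ᵥ v) =
        ∑ i, val (ext (A.c i) (a i) z) v (J z *ᵥ v) := by
      simp only [val, Finset.sum_apply, Matrix.sum_mulVec, dotProduct_sum]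
    rw [hval]
    have hterm : ∀ i, 0 ≤ val (ext (A.c i) (a i) z) v (J z *ᵥ v) ∧
        (A.φ i z ≠ 0 → 0 < val (ext (A.c i) (a i) z) v (J z *ᵥ v)) := by
      intro i
      by_cases hz : z ∈ (chartAt E (A.c i)).source
      · have hy := (chartAt E (A.c i)).map_source hz
        have hPQ := chg_mul_chg hz (mem_chart_source E z)
        have hQP := chg_mul_chg (mem_chart_source E z) hz
        simp only [ext, if_pos hz]
        rw [eq_repEnd J hz, val_congr_end hPQ]
        set x := chg z (A.c i) z *ᵥ v with hx'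
        have hx : x ≠ 0 := fun h => hv (by
          have := congrArg (fun u => chg (A.c i) z z *ᵥ u) (hx' ▸ h)
          simpa [Matrix.mulVec_mulVec, hQP] using this)
        simp only [a, val, Matrix.smul_mulVec, dotProduct_smul, smul_eq_mul,
          (chartAt E (A.c i)).left_inv hz]
        have hp := tames_wmat (repEnd_sq hJ.sq hy) hx
        exact ⟨mul_nonneg (A.φ_nonneg i z) hp.le,
          fun h => mul_pos ((A.φ_nonneg i z).lt_of_ne' h) hp⟩
      · have h0 : A.φ i z = 0 := image_eq_zero_of_notMem_tsupport fun h => hz ((A.φ_supp i).2 h)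
        simp [ext, hz, val, h0]
    obtain ⟨i, hi⟩ : ∃ i, A.φ i z ≠ 0 := by
      by_contra h
      push Not at h
      simpa [h] using A.sum_φ z
    exact Finset.sum_pos' (fun j _ => (hterm j).1) ⟨i, Finset.mem_univ i, (hterm i).2 hi⟩

end Mfd

end Vale.Agent.P204.Tame
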