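import Vale.Agent.P204.Tame.Mfd.Compact

/-!
P204: a positive functional on continuous invariant forms is the pairing with a measure and a
measurable field of semipositive forms of unit trace.
-/

namespace Vale.Agent.P204.Tame.Mfd

open scoped ContDiff Manifold Matrix Topology ENNReal
open MeasureTheory Set

section Scalar

variable {Y : Type*} [TopologicalSpace Y] [T2Space Y] [CompactSpace Y] [MeasurableSpace Y] [BorelSpace Y]
  {μ : Measure Y} [IsFiniteMeasure μ] [μ.WeaklyRegular]

/-- A functional bounded by the integral of the absolute value has a square integrable density. -/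
lemma exists_density (Λ : C(Y, ℝ) →ₗ[ℝ] ℝ) (C : ℝ)
    (h : ∀ f : C(Y, ℝ), |Λ f| ≤ C * ∫ y, |f y| ∂μ) :
    ∃ g : Y → ℝ, Measurable g ∧ MemLp g 2 μ ∧ ∀ f : C(Y, ℝ), Λ f = ∫ y, f y * g y ∂μ := by
  set T : C(Y, ℝ) →L[ℝ] Lp ℝ 2 μ := ContinuousMap.toLp (E := ℝ) 2 μ ℝ
  have hd : DenseRange T := ContinuousMap.toLp_denseRange ℝ μ ℝ (by norm_num)
  set one : Lp ℝ 2 μ := T (ContinuousMap.const Y 1)
  have hb : ∀ f : C(Y, ℝ), ‖Λ f‖ ≤ |C| * ‖one‖ * ‖T f‖ := by
    intro f
    refine (h f).trans ((mul_le_mul_of_nonneg_right (le_abs_self C)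
      (integral_nonneg fun y => abs_nonneg (f y))).trans ?_)
    rw [mul_assoc]
    refine mul_le_mul_of_nonneg_left ?_ (abs_nonneg C)
    set a : C(Y, ℝ) := ⟨fun y => |f y|, by fun_prop⟩
    have hna : ‖T a‖ ≤ ‖T f‖ := by
      refine Lp.norm_le_norm_of_ae_le ?_
      filter_upwards [ContinuousMap.coeFn_toLp (E := ℝ) (p := 2) (𝕜 := ℝ) μ a,
        ContinuousMap.coeFn_toLp (E := ℝ) (p := 2) (𝕜 := ℝ) μ f] with y h1 h2
      rw [h1, h2]
      simp [a]
    have hi : ∫ y, |f y| ∂μ = inner ℝ one (T a) := by
      rw [ContinuousMap.inner_toLp]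
      simp [a]
    rw [hi]
    exact (le_abs_self _).trans ((abs_real_inner_le_norm _ _).trans
      (mul_le_mul_of_nonneg_left hna (norm_nonneg _)))
  set Φ := Λ.extendOfNorm T.toLinearMap
  set g₀ : Lp ℝ 2 μ := (InnerProductSpace.toDual ℝ (Lp ℝ 2 μ)).symm Φ
  refine ⟨g₀, (Lp.stronglyMeasurable g₀).measurable, Lp.memLp g₀, fun f => ?_⟩
  have h1 : Φ (T f) = Λ f := LinearMap.extendOfNorm_eq hd ⟨_, hb⟩ f
  rw [← h1, ← InnerProductSpace.toDual_symm_apply (y := Φ), MeasureTheory.L2.inner_def]
  refine integral_congr_ae ?_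
  filter_upwards [ContinuousMap.coeFn_toLp (E := ℝ) (p := 2) (𝕜 := ℝ) μ f] with y hy
  rw [hy]
  simp [g₀]

/-- A square integrable function with nonnegative integral against nonnegative continuous
functions is nonnegative almost everywhere. -/
lemma ae_nonneg_of_test {q : Y → ℝ} (hq : MemLp q 2 μ)
    (h : ∀ f : C(Y, ℝ), (∀ y, 0 ≤ f y) → 0 ≤ ∫ y, f y * q y ∂μ) : ∀ᵐ y ∂μ, 0 ≤ q y := by
  set T : C(Y, ℝ) →L[ℝ] Lp ℝ 2 μ := ContinuousMap.toLp (E := ℝ) 2 μ ℝ
  have hd : DenseRange T := ContinuousMap.toLp_denseRange ℝ μ ℝ (by norm_num)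
  have hcalc : ∀ (v : Lp ℝ 2 μ), inner ℝ (hq.toLp q) (Lp.posPart v) =
      ∫ y, max (v y) 0 * q y ∂μ := by
    intro v
    rw [MeasureTheory.L2.inner_def]
    refine integral_congr_ae ?_
    filter_upwards [hq.coeFn_toLp, Lp.coeFn_posPart v] with y h1 h2
    rw [h1, h2]
    simp
  have hall : ∀ v : Lp ℝ 2 μ, 0 ≤ inner ℝ (hq.toLp q) (Lp.posPart v) := by
    intro v
    refine hd.induction_on (p := fun v => 0 ≤ inner ℝ (hq.toLp q) (Lp.posPart v)) v
      (isClosed_le continuous_const (continuous_const.inner Lp.continuous_posPart)) fun f => ?_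
    rw [hcalc]
    refine (h ⟨fun y => max (f y) 0, by fun_prop⟩ fun y => le_max_right _ _).trans_eq ?_
    refine integral_congr_ae ?_
    filter_upwards [ContinuousMap.coeFn_toLp (E := ℝ) (p := 2) (𝕜 := ℝ) μ f] with y hy
    rw [hy]
    simp
  refine ae_nonneg_of_forall_setIntegral_nonneg (hq.integrable one_le_two) fun s hs _ => ?_
  have hind : MemLp (s.indicator fun _ : Y => (1 : ℝ)) 2 μ :=
    memLp_indicator_const 2 hs 1 (Or.inr (measure_ne_top μ s))
  have h' := hall (hind.toLp _)
  rw [hcalc] at h'
  refine h'.trans_eq ?_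
  rw [← integral_indicator hs]
  refine integral_congr_ae ?_
  filter_upwards [hind.coeFn_toLp] with y hy
  rw [hy]
  by_cases hy' : y ∈ s <;> simp [hy']

lemma ae_eq_zero_of_test {q : Y → ℝ} (hq : MemLp q 2 μ)
    (h : ∀ f : C(Y, ℝ), ∫ y, f y * q y ∂μ = 0) : ∀ᵐ y ∂μ, q y = 0 := by
  filter_upwards [ae_nonneg_of_test hq fun f _ => (h f).ge,
    ae_nonneg_of_test hq.neg fun f _ => by simp [integral_neg, h f]] with y h1 h2
  simp only [Pi.neg_apply] at h2
  linarith

end Scalar

variable {X : Type*} [TopologicalSpace X] [ChartedSpace E X]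

lemma measurable_indicator_of_continuousOn {F : Type*} [TopologicalSpace F] [Zero F]
    [MeasurableSpace F] [BorelSpace F] {s : Set E} {f : E → F} (hs : IsOpen s)
    (hf : ContinuousOn f s) : Measurable (s.indicator f) := by
  classical
  rw [← Set.piecewise_eq_indicator]
  exact hf.measurable_piecewise continuousOn_const hs.measurableSet

omit [ChartedSpace E X] in
lemma continuous_cut {φ h : X → ℝ} {s : Set X} (hs : IsOpen s) (hφ : Continuous φ)
    (hsupp : tsupport φ ⊆ s) (hh : ContinuousOn h s) : Continuous fun z => φ z * h z := by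
  rw [continuous_iff_continuousAt]
  intro z
  by_cases hz : z ∈ s
  · exact hφ.continuousAt.mul (hh.continuousAt (hs.mem_nhds hz))
  · refine (continuousAt_const (y := (0 : ℝ))).congr ?_
    filter_upwards [notMem_tsupport_iff_eventuallyEq.1 fun h' => hz (hsupp h')] with x hx
    simp [hx]

lemma measurable_symm_read [MeasurableSpace X] [BorelSpace X] {g : X → ℝ} (hg : Measurable g)
    (p : X) : Measurable ((chartAt E p).target.indicator fun y => g ((chartAt E p).symm y)) := by
  classical
  have hm : Measurable ((chartAt E p).target.piecewise (chartAt E p).symm fun _ => p) :=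
    (chartAt E p).continuousOn_symm.measurable_piecewise continuousOn_const
      (chartAt E p).open_target.measurableSet
  have : ((chartAt E p).target.indicator fun y => g ((chartAt E p).symm y)) =
      (chartAt E p).target.indicator (g ∘ (chartAt E p).target.piecewise (chartAt E p).symm
        fun _ => p) :=
    indicator_congr fun y hy => by simp [hy]
  rw [this]
  exact (hg.comp hm).indicator (chartAt E p).open_target.measurableSet

variable [IsManifold 𝓘(ℝ, E) ∞ X]

/-- A measurable chart field gives a measurable reading in every chart. -/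
lemma measurable_rep_ext (p q : X) {a : E → M} (ha : ∀ i j, Measurable fun y => a y i j)
    (i j : Fin 4) :
    Measurable ((chartAt E p).target.indicator fun y => rep p (ext q a) y i j) := by
  classical
  set c : Fin 4 → Fin 4 → E → ℝ := fun k l =>
    (trnDom p q).indicator fun y => chg p q ((chartAt E p).symm y) k l
  have hc : ∀ k l, Measurable (c k l) := fun k l =>
    measurable_indicator_of_continuousOn (isOpen_trnDom p q) (contDiffOn_chg p q k l).continuousOn
  have ht : Measurable ((trnDom p q).indicator (trn p q)) :=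
    measurable_indicator_of_continuousOn (isOpen_trnDom p q) (contDiffOn_trn p q).continuousOn
  have key : ((chartAt E p).target.indicator fun y => rep p (ext q a) y i j) =
      fun y => ∑ k, (∑ l, c l i y * a ((trnDom p q).indicator (trn p q) y) l k) * c k j y := by
    funext y
    by_cases hy : y ∈ trnDom p q
    · rw [indicator_of_mem hy.1, rep_ext_trn a hy]
      simp [c, hy, Matrix.mul_apply]
    · simp only [c, indicator_of_notMem hy, zero_mul, Finset.sum_const_zero]
      by_cases hy' : y ∈ (chartAt E p).target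
      · rw [indicator_of_mem hy', rep_ext_eq_zero a fun h => absurd ⟨hy', h⟩ hy]
        rfl
      · rw [indicator_of_notMem hy']
  rw [key]
  exact Finset.measurable_sum _ fun k _ => (Finset.measurable_sum _ fun l _ =>
    (hc l i).mul ((ha l k).comp ht)).mul (hc k j)

/-- The skew part of an elementary matrix. -/
noncomputable def skS (a b : Fin 4) : M :=
  (1 / 2 : ℝ) • (Matrix.single a b (1 : ℝ) - Matrix.single b a 1)

lemma skew_skS (a b : Fin 4) : (skS a b)ᵀ = -skS a b := by
  rw [skS, Matrix.transpose_smul, Matrix.transpose_sub, Matrix.transpose_single,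
    Matrix.transpose_single, ← smul_neg, neg_sub]

lemma sum_skS {u : M} (hu : uᵀ = -u) : ∑ a, ∑ b, u a b • skS a b = u := by
  ext i j
  simp [skS, Matrix.sum_apply, Matrix.single_apply, ite_and, mul_sub, Finset.sum_sub_distrib,
    Finset.sum_ite_eq', skew_apply hu i j]
  ring

/-- A positive functional on continuous invariant forms is integration of the pairing with a
field of semipositive forms. -/
theorem exists_field [T2Space X] [CompactSpace X] [MeasurableSpace X] [BorelSpace X] (A : Atlas X)
    {J w : X → M} (hJ : IsACX J) (hw : IsHerm J w) (L : contInv J →ₗ[ℝ] ℝ)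
    (hL : ∀ u : contInv J, (∀ z, Psd (J z) (u.1 z)) → 0 ≤ L u) :
    ∃ (μ : Measure X) (Θ : X → M), IsFiniteMeasure μ ∧
      (∀ p i j, Measurable ((chartAt E p).target.indicator fun y => rep p Θ y i j)) ∧
      (∀ᵐ z ∂μ, Psd (J z) (Θ z)) ∧ (∀ᵐ z ∂μ, pr (w z) (Θ z) (w z) = 1) ∧
      ∀ u : contInv J, Integrable (fun z => pr (w z) (Θ z) (u.1 z)) μ ∧
        L u = ∫ z, pr (w z) (Θ z) (u.1 z) ∂μ := by
  classical
  -- the trace measure
  set ev : C(X, ℝ) → contInv J → contInv J := fun f u =>
    ⟨fun z => f z • u.1 z, fun_smul_mem_contInv f.continuous u.2⟩ with hev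
  set wI : contInv J := ⟨w, hw.mem_contInv⟩
  let lin : contInv J → C(X, ℝ) →ₗ[ℝ] ℝ := fun u =>
    { toFun := fun f => L (ev f u)
      map_add' := fun f g => by
        rw [← L.map_add]
        congr 1
        ext z : 2
        simp [ev, add_smul]
      map_smul' := fun r f => by
        rw [RingHom.id_apply, ← L.map_smul]
        congr 1
        ext z : 2
        simp [ev, mul_smul] }
  let Λ₀ : CompactlySupportedContinuousMap X ℝ →ₚ[ℝ] ℝ :=
    { toFun := fun f => lin wI f.toContinuousMap
      map_add' := fun f g => (lin wI).map_add f.toContinuousMap g.toContinuousMap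
      map_smul' := fun r f => (lin wI).map_smul r f.toContinuousMap
      monotone' := fun f g hfg => by
        show lin wI f.toContinuousMap ≤ lin wI g.toContinuousMap
        rw [← sub_nonneg, ← map_sub]
        refine hL _ fun z => psd_smul ?_ (psd_herm hw z)
        simpa using hfg z }
  set μ := RealRMK.rieszMeasure Λ₀ with hμ
  have hint : ∀ f : C(X, ℝ), L (ev f wI) = ∫ z, f z ∂μ := fun f =>
    (RealRMK.integral_rieszMeasure Λ₀ ⟨f, HasCompactSupport.of_compactSpace _⟩).symm
  -- the densities
  have hbd : ∀ u : contInv J, ∃ g : X → ℝ, Measurable g ∧ MemLp g 2 μ ∧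
      ∀ f : C(X, ℝ), L (ev f u) = ∫ z, f z * g z ∂μ := by
    intro u
    obtain ⟨C, -, hC⟩ := exists_le_herm A hJ hw u.2
    refine exists_density (lin u) C fun f => ?_
    set a : C(X, ℝ) := ⟨fun y => |f y|, by fun_prop⟩
    show |L (ev f u)| ≤ _
    have key : ∀ t : ℝ, |t| = 1 → 0 ≤ C * L (ev a wI) + t * L (ev f u) := by
      intro t ht
      rw [← smul_eq_mul, ← smul_eq_mul, ← L.map_smul, ← L.map_smul, ← L.map_add]
      refine hL _ fun z => ?_
      show Psd (J z) (C • |f z| • w z + t • f z • u.1 z)
      rcases le_total 0 (t * f z) with h | h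
      · rw [smul_comm C, smul_smul t, show |f z| = t * f z by
          rw [← abs_of_nonneg h, abs_mul, ht, one_mul], ← smul_add]
        exact psd_smul h (hC z).1
      · rw [smul_comm C, smul_smul t, show |f z| = -(t * f z) by
          rw [← abs_of_nonpos h, abs_mul, ht, one_mul],
          show t * f z = -(-(t * f z)) by ring, neg_smul (-(t * f z)), neg_neg,
          ← sub_eq_add_neg, ← smul_sub]
        exact psd_smul (neg_nonneg.2 h) (hC z).2
    have h1 := key 1 (by simp)
    have h2 := key (-1) (by simp)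
    rw [hint a] at h1 h2
    exact abs_le.2 ⟨by simp [a] at h1; linarith, by simp [a] at h2; linarith⟩
  -- the chart forms
  have hI : ∀ i, IsCompact (chartAt E (A.c i) '' tsupport (A.ζ i)) ∧
      chartAt E (A.c i) '' tsupport (A.ζ i) ⊆ (chartAt E (A.c i)).target ∧
      ∀ y ∈ (chartAt E (A.c i)).target, y ∉ chartAt E (A.c i) '' tsupport (A.ζ i) →
        A.ζ i ((chartAt E (A.c i)).symm y) = 0 := by
    intro i
    refine ⟨(A.ζ_supp i).1.image_of_continuousOn
      ((chartAt E (A.c i)).continuousOn.mono (A.ζ_supp i).2), ?_, fun y hy hK => ?_⟩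
    · rintro _ ⟨z, hz, rfl⟩
      exact (chartAt E (A.c i)).map_source ((A.ζ_supp i).2 hz)
    · exact image_eq_zero_of_notMem_tsupport fun h => hK
        ⟨_, h, (chartAt E (A.c i)).right_inv hy⟩
  have hsm : ∀ i (F : E → M → M), (∀ a b, ContinuousOn (fun y => F y (repEnd (A.c i) J y) a b)
      (chartAt E (A.c i)).target) → (∀ y ∈ (chartAt E (A.c i)).target,
        (F y (repEnd (A.c i) J y))ᵀ = -F y (repEnd (A.c i) J y) ∧
        (repEnd (A.c i) J y)ᵀ * F y (repEnd (A.c i) J y) * repEnd (A.c i) J y =
          F y (repEnd (A.c i) J y)) →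
      ext (A.c i) (fun y => A.ζ i ((chartAt E (A.c i)).symm y) • F y (repEnd (A.c i) J y))
        ∈ contInv J := by
    intro i F hF hF'
    refine ⟨isContForm_ext _ (hI i).1 (hI i).2.1 (fun y hy hK => by simp [(hI i).2.2 y hy hK])
      (fun a b => (continuousOn_read (A.ζ_smooth i).continuous _).mul (hF a b))
      (fun y hy => by simp [(hF' y hy).1]), fun z => ?_⟩
    simp only [ext]
    split_ifs with hz
    · have hy := (chartAt E (A.c i)).map_source hz
      rw [eq_repEnd J hz, congr_inv (chg_mul_chg (mem_chart_source E z) hz |> fun _ =>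
        chg_mul_chg hz (mem_chart_source E z))]
      simp [(hF' _ hy).2]
    · simp
  have hcont : ∀ i a b, ContinuousOn (fun y => repEnd (A.c i) J y a b)
      (chartAt E (A.c i)).target := fun i a b => (hJ.smooth _ a b).continuousOn
  let U : Fin A.n → Fin 4 → Fin 4 → contInv J := fun i a b =>
    ⟨_, hsm i (fun _ K => pinv K (skS a b)) (fun k l => by
        simp only [pinv, Matrix.smul_apply, Matrix.add_apply, Matrix.mul_apply,
          Matrix.transpose_apply, smul_eq_mul]
        fun_prop)
      fun y hy => ⟨skew_pinv (skew_skS a b), inv_pinv (repEnd_sq hJ.sq hy)⟩⟩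
  choose g hgm hg2 hgL using fun i a b => hbd (U i a b)
  -- the field
  set tg := fun i => (chartAt E (A.c i)).target
  let wM : Fin A.n → E → M := fun i y a b => (tg i).indicator (fun x => rep (A.c i) w x a b) y
  let JM : Fin A.n → E → M := fun i y a b => (tg i).indicator (fun x => repEnd (A.c i) J x a b) y
  let GM : Fin A.n → E → M := fun i y a b => (tg i).indicator
    (fun x => A.φ i ((chartAt E (A.c i)).symm x) * g i a b ((chartAt E (A.c i)).symm x)) y
  let θ : Fin A.n → E → M := fun i y =>
    pfq (wM i y) (wM i y) • pinv (JM i y) (dualF (GM i y))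
  set Θ : X → M := ∑ i, ext (A.c i) (θ i) with hΘ
  have hθ : ∀ i y, y ∈ tg i → wM i y = rep (A.c i) w y ∧ JM i y = repEnd (A.c i) J y := fun i y hy =>
    ⟨by ext a b; exact indicator_of_mem hy _, by ext a b; exact indicator_of_mem hy _⟩
  have hθs : ∀ i y, y ∈ tg i → (θ i y)ᵀ = -θ i y ∧
      (repEnd (A.c i) J y)ᵀ * θ i y * repEnd (A.c i) J y = θ i y := fun i y hy => by
    simp only [θ, (hθ i y hy).2]
    exact ⟨by simp [skew_pinv (skew_dualF _)],
      by simp [inv_pinv (repEnd_sq hJ.sq hy)]⟩
  have hΘs : ∀ z, (Θ z)ᵀ = -Θ z := fun z => by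
    simp only [Θ, Finset.sum_apply, Matrix.transpose_sum, ← Finset.sum_neg_distrib]
    exact Finset.sum_congr rfl fun i _ => skew_ext _ (fun y hy => (hθs i y hy).1) z
  have hΘi : ∀ z, (J z)ᵀ * Θ z * J z = Θ z := fun z => by
    simp only [Θ, Finset.sum_apply, Matrix.mul_sum, Matrix.sum_mul]
    refine Finset.sum_congr rfl fun i _ => ?_
    simp only [ext]
    split_ifs with hz
    · rw [eq_repEnd J hz, congr_inv (chg_mul_chg hz (mem_chart_source E z)),
        (hθs i _ ((chartAt E (A.c i)).map_source hz)).2]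
    · simp
  -- the pairing pointwise
  let cf : contInv J → Fin A.n → Fin 4 → Fin 4 → C(X, ℝ) := fun u i a b =>
    ⟨fun z => A.φ i z * rep (A.c i) u.1 (chartAt E (A.c i) z) a b,
      continuous_cut (chartAt E (A.c i)).open_source (A.φ_smooth i).continuous (A.φ_supp i).2
        ((u.2.1.cont _ a b).comp (chartAt E (A.c i)).continuousOn
          fun z hz => (chartAt E (A.c i)).map_source hz)⟩
  have hpt : ∀ (u : contInv J) z, pr (w z) (Θ z) (u.1 z) =
      ∑ i, ∑ a, ∑ b, cf u i a b z * g i a b z := by
    intro u z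
    simp only [pr, Θ, Finset.sum_apply, pfq_sum_left, Finset.sum_div]
    refine Finset.sum_congr rfl fun i _ => ?_
    by_cases hz : z ∈ (chartAt E (A.c i)).source
    · have hy := (chartAt E (A.c i)).map_source hz
      have hdet := isUnit_chg (p := z) (q := A.c i) (mem_chart_source E z) hz
      show pr (w z) (ext (A.c i) (θ i) z) (u.1 z) = _
      simp only [ext, if_pos hz]
      rw [eq_rep w hz, eq_rep u.1 hz, pr_congr hdet (skew_rep hw.form.skew _ _) (hθs i _ hy).1
        (skew_rep u.2.1.skew _ _)]
      simp only [pr, θ, (hθ i _ hy).1, (hθ i _ hy).2]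
      rw [pfq_smul_left, mul_div_cancel_left₀ _ (pfq_rep_herm_ne_zero hJ hw hy),
        pfq_pinv_left (repEnd_sq hJ.sq hy) (skew_dualF _) (skew_rep u.2.1.skew _ _)
          (inv_rep u.2.2 hy), pfq_dualF _ (skew_rep u.2.1.skew _ _)]
      refine Finset.sum_congr rfl fun a _ => Finset.sum_congr rfl fun b _ => ?_
      simp only [GM, tg, indicator_of_mem hy, (chartAt E (A.c i)).left_inv hz, cf,
        ContinuousMap.coe_mk]
      ring
    · have h0 : A.φ i z = 0 := image_eq_zero_of_notMem_tsupport fun h => hz ((A.φ_supp i).2 h)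
      simp [ext, hz, cf, h0, pfq]
  have hsplit : ∀ u : contInv J, u = ∑ i, ∑ a, ∑ b, ev (cf u i a b) (U i a b) := by
    intro u
    apply Subtype.ext
    funext z
    simp only [AddSubmonoidClass.coe_finsetSum, Finset.sum_apply, ev, cf, U,
      ContinuousMap.coe_mk]
    conv_lhs => rw [← one_smul ℝ (u.1 z), ← A.sum_φ z, Finset.sum_smul]
    refine Finset.sum_congr rfl fun i _ => ?_
    by_cases h0 : A.φ i z = 0
    · simp [h0]
    have hz : z ∈ (chartAt E (A.c i)).source := (A.φ_supp i).2 (subset_tsupport _ h0)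
    have hy := (chartAt E (A.c i)).map_source hz
    have h1 : A.ζ i z = 1 := A.ζ_one i z (subset_tsupport _ h0)
    simp only [ext, if_pos hz, (chartAt E (A.c i)).left_inv hz, h1, one_smul]
    have hu := sum_skS (skew_rep u.2.1.skew (A.c i) (chartAt E (A.c i) z))
    have hlin : ∑ a, ∑ b, rep (A.c i) u.1 (chartAt E (A.c i) z) a b •
        pinv (repEnd (A.c i) J (chartAt E (A.c i) z)) (skS a b) =
        rep (A.c i) u.1 (chartAt E (A.c i) z) := by
      conv_rhs => rw [← pinv_of_inv (inv_rep u.2.2 hy), ← hu]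
      simp only [pinv, smul_add, Matrix.mul_sum, Matrix.sum_mul, Finset.sum_add_distrib,
        Finset.smul_sum, Matrix.mul_smul, Matrix.smul_mul, smul_comm (1 / 2 : ℝ)]
    rw [eq_rep u.1 hz, ← Matrix.smul_mul, ← Matrix.mul_smul]
    conv_lhs => rw [← hlin]
    simp only [Finset.smul_sum, Matrix.mul_sum, Matrix.sum_mul, Matrix.mul_smul, Matrix.smul_mul,
      smul_smul]
  have hmem : ∀ u : contInv J, MemLp (fun z => pr (w z) (Θ z) (u.1 z)) 2 μ := fun u => by
    simp only [hpt u]
    exact memLp_finsetSum _ fun i _ => memLp_finsetSum _ fun a _ => memLp_finsetSum _ fun b _ =>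
      (hg2 i a b).mul' (p := ∞) ((cf u i a b).continuous.memLp_top_of_hasCompactSupport
        (HasCompactSupport.of_compactSpace _) μ)
  have hrep : ∀ u : contInv J, L u = ∫ z, pr (w z) (Θ z) (u.1 z) ∂μ := by
    intro u
    have hi : ∀ i a b, Integrable (fun z => cf u i a b z * g i a b z) μ := fun i a b =>
      ((hg2 i a b).mul' (p := ∞) ((cf u i a b).continuous.memLp_top_of_hasCompactSupport
        (HasCompactSupport.of_compactSpace _) μ)).integrable one_le_two
    simp only [hpt u]
    conv_lhs => rw [hsplit u]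
    simp only [map_sum, hgL]
    rw [integral_finsetSum _ fun i _ => integrable_finsetSum _ fun a _ =>
      integrable_finsetSum _ fun b _ => hi i a b]
    refine Finset.sum_congr rfl fun i _ => ?_
    rw [integral_finsetSum _ fun a _ => integrable_finsetSum _ fun b _ => hi i a b]
    exact Finset.sum_congr rfl fun a _ => (integral_finsetSum _ fun b _ => hi i a b).symm
  have htest : ∀ (u : contInv J) (f : C(X, ℝ)),
      L (ev f u) = ∫ z, f z * pr (w z) (Θ z) (u.1 z) ∂μ := fun u f => by
    rw [hrep]
    refine integral_congr_ae (Filter.Eventually.of_forall fun z => ?_)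
    show pr (w z) (Θ z) (f z • u.1 z) = _
    simp only [pr]
    rw [pfq_comm, pfq_smul_left, pfq_comm]
    ring
  refine ⟨μ, Θ, inferInstance, fun p i j => ?_, ?_, ?_,
    fun u => ⟨(hmem u).integrable one_le_two, hrep u⟩⟩
  · have : ((chartAt E p).target.indicator fun y => rep p Θ y i j) =
        fun y => ∑ k, (chartAt E p).target.indicator (fun x => rep p (ext (A.c k) (θ k)) x i j) y := by
      funext y
      simp only [Θ, rep_sum, Matrix.sum_apply]
      by_cases hy : y ∈ (chartAt E p).target <;> simp [hy]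
    rw [this]
    refine Finset.measurable_sum _ fun k _ => measurable_rep_ext p (A.c k) (fun a b => ?_) i j
    have hw' : ∀ a b, Measurable fun y => wM k y a b := fun a b =>
      measurable_indicator_of_continuousOn (chartAt E (A.c k)).open_target
        (hw.form.cont.cont _ a b)
    have hJ' : ∀ a b, Measurable fun y => JM k y a b := fun a b =>
      measurable_indicator_of_continuousOn (chartAt E (A.c k)).open_target (hcont k a b)
    have hG' : ∀ a b, Measurable fun y => GM k y a b := fun a b =>
      measurable_symm_read ((A.φ_smooth k).continuous.measurable.mul (hgm k a b)) (A.c k)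
    have hD : ∀ a b, Measurable fun y => dualF (GM k y) a b := fun a b => by
      fin_cases a <;> fin_cases b <;> simp [dualF, skew6] <;> fun_prop
    simp only [θ, pfq, pinv, Matrix.smul_apply, Matrix.add_apply, Matrix.mul_apply,
      Matrix.transpose_apply, smul_eq_mul]
    fun_prop
  · -- positivity
    have key : ∀ i (v : E), ∀ᵐ z ∂μ, z ∈ (chartAt E (A.c i)).source → A.ζ i z = 1 →
        0 ≤ val (rep (A.c i) Θ (chartAt E (A.c i) z)) v
          (repEnd (A.c i) J (chartAt E (A.c i) z) *ᵥ v) := by
      intro i v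
      have hpsd : ∀ y ∈ tg i, Psd (repEnd (A.c i) J y) (pfq (rep (A.c i) w y) (rep (A.c i) w y) •
          dualF (Matrix.vecMulVec v (repEnd (A.c i) J y *ᵥ v))) := fun y hy =>
        psd_dual (repEnd_sq hJ.sq hy) (skew_rep hw.form.skew _ _) (inv_rep hw.inv hy)
          (tames_rep hw.tames hy) v
      set ζ2 : C(X, ℝ) := ⟨A.ζ i, (A.ζ_smooth i).continuous⟩
      let W : contInv J := ⟨_, hsm i (fun y K => pfq (rep (A.c i) w y) (rep (A.c i) w y) •
          dualF (Matrix.vecMulVec v (K *ᵥ v))) (fun k l => by
          have h' := fun a b => hw.form.cont.cont (A.c i) a b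
          fin_cases k <;> fin_cases l <;>
            simp [dualF, skew6, pfq, Matrix.vecMulVec_apply, Matrix.mulVec, dotProduct] <;>
            fun_prop) fun y hy => ⟨(hpsd y hy).skew, (hpsd y hy).inv⟩⟩
      have hW : ∀ f : C(X, ℝ), (∀ z, 0 ≤ f z) → ∀ z, Psd (J z) ((ev (f * ζ2) W).1 z) := by
        intro f hf z
        simp only [ev, W, ext, ContinuousMap.mul_apply, ζ2, ContinuousMap.coe_mk]
        split_ifs with hz
        · have hy := (chartAt E (A.c i)).map_source hz
          rw [eq_repEnd J hz]
          rw [← Matrix.smul_mul, ← Matrix.mul_smul, smul_smul]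
          refine psd_congr (chg_mul_chg hz (mem_chart_source E z)) (psd_smul ?_ (hpsd _ hy))
          rw [(chartAt E (A.c i)).left_inv hz, mul_assoc]
          exact mul_nonneg (hf z) (mul_self_nonneg _)
        · exact ⟨by simp, by simp, fun x => by simp [val]⟩
      have hq := ae_nonneg_of_test (μ := μ)
        (q := fun z => A.ζ i z * pr (w z) (Θ z) (W.1 z))
        ((hmem W).mul' (p := ∞) ((A.ζ_smooth i).continuous.memLp_top_of_hasCompactSupport
          (HasCompactSupport.of_compactSpace _) μ)) fun f hf => by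
          have := hL (ev (f * ζ2) W) (hW f hf)
          rw [htest] at this
          refine this.trans_eq (integral_congr_ae (Filter.Eventually.of_forall fun z => ?_))
          simp [ζ2, mul_assoc]
      filter_upwards [hq] with z hz hs h1
      rw [h1, one_mul] at hz
      refine hz.trans_eq ?_
      have hy := (chartAt E (A.c i)).map_source hs
      have hdet := isUnit_chg (p := z) (q := A.c i) (mem_chart_source E z) hs
      simp only [W, ext, if_pos hs, (chartAt E (A.c i)).left_inv hs, h1, one_smul]
      rw [eq_rep w hs, eq_rep Θ hs, pr_congr hdet (skew_rep hw.form.skew _ _) (skew_rep hΘs _ _)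
        (hpsd _ hy).skew, pr, pfq_comm, pfq_smul_left,
        mul_div_cancel_left₀ _ (pfq_rep_herm_ne_zero hJ hw hy), pfq_dualF _ (skew_rep hΘs _ _)]
      simp only [val, Matrix.vecMulVec_apply, Matrix.mulVec, dotProduct, Fin.sum_univ_four]
      have sk := skew_apply (skew_rep hΘs (A.c i) (chartAt E (A.c i) z))
      ring_nf
    have hq : ∀ᵐ z ∂μ, ∀ i (v : Fin 4 → ℚ), z ∈ (chartAt E (A.c i)).source → A.ζ i z = 1 →
        0 ≤ val (rep (A.c i) Θ (chartAt E (A.c i) z)) (fun k => (v k : ℝ))
          (repEnd (A.c i) J (chartAt E (A.c i) z) *ᵥ fun k => (v k : ℝ)) := by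
      simp only [ae_all_iff]
      exact fun i v => key i _
    filter_upwards [hq] with z hz
    obtain ⟨i, hi⟩ : ∃ i, A.φ i z ≠ 0 := by
      by_contra h
      push Not at h
      simpa [h] using A.sum_φ z
    have hs : z ∈ (chartAt E (A.c i)).source := (A.φ_supp i).2 (subset_tsupport _ hi)
    have h1 : A.ζ i z = 1 := A.ζ_one i z (subset_tsupport _ hi)
    refine ⟨hΘs z, hΘi z, fun v => ?_⟩
    have hPQ := chg_mul_chg hs (mem_chart_source E z)
    rw [eq_rep Θ hs, eq_repEnd J hs, val_congr_end hPQ]
    have hdense : DenseRange fun v : Fin 4 → ℚ => fun k => (v k : ℝ) :=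
      DenseRange.piMap fun _ => Rat.denseRange_cast
    refine hdense.induction_on (p := fun x : E => 0 ≤ val (rep (A.c i) Θ (chartAt E (A.c i) z)) x
      (repEnd (A.c i) J (chartAt E (A.c i) z) *ᵥ x)) _ (isClosed_le continuous_const ?_)
      fun q => hz i q hs h1
    simp only [val, Matrix.mulVec, dotProduct]
    fun_prop
  · have h0 := ae_eq_zero_of_test (μ := μ) (q := fun z => pr (w z) (Θ z) (w z) - 1)
      ((hmem wI).sub (memLp_const 1)) fun f => by
        have hf := hint f
        rw [htest] at hf
        simp only [mul_sub, mul_one]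
        rw [integral_sub ?_ (f.continuous.integrable_of_hasCompactSupport
          (HasCompactSupport.of_compactSpace _)), hf, sub_self]
        exact ((hmem wI).mul' (p := ∞) (f.continuous.memLp_top_of_hasCompactSupport
          (HasCompactSupport.of_compactSpace _) μ)).integrable one_le_two
    filter_upwards [h0] with z hz
    linarith

end Vale.Agent.P204.Tame.Mfd
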