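import Vale.Agent.P204.Tame.Mfd.Compact

/-!
P204: semipositive forms pair nonnegatively relative to a Hermitian form, and pairings with a
field of semipositive forms of unit mass are bounded.
-/

namespace Vale.Agent.P204.Tame

open scoped Matrix

/-- Semipositive standard forms have a nonnegative wedge product. -/
lemma pfq_std_nonneg {u u' : M} (hu : Psd stdJ u) (hu' : Psd stdJ u') : 0 ≤ pfq u u' := by
  have coef : ∀ {u : M}, Psd stdJ u → 0 ≤ u 0 1 ∧ 0 ≤ u 2 3 ∧ u 1 3 = u 0 2 ∧ u 1 2 = -u 0 3 ∧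
      u 0 2 ^ 2 + u 0 3 ^ 2 ≤ u 0 1 * u 2 3 := by
    intro u h
    have h02 := congrFun (congrFun h.inv 0) 2
    have h03 := congrFun (congrFun h.inv 0) 3
    simp [Matrix.mul_apply, stdJ, Fin.sum_univ_four] at h02 h03
    have s := skew_apply h.skew
    have h12 : u 1 2 = -u 0 3 := by linarith
    have hq : ∀ a x y : ℝ, 0 ≤ a ^ 2 * u 0 1 - 2 * a * y * u 0 2 + 2 * a * x * u 0 3
        + (x ^ 2 + y ^ 2) * u 2 3 := by
      intro a x y
      have h' := h.nonneg ![a, 0, x, y]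
      simp [val, stdJ, Matrix.mulVec, dotProduct, Fin.sum_univ_four, skew_diag h.skew] at h'
      rw [s 1 2, s 1 3, s 2 3, h02, h12] at h'
      convert h' using 1
      ring
    have ha : 0 ≤ u 0 1 := by
      have := hq 1 0 0
      norm_num at this
      linarith
    have hg : 0 ≤ u 2 3 := by
      have := hq 0 1 0
      norm_num at this
      linarith
    refine ⟨ha, hg, h02, h12, ?_⟩
    rcases hg.lt_or_eq with hg' | hg'
    · have := hq (u 2 3) (-u 0 3) (u 0 2)
      have h2 : 0 ≤ u 2 3 * (u 0 1 * u 2 3 - u 0 2 ^ 2 - u 0 3 ^ 2) := by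
        convert this using 1; ring
      nlinarith [(mul_nonneg_iff_of_pos_left hg').1 h2]
    · rw [← hg', mul_zero]
      have hsmall : ∀ b : ℝ, (∀ y : ℝ, 0 ≤ u 0 1 + y * b) → b = 0 := fun b hb => by
        by_contra hne
        have := hb (-(u 0 1 + 1) / b)
        rw [div_mul_cancel₀ _ hne] at this
        linarith
      have e1 := hsmall (-2 * u 0 2) fun y => by
        have := hq 1 0 y; rw [← hg'] at this; linarith
      have e2 := hsmall (2 * u 0 3) fun x => by
        have := hq 1 x 0; rw [← hg'] at this; linarith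
      rw [show u 0 2 = 0 by linarith, show u 0 3 = 0 by linarith]
      norm_num
  obtain ⟨a0, a1, a2, a3, a4⟩ := coef hu
  obtain ⟨b0, b1, b2, b3, b4⟩ := coef hu'
  simp only [pfq, a2, a3, b2, b3]
  nlinarith [mul_nonneg a0 b1, mul_nonneg a1 b0, sq_nonneg (u 0 1 * u' 2 3 - u 2 3 * u' 0 1),
    mul_le_mul a4 b4 (by positivity) (mul_nonneg a0 a1),
    sq_nonneg (u 0 2 * u' 0 3 - u 0 3 * u' 0 2), mul_nonneg a0 a1, mul_nonneg b0 b1]

lemma pr_nonneg {J w θ u : M} (hJ : J * J = -1) (hw : wᵀ = -w) (hinv : Jᵀ * w * J = w)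
    (ht : ∀ v, v ≠ 0 → 0 < val w v (J *ᵥ v)) (hθ : Psd J θ) (hu : Psd J u) :
    0 ≤ Mfd.pr w θ u := by
  obtain ⟨P, Q, hPQ, hQP, rfl, hpos⟩ := exists_oriented_frame hJ hw hinv ht
  have hs : stdJ = Q * (P * stdJ * Q) * P := by
    simp only [← Matrix.mul_assoc, hQP, Matrix.one_mul]
    rw [Matrix.mul_assoc, hQP, Matrix.mul_one]
  have h1 := Mfd.psd_congr hPQ hθ
  have h2 := Mfd.psd_congr hPQ hu
  rw [← hs] at h1 h2
  have h := pfq_std_nonneg h1 h2
  rw [pfq_congr_skew P hθ.skew hu.skew] at h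
  rw [Mfd.pr, show pfq θ u / pfq w w = P.det * pfq θ u / (pfq w w * P.det) by
    rw [mul_comm (pfq w w), mul_div_mul_left _ _ (right_ne_zero_of_mul hpos.ne')]]
  exact div_nonneg h hpos.le

namespace Mfd

open scoped ContDiff Manifold
open Set

variable {X : Type*} [TopologicalSpace X] [ChartedSpace E X] [IsManifold 𝓘(ℝ, E) ∞ X]

lemma continuousOn_pinv {s : Set E} {j u : E → M} (hj : ∀ a b, ContinuousOn (fun y => j y a b) s)
    (hu : ∀ a b, ContinuousOn (fun y => u y a b) s) (a b : Fin 4) :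
    ContinuousOn (fun y => pinv (j y) (u y) a b) s := by
  simp only [pinv, Matrix.smul_apply, Matrix.add_apply, Matrix.mul_apply, Matrix.transpose_apply,
    smul_eq_mul]
  fun_prop

lemma rep_pinvX (J u : X → M) {p : X} {y : E} (hy : y ∈ (chartAt E p).target) :
    rep p (fun z => pinv (J z) (u z)) y = pinv (repEnd p J y) (rep p u y) :=
  (pinv_congr (chg_mul_chg (mem_chart_source E _) ((chartAt E p).map_target hy))).symm

lemma pinv_mem_contInv {J u : X → M} (hJ : IsACX J) (hu : IsContForm u) :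
    (fun z => pinv (J z) (u z)) ∈ contInv J := by
  refine ⟨⟨fun p a b => ?_, fun z => skew_pinv (hu.skew z)⟩, fun z => inv_pinv (hJ.sq z)⟩
  exact (continuousOn_pinv (fun a b => (hJ.smooth p a b).continuousOn) (hu.cont p) a b).congr
    fun y hy => congrFun (congrFun (rep_pinvX J u hy) a) b

lemma pr_pinv_right {J w θ u : M} (hJ : J * J = -1) (hθ : Psd J θ) (hu : uᵀ = -u) :
    pr w θ (pinv J u) = pr w θ u := by
  rw [pr, pr, pfq_comm, pfq_pinv_left hJ hu hθ.skew hθ.inv, pfq_comm]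

/-- The pairing with a continuous form is bounded by the mass. -/
theorem exists_pr_bound (A : Atlas X) {J w u : X → M} (hJ : IsACX J) (hw : IsHerm J w)
    (hu : IsContForm u) :
    ∃ C : ℝ, ∀ z θ, Psd (J z) θ → |pr (w z) θ (u z)| ≤ C * pr (w z) θ (w z) := by
  obtain ⟨C, -, hC⟩ := exists_le_herm A hJ hw (pinv_mem_contInv hJ hu)
  refine ⟨C, fun z θ hθ => ?_⟩
  rw [← pr_pinv_right (hJ.sq z) hθ (hu.skew z)]
  have h1 := pr_nonneg (hJ.sq z) (hw.form.skew z) (hw.inv z) (hw.tames z) hθ (hC z).1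
  have h2 := pr_nonneg (hJ.sq z) (hw.form.skew z) (hw.inv z) (hw.tames z) hθ (hC z).2
  set a := pinv (J z) (u z)
  have e : ∀ x y : M, pr (w z) θ (x + y) = pr (w z) θ x + pr (w z) θ y := fun x y => by
    rw [pr, pr, pr, pfq_comm, pfq_add_left, pfq_comm x, pfq_comm y, add_div]
  have e' : ∀ (r : ℝ) (x : M), pr (w z) θ (r • x) = r * pr (w z) θ x := fun r x => by
    rw [pr, pr, pfq_comm, pfq_smul_left, pfq_comm x, mul_div_assoc]
  rw [e, e'] at h1
  rw [sub_eq_add_neg, ← neg_one_smul ℝ a, e, e', e'] at h2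
  exact abs_le.2 ⟨by linarith, by linarith⟩

end Mfd

end Vale.Agent.P204.Tame
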