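import Vale.Agent.P204.Tame.Mfd.Alg

/-!
P204, manifold layer: the exterior derivative of a one-form commutes with changes of chart;
one-forms extended by zero from a chart.
-/

namespace Vale.Agent.P204.Tame.Mfd

open scoped ContDiff Manifold Matrix Topology
open Set

lemma pd_comp_chain {f : E → ℝ} {t : E → E} {x : E} (hf : DifferentiableAt ℝ f (t x))
    (ht : DifferentiableAt ℝ t x) (a : Fin 4) :
    pd a (fun y => f (t y)) x = ∑ l, pd a (fun y => t y l) x * pd l f (t x) := by
  unfold pd
  rw [(hf.hasFDerivAt.comp x ht.hasFDerivAt).fderiv.trans rfl |> fun h =>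
    show fderiv ℝ (fun y => f (t y)) x = _ from h]
  have hc : ∀ l, fderiv ℝ (fun y => t y l) x (e a) = fderiv ℝ t x (e a) l := fun l => by
    rw [(hasFDerivAt_pi'.1 ht.hasFDerivAt l).fderiv]
    rfl
  simp only [hc, ContinuousLinearMap.comp_apply]
  set v := fderiv ℝ t x (e a)
  conv_lhs => rw [show v = ∑ l, v l • e l by
    funext k; simp [e, Finset.sum_apply, Pi.single_apply]]
  simp [map_sum, map_smul]

lemma pd_comm {f : E → ℝ} {x : E} (hf : ContDiffAt ℝ ∞ f x) (a b : Fin 4) :
    pd a (pd b f) x = pd b (pd a f) x := by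
  have hd : DifferentiableAt ℝ (fderiv ℝ f) x :=
    (hf.fderiv_right (m := 1) (WithTop.coe_le_coe.2 le_top)).differentiableAt one_ne_zero
  unfold pd
  rw [fderiv_clm_apply hd (differentiableAt_const _), fderiv_clm_apply hd (differentiableAt_const _)]
  simpa using (hf.isSymmSndFDerivAt
    (by rw [minSmoothness_of_isRCLikeNormedField]; exact WithTop.coe_le_coe.2 le_top)).eq (e a) (e b)

/-- Naturality of the exterior derivative of one-forms. -/
lemma dOne_pullback {t : E → E} {U V : Set E} (hU : IsOpen U) (hV : IsOpen V)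
    (ht : ContDiffOn ℝ ∞ t U) (hm : MapsTo t U V) {S : E → E}
    (hS : ∀ k, ContDiffOn ℝ ∞ (fun y => S y k) V) {x : E} (hx : x ∈ U) :
    dOne (fun y b => ∑ k, pd b (fun z => t z k) y * S (t y) k) x =
      (Matrix.of fun k b => pd b (fun z => t z k) x)ᵀ * dOne S (t x) *
        Matrix.of fun k b => pd b (fun z => t z k) x := by
  have htA : ∀ k, ContDiffAt ℝ ∞ (fun z => t z k) x := fun k =>
    (contDiffOn_pi.1 ht k).contDiffAt (hU.mem_nhds hx)
  have htd : DifferentiableAt ℝ t x :=
    (ht.contDiffAt (hU.mem_nhds hx)).differentiableAt (by simp)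
  have hSd : ∀ k, DifferentiableAt ℝ (fun y => S y k) (t x) := fun k =>
    ((hS k).contDiffAt (hV.mem_nhds (hm hx))).differentiableAt (by simp)
  have hT1 : ∀ b k, DifferentiableAt ℝ (fun y => pd b (fun z => t z k) y) x := fun b k =>
    (((htA k).fderiv_right (m := 1) (WithTop.coe_le_coe.2 le_top)).clm_apply contDiffAt_const).differentiableAt
      one_ne_zero
  have hkey : ∀ a b, pd a (fun y => ∑ k, pd b (fun z => t z k) y * S (t y) k) x =
      ∑ k, (pd a (pd b fun z => t z k) x * S (t x) k + pd b (fun z => t z k) x *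
        ∑ l, pd a (fun z => t z l) x * pd l (fun y => S y k) (t x)) := by
    intro a b
    simp only [← pd_comp_chain (hSd _) htd]
    unfold pd
    rw [fderiv_fun_sum (A := fun k y => fderiv ℝ (fun z => t z k) y (e b) * S (t y) k)
      fun k _ => (hT1 b k).fun_mul ((hSd k).comp x htd)]
    simp only [_root_.sum_apply]
    refine Finset.sum_congr rfl fun k _ => ?_
    rw [fderiv_fun_mul (c := fun y => fderiv ℝ (fun z => t z k) y (e b))
      (d := fun y => S (t y) k) (hT1 b k) ((hSd k).comp x htd)]
    simp only [add_apply, smul_apply, smul_eq_mul]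
    ring
  ext a b
  simp only [dOne, hkey, Matrix.mul_apply, Matrix.transpose_apply, Matrix.of_apply]
  simp only [fun a b k => pd_comm (htA k) b a]
  simp only [Fin.sum_univ_four]
  ring

variable {X : Type*} [TopologicalSpace X] [ChartedSpace E X] [IsManifold 𝓘(ℝ, E) ∞ X]

lemma chg_eq_jac {q p : X} {y : E} (h : y ∈ trnDom q p) :
    chg q p ((chartAt E q).symm y) = Matrix.of fun k b => pd b (fun z => trn q p z k) y := by
  ext k b
  exact chg_eq_pd h k b

/-- The exterior derivative of a one-form in a chart. -/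
lemma dOne_rep1_trn {S : X → E} {q p : X} (hS : ∀ k, ContDiffOn ℝ ∞ (fun y => rep1 p S y k)
    (chartAt E p).target) {y : E} (hy : y ∈ trnDom q p) :
    dOne (rep1 q S) y = (chg q p ((chartAt E q).symm y))ᵀ * dOne (rep1 p S) (trn q p y) *
      chg q p ((chartAt E q).symm y) := by
  rw [chg_eq_jac hy, ← dOne_pullback (isOpen_trnDom q p) (chartAt E p).open_target
    (contDiffOn_trn q p) (fun x hx => trn_mem hx) hS hy]
  have heq : ∀ k, (fun x => rep1 q S x k) =ᶠ[𝓝 y]
      fun x => ∑ l, pd k (fun z => trn q p z l) x * rep1 p S (trn q p x) l := fun k => by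
    filter_upwards [(isOpen_trnDom q p).mem_nhds hy] with x hx
    rw [rep1_trn S hx]
    simp [Matrix.mulVec, dotProduct, chg_eq_pd hx]
  ext i j
  simp only [dOne, pd, (heq _).fderiv_eq]

/-- The exterior derivative read in any chart. -/
lemma rep_dX {S : X → E} (hS : IsForm1 S) {p : X} {y : E} (hy : y ∈ (chartAt E p).target) :
    rep p (dX S) y = dOne (rep1 p S) y := by
  set z := (chartAt E p).symm y with hz
  have hzp : z ∈ (chartAt E p).source := (chartAt E p).map_target hy
  have h : y ∈ trnDom p z := ⟨hy, mem_chart_source E z⟩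
  rw [dOne_rep1_trn (hS z) h]
  rfl

lemma rep1_ext1 {p : X} (a : E → E) {y : E} (hy : y ∈ (chartAt E p).target) :
    rep1 p (ext1 p a) y = a y := by
  set z := (chartAt E p).symm y with hz
  have hp : z ∈ (chartAt E p).source := (chartAt E p).map_target hy
  have hu : chg z p z * chg p z z = 1 := chg_mul_chg hp (mem_chart_source E z)
  simp only [rep1, ext1, ← hz, if_pos hp]
  rw [show chartAt E p z = y from (chartAt E p).right_inv hy, Matrix.mulVec_mulVec,
    ← Matrix.transpose_mul, hu, Matrix.transpose_one, Matrix.one_mulVec]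

lemma rep1_ext1_eq_zero {p q : X} (a : E → E) {y : E}
    (h : (chartAt E q).symm y ∈ (chartAt E p).source →
      a (chartAt E p ((chartAt E q).symm y)) = 0) :
    rep1 q (ext1 p a) y = 0 := by
  simp only [rep1, ext1]
  split_ifs with hz
  · simp [h hz]
  · simp

variable [T2Space X] {p : X} {a : E → E} {K : Set E}

lemma ext1_local (hK : IsCompact K) (hKt : K ⊆ (chartAt E p).target)
    (h0 : ∀ y ∈ (chartAt E p).target, y ∉ K → a y = 0) (q : X) {y : E}
    (hy : y ∈ (chartAt E q).target) :
    y ∈ trnDom q p ∨ ∀ᶠ x in 𝓝 y, rep1 q (ext1 p a) x = 0 := by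
  by_cases h : y ∈ trnDom q p
  · exact Or.inl h
  refine Or.inr ?_
  have hC : IsClosed ((chartAt E p).symm '' K) :=
    (hK.image_of_continuousOn ((chartAt E p).continuousOn_symm.mono hKt)).isClosed
  have hopen := (chartAt E q).isOpen_inter_preimage_symm hC.isOpen_compl
  have hy' : (chartAt E q).symm y ∈ ((chartAt E p).symm '' K)ᶜ := by
    rintro ⟨k, hk, hk'⟩
    exact h ⟨hy, show (chartAt E q).symm y ∈ (chartAt E p).source from
      hk' ▸ (chartAt E p).map_target (hKt hk)⟩
  filter_upwards [hopen.mem_nhds ⟨hy, hy'⟩] with x hx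
  refine rep1_ext1_eq_zero a fun hz => ?_
  refine h0 _ ((chartAt E p).map_source hz) fun hK' => hx.2 ⟨_, hK', (chartAt E p).left_inv hz⟩

lemma isForm1_ext1 (hK : IsCompact K) (hKt : K ⊆ (chartAt E p).target)
    (h0 : ∀ y ∈ (chartAt E p).target, y ∉ K → a y = 0)
    (hc : ∀ i, ContDiffOn ℝ ∞ (fun y => a y i) (chartAt E p).target) :
    IsForm1 (ext1 p a) := by
  intro q i y hy
  rcases ext1_local hK hKt h0 q hy with h | h
  · have key : ContDiffOn ℝ ∞ (fun y => rep1 q (ext1 p a) y i) (trnDom q p) := by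
      refine ContDiffOn.congr (f := fun y => ∑ k, chg q p ((chartAt E q).symm y) k i *
        a (trn q p y) k) ?_ fun x hx => ?_
      · exact ContDiffOn.sum fun k _ => (contDiffOn_chg q p k i).mul
          ((hc k).comp (contDiffOn_trn q p) fun x hx => trn_mem hx)
      · rw [rep1_trn _ hx, rep1_ext1 a (trn_mem hx)]
        simp [Matrix.mulVec, dotProduct]
    exact ((key y h).contDiffAt ((isOpen_trnDom q p).mem_nhds h)).contDiffWithinAt
  · refine ContDiffAt.contDiffWithinAt
      ((contDiffAt_const (c := (0 : ℝ))).congr_of_eventuallyEq ?_)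
    filter_upwards [h] with x hx
    simp [hx]

/-- The exterior derivative of a one-form supported in a chart. -/
lemma dX_ext1 (hK : IsCompact K) (hKt : K ⊆ (chartAt E p).target)
    (h0 : ∀ y ∈ (chartAt E p).target, y ∉ K → a y = 0)
    (hc : ∀ i, ContDiffOn ℝ ∞ (fun y => a y i) (chartAt E p).target) :
    dX (ext1 p a) = ext p (dOne a) := by
  funext z
  simp only [ext]
  split_ifs with hz
  · rw [eq_rep (dX (ext1 p a)) hz,
      rep_dX (isForm1_ext1 hK hKt h0 hc) ((chartAt E p).map_source hz)]
    have heq : rep1 p (ext1 p a) =ᶠ[𝓝 (chartAt E p z)] a := by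
      filter_upwards [(chartAt E p).open_target.mem_nhds ((chartAt E p).map_source hz)] with x hx
      exact rep1_ext1 a hx
    congr 2
    ext i j
    simp only [dOne, pd]
    rw [(heq.fun_comp fun v => v j).fderiv_eq (𝕜 := ℝ) |> fun h =>
      show fderiv ℝ (fun y => rep1 p (ext1 p a) y j) (chartAt E p z) = _ from h,
      (heq.fun_comp fun v => v i).fderiv_eq (𝕜 := ℝ) |> fun h =>
      show fderiv ℝ (fun y => rep1 p (ext1 p a) y i) (chartAt E p z) = _ from h]
    rfl
  · rcases ext1_local hK hKt h0 z (y := chartAt E z z)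
      ((chartAt E z).map_source (mem_chart_source E z)) with h | h
    · exact absurd (by simpa [(chartAt E z).left_inv (mem_chart_source E z)] using h.2) hz
    · ext i j
      have hk : ∀ k, (fun x => rep1 z (ext1 p a) x k) =ᶠ[𝓝 (chartAt E z z)] fun _ => (0 : ℝ) :=
        fun k => by filter_upwards [h] with x hx; simp [hx]
      simp [dX, dOne, pd, (hk _).fderiv_eq]

end Vale.Agent.P204.Tame.Mfd
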