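import Vale.Agent.P204.Tame.Mfd.Global
import Vale.Agent.P204.Tame.Mfd.Charts
import Vale.Agent.P204.Tame.Mfd.Positive
import Vale.Agent.P204.Tame.Mfd.Field
import Vale.Agent.P204.Tame.Mfd.Pull

/-!
P204: a global current read in a chart is a positive closed current on the target.
-/

namespace Vale.Agent.P204.Tame

open scoped Matrix

lemma trc_eq_pfq (J : M) {θ : M} (hθ : θᵀ = -θ) : trc J θ = pfq (dualF (-kmat J)) θ := by
  rw [pfq_dualF _ hθ, trc]
  simp [Finset.sum_neg_distrib]

lemma trc_eq_sum {J θ : M} (hJ : J * J = -1) (hθ : θᵀ = -θ) :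
    trc J θ = 2 * ∑ a, val θ (e a) (J *ᵥ e a) := by
  have hk : kmat J = J - Jᵀ := by
    rw [kmat, hmat, Matrix.mul_add, Matrix.mul_one, ← Matrix.mul_assoc, hJ, Matrix.neg_mul,
      Matrix.one_mul, sub_eq_add_neg]
  have s := skew_apply hθ
  simp [trc, hk, val, e, Matrix.mulVec, dotProduct, Fin.sum_univ_four, Pi.single_apply,
    skew_diag hθ, s 0 1, s 0 2, s 0 3, s 1 2, s 1 3, s 2 3]
  ring

lemma trc_nonneg {J θ : M} (hJ : J * J = -1) (h : Psd J θ) : 0 ≤ trc J θ := by
  rw [trc_eq_sum hJ h.skew]
  exact mul_nonneg two_pos.le (Finset.sum_nonneg fun a _ => h.nonneg _)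

lemma eq_zero_of_trc {J θ : M} (hJ : J * J = -1) (h : Psd J θ) (h0 : trc J θ = 0) : θ = 0 := by
  rw [trc_eq_sum hJ h.skew] at h0
  have hz : ∀ a, val θ (e a) (J *ᵥ e a) = 0 := fun a =>
    (Finset.sum_eq_zero_iff_of_nonneg fun a _ => h.nonneg _).1 (by linarith) a (Finset.mem_univ a)
  have hb : ∀ a b, val θ (e a) (J *ᵥ e b) = (θ * J) a b := fun a b => by
    simp [val, e, Matrix.mulVec, dotProduct, Matrix.mul_apply, Pi.single_apply]
  have hsymm : (θ * J)ᵀ = θ * J := by
    have h1 : Jᵀ * θ = -(θ * J) := by
      calc Jᵀ * θ = -(Jᵀ * θ * (J * J)) := by rw [hJ]; simp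
        _ = -(Jᵀ * θ * J * J) := by simp only [Matrix.mul_assoc]
        _ = _ := by rw [h.inv]
    rw [Matrix.transpose_mul, h.skew, Matrix.mul_neg, h1, neg_neg]
  have hzero : θ * J = 0 := by
    ext a b
    have key : ∀ t : ℝ, 0 ≤ t * (θ * J) a b := by
      intro t
      have h2 := h.nonneg (e a + t • e b)
      have he : val θ (e a + t • e b) (J *ᵥ (e a + t • e b)) = val θ (e a) (J *ᵥ e a) +
          t * val θ (e a) (J *ᵥ e b) + t * val θ (e b) (J *ᵥ e a) +
          t * t * val θ (e b) (J *ᵥ e b) := by
        simp only [val, Matrix.mulVec_add, Matrix.mulVec_smul, dotProduct_add, add_dotProduct,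
          dotProduct_smul, smul_dotProduct, smul_eq_mul]
        ring
      rw [he, hz, hz, hb, hb, show (θ * J) b a = (θ * J) a b from
        congrFun (congrFun hsymm a) b] at h2
      linarith
    have := key 1; have := key (-1)
    simp only [Matrix.zero_apply]
    linarith
  calc θ = -(θ * J * J) := by rw [Matrix.mul_assoc, hJ]; simp
    _ = 0 := by rw [hzero]; simp

/-- The constant one-form for a coordinate triple. -/
noncomputable def triple (i j k : Fin 4) : E := fun l =>
  ((j : ℕ) - (i : ℕ) : ℝ) * ((k : ℕ) - (i : ℕ)) * ((l : ℕ) - (i : ℕ)) * ((k : ℕ) - (j : ℕ))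
    * ((l : ℕ) - (j : ℕ)) * ((l : ℕ) - (k : ℕ)) / 12

lemma pfq_triple {θ : M} (hθ : θᵀ = -θ) (g : E) (i j k : Fin 4) :
    pfq θ (Matrix.of fun a b => g a * triple i j k b - g b * triple i j k a) =
      θ j k * g i + θ k i * g j + θ i j * g k := by
  have s := skew_apply hθ
  fin_cases i <;> fin_cases j <;> fin_cases k <;>
    simp [pfq, triple, skew_diag hθ, s 0 1, s 0 2, s 0 3, s 1 2, s 1 3, s 2 3] <;> ring

namespace Mfd

open scoped ContDiff Manifold Topology ENNReal
open MeasureTheory Set

variable {X : Type} [TopologicalSpace X] [ChartedSpace E X] [IsManifold 𝓘(ℝ, E) ∞ X]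
  [MeasurableSpace X] [BorelSpace X]

omit [IsManifold 𝓘(ℝ, E) ∞ X] in
lemma aemeasurable_chart (p : X) (μ : Measure X) :
    AEMeasurable (chartAt E p) (μ.restrict (chartAt E p).source) :=
  (chartAt E p).continuousOn.aemeasurable (chartAt E p).open_source.measurableSet

omit [IsManifold 𝓘(ℝ, E) ∞ X] in
/-- Properties holding almost everywhere pass to the chart. -/
lemma ae_chartMeas (p : X) {μ : Measure X} {P : X → Prop} (h : ∀ᵐ z ∂μ, P z) :
    ∀ᵐ y ∂chartMeas p μ, y ∈ (chartAt E p).target ∧ P ((chartAt E p).symm y) := by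
  obtain ⟨t, hts, htm, ht0⟩ := exists_measurable_superset_of_null h
  have hm : MeasurableSet ((chartAt E p).target ∩ (chartAt E p).symm ⁻¹' tᶜ) := by
    classical
    have hmeas : Measurable ((chartAt E p).target.piecewise (chartAt E p).symm fun _ => p) :=
      (chartAt E p).continuousOn_symm.measurable_piecewise continuousOn_const
        (chartAt E p).open_target.measurableSet
    have he : (chartAt E p).target ∩ (chartAt E p).symm ⁻¹' tᶜ = (chartAt E p).target ∩
        (chartAt E p).target.piecewise (chartAt E p).symm (fun _ => p) ⁻¹' tᶜ := by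
      ext y
      by_cases hy : y ∈ (chartAt E p).target <;> simp [hy]
    rw [he]
    exact (chartAt E p).open_target.measurableSet.inter (hmeas htm.compl)
  have hae : ∀ᵐ y ∂chartMeas p μ,
      y ∈ (chartAt E p).target ∩ (chartAt E p).symm ⁻¹' tᶜ := by
    refine (ae_map_iff (aemeasurable_chart p μ) hm).2 ?_
    filter_upwards [ae_restrict_mem (chartAt E p).open_source.measurableSet,
      ae_restrict_of_ae (measure_eq_zero_iff_ae_notMem.1 ht0)] with z hz hzt
    exact ⟨(chartAt E p).map_source hz, by simpa [(chartAt E p).left_inv hz] using hzt⟩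
  filter_upwards [hae] with y hy
  exact ⟨hy.1, by_contra fun hn => hy.2 (hts hn)⟩

omit [IsManifold 𝓘(ℝ, E) ∞ X] [BorelSpace X] in
lemma isFiniteMeasure_chartMeas (p : X) (μ : Measure X) [IsFiniteMeasure μ] :
    IsFiniteMeasure (chartMeas p μ) := by
  unfold chartMeas; infer_instance

omit [IsManifold 𝓘(ℝ, E) ∞ X] in
/-- An integral in the chart as an integral on the manifold. -/
lemma integral_chartMeas (p : X) (μ : Measure X) {f : E → ℝ} (hf : Measurable f) :
    ∫ y, f y ∂chartMeas p μ =
      ∫ z, (chartAt E p).source.indicator (fun z => f (chartAt E p z)) z ∂μ := by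
  rw [chartMeas, integral_map (aemeasurable_chart p μ) hf.aestronglyMeasurable,
    integral_indicator (chartAt E p).open_source.measurableSet]

omit [MeasurableSpace X] [BorelSpace X] in
lemma pr_rep_eq (p : X) {J w : X → M} (hw : IsHerm J w) {θ u : X → M}
    (hθ : ∀ z, (θ z)ᵀ = -θ z) (hu : ∀ z, (u z)ᵀ = -u z) {y : E}
    (hy : y ∈ (chartAt E p).target) :
    pr (rep p w y) (rep p θ y) (rep p u y) =
      pr (w ((chartAt E p).symm y)) (θ ((chartAt E p).symm y)) (u ((chartAt E p).symm y)) :=
  pr_congr (isUnit_chg ((chartAt E p).map_target hy) (mem_chart_source E _))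
    (hw.form.skew _) (hθ _) (hu _)

omit [MeasurableSpace X] [BorelSpace X] in
lemma pr_rep_eq' (p : X) {J w : X → M} (hw : IsHerm J w) {θ u : X → M} {y : E}
    (hθ : (θ ((chartAt E p).symm y))ᵀ = -θ ((chartAt E p).symm y))
    (hu : (u ((chartAt E p).symm y))ᵀ = -u ((chartAt E p).symm y))
    (hy : y ∈ (chartAt E p).target) :
    pr (rep p w y) (rep p θ y) (rep p u y) =
      pr (w ((chartAt E p).symm y)) (θ ((chartAt E p).symm y)) (u ((chartAt E p).symm y)) :=
  pr_congr (isUnit_chg ((chartAt E p).map_target hy) (mem_chart_source E _))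
    (hw.form.skew _) hθ hu

/-- The facts about a current at almost every point of a chart. -/
lemma ae_chart_current {J w : X → M} (hJ : IsACX J) (hw : IsHerm J w) {μ : Measure X}
    {Θ : X → M} (hpsd : ∀ᵐ z ∂μ, Psd (J z) (Θ z)) (hunit : ∀ᵐ z ∂μ, pr (w z) (Θ z) (w z) = 1)
    (p : X) :
    ∀ᵐ y ∂chartMeas p μ, y ∈ (chartAt E p).target ∧ Psd (repEnd p J y) (rep p Θ y) ∧
      pr (rep p w y) (rep p Θ y) (rep p w y) = 1 ∧ 0 < trc (repEnd p J y) (rep p Θ y) := by
  filter_upwards [ae_chartMeas p (hpsd.and hunit)] with y ⟨hy, h1, h2⟩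
  have hpsd' : Psd (repEnd p J y) (rep p Θ y) :=
    psd_congr (chg_mul_chg (mem_chart_source E _) ((chartAt E p).map_target hy)) h1
  have hunit' : pr (rep p w y) (rep p Θ y) (rep p w y) = 1 := by
    rw [rep, rep, pr_congr (isUnit_chg ((chartAt E p).map_target hy) (mem_chart_source E _))
      (hw.form.skew _) h1.skew (hw.form.skew _)]
    exact h2
  refine ⟨hy, hpsd', hunit', (trc_nonneg (repEnd_sq hJ.sq hy) hpsd').lt_of_ne fun h0 => ?_⟩
  rw [eq_zero_of_trc (repEnd_sq hJ.sq hy) hpsd' h0.symm] at hunit'
  simp [pr, pfq] at hunit'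

variable [T2Space X] [CompactSpace X]

lemma continuousOn_kmat {s : Set E} {j : E → M}
    (hj : ∀ a b, ContinuousOn (fun y => j y a b) s) (a b : Fin 4) :
    ContinuousOn (fun y => dualF (-kmat (j y)) a b) s := by
  have hk : ∀ a b, ContinuousOn (fun y => kmat (j y) a b) s := fun a b => by
    simp only [kmat, hmat, Matrix.mul_apply, Matrix.add_apply, Matrix.transpose_apply]
    fun_prop
  fin_cases a <;> fin_cases b <;> simp [dualF, skew6] <;> fun_prop

/-- The density of a current in a chart is bounded above and below on compact sets. -/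
lemma exists_dens_bounds (hLF : LinearFacts) {J w : X → M} (hJ : IsACX J) (hw : IsHerm J w)
    {μ : Measure X} {Θ : X → M} (h : IsCurrent J w μ Θ) (p : X) {K : Set E}
    (hK : K ⊆ (chartAt E p).target) (hKc : IsCompact K) :
    ∃ C : ℝ, 1 ≤ C ∧ ∀ᵐ y ∂chartMeas p μ, y ∈ K →
      trc (repEnd p J y) (rep p Θ y) / |pfq (rep p w y) (rep p w y)| ≤ C ∧
      C⁻¹ ≤ trc (repEnd p J y) (rep p Θ y) / |pfq (rep p w y) (rep p w y)| := by
  obtain ⟨A⟩ := nonempty_atlas (X := X)
  set c := chartAt E p
  set t := c.target
  have hJc : ∀ a b, ContinuousOn (fun y => repEnd p J y a b) t := fun a b =>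
    (hJ.smooth p a b).continuousOn
  obtain ⟨χ, hχ1, hχ2, hχ3, hχ4⟩ := exists_cutoff
    (hKc.image_of_continuousOn (c.continuousOn_symm.mono hK)) c.open_source
    (by rintro _ ⟨y, hy, rfl⟩; exact c.map_target (hK hy))
  set a : E → M := fun y => χ (c.symm y) • dualF (-kmat (repEnd p J y))
  have hu : IsContForm (ext p a) := by
    refine isContForm_ext p (hχ2.image_of_continuousOn (c.continuousOn.mono hχ3)) ?_
      (fun y hy hn => ?_) (fun i j => (continuousOn_read hχ1.continuous p).mul
        (continuousOn_kmat hJc i j)) (fun y hy => by simp [a, skew_dualF])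
    · rintro _ ⟨z, hz, rfl⟩
      exact c.map_source (hχ3 hz)
    · have : χ (c.symm y) = 0 :=
        image_eq_zero_of_notMem_tsupport fun h' => hn ⟨_, h', c.right_inv hy⟩
      simp [a, this]
  obtain ⟨C₁, hC₁⟩ := exists_pr_bound A hJ hw hu
  set S : Set M := (fun y => repEnd p J y) '' K
  have hS : IsCompact S := hKc.image_of_continuousOn
    (continuousOn_pi.2 fun a => continuousOn_pi.2 fun b => (hJc a b).mono hK)
  obtain ⟨d, hd, hd'⟩ := hLF.2.2.2 S hS fun _ ⟨y, hy, e⟩ => e ▸ repEnd_sq hJ.sq (hK hy)
  have hwsum : ContinuousOn (fun y => ∑ i, ∑ j, |rep p w y i j|) K :=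
    continuousOn_finsetSum _ fun i _ => continuousOn_finsetSum _ fun j _ =>
      ((hw.form.cont.cont p i j).mono hK).abs
  obtain ⟨B, hB⟩ := hKc.exists_bound_of_continuousOn hwsum
  refine ⟨max 1 (max C₁ (6 * |B| / d)), le_max_left _ _, ?_⟩
  filter_upwards [ae_chartMeas p (h.psd.and h.unit), ae_chart_current hJ hw h.psd h.unit p]
    with y ⟨hy, h1, h2⟩ ⟨_, hp, hun, htr⟩ hyK
  have h3 := hC₁ (c.symm y) (Θ (c.symm y)) h1
  rw [h2, mul_one] at h3
  have hne := pfq_rep_herm_ne_zero hJ hw (p := p) hy
  constructor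
  · refine le_trans ?_ ((h3.trans (le_max_left C₁ (6 * |B| / d))).trans (le_max_right 1 _))
    rw [← pr_rep_eq' p hw h1.skew (hu.skew _) hy, rep_ext _ hy]
    simp only [a, hχ4 _ ⟨y, hyK, rfl⟩, one_smul, pr]
    rw [pfq_comm (rep p Θ y), ← trc_eq_pfq _ hp.skew, abs_div]
    gcongr
    exact le_abs_self _
  · have htrc := ((hd' _ ⟨y, hyK, rfl⟩).2.1 _ hp).2
    set N := ∑ i, ∑ j, |rep p Θ y i j|
    have hN : ∀ i j, |rep p Θ y i j| ≤ N := fun i j =>
      (Finset.single_le_sum (f := fun j => |rep p Θ y i j|) (fun _ _ => abs_nonneg _)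
        (Finset.mem_univ j)).trans (Finset.single_le_sum (f := fun i => ∑ j, |rep p Θ y i j|)
          (fun _ _ => Finset.sum_nonneg fun _ _ => abs_nonneg _) (Finset.mem_univ i))
    have hW : ∀ i j, |rep p w y i j| ≤ |B| := fun i j => by
      refine le_trans ?_ ((Real.le_norm_self _).trans ((hB y hyK).trans (le_abs_self B)))
      exact (Finset.single_le_sum (f := fun j => |rep p w y i j|) (fun _ _ => abs_nonneg _)
        (Finset.mem_univ j)).trans (Finset.single_le_sum (f := fun i => ∑ j, |rep p w y i j|)
          (fun _ _ => Finset.sum_nonneg fun _ _ => abs_nonneg _) (Finset.mem_univ i))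
    have hpf : |pfq (rep p Θ y) (rep p w y)| ≤ 6 * |B| * N := by
      have hm : ∀ i j k l, |rep p Θ y i j * rep p w y k l| ≤ N * |B| := fun i j k l => by
        rw [abs_mul]
        exact mul_le_mul (hN i j) (hW k l) (abs_nonneg _) ((abs_nonneg _).trans (hN i j))
      rw [abs_le]
      simp only [pfq]
      have := abs_le.1 (hm 0 1 2 3)
      have := abs_le.1 (hm 0 2 1 3)
      have := abs_le.1 (hm 0 3 1 2)
      have := abs_le.1 (hm 2 3 0 1)
      have := abs_le.1 (hm 1 3 0 2)
      have := abs_le.1 (hm 1 2 0 3)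
      constructor <;> linarith
    rw [pr, div_eq_one_iff_eq hne] at hun
    rw [hun] at hpf
    have hB6 : 6 * |B| / d ≤ max 1 (max C₁ (6 * |B| / d)) :=
      (le_max_right _ _).trans (le_max_right _ _)
    rw [div_le_iff₀ hd] at hB6
    rw [le_div_iff₀ (abs_pos.2 hne), inv_mul_le_iff₀ (lt_max_of_lt_left one_pos)]
    calc |pfq (rep p w y) (rep p w y)| ≤ 6 * |B| * N := hpf
      _ ≤ max 1 (max C₁ (6 * |B| / d)) * d * N :=
          mul_le_mul_of_nonneg_right hB6 ((abs_nonneg _).trans (hN 0 0))
      _ ≤ max 1 (max C₁ (6 * |B| / d)) * trc (repEnd p J y) (rep p Θ y) := by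
          rw [mul_assoc]
          exact mul_le_mul_of_nonneg_left htrc (le_trans zero_le_one (le_max_left _ _))

/-- A current read in a chart is a positive current there. -/
theorem IsCurrent.isPosCurrent {J w : X → M} (hJ : IsACX J) (hw : IsHerm J w) {μ : Measure X}
    {Θ : X → M} (h : IsCurrent J w μ Θ) (p : X) :
    IsPosCurrent (chartAt E p).target (repEnd p J) (locMeas p J w μ Θ)
      (fun y i j => (chartAt E p).target.indicator (fun x => locField p J Θ x i j) y) := by
  classical
  have := h.finite
  have hfin := isFiniteMeasure_chartMeas p μ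
  obtain ⟨A⟩ := nonempty_atlas (X := X)
  set t := (chartAt E p).target
  set c := chartAt E p
  have hJc : ∀ a b, ContinuousOn (fun y => repEnd p J y a b) t := fun a b =>
    (hJ.smooth p a b).continuousOn
  have hkm : ∀ a b, Measurable (t.indicator fun y => kmat (repEnd p J y) a b) := fun a b => by
    refine measurable_indicator_of_continuousOn c.open_target ?_
    simp only [kmat, hmat, Matrix.mul_apply, Matrix.add_apply, Matrix.transpose_apply]
    fun_prop
  have htr : Measurable (t.indicator fun y => trc (repEnd p J y) (rep p Θ y)) := by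
    have : (t.indicator fun y => trc (repEnd p J y) (rep p Θ y)) = fun y => -∑ a, ∑ b,
        t.indicator (fun y => kmat (repEnd p J y) a b) y *
          t.indicator (fun y => rep p Θ y a b) y := by
      funext y
      by_cases hy : y ∈ t <;> simp [trc, hy]
    rw [this]
    exact (Finset.measurable_sum _ fun a _ => Finset.measurable_sum _ fun b _ =>
      (hkm a b).mul (h.meas p a b)).neg
  have hpw : Measurable (t.indicator fun y => |pfq (rep p w y) (rep p w y)|) := by
    refine measurable_indicator_of_continuousOn c.open_target ?_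
    have := hw.form.cont.cont p
    simp only [pfq]
    fun_prop
  set D : E → ℝ := fun y => t.indicator (fun y => trc (repEnd p J y) (rep p Θ y)) y /
    t.indicator (fun y => |pfq (rep p w y) (rep p w y)|) y with hD
  have hDm : Measurable D := htr.div hpw
  have hbase := ae_chart_current hJ hw h.psd h.unit p
  have hloc : locMeas p J w μ Θ = (chartMeas p μ).withDensity fun y => ENNReal.ofReal (D y) := by
    refine withDensity_congr_ae ?_
    filter_upwards [hbase] with y hy
    simp [D, t, hy.1]
  have hae : ∀ {P : E → Prop}, (∀ᵐ y ∂chartMeas p μ, P y) →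
      ∀ᵐ y ∂(locMeas p J w μ Θ).restrict t, P y := fun hP => by
    rw [hloc]
    exact ae_restrict_of_ae ((withDensity_absolutelyContinuous _ _).ae_le hP)
  constructor
  · intro K hK hKc
    obtain ⟨χ, hχ1, hχ2, hχ3, hχ4⟩ := exists_cutoff
      (hKc.image_of_continuousOn (c.continuousOn_symm.mono hK)) c.open_source
      (by rintro _ ⟨y, hy, rfl⟩; exact c.map_target (hK hy))
    set a : E → M := fun y => χ (c.symm y) • dualF (-kmat (repEnd p J y))
    have hu : IsContForm (ext p a) := by
      refine isContForm_ext p (hχ2.image_of_continuousOn (c.continuousOn.mono hχ3)) ?_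
        (fun y hy hn => ?_) (fun i j => (continuousOn_read hχ1.continuous p).mul
          (continuousOn_kmat hJc i j)) (fun y hy => by simp [a, skew_dualF])
      · rintro _ ⟨z, hz, rfl⟩
        exact c.map_source (hχ3 hz)
      · have : χ (c.symm y) = 0 :=
          image_eq_zero_of_notMem_tsupport fun h' => hn ⟨_, h', c.right_inv hy⟩
        simp [a, this]
    obtain ⟨C, hC⟩ := exists_pr_bound A hJ hw hu
    have hb : ∀ᵐ y ∂chartMeas p μ, y ∈ K → D y ≤ C := by
      filter_upwards [ae_chartMeas p (h.psd.and h.unit)] with y ⟨hy, h1, h2⟩ hyK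
      have h3 := hC (c.symm y) (Θ (c.symm y)) h1
      rw [h2, mul_one] at h3
      refine le_trans ?_ h3
      have hval : pr (rep p w y) (rep p Θ y) (rep p (ext p a) y) =
          pr (w (c.symm y)) (Θ (c.symm y)) (ext p a (c.symm y)) := by
        rw [rep, rep, rep]
        exact pr_congr (isUnit_chg (c.map_target hy) (mem_chart_source E _)) (hw.form.skew _)
          h1.skew (hu.skew _)
      rw [← hval, rep_ext _ hy]
      have hsk : (rep p Θ y)ᵀ = -rep p Θ y := skew_congr _ h1.skew
      simp only [a, hχ4 _ ⟨y, hyK, rfl⟩, one_smul, pr]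
      rw [pfq_comm (rep p Θ y), ← trc_eq_pfq _ hsk, abs_div]
      simp only [D, t, indicator_of_mem hy]
      gcongr
      exact le_abs_self _
    have hKm : MeasurableSet K := hKc.measurableSet
    calc locMeas p J w μ Θ K = ∫⁻ y in K, ENNReal.ofReal (D y) ∂chartMeas p μ := by
          rw [hloc, withDensity_apply _ hKm]
      _ ≤ ∫⁻ y in K, ENNReal.ofReal C ∂chartMeas p μ := by
          refine setLIntegral_mono_ae measurable_const.aemeasurable ?_
          filter_upwards [hb] with y hy hyK
          exact ENNReal.ofReal_le_ofReal (hy hyK)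
      _ < ⊤ := by
          rw [setLIntegral_const]
          exact ENNReal.mul_lt_top ENNReal.ofReal_lt_top (measure_lt_top _ _)
  · intro i j
    have : (fun y => t.indicator (fun x => locField p J Θ x i j) y) = fun y =>
        (t.indicator (fun y => trc (repEnd p J y) (rep p Θ y)) y)⁻¹ *
          t.indicator (fun y => rep p Θ y i j) y := by
      funext y
      by_cases hy : y ∈ t <;> simp [locField, hy]
    rw [this]
    exact htr.inv.mul (h.meas p i j)
  · refine hae (hbase.mono fun y hy => ?_)
    have e : (fun i j => t.indicator (fun x => locField p J Θ x i j) y) = locField p J Θ y := by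
      funext i j; exact indicator_of_mem hy.1 _
    rw [e]
    exact psd_smul (inv_nonneg.2 hy.2.2.2.le) hy.2.1
  · refine hae (hbase.mono fun y hy => ?_)
    have e : (fun i j => t.indicator (fun x => locField p J Θ x i j) y) = locField p J Θ y := by
      funext i j; exact indicator_of_mem hy.1 _
    rw [e, locField]
    simp only [trc, Matrix.smul_apply, smul_eq_mul]
    have htpos := hy.2.2.2
    simp only [trc] at htpos
    rw [← mul_inv_cancel₀ htpos.ne', mul_comm]
    simp only [Finset.mul_sum, mul_neg, neg_inj]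
    exact Finset.sum_congr rfl fun a _ => Finset.sum_congr rfl fun b _ => by ring
  · intro φ hφ i j k
    set η := triple i j k
    set σ : E → ℝ := fun y => Real.sign (pfq (rep p w y) (rep p w y))
    set a : E → E := fun y l => σ y * φ y * η l
    have hwc : ContinuousOn (fun y => pfq (rep p w y) (rep p w y)) t := by
      have := hw.form.cont.cont p
      simp only [pfq]
      fun_prop
    have hσ : ∀ y ∈ t, ∀ᶠ x in 𝓝 y, σ x = σ y := fun y hy => by
      have hc := hwc.continuousAt (c.open_target.mem_nhds hy)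
      rcases lt_or_gt_of_ne (pfq_rep_herm_ne_zero hJ hw hy) with h0 | h0
      · filter_upwards [hc.eventually (gt_mem_nhds h0)] with x hx
        simp [σ, Real.sign_of_neg hx, Real.sign_of_neg h0]
      · filter_upwards [hc.eventually (lt_mem_nhds h0)] with x hx
        simp [σ, Real.sign_of_pos hx, Real.sign_of_pos h0]
    set g : E → E := fun y l => pd l φ y
    have hK0 : ∀ y ∈ t, y ∉ tsupport φ → a y = 0 := fun y _ hy => by
      funext l; simp [a, image_eq_zero_of_notMem_tsupport hy]
    have hac : ∀ l, ContDiffOn ℝ ∞ (fun y => a y l) t := fun l y hy => by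
      refine (ContDiffAt.congr_of_eventuallyEq
        ((contDiffAt_const (c := σ y)).mul hφ.smooth.contDiffAt |>.mul
          (contDiffAt_const (c := η l))) ?_).contDiffWithinAt
      filter_upwards [hσ y hy] with x hx
      simp [a, hx]
    have hS : IsForm1 (ext1 p a) := isForm1_ext1 hφ.compact hφ.supp hK0 hac
    have hdX : dX (ext1 p a) = ext p (dOne a) := dX_ext1 hφ.compact hφ.supp hK0 hac
    have hdO : ∀ y ∈ t, dOne a y =
        σ y • Matrix.of fun r s => g y r * η s - g y s * η r := fun y hy => by
      have hd : ∀ l m, pd m (fun x => a x l) y = σ y * (g y m * η l) := fun l m => by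
        have he : (fun x => a x l) =ᶠ[𝓝 y] fun x => σ y * η l * φ x := by
          filter_upwards [hσ y hy] with x hx
          simp [a, hx]
          ring
        simp only [pd, g, he.fderiv_eq]
        rw [fderiv_const_mul (hφ.smooth.differentiable (by simp) y)]
        simp
        ring
      ext r s
      simp [dOne, hd]
      ring
    set F : E → ℝ := fun y =>
      t.indicator (fun x => locField p J Θ x j k) y * pd i φ y +
      t.indicator (fun x => locField p J Θ x k i) y * pd j φ y +
      t.indicator (fun x => locField p J Θ x i j) y * pd k φ y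
    show ∫ y, F y ∂locMeas p J w μ Θ = 0
    set G : E → ℝ := fun y => (t.indicator (fun x => rep p Θ x j k) y * g y i +
      t.indicator (fun x => rep p Θ x k i) y * g y j +
      t.indicator (fun x => rep p Θ x i j) y * g y k) /
      t.indicator (fun y => |pfq (rep p w y) (rep p w y)|) y
    have hGm : Measurable G := by
      have hgc : ∀ l, Measurable fun y => g y l := fun l =>
        ((hφ.smooth.continuous_fderiv (by simp)).clm_apply continuous_const).measurable
      exact ((((h.meas p j k).mul (hgc i)).add ((h.meas p k i).mul (hgc j))).add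
        ((h.meas p i j).mul (hgc k))).div hpw
    have hG0 : ∫ y, G y ∂chartMeas p μ = 0 := by
      rw [integral_chartMeas p μ hGm]
      refine Eq.trans (integral_congr_ae ?_) (h.closed _ hS)
      filter_upwards [h.psd] with z hz
      rw [hdX]
      by_cases hzs : z ∈ c.source
      · have hy := c.map_source hzs
        rw [indicator_of_mem hzs]
        have hsk : (rep p Θ (c z))ᵀ = -rep p Θ (c z) := by
          refine skew_congr _ ?_
          rw [c.left_inv hzs]
          exact hz.skew
        have hd2 : (dOne a (c z))ᵀ = -dOne a (c z) := by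
          ext r s; simp [dOne]
        have hdet := isUnit_chg (p := z) (q := p) (mem_chart_source E z) hzs
        simp only [ext, c, if_pos hzs]
        rw [eq_rep w hzs, eq_rep Θ hzs, pr_congr hdet (skew_rep hw.form.skew _ _) hsk hd2, pr,
          hdO _ hy, pfq_comm, pfq_smul_left, pfq_comm, pfq_triple hsk]
        have hne := pfq_rep_herm_ne_zero hJ hw (p := p) hy
        simp only [G, t, c, σ, indicator_of_mem hy]
        simp only [c] at hne ⊢
        rcases lt_or_gt_of_ne hne with h0 | h0
        · rw [Real.sign_of_neg h0, abs_of_neg h0]; field_simp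
        · rw [Real.sign_of_pos h0, abs_of_pos h0]; field_simp
      · simp [ext, c, hzs, pr, pfq]
    have hDae : ∀ᵐ y ∂chartMeas p μ, (ENNReal.ofReal (D y)).toReal • F y = G y := by
      filter_upwards [hbase] with y ⟨hy, hp, hu, htpos⟩
      have hne : pfq (rep p w y) (rep p w y) ≠ 0 := pfq_rep_herm_ne_zero hJ hw hy
      simp only [D, F, G, g, t, indicator_of_mem hy, locField, Matrix.smul_apply, smul_eq_mul]
      rw [ENNReal.toReal_ofReal (div_nonneg htpos.le (abs_nonneg _))]
      field_simp
    rw [hloc, integral_withDensity_eq_integral_toReal_smul hDm.ennreal_ofReal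
      (Filter.Eventually.of_forall fun y => ENNReal.ofReal_lt_top)]
    rw [integral_congr_ae hDae, hG0]

end Mfd

end Vale.Agent.P204.Tame
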