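import Vale.Agent.P204.Tame.EllipticTools
import Vale.Agent.P204.Tame.Mfd.Current

/-!
P204: the volume of a Hermitian form in a chart, continuity of pairings, and Stokes' formula.
-/

namespace Vale.Agent.P204.Tame.Mfd

open scoped ContDiff Manifold Matrix Topology ENNReal
open MeasureTheory Set

lemma sum_dualF (u : M) (i k : Fin 4) :
    ∑ r, ∑ s, u r s * dualF (Matrix.single r s 1) i k = dualF u i k := by
  fin_cases i <;> fin_cases k <;>
    simp [dualF, skew6, Matrix.single_apply, mul_sub, Finset.sum_sub_distrib, ite_and]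

lemma wedge_div {θ : M} (hθ : θᵀ = -θ) (av : E) (D : M) (T : Fin 4 → M)
    (hc : ∀ i j k, T i j k + T j k i + T k i j = 0) :
    ∑ i, ∑ k, (D i k * dualF θ i k + av k * dualF (T i) i k) =
      2 * pfq (fun r s => D r s - D s r) θ := by
  have s := skew_apply hθ
  simp [Fin.sum_univ_four, dualF, skew6, pfq, s 0 1, s 0 2, s 0 3, s 1 2, s 1 3, s 2 3]
  linear_combination (-av 0) * hc 1 2 3 + av 0 * hc 1 3 2 + av 1 * hc 0 2 3 - av 1 * hc 0 3 2 +
    (-av 2) * hc 0 1 3 + av 2 * hc 0 3 1 + av 3 * hc 0 1 2 - av 3 * hc 0 2 1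

/-- A one-form with compact support in an open set pairs to zero with a closed two-form. -/
lemma stokes_local {V : Set E} (hV : IsOpen V) {a : E → E} {θ : E → M}
    (ha : ∀ i, IsTest V fun x => a x i) (hθ : ∀ i j, ContDiffOn ℝ ∞ (fun x => θ x i j) V)
    (hs : ∀ x ∈ V, (θ x)ᵀ = -θ x)
    (hcl : ∀ x ∈ V, ∀ i j k, pd i (fun y => θ y j k) x + pd j (fun y => θ y k i) x
      + pd k (fun y => θ y i j) x = 0) :
    ∫ x, pfq (dOne a x) (θ x) = 0 := by
  set κ : Fin 4 → Fin 4 → Fin 4 → Fin 4 → ℝ := fun i k r s => dualF (Matrix.single r s 1) i k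
  have hp : ∀ k r s, IsTest V fun x => a x k * θ x r s := fun k r s =>
    (ha k).mul_smooth hV (hθ r s)
  set W : Fin 4 → E → ℝ := fun i x => ∑ k, ∑ r, ∑ s, κ i k r s * (a x k * θ x r s)
  have hW : ∀ i, ContDiff ℝ ∞ (W i) ∧ HasCompactSupport (W i) := fun i =>
    ⟨ContDiff.sum fun k _ => ContDiff.sum fun r _ => ContDiff.sum fun s _ =>
      contDiff_const.mul (hp k r s).smooth, by
      refine HasCompactSupport.of_support_subset_isCompact
        (isCompact_iUnion fun k : Fin 4 => (ha k).compact) fun x hx => ?_
      by_contra hn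
      simp only [mem_iUnion, not_exists] at hn
      exact hx (by simp [W, fun k => image_eq_zero_of_notMem_tsupport (hn k)])⟩
  have key : ∀ x, ∑ i, pd i (W i) x = 2 * pfq (dOne a x) (θ x) := by
    intro x
    by_cases hx : x ∈ V
    · have da : ∀ k, DifferentiableAt ℝ (fun y => a y k) x := fun k =>
        (ha k).smooth.differentiable (by simp) x
      have dt : ∀ r s, DifferentiableAt ℝ (fun y => θ y r s) x := fun r s =>
        ((hθ r s).contDiffAt (hV.mem_nhds hx)).differentiableAt (by simp)
      set T : Fin 4 → M := fun m r s => pd m (fun y => θ y r s) x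
      have hWd : ∀ i, pd i (W i) x = ∑ k, (pd i (fun y => a y k) x * dualF (θ x) i k +
          a x k * dualF (T i) i k) := by
        intro i
        simp only [W]
        rw [pd_sum _ fun k _ => DifferentiableAt.fun_sum fun r _ => DifferentiableAt.fun_sum
          fun s _ => ((da k).fun_mul (dt r s)).const_mul _]
        refine Finset.sum_congr rfl fun k _ => ?_
        rw [pd_sum _ fun r _ => DifferentiableAt.fun_sum
          fun s _ => ((da k).fun_mul (dt r s)).const_mul _, ← sum_dualF (θ x), ← sum_dualF (T i),
          Finset.mul_sum, Finset.mul_sum, ← Finset.sum_add_distrib]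
        refine Finset.sum_congr rfl fun r _ => ?_
        rw [pd_sum _ fun s _ => ((da k).fun_mul (dt r s)).const_mul _, Finset.mul_sum,
          Finset.mul_sum, ← Finset.sum_add_distrib]
        refine Finset.sum_congr rfl fun s _ => ?_
        rw [pd_mul _ (differentiableAt_const _) ((da k).fun_mul (dt r s)),
          pd_mul _ (da k) (dt r s)]
        simp [pd, T, κ]
        ring
      simp only [hWd]
      exact wedge_div (hs x hx) (a x) (fun i k => pd i (fun y => a y k) x) T (hcl x hx)
    · have h0 : ∀ k, (fun y => a y k) =ᶠ[𝓝 x] fun _ => (0 : ℝ) := fun k =>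
        notMem_tsupport_iff_eventuallyEq.1 fun h => hx ((ha k).supp h)
      have hW0 : ∀ i, W i =ᶠ[𝓝 x] fun _ => (0 : ℝ) := fun i => by
        filter_upwards [h0 0, h0 1, h0 2, h0 3] with y h1 h2 h3 h4
        simp [W, Fin.sum_univ_four, h1, h2, h3, h4]
      simp [pfq, dOne, pd, (hW0 _).fderiv_eq, (h0 _).fderiv_eq]
  have hint : ∀ i, Integrable (pd i (W i)) := fun i =>
    (contDiff_pd (hW i).1 i).continuous.integrable_of_hasCompactSupport
      (hasCompactSupport_pd (hW i).2 i)
  have h2 : (2 : ℝ) * ∫ x, pfq (dOne a x) (θ x) = 0 := by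
    rw [← integral_const_mul]
    simp only [← key]
    rw [integral_finsetSum _ fun i _ => hint i]
    exact Finset.sum_eq_zero fun i _ => integral_pd_compact (hW i).1 (hW i).2 i
  linarith

lemma continuousOn_pfq {s : Set E} {a b : E → M}
    (ha : ∀ i j, ContinuousOn (fun y => a y i j) s)
    (hb : ∀ i j, ContinuousOn (fun y => b y i j) s) : ContinuousOn (fun y => pfq (a y) (b y)) s := by
  simp only [pfq]
  exact ((((((ha 0 1).mul (hb 2 3)).sub ((ha 0 2).mul (hb 1 3))).add ((ha 0 3).mul (hb 1 2))).add
    ((hb 0 1).mul (ha 2 3))).sub ((hb 0 2).mul (ha 1 3))).add ((hb 0 3).mul (ha 1 2))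

variable {X : Type} [TopologicalSpace X] [ChartedSpace E X] [IsManifold 𝓘(ℝ, E) ∞ X]

/-- Pairings of continuous forms are continuous. -/
lemma continuous_pr {J w a b : X → M} (hJ : IsACX J) (hw : IsHerm J w) (ha : IsContForm a)
    (hb : IsContForm b) : Continuous fun z => pr (w z) (a z) (b z) := by
  rw [continuous_iff_continuousAt]
  intro z
  set c := chartAt E z
  have hwc := hw.form.cont.cont z
  have hac := ha.cont z
  have hbc := hb.cont z
  have hin : ContinuousOn (fun y => pr (rep z w y) (rep z a y) (rep z b y)) c.target := by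
    have h1 : ContinuousOn (fun y => pfq (rep z a y) (rep z b y)) c.target :=
      continuousOn_pfq hac hbc
    have h2 : ContinuousOn (fun y => pfq (rep z w y) (rep z w y)) c.target :=
      continuousOn_pfq hwc hwc
    exact h1.div h2 fun y hy => pfq_rep_herm_ne_zero hJ hw hy
  refine ((hin.continuousAt (c.open_target.mem_nhds (c.map_source (mem_chart_source E z)))).comp
    (c.continuousAt (mem_chart_source E z))).congr ?_
  filter_upwards [c.open_source.mem_nhds (mem_chart_source E z)] with x hx
  show pr (rep z w (c x)) (rep z a (c x)) (rep z b (c x)) = _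
  rw [rep, rep, rep, pr_congr (isUnit_chg (c.map_target (c.map_source hx)) (mem_chart_source E _))
    (hw.form.skew _) (ha.skew _) (hb.skew _), c.left_inv hx]

variable [MeasurableSpace X] [BorelSpace X] [T2Space X]

omit [IsManifold 𝓘(ℝ, E) ∞ X] [T2Space X] in
lemma measurableSet_read {p : X} {s : Set X} (hs : MeasurableSet s) :
    MeasurableSet ((chartAt E p).target ∩ (chartAt E p).symm ⁻¹' s) := by
  classical
  have hm : Measurable ((chartAt E p).target.piecewise (chartAt E p).symm fun _ => p) :=
    (chartAt E p).continuousOn_symm.measurable_piecewise continuousOn_const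
      (chartAt E p).open_target.measurableSet
  have he : (chartAt E p).target ∩ (chartAt E p).symm ⁻¹' s = (chartAt E p).target ∩
      (chartAt E p).target.piecewise (chartAt E p).symm (fun _ => p) ⁻¹' s := by
    ext y
    by_cases hy : y ∈ (chartAt E p).target <;> simp [hy]
  rw [he]
  exact (chartAt E p).open_target.measurableSet.inter (hm hs)

omit [IsManifold 𝓘(ℝ, E) ∞ X] [T2Space X] in
lemma aemeasurable_symm (p : X) (f : E → ℝ≥0∞) : AEMeasurable (chartAt E p).symm
    ((volume.restrict (chartAt E p).target).withDensity f) :=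
  ((chartAt E p).continuousOn_symm.aemeasurable (chartAt E p).open_target.measurableSet).mono'
    (withDensity_absolutelyContinuous _ _)

omit [T2Space X] in
lemma isFiniteMeasure_vol (A : Atlas X) {J w : X → M} (hw : IsHerm J w) :
    IsFiniteMeasure (vol A w) := by
  constructor
  rw [vol, Measure.coe_finsetSum, Finset.sum_apply]
  refine ENNReal.sum_lt_top.2 fun i _ => ?_
  set c := chartAt E (A.c i)
  set F : E → ℝ := fun y => A.φ i (c.symm y) * |pfq (rep (A.c i) w y) (rep (A.c i) w y)|
  rw [Measure.map_apply_of_aemeasurable (aemeasurable_symm _ _) MeasurableSet.univ,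
    preimage_univ, withDensity_apply _ MeasurableSet.univ, Measure.restrict_univ]
  have hK : IsCompact (c '' tsupport (A.φ i)) :=
    (A.φ_supp i).1.image_of_continuousOn (c.continuousOn.mono (A.φ_supp i).2)
  have hKt : c '' tsupport (A.φ i) ⊆ c.target := by
    rintro _ ⟨z, hz, rfl⟩
    exact c.map_source ((A.φ_supp i).2 hz)
  have hF : ContinuousOn F c.target := by
    exact (continuousOn_read (A.φ_smooth i).continuous _).mul
      (continuousOn_pfq (hw.form.cont.cont (A.c i)) (hw.form.cont.cont (A.c i))).abs
  obtain ⟨B, hB⟩ := hK.exists_bound_of_continuousOn (hF.mono hKt)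
  calc ∫⁻ y in c.target, ENNReal.ofReal (F y)
      ≤ ∫⁻ y in c.target, (c '' tsupport (A.φ i)).indicator (fun _ => ENNReal.ofReal B) y := by
        refine setLIntegral_mono (measurable_const.indicator hK.measurableSet) fun y hy => ?_
        by_cases hyK : y ∈ c '' tsupport (A.φ i)
        · rw [indicator_of_mem hyK]
          exact ENNReal.ofReal_le_ofReal ((Real.le_norm_self _).trans (hB y hyK))
        · have : A.φ i (c.symm y) = 0 :=
            image_eq_zero_of_notMem_tsupport fun h => hyK ⟨_, h, c.right_inv hy⟩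
          simp [F, this]
    _ ≤ ∫⁻ y, (c '' tsupport (A.φ i)).indicator (fun _ => ENNReal.ofReal B) y :=
        setLIntegral_le_lintegral _ _
    _ < ⊤ := by
        rw [lintegral_indicator_const hK.measurableSet]
        exact ENNReal.mul_lt_top ENNReal.ofReal_lt_top hK.measure_lt_top

/-- The volume read in a chart. -/
theorem chartMeas_vol (A : Atlas X) {J w : X → M} (hw : IsHerm J w) (p : X) :
    chartMeas p (vol A w) = (volume.restrict (chartAt E p).target).withDensity fun y =>
      ENNReal.ofReal |pfq (rep p w y) (rep p w y)| := by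
  classical
  set c := chartAt E p
  ext s hs
  rw [chartMeas, Measure.map_apply_of_aemeasurable (aemeasurable_chart p _) hs,
    Measure.restrict_apply₀' c.open_source.measurableSet.nullMeasurableSet]
  set T := c ⁻¹' s ∩ c.source
  have hT : MeasurableSet T := by
    have hm : Measurable (c.source.piecewise c fun _ => (0 : E)) :=
      c.continuousOn.measurable_piecewise continuousOn_const c.open_source.measurableSet
    have he : T = c.source.piecewise c (fun _ => (0 : E)) ⁻¹' s ∩ c.source := by
      ext z
      by_cases hz : z ∈ c.source <;> simp [T, hz]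
    rw [he]
    exact (hm hs).inter c.open_source.measurableSet
  rw [withDensity_apply _ hs, Measure.restrict_restrict hs, vol, Measure.coe_finsetSum,
    Finset.sum_apply]
  set wp : E → ℝ≥0∞ := fun y => ENNReal.ofReal |pfq (rep p w y) (rep p w y)|
  set f : Fin A.n → E → ℝ≥0∞ := fun i y => ENNReal.ofReal (A.φ i (c.symm y)) * wp y
  have hterm : ∀ i, (((volume.restrict (chartAt E (A.c i)).target).withDensity fun y =>
      ENNReal.ofReal (A.φ i ((chartAt E (A.c i)).symm y) *
        |pfq (rep (A.c i) w y) (rep (A.c i) w y)|)).map (chartAt E (A.c i)).symm) T =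
      ∫⁻ y in s ∩ c.target, f i y := by
    intro i
    set d := chartAt E (A.c i)
    rw [Measure.map_apply_of_aemeasurable (aemeasurable_symm _ _) hT, withDensity_apply',
      Measure.restrict_restrict' d.open_target.measurableSet]
    have hR : MeasurableSet (d.target ∩ d.symm ⁻¹' T) := measurableSet_read hT
    rw [inter_comm (d.symm ⁻¹' T)]
    have hsub : d.target ∩ d.symm ⁻¹' T ⊆ trnDom (A.c i) p := fun y hy => ⟨hy.1, hy.2.2⟩
    have hcv := lintegral_image_eq_lintegral_abs_det_fderiv_mul (volume : Measure E) hR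
      (f := trn (A.c i) p)
      (f' := fun y => tangentCoordChange 𝓘(ℝ, E) (A.c i) p (d.symm y))
      (fun y hy => (hasFDerivAt_trn (hsub hy)).hasFDerivWithinAt)
      (fun y hy y' hy' he => by
        have := congrArg c.symm he
        rw [trn, trn, c.left_inv (hsub hy).2, c.left_inv (hsub hy').2] at this
        exact d.symm.injOn hy.1 hy'.1 this) (f i)
    have himg : trn (A.c i) p '' (d.target ∩ d.symm ⁻¹' T) =
        (s ∩ c.target) ∩ c.symm ⁻¹' d.source := by
      ext x
      constructor
      · rintro ⟨y, ⟨hy, hys, hyc⟩, rfl⟩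
        exact ⟨⟨hys, c.map_source hyc⟩, show c.symm (c (d.symm y)) ∈ d.source by
          rw [c.left_inv hyc]; exact d.map_target hy⟩
      · rintro ⟨⟨hxs, hxt⟩, hxd⟩
        refine ⟨d (c.symm x), ⟨d.map_source hxd, ?_⟩, ?_⟩
        · show d.symm (d (c.symm x)) ∈ T
          rw [d.left_inv hxd]
          exact ⟨show c (c.symm x) ∈ s by rwa [c.right_inv hxt], c.map_target hxt⟩
        · show c (d.symm (d (c.symm x))) = x
          rw [d.left_inv hxd, c.right_inv hxt]
    rw [himg] at hcv
    have hres : ∫⁻ y in (s ∩ c.target) ∩ c.symm ⁻¹' d.source, f i y =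
        ∫⁻ y in s ∩ c.target, f i y := by
      rw [← lintegral_inter_add_sdiff (f i) (s ∩ c.target)
        (c.isOpen_inter_preimage_symm d.open_source).measurableSet (μ := volume)]
      have e1 : (s ∩ c.target) ∩ (c.target ∩ c.symm ⁻¹' d.source) =
          (s ∩ c.target) ∩ c.symm ⁻¹' d.source := by
        ext x; simp only [mem_inter_iff, mem_preimage]; tauto
      rw [e1, setLIntegral_congr_fun (MeasurableSet.diff (hs.inter c.open_target.measurableSet)
        (c.isOpen_inter_preimage_symm d.open_source).measurableSet) (g := fun _ => 0) fun x hx => ?_,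
        lintegral_zero, add_zero]
      have hn : c.symm x ∉ d.source := fun h => hx.2 ⟨hx.1.2, h⟩
      have h0 : A.φ i (c.symm x) = 0 :=
        image_eq_zero_of_notMem_tsupport fun h => hn ((A.φ_supp i).2 h)
      simp [f, h0]
    rw [← hres, hcv]
    refine setLIntegral_congr_fun hR fun y hy => ?_
    have hy' := hsub hy
    have hdet : (tangentCoordChange 𝓘(ℝ, E) (A.c i) p (d.symm y)).det =
        (chg (A.c i) p (d.symm y)).det := by
      rw [chg, LinearMap.det_toMatrix']
    have hpf : |pfq (rep (A.c i) w y) (rep (A.c i) w y)| = |(chg (A.c i) p (d.symm y)).det| *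
        |pfq (rep p w (trn (A.c i) p y)) (rep p w (trn (A.c i) p y))| := by
      rw [rep_trn w hy', pfq_congr_skew _ (skew_rep hw.form.skew _ _) (skew_rep hw.form.skew _ _),
        abs_mul]
    simp only [f, wp, hdet, hpf]
    rw [show c.symm (trn (A.c i) p y) = d.symm y from symm_trn hy']
    rw [ENNReal.ofReal_mul (A.φ_nonneg i _), ENNReal.ofReal_mul (abs_nonneg _)]
    ring
  simp only [hterm]
  rw [← lintegral_finsetSum']
  · refine setLIntegral_congr_fun (hs.inter c.open_target.measurableSet) fun y _ => ?_
    simp only [f, ← Finset.sum_mul, ← ENNReal.ofReal_sum_of_nonneg fun i _ => A.φ_nonneg i _,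
      A.sum_φ, ENNReal.ofReal_one, one_mul, wp]
  · intro i _
    refine AEMeasurable.mono_measure ?_ (Measure.restrict_mono inter_subset_right le_rfl)
    have hwc : ContinuousOn (fun y => |pfq (rep p w y) (rep p w y)|) c.target := by
      exact (continuousOn_pfq (hw.form.cont.cont p) (hw.form.cont.cont p)).abs
    exact (((continuousOn_read (A.φ_smooth i).continuous p).aemeasurable
      c.open_target.measurableSet).ennreal_ofReal).mul
      ((hwc.aemeasurable c.open_target.measurableSet).ennreal_ofReal)

/-- The integral of a function supported in a chart. -/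
lemma integral_vol_chart (A : Atlas X) {J w : X → M} (hw : IsHerm J w) (p : X) {g : X → ℝ}
    (hg : Continuous g) (hsupp : ∀ z ∉ (chartAt E p).source, g z = 0) :
    ∫ z, g z ∂vol A w = ∫ y in (chartAt E p).target,
      |pfq (rep p w y) (rep p w y)| * g ((chartAt E p).symm y) := by
  set c := chartAt E p
  have hG := measurable_symm_read hg.measurable p
  have h1 : ∫ z, g z ∂vol A w =
      ∫ y, c.target.indicator (fun y => g (c.symm y)) y ∂chartMeas p (vol A w) := by
    rw [integral_chartMeas p _ hG]
    refine integral_congr_ae (Filter.Eventually.of_forall fun z => ?_)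
    by_cases hz : z ∈ c.source
    · simp [c, hz, (chartAt E p).map_source hz, (chartAt E p).left_inv hz]
    · simp [c, hz, hsupp z hz]
  have hwc : ContinuousOn (fun y => |pfq (rep p w y) (rep p w y)|) c.target := by
    exact (continuousOn_pfq (hw.form.cont.cont p) (hw.form.cont.cont p)).abs
  rw [h1, chartMeas_vol A hw p, integral_withDensity_eq_integral_toReal_smul₀
    ((hwc.aemeasurable c.open_target.measurableSet).ennreal_ofReal)
    (Filter.Eventually.of_forall fun y => ENNReal.ofReal_lt_top)]
  refine setIntegral_congr_fun c.open_target.measurableSet fun y hy => ?_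
  simp [c, hy]

omit [T2Space X] in
lemma continuous_integrable [CompactSpace X] (A : Atlas X) {J w : X → M} (hw : IsHerm J w)
    {g : X → ℝ} (hg : Continuous g) : Integrable g (vol A w) :=
  have := isFiniteMeasure_vol A hw
  hg.integrable_of_hasCompactSupport (HasCompactSupport.of_compactSpace _)

omit [MeasurableSpace X] [BorelSpace X] [T2Space X] in
lemma isForm_dX {S : X → E} (hS : IsForm1 S) : IsForm (dX S) where
  skew z := by ext i j; simp [dX, dOne]
  smooth p i j := by
    refine ContDiffOn.congr ?_ fun y hy => congrFun (congrFun (rep_dX hS hy) i) j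
    simp only [dOne, pd]
    exact (((hS p j).fderiv_of_isOpen (chartAt E p).open_target le_rfl).clm_apply
      contDiffOn_const).sub (((hS p i).fderiv_of_isOpen (chartAt E p).open_target le_rfl).clm_apply
      contDiffOn_const)

omit [MeasurableSpace X] [BorelSpace X] [T2Space X] in
lemma isClosedX_dX {S : X → E} (hS : IsForm1 S) : IsClosedX (dX S) := by
  intro p y hy i j k
  have hd : ∀ m r, DifferentiableAt ℝ (fun x => pd m (fun v => rep1 p S v r) x) y := fun m r =>
    ((((hS p r).fderiv_of_isOpen (m := ∞) (chartAt E p).open_target le_rfl).clm_apply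
      contDiffOn_const).contDiffAt ((chartAt E p).open_target.mem_nhds hy)).differentiableAt
      (by simp)
  have he : ∀ r s, pd i (fun x => rep p (dX S) x r s) y = pd i (fun x => dOne (rep1 p S) x r s) y ∧
      pd j (fun x => rep p (dX S) x r s) y = pd j (fun x => dOne (rep1 p S) x r s) y ∧
      pd k (fun x => rep p (dX S) x r s) y = pd k (fun x => dOne (rep1 p S) x r s) y := by
    intro r s
    have : (fun x => rep p (dX S) x r s) =ᶠ[𝓝 y] fun x => dOne (rep1 p S) x r s := by
      filter_upwards [(chartAt E p).open_target.mem_nhds hy] with x hx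
      rw [rep_dX hS hx]
    simp only [pd, this.fderiv_eq, and_self]
  rw [(he j k).1, (he k i).2.1, (he i j).2.2]
  simp only [dOne]
  have hsub : ∀ m a b a' b', pd m (fun x => pd a (fun v => rep1 p S v b) x -
      pd a' (fun v => rep1 p S v b') x) y = pd m (pd a fun v => rep1 p S v b) y -
      pd m (pd a' fun v => rep1 p S v b') y := fun m a b a' b' => by
    show fderiv ℝ _ y _ = _
    rw [fderiv_fun_sub (hd a b) (hd a' b'), sub_apply]
    rfl
  have hc : ∀ a b r, pd a (pd b fun v => rep1 p S v r) y = pd b (pd a fun v => rep1 p S v r) y :=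
    fun a b r => pd_comm ((hS p r).contDiffAt ((chartAt E p).open_target.mem_nhds hy)) a b
  rw [hsub, hsub, hsub, hc i j k, hc i k j, hc j k i]
  ring

omit [MeasurableSpace X] [BorelSpace X] [T2Space X] in
lemma isForm1_fun_smul {f : X → ℝ} {S : X → E} (hf : ContMDiff 𝓘(ℝ, E) 𝓘(ℝ) ∞ f)
    (hS : IsForm1 S) : IsForm1 fun z => f z • S z := by
  intro p i
  have h : ∀ y, rep1 p (fun z => f z • S z) y i = f ((chartAt E p).symm y) * rep1 p S y i :=
    fun y => by simp [rep1, Matrix.mulVec_smul]
  simp only [h]
  exact (contDiffOn_read hf p).mul (hS p i)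

/-- Stokes' formula. -/
theorem stokes [CompactSpace X] (A : Atlas X) {J w θ : X → M} (hJ : IsACX J) (hw : IsHerm J w)
    (hθ : IsForm θ) (hcl : IsClosedX θ) {S : X → E} (hS : IsForm1 S) :
    ∫ z, pr (w z) (dX S z) (θ z) ∂vol A w = 0 := by
  set Sj : Fin A.n → X → E := fun j z => A.φ j z • S z
  have hSj : ∀ j, IsForm1 (Sj j) := fun j => isForm1_fun_smul (A.φ_smooth j) hS
  have hsum : ∀ z, dX S z = ∑ j, dX (Sj j) z := by
    intro z
    set c := chartAt E z
    have hd : ∀ j r, DifferentiableAt ℝ (fun v => rep1 z (Sj j) v r) (c z) := fun j r =>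
      ((hSj j z r).contDiffAt (c.open_target.mem_nhds (c.map_source (mem_chart_source E z)))
        ).differentiableAt (by simp)
    have he : ∀ r, (fun v => rep1 z S v r) = fun v => ∑ j, rep1 z (Sj j) v r := fun r => by
      funext v
      simp [Sj, rep1, Matrix.mulVec_smul, ← Finset.sum_mul, A.sum_φ]
    ext i k
    simp only [dX, dOne, pd, Matrix.sum_apply, he]
    rw [fderiv_fun_sum fun j _ => hd j k, fderiv_fun_sum fun j _ => hd j i, sum_apply, sum_apply,
      Finset.sum_sub_distrib]
  have hcont : ∀ j, Continuous fun z => pr (w z) (dX (Sj j) z) (θ z) := fun j =>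
    continuous_pr hJ hw (isForm_dX (hSj j)).cont hθ.cont
  have e : ∀ z, pr (w z) (dX S z) (θ z) = ∑ j, pr (w z) (dX (Sj j) z) (θ z) := fun z => by
    simp only [hsum, pr, pfq_sum_left, Finset.sum_div]
  simp only [e]
  rw [integral_finsetSum _ fun j _ => continuous_integrable A hw (hcont j)]
  refine Finset.sum_eq_zero fun j _ => ?_
  set p := A.c j
  set c := chartAt E p
  set σ : E → ℝ := fun y => Real.sign (pfq (rep p w y) (rep p w y))
  set K := c '' tsupport (A.φ j)
  have hK : IsCompact K := (A.φ_supp j).1.image_of_continuousOn (c.continuousOn.mono (A.φ_supp j).2)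
  have hKt : K ⊆ c.target := by
    rintro _ ⟨z, hz, rfl⟩
    exact c.map_source ((A.φ_supp j).2 hz)
  have h0 : ∀ y ∈ c.target, y ∉ K → A.φ j (c.symm y) = 0 := fun y hy hn =>
    image_eq_zero_of_notMem_tsupport fun h => hn ⟨_, h, c.right_inv hy⟩
  show ∫ z, pr (w z) (dX (Sj j) z) (θ z) ∂vol A w = 0
  have hout : ∀ z ∉ c.source, pr (w z) (dX (Sj j) z) (θ z) = 0 := by
    intro z hz
    have hev : ∀ r, (fun v => rep1 z (Sj j) v r) =ᶠ[𝓝 (chartAt E z z)] fun _ => (0 : ℝ) := by
      intro r
      have ho := (chartAt E z).isOpen_inter_preimage_symm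
        (isClosed_tsupport (A.φ j)).isOpen_compl
      filter_upwards [ho.mem_nhds ⟨(chartAt E z).map_source (mem_chart_source E z), by
        simpa [(chartAt E z).left_inv (mem_chart_source E z)] using
          fun h => hz ((A.φ_supp j).2 h)⟩] with v hv
      simp [Sj, rep1, image_eq_zero_of_notMem_tsupport hv.2]
    have hz0 : dX (Sj j) z = 0 := by
      ext r s
      simp [dX, dOne, pd, (hev _).fderiv_eq]
    simp [hz0, pr, pfq]
  rw [integral_vol_chart A hw p (hcont j) hout]
  set a : E → E := fun y r => c.target.indicator (fun y => σ y * rep1 p (Sj j) y r) y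
  have hwc : ContinuousOn (fun y => pfq (rep p w y) (rep p w y)) c.target := by
    exact continuousOn_pfq (hw.form.cont.cont p) (hw.form.cont.cont p)
  have hσ : ∀ y ∈ c.target, ∀ᶠ x in 𝓝 y, σ x = σ y := fun y hy => by
    have hc := hwc.continuousAt (c.open_target.mem_nhds hy)
    rcases lt_or_gt_of_ne (pfq_rep_herm_ne_zero hJ hw hy) with h | h
    · filter_upwards [hc.eventually (gt_mem_nhds h)] with x hx
      simp [σ, Real.sign_of_neg hx, Real.sign_of_neg h]
    · filter_upwards [hc.eventually (lt_mem_nhds h)] with x hx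
      simp [σ, Real.sign_of_pos hx, Real.sign_of_pos h]
  have ha : ∀ r, IsTest c.target fun y => a y r := by
    intro r
    have hts : tsupport (fun y => a y r) ⊆ K := by
      refine closure_minimal (fun y hy => ?_) hK.isClosed
      by_contra hn
      refine hy ?_
      by_cases hyt : y ∈ c.target
      · simp [a, hyt, Sj, rep1, c, p, h0 y hyt hn]
      · simp [a, hyt]
    refine ⟨contDiff_of_tsupport c.open_target (fun y hy => ?_) (hts.trans hKt),
      hK.of_isClosed_subset (isClosed_tsupport _) hts, hts.trans hKt⟩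
    refine (ContDiffAt.congr_of_eventuallyEq (contDiffAt_const (c := σ y) |>.mul
      ((hSj j p r).contDiffAt (c.open_target.mem_nhds hy))) ?_).contDiffWithinAt
    filter_upwards [hσ y hy, c.open_target.mem_nhds hy] with x hx hxt
    simp [a, hxt, hx]
  have hfin := stokes_local c.open_target ha (hθ.smooth p)
    (fun y _ => skew_rep hθ.skew p y) (fun y hy => hcl p y hy)
  refine Eq.trans ?_ hfin
  rw [← setIntegral_eq_integral_of_forall_compl_eq_zero (s := c.target)
    (f := fun y => pfq (dOne a y) (rep p θ y)) fun y hy => ?_]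
  · refine setIntegral_congr_fun c.open_target.measurableSet fun y hy => ?_
    have hdO : dOne a y = σ y • rep p (dX (Sj j)) y := by
      rw [rep_dX (hSj j) hy]
      have hev : ∀ r, (fun v => a v r) =ᶠ[𝓝 y] fun v => σ y * rep1 p (Sj j) v r := fun r => by
        filter_upwards [hσ y hy, c.open_target.mem_nhds hy] with x hx hxt
        simp [a, hxt, hx]
      have hd : ∀ r, DifferentiableAt ℝ (fun v => rep1 p (Sj j) v r) y := fun r =>
        ((hSj j p r).contDiffAt (c.open_target.mem_nhds hy)).differentiableAt (by simp)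
      ext r s
      simp only [dOne, pd, (hev _).fderiv_eq, fderiv_const_mul (hd _), Matrix.smul_apply,
        smul_eq_mul, smul_apply]
      ring
    simp only [hdO, pfq_smul_left]
    rw [← pr_rep_eq p hw (isForm_dX (hSj j)).skew hθ.skew hy, pr]
    have hne := pfq_rep_herm_ne_zero hJ hw (p := p) hy
    rcases lt_or_gt_of_ne hne with h | h
    · simp only [σ]; rw [Real.sign_of_neg h, abs_of_neg h]; field_simp
    · simp only [σ]; rw [Real.sign_of_pos h, abs_of_pos h]; field_simp
  · have hz : ∀ r s, pd s (fun v => a v r) y = 0 := fun r s => by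
      have : (fun v => a v r) =ᶠ[𝓝 y] fun _ => (0 : ℝ) :=
        notMem_tsupport_iff_eventuallyEq.1 fun h => hy ((ha r).supp h)
      simp [pd, this.fderiv_eq]
    simp [pfq, dOne, hz]

end Vale.Agent.P204.Tame.Mfd
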