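import Vale.Agent.P204.Tame.Linear
import Vale.Agent.P204.Tame.LinearExact
import Vale.Agent.P204.Tame.MeasureLocal
import Vale.Agent.P204.Tame.Mfd.Vol

/-!
P204: removing the poles of a current, given the local removal theorem.
-/

namespace Vale.Agent.P204.Tame.Mfd

open scoped ContDiff Manifold Matrix ENNReal Topology
open MeasureTheory Metric Set Filter

lemma potential_mono {Y : Type*} [MetricSpace Y] [MeasurableSpace Y] {μ ν : Measure Y} (h : μ ≤ ν)
    (x : Y) : potential μ x ≤ potential ν x :=
  lintegral_mono' h le_rfl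

/-- Poles are unchanged under a locally bounded change of density. -/
lemma poleSet_subset_of_le {V : Set E} (hV : IsOpen V) {ν ν' : Measure E}
    (h : ∀ K ⊆ V, IsCompact K → ∃ C : ℝ≥0∞, C ≠ ⊤ ∧
      ∀ s ⊆ K, MeasurableSet s → ν' s ≤ C * ν s) :
    poleSet V ν' ⊆ poleSet V ν := by
  intro x hx
  refine ⟨hx.1, fun δ hδ => ?_⟩
  obtain ⟨r, hr, hball⟩ := nhds_basis_closedBall.mem_iff.1 (hV.mem_nhds hx.1)
  obtain ⟨C, hC, hle⟩ := h _ hball (isCompact_closedBall x r)
  set d := min δ r
  have hm : ν'.restrict (closedBall x d) ≤ C • ν.restrict (closedBall x δ) := by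
    refine Measure.le_iff.2 fun s hs => ?_
    rw [Measure.restrict_apply hs, Measure.smul_apply, Measure.restrict_apply hs, smul_eq_mul]
    refine (hle _ (inter_subset_right.trans (closedBall_subset_closedBall (min_le_right _ _)))
      (hs.inter measurableSet_closedBall)).trans (mul_le_mul_right ?_ C)
    exact measure_mono (inter_subset_inter_right _ (closedBall_subset_closedBall (min_le_left _ _)))
  have h1 := potential_mono hm x
  rw [hx.2 d (lt_min hδ hr), potential, lintegral_smul_measure, smul_eq_mul, top_le_iff] at h1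
  by_contra hne
  exact ENNReal.mul_ne_top hC hne h1

variable {X : Type} [TopologicalSpace X] [ChartedSpace E X] [IsManifold 𝓘(ℝ, E) ∞ X]
  [MeasurableSpace X] [BorelSpace X] [T2Space X] [CompactSpace X]

omit [IsManifold 𝓘(ℝ, E) ∞ X] [T2Space X] [CompactSpace X] in
/-- The chart measures of one measure correspond under the transition maps. -/
lemma chartMeas_trn (p q : X) (μ : Measure X) {s : Set E} (hs : MeasurableSet s)
    (hsd : s ⊆ trnDom q p) {U : Set E} (hU : MeasurableSet U) (hUd : U ⊆ trnDom p q)
    (himg : ∀ y ∈ s, trn q p y ∈ U) :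
    chartMeas q μ s ≤ chartMeas p μ (U ∩ trn p q ⁻¹' s) := by
  classical
  have hm : MeasurableSet (U ∩ trn p q ⁻¹' s) := by
    have ht : Measurable ((trnDom p q).piecewise (trn p q) fun _ => (0 : E)) :=
      ContinuousOn.measurable_piecewise ((chartAt E q).continuousOn.comp
        ((chartAt E p).continuousOn_symm.mono inter_subset_left) fun y hy => hy.2)
        continuousOn_const (isOpen_trnDom p q).measurableSet
    have he : U ∩ trn p q ⁻¹' s = U ∩ (trnDom p q).piecewise (trn p q) (fun _ => (0 : E)) ⁻¹' s := by
      ext y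
      simp only [mem_inter_iff, mem_preimage, and_congr_right_iff]
      intro hy
      rw [piecewise_eq_of_mem _ _ _ (hUd hy)]
    rw [he]
    exact hU.inter (ht hs)
  rw [chartMeas, chartMeas, Measure.map_apply_of_aemeasurable (aemeasurable_chart q μ) hs,
    Measure.map_apply_of_aemeasurable (aemeasurable_chart p μ) hm,
    Measure.restrict_apply₀' (chartAt E q).open_source.measurableSet.nullMeasurableSet,
    Measure.restrict_apply₀' (chartAt E p).open_source.measurableSet.nullMeasurableSet]
  refine measure_mono fun z ⟨hz, hzq⟩ => ?_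
  have hd := hsd hz
  have hzp : z ∈ (chartAt E p).source := by
    have h2 : (chartAt E q).symm (chartAt E q z) ∈ (chartAt E p).source := hd.2
    rwa [(chartAt E q).left_inv hzq] at h2
  refine ⟨⟨?_, ?_⟩, hzp⟩
  · have h := himg _ hz
    rwa [trn, (chartAt E q).left_inv hzq] at h
  · show trn p q (chartAt E p z) ∈ s
    rw [trn, (chartAt E p).left_inv hzp]
    exact hz

omit [T2Space X] [CompactSpace X] in
/-- Poles read in two charts. -/
lemma poleSet_trn (p q : X) (μ : Measure X) {y : E} (hy : y ∈ trnDom p q)
    (h : trn p q y ∈ poleSet (chartAt E q).target (chartMeas q μ)) :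
    y ∈ poleSet (chartAt E p).target (chartMeas p μ) := by
  refine poleSet_of_map_le (C := 1) ENNReal.one_ne_top (U := trnDom p q) (U' := trnDom q p)
    (t := trn p q) (g := trn q p) (isOpen_trnDom p q) (isOpen_trnDom q p) hy hy.1
    (contDiffOn_trn p q).continuousOn (fun x hx => ⟨trn_mem hx, ?_⟩) (fun x hx => ?_)
    ((contDiffOn_trn q p).of_le (WithTop.coe_le_coe.2 le_top)) (fun s hs hsm => ?_) h
  · show (chartAt E q).symm (trn p q x) ∈ (chartAt E p).source
    rw [symm_trn hx]
    exact (chartAt E p).map_target hx.1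
  · rw [trn, symm_trn hx, (chartAt E p).right_inv hx.1]
  · rw [one_mul]
    refine chartMeas_trn p q μ hsm hs (isOpen_trnDom p q).measurableSet subset_rfl fun x hx => ?_
    refine ⟨trn_mem (hs hx), ?_⟩
    show (chartAt E p).symm (trn q p x) ∈ (chartAt E q).source
    rw [symm_trn (hs hx)]
    exact (chartAt E q).map_target (hs hx).1

/-- The two local measures of a current have the same poles and are comparable on compact sets. -/
lemma locMeas_comparable {J w : X → M} (hJ : IsACX J) (hw : IsHerm J w) {μ : Measure X}
    {Θ : X → M} (h : IsCurrent J w μ Θ) (p : X) {K : Set E} (hK : K ⊆ (chartAt E p).target)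
    (hKc : IsCompact K) :
    ∃ C : ℝ≥0∞, C ≠ ⊤ ∧ ∀ s ⊆ K, MeasurableSet s →
      locMeas p J w μ Θ s ≤ C * chartMeas p μ s ∧ chartMeas p μ s ≤ C * locMeas p J w μ Θ s := by
  obtain ⟨C, hC1, hC⟩ := exists_dens_bounds linearFacts hJ hw h p hK hKc
  refine ⟨ENNReal.ofReal C, ENNReal.ofReal_ne_top, fun s hs hsm => ?_⟩
  have hC0 : 0 < C := by linarith
  rw [show locMeas p J w μ Θ s = _ from withDensity_apply _ hsm]
  have hb : ∀ᵐ y ∂(chartMeas p μ).restrict s,
      trc (repEnd p J y) (rep p Θ y) / |pfq (rep p w y) (rep p w y)| ≤ C ∧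
      C⁻¹ ≤ trc (repEnd p J y) (rep p Θ y) / |pfq (rep p w y) (rep p w y)| := by
    filter_upwards [ae_restrict_of_ae hC, ae_restrict_mem hsm] with y hy hys
    exact hy (hs hys)
  constructor
  · refine (lintegral_mono_ae (hb.mono fun y hy => ENNReal.ofReal_le_ofReal hy.1)).trans_eq ?_
    rw [setLIntegral_const]
  · rw [← lintegral_const_mul' _ _ ENNReal.ofReal_ne_top, ← setLIntegral_one]
    refine lintegral_mono_ae (hb.mono fun y hy => ?_)
    rw [← ENNReal.ofReal_mul hC0.le, ← ENNReal.ofReal_one]
    refine ENNReal.ofReal_le_ofReal ?_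
    calc (1 : ℝ) = C * C⁻¹ := (mul_inv_cancel₀ hC0.ne').symm
      _ ≤ _ := mul_le_mul_of_nonneg_left hy.2 hC0.le

omit [IsManifold 𝓘(ℝ, E) ∞ X] [BorelSpace X] [T2Space X] [CompactSpace X] in
lemma chartMeas_mono (p : X) {μ ν : Measure X} (h : μ ≤ ν) (hν : AEMeasurable (chartAt E p)
    (ν.restrict (chartAt E p).source)) : chartMeas p μ ≤ chartMeas p ν := by
  refine Measure.le_iff.2 fun s hs => ?_
  have hle := Measure.restrict_mono (subset_refl (chartAt E p).source) h
  rw [chartMeas, chartMeas, Measure.map_apply_of_aemeasurable (hν.mono_measure hle) hs,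
    Measure.map_apply_of_aemeasurable hν hs]
  exact hle _

omit [MeasurableSpace X] [BorelSpace X] [T2Space X] [CompactSpace X] in
lemma sign_pfq_eq {J w : X → M} (hJ : IsACX J) (hw : IsHerm J w) (p : X) {y : E}
    (hy : y ∈ (chartAt E p).target) :
    sgnJ (repEnd p J y) = Real.sign (pfq (rep p w y) (rep p w y)) := by
  have hsq := repEnd_sq hJ.sq hy
  have h1 := pr_nonneg hsq (skew_rep hw.form.skew p y) (inv_rep hw.inv hy)
    (tames_rep hw.tames hy) (psd_wmat hsq) (psd_wmat hsq)
  have hne := pfq_rep_herm_ne_zero hJ hw (p := p) hy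
  have hne' := pfq_wmat_ne hsq
  rw [pr] at h1
  unfold sgnJ
  rcases lt_or_gt_of_ne hne' with h | h
  · have : pfq (rep p w y) (rep p w y) < 0 := by
      by_contra hc
      exact absurd h1 (not_le.2 (div_neg_of_neg_of_pos h (lt_of_le_of_ne (not_lt.1 hc) hne.symm)))
    rw [Real.sign_of_neg h, Real.sign_of_neg this]
  · have : 0 < pfq (rep p w y) (rep p w y) := by
      by_contra hc
      exact absurd h1 (not_le.2 (div_neg_of_pos_of_neg h (lt_of_le_of_ne (not_lt.1 hc) hne)))
    rw [Real.sign_of_pos h, Real.sign_of_pos this]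

/-- Closedness of a current follows from closedness in every chart. -/
lemma closed_of_local (A : Atlas X) {J w : X → M} (hJ : IsACX J) (hw : IsHerm J w)
    {μ : Measure X} {Θ : X → M} (hfin : IsFiniteMeasure μ)
    (hmeas : ∀ p i j, Measurable ((chartAt E p).target.indicator fun y => rep p Θ y i j))
    (hpsd : ∀ᵐ z ∂μ, Psd (J z) (Θ z)) (hunit : ∀ᵐ z ∂μ, pr (w z) (Θ z) (w z) = 1)
    (hloc : ∀ i, IsPosCurrent (chartAt E (A.c i)).target (repEnd (A.c i) J)
      (locMeas (A.c i) J w μ Θ)
      (fun y a b => (chartAt E (A.c i)).target.indicator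
        (fun x => locField (A.c i) J Θ x a b) y)) :
    ∀ S, IsForm1 S → ∫ z, pr (w z) (Θ z) (dX S z) ∂μ = 0 := by
  intro S hS
  set Sj : Fin A.n → X → E := fun j z => A.φ j z • S z
  have hSj : ∀ j, IsForm1 (Sj j) := fun j => isForm1_fun_smul (A.φ_smooth j) hS
  have hsum : ∀ z, dX S z = ∑ j, dX (Sj j) z := by
    intro z
    have hd : ∀ j r, DifferentiableAt ℝ (fun v => rep1 z (Sj j) v r) (chartAt E z z) := fun j r =>
      ((hSj j z r).contDiffAt ((chartAt E z).open_target.mem_nhds
        ((chartAt E z).map_source (mem_chart_source E z)))).differentiableAt (by simp)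
    have he : ∀ r, (fun v => rep1 z S v r) = fun v => ∑ j, rep1 z (Sj j) v r := fun r => by
      funext v
      simp [Sj, rep1, Matrix.mulVec_smul, ← Finset.sum_mul, A.sum_φ]
    ext i k
    simp only [dX, dOne, pd, Matrix.sum_apply, he]
    rw [fderiv_fun_sum fun j _ => hd j k, fderiv_fun_sum fun j _ => hd j i, sum_apply, sum_apply,
      Finset.sum_sub_distrib]
  have hmu : ∀ᵐ z ∂μ, ∀ j, pr (w z) (Θ z) (dX (Sj j) z) =
      (chartAt E (A.c j)).source.indicator (fun z => pr (w z) (Θ z) (dX (Sj j) z)) z :=
    Eventually.of_forall fun z j => by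
      by_cases hz : z ∈ (chartAt E (A.c j)).source
      · rw [indicator_of_mem hz]
      · have hev : ∀ r, (fun v => rep1 z (Sj j) v r) =ᶠ[𝓝 (chartAt E z z)] fun _ => (0 : ℝ) := by
          intro r
          have ho := (chartAt E z).isOpen_inter_preimage_symm
            (isClosed_tsupport (A.φ j)).isOpen_compl
          filter_upwards [ho.mem_nhds ⟨(chartAt E z).map_source (mem_chart_source E z), by
            simpa [(chartAt E z).left_inv (mem_chart_source E z)] using
              fun h => hz ((A.φ_supp j).2 h)⟩] with v hv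
          simp [Sj, rep1, image_eq_zero_of_notMem_tsupport hv.2]
        have : dX (Sj j) z = 0 := by ext r s; simp [dX, dOne, pd, (hev _).fderiv_eq]
        rw [indicator_of_notMem hz, this]
        simp [pr, pfq]
  -- integrability of each piece
  have hC : ∀ j, Integrable (fun z => pr (w z) (Θ z) (dX (Sj j) z)) μ ∧
      ∫ z, pr (w z) (Θ z) (dX (Sj j) z) ∂μ = 0 := by
    intro j
    set p := A.c j
    set c := chartAt E p
    obtain ⟨C, hCb⟩ := exists_pr_bound A hJ hw (isForm_dX (hSj j)).cont
    set g : E → ℝ := c.target.indicator fun y =>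
      pr (rep p w y) (rep p Θ y) (rep p (dX (Sj j)) y)
    have hgm : Measurable g := by
      have hsplit : g = fun y => (∑ a, ∑ b, c.target.indicator (fun y => rep p Θ y a b) y *
          c.target.indicator (fun y => pfq (Matrix.single a b (1 : ℝ)) (rep p (dX (Sj j)) y) /
            pfq (rep p w y) (rep p w y)) y) := by
        funext y
        by_cases hy : y ∈ c.target
        · simp only [g, indicator_of_mem hy, pr]
          simp [pfq, Fin.sum_univ_four, Matrix.single_apply]
          ring
        · simp [g, hy]
      rw [hsplit]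
      refine Finset.measurable_sum _ fun a _ => Finset.measurable_sum _ fun b _ =>
        (hmeas p a b).mul (measurable_indicator_of_continuousOn c.open_target
          (ContinuousOn.div ?_ (continuousOn_pfq (hw.form.cont.cont p) (hw.form.cont.cont p))
            fun y hy => pfq_rep_herm_ne_zero hJ hw hy))
      exact continuousOn_pfq (fun _ _ => continuousOn_const) ((isForm_dX (hSj j)).cont.cont p)
    have hq : (fun z => pr (w z) (Θ z) (dX (Sj j) z)) =ᵐ[μ]
        c.source.indicator fun z => g (c z) := by
      filter_upwards [hmu, hpsd] with z hz hz'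
      rw [hz j]
      by_cases hzs : z ∈ c.source
      · rw [indicator_of_mem hzs, indicator_of_mem hzs]
        simp only [g, indicator_of_mem (c.map_source hzs)]
        rw [pr_rep_eq' p hw (by rw [c.left_inv hzs]; exact hz'.skew)
          ((isForm_dX (hSj j)).skew _) (c.map_source hzs), c.left_inv hzs]
      · rw [indicator_of_notMem hzs, indicator_of_notMem hzs]
    have hint : Integrable (fun z => pr (w z) (Θ z) (dX (Sj j) z)) μ := by
      refine Integrable.congr ?_ hq.symm
      refine Integrable.of_bound (C := C) ?_ ?_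
      · classical
        have hm : Measurable (c.source.piecewise c fun _ => (0 : E)) :=
          c.continuousOn.measurable_piecewise continuousOn_const c.open_source.measurableSet
        have he : (c.source.indicator fun z => g (c z)) =
            c.source.indicator (g ∘ c.source.piecewise c fun _ => (0 : E)) :=
          indicator_congr fun z hz => by simp [hz]
        rw [he]
        exact ((hgm.comp hm).indicator c.open_source.measurableSet).aestronglyMeasurable
      · filter_upwards [hq, hpsd, hunit] with z hz h1 h2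
        rw [← hz, Real.norm_eq_abs]
        simpa [h2] using hCb z _ h1
    refine ⟨hint, ?_⟩
    rw [integral_congr_ae hq, ← integral_chartMeas p μ hgm]
    -- the local closedness
    set K := c '' tsupport (A.φ j)
    have hK : IsCompact K :=
      (A.φ_supp j).1.image_of_continuousOn (c.continuousOn.mono (A.φ_supp j).2)
    have hKt : K ⊆ c.target := by
      rintro _ ⟨z, hz, rfl⟩
      exact c.map_source ((A.φ_supp j).2 hz)
    set a : E → E := fun y r => c.target.indicator (fun y => rep1 p (Sj j) y r) y
    have ha : ∀ r, IsTest c.target fun y => a y r := by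
      intro r
      have hts : tsupport (fun y => a y r) ⊆ K := by
        refine closure_minimal (fun y hy => ?_) hK.isClosed
        by_contra hn
        refine hy ?_
        by_cases hyt : y ∈ c.target
        · have : A.φ j (c.symm y) = 0 :=
            image_eq_zero_of_notMem_tsupport fun h => hn ⟨_, h, c.right_inv hyt⟩
          simp [a, hyt, Sj, rep1, c, p, this]
        · simp [a, hyt]
      exact ⟨contDiff_of_tsupport c.open_target
        ((hSj j p r).congr fun y hy => indicator_of_mem hy _) (hts.trans hKt),
        hK.of_isClosed_subset (isClosed_tsupport _) hts, hts.trans hKt⟩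
    have hex := pairingExact c.target (repEnd p J) (locMeas p J w μ Θ) _ (hJ.isACS p) (hloc j) a ha
    have hD : ∀ᵐ y ∂chartMeas p μ, y ∈ c.target ∧
        Psd (repEnd p J y) (rep p Θ y) ∧ 0 < trc (repEnd p J y) (rep p Θ y) :=
      (ae_chart_current hJ hw hpsd hunit p).mono fun y hy => ⟨hy.1, hy.2.1, hy.2.2.2⟩
    have hDm : AEMeasurable (fun y => ENNReal.ofReal
        (trc (repEnd p J y) (rep p Θ y) / |pfq (rep p w y) (rep p w y)|)) (chartMeas p μ) := by
      have hk : ∀ a b, Measurable (c.target.indicator fun y => kmat (repEnd p J y) a b) := fun a b => by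
        refine measurable_indicator_of_continuousOn c.open_target ?_
        have := fun a b => (hJ.smooth p a b).continuousOn
        simp only [kmat, hmat, Matrix.mul_apply, Matrix.add_apply, Matrix.transpose_apply]
        fun_prop
      have hw' : Measurable (c.target.indicator fun y => |pfq (rep p w y) (rep p w y)|) :=
        measurable_indicator_of_continuousOn c.open_target
          (continuousOn_pfq (hw.form.cont.cont p) (hw.form.cont.cont p)).abs
      refine ⟨fun y => ENNReal.ofReal ((-∑ a, ∑ b,
        c.target.indicator (fun y => kmat (repEnd p J y) a b) y *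
          c.target.indicator (fun y => rep p Θ y a b) y) /
        c.target.indicator (fun y => |pfq (rep p w y) (rep p w y)|) y), ?_, ?_⟩
      · exact ((Finset.measurable_sum _ fun a _ => Finset.measurable_sum _ fun b _ =>
          (hk a b).mul (hmeas p a b)).neg.div hw').ennreal_ofReal
      · filter_upwards [hD] with y hy
        simp [trc, c, hy.1]
    rw [locMeas, show (μ.restrict c.source).map c = chartMeas p μ from rfl,
      integral_withDensity_eq_integral_toReal_smul₀ hDm
        (Eventually.of_forall fun y => ENNReal.ofReal_lt_top)] at hex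
    refine Eq.trans (integral_congr_ae ?_) hex
    filter_upwards [hD] with y ⟨hy, hp, htr⟩
    have hne := pfq_rep_herm_ne_zero hJ hw (p := p) hy
    have hdO : dOne a y = rep p (dX (Sj j)) y := by
      rw [rep_dX (hSj j) hy]
      have hev : ∀ r, (fun v => a v r) =ᶠ[𝓝 y] fun v => rep1 p (Sj j) v r := fun r => by
        filter_upwards [c.open_target.mem_nhds hy] with x hx
        simp [a, hx]
      ext r s
      simp only [dOne, pd, (hev _).fderiv_eq]
    have hfield : (fun a b => c.target.indicator (fun x => locField p J Θ x a b) y) =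
        locField p J Θ y := by funext a b; exact indicator_of_mem hy _
    rw [hfield, hdO, ENNReal.toReal_ofReal (div_nonneg htr.le (abs_nonneg _)), smul_eq_mul]
    simp only [g, indicator_of_mem hy, wd, sign_pfq_eq hJ hw p hy, locField, pfq_smul_left, pr]
    rcases lt_or_gt_of_ne hne with h | h
    · rw [Real.sign_of_neg h, abs_of_neg h]; field_simp
    · rw [Real.sign_of_pos h, abs_of_pos h]; field_simp
  have e : ∀ z, pr (w z) (Θ z) (dX S z) = ∑ j, pr (w z) (Θ z) (dX (Sj j) z) := fun z => by
    rw [hsum]
    simp only [pr]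
    rw [pfq_comm, pfq_sum_left, Finset.sum_div]
    exact Finset.sum_congr rfl fun j _ => by rw [pfq_comm]
  simp only [e]
  rw [integral_finsetSum _ fun j _ => (hC j).1]
  exact Finset.sum_eq_zero fun j _ => (hC j).2

/-- Removing the poles, given the local theorem. -/
theorem removePoles_of (hEl : ElMir) : RemovePoles := by
  intro X _ _ _ _ _ _ _ A J w μ Θ hJ hw hcur hdom
  classical
  have := hcur.finite
  set P : Set X := ⋃ i, (chartAt E (A.c i)).source ∩
    chartAt E (A.c i) ⁻¹' poleSet (chartAt E (A.c i)).target (chartMeas (A.c i) μ)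
  have hP : ∀ p, ∀ y ∈ (chartAt E p).target, ((chartAt E p).symm y ∈ P ↔
      y ∈ poleSet (chartAt E p).target (chartMeas p μ)) := by
    intro p y hy
    have hcover : ∀ z, ∃ i, z ∈ (chartAt E (A.c i)).source := fun z => by
      by_contra h
      push Not at h
      have := A.sum_φ z
      simp [fun i => image_eq_zero_of_notMem_tsupport fun hh => h i ((A.φ_supp i).2 hh)] at this
    constructor
    · intro h
      obtain ⟨i, hs, hi⟩ := mem_iUnion.1 h
      exact poleSet_trn p (A.c i) μ ⟨hy, hs⟩ hi
    · intro h
      obtain ⟨i, hi⟩ := hcover ((chartAt E p).symm y)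
      refine mem_iUnion.2 ⟨i, hi, poleSet_trn (A.c i) p μ ⟨(chartAt E (A.c i)).map_source hi, ?_⟩ ?_⟩
      · show (chartAt E (A.c i)).symm (chartAt E (A.c i) ((chartAt E p).symm y)) ∈
          (chartAt E p).source
        rw [(chartAt E (A.c i)).left_inv hi]
        exact (chartAt E p).map_target hy
      · show trn (A.c i) p (chartAt E (A.c i) ((chartAt E p).symm y)) ∈
          poleSet (chartAt E p).target (chartMeas p μ)
        rw [trn, (chartAt E (A.c i)).left_inv hi, (chartAt E p).right_inv hy]
        exact h
  have hpole : ∀ p, poleSet (chartAt E p).target (locMeas p J w μ Θ) =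
      poleSet (chartAt E p).target (chartMeas p μ) := fun p =>
    Subset.antisymm
      (poleSet_subset_of_le (chartAt E p).open_target fun K hK hKc => by
        obtain ⟨C, hC, h⟩ := locMeas_comparable hJ hw hcur p hK hKc
        exact ⟨C, hC, fun s hs hm => (h s hs hm).1⟩)
      (poleSet_subset_of_le (chartAt E p).open_target fun K hK hKc => by
        obtain ⟨C, hC, h⟩ := locMeas_comparable hJ hw hcur p hK hKc
        exact ⟨C, hC, fun s hs hm => (h s hs hm).2⟩)
  have hel := fun p => hEl _ _ _ _ (hJ.isACS p) (hcur.isPosCurrent hJ hw p)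
  have hPS : ∀ p, MeasurableSet (poleSet (chartAt E p).target (chartMeas p μ)) := fun p =>
    hpole p ▸ (hel p).1
  have hPm : MeasurableSet P := by
    refine MeasurableSet.iUnion fun i => ?_
    set c := chartAt E (A.c i)
    have hm : Measurable (c.source.piecewise c fun _ => (0 : E)) :=
      c.continuousOn.measurable_piecewise continuousOn_const c.open_source.measurableSet
    have he : c.source ∩ c ⁻¹' poleSet c.target (chartMeas (A.c i) μ) = c.source ∩
        c.source.piecewise c (fun _ => (0 : E)) ⁻¹' poleSet c.target (chartMeas (A.c i) μ) := by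
      ext z; by_cases hz : z ∈ c.source <;> simp [hz]
    rw [he]
    exact c.open_source.measurableSet.inter (hm (hPS _))
  set μ₀ := μ.restrict Pᶜ
  have hle : μ₀ ≤ μ := Measure.restrict_le_self
  have hchart : ∀ p, chartMeas p μ₀ =
      (chartMeas p μ).restrict (poleSet (chartAt E p).target (chartMeas p μ))ᶜ := by
    intro p
    set c := chartAt E p
    ext s hs
    have hap : ∀ (ν : Measure X) (t : Set E), MeasurableSet t →
        chartMeas p ν t = ν (c ⁻¹' t ∩ c.source) := fun ν t ht => by
      rw [chartMeas, Measure.map_apply_of_aemeasurable (aemeasurable_chart p ν) ht,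
        Measure.restrict_apply₀' c.open_source.measurableSet.nullMeasurableSet]
    rw [Measure.restrict_apply hs, hap μ₀ s hs, hap μ _ (hs.inter (hPS p).compl)]
    show (μ.restrict Pᶜ) _ = _
    rw [Measure.restrict_apply' hPm.compl]
    congr 1
    ext z
    simp only [mem_inter_iff, mem_preimage, mem_compl_iff]
    constructor
    · rintro ⟨⟨h1, h2⟩, h3⟩
      exact ⟨⟨h1, fun h => h3 ((c.left_inv h2) ▸ (hP p _ (c.map_source h2)).2 h)⟩, h2⟩
    · rintro ⟨⟨h1, h2⟩, h3⟩
      exact ⟨⟨h1, h3⟩, fun h => h2 ((hP p _ (c.map_source h3)).1 (by rwa [c.left_inv h3]))⟩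
  have hchartle : ∀ p, chartMeas p μ₀ ≤ chartMeas p μ := fun p =>
    chartMeas_mono p hle (aemeasurable_chart p μ)
  have hmeas := hcur.meas
  have hpsd₀ : ∀ᵐ z ∂μ₀, Psd (J z) (Θ z) := ae_restrict_of_ae hcur.psd
  have hunit₀ : ∀ᵐ z ∂μ₀, pr (w z) (Θ z) (w z) = 1 := ae_restrict_of_ae hcur.unit
  have hfin₀ : IsFiniteMeasure μ₀ := inferInstance
  have hcur₀ : IsCurrent J w μ₀ Θ := by
    refine ⟨hfin₀, hmeas, hpsd₀, hunit₀, closed_of_local A hJ hw hfin₀ hmeas hpsd₀ hunit₀
      fun i => ?_⟩
    have hl : locMeas (A.c i) J w μ₀ Θ = (locMeas (A.c i) J w μ Θ).restrict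
        (poleSet (chartAt E (A.c i)).target (locMeas (A.c i) J w μ Θ))ᶜ := by
      rw [hpole]
      show (chartMeas (A.c i) μ₀).withDensity _ = ((chartMeas (A.c i) μ).withDensity _).restrict _
      rw [hchart, restrict_withDensity (hPS _).compl]
    rw [hl]
    exact (hel _).2.2
  have hnull : ∀ p, chartMeas p μ₀ (poleSet (chartAt E p).target (chartMeas p μ)) = 0 := fun p => by
    rw [hchart p, Measure.restrict_apply (hPS p), inter_compl_self, measure_empty]
  have hgood : ∀ p, ∀ y ∈ (chartAt E p).target,
      y ∉ poleSet (chartAt E p).target (chartMeas p μ) → NoDensity μ₀ p y := fun p y hy hn => by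
    refine tendsto_of_tendsto_of_tendsto_of_le_of_le' tendsto_const_nhds
      (densityOffPoles _ _ (chartAt E p).open_target y hy hn) (Eventually.of_forall fun _ => zero_le)
      (Eventually.of_forall fun r => ENNReal.div_le_div_right (hchartle p _) _)
  refine ⟨μ₀, Θ, hcur₀, ?_, ?_, fun p => ?_, fun ν hν hνq p => ?_⟩
  · intro Y hY u hu hup
    have hfinv := isFiniteMeasure_vol A hw
    have hvP : vol A w P = 0 := by
      refine measure_iUnion_null fun i => ?_
      set c := chartAt E (A.c i)
      have h0 : chartMeas (A.c i) (vol A w) (poleSet c.target (chartMeas (A.c i) μ)) = 0 := by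
        rw [chartMeas_vol A hw]
        refine withDensity_absolutelyContinuous _ _ (le_antisymm
          ((Measure.restrict_apply_le _ _).trans_eq ?_) zero_le)
        rw [← hpole]
        exact (hel _).2.1
      rw [chartMeas, Measure.map_apply_of_aemeasurable (aemeasurable_chart _ _) (hPS _),
        Measure.restrict_apply₀' c.open_source.measurableSet.nullMeasurableSet, inter_comm] at h0
      exact h0
    have h := hdom (Y \ P) (hY.diff hPm) u hu hup
    have hae : (Y \ P : Set X) =ᵐ[vol A w] Y := sdiff_null_ae_eq_self hvP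
    rw [setIntegral_congr_set hae] at h
    refine h.trans_eq ?_
    show _ = ∫ z in Y, pr (w z) (Θ z) (u z) ∂μ.restrict Pᶜ
    rw [Measure.restrict_restrict hY]
    rfl
  · intro p K hK hKc
    obtain ⟨A₁, r₀, hr₀, hA⟩ := densityBound_holds _ _ _ _ (hJ.isACS p) (hcur.isPosCurrent hJ hw p)
      K hK hKc
    obtain ⟨δ, hδ, hth⟩ := hKc.exists_cthickening_subset_open (chartAt E p).open_target hK
    obtain ⟨C, hC, hcmp⟩ := locMeas_comparable hJ hw hcur p hth hKc.cthickening
    refine ⟨C.toReal * A₁, min r₀ δ, lt_min hr₀ hδ, fun y hy r hr => ?_⟩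
    have hsub : closedBall y r ⊆ cthickening δ K :=
      (closedBall_subset_closedBall (hr.2.trans (min_le_right _ _))).trans
        (closedBall_subset_cthickening hy δ)
    refine ((hchartle p _).trans (hcmp _ hsub measurableSet_closedBall).2).trans ?_
    refine (mul_le_mul_right (hA y hy r ⟨hr.1, hr.2.trans (min_le_left _ _)⟩) C).trans_eq ?_
    rw [mul_assoc, ENNReal.ofReal_mul ENNReal.toReal_nonneg, ENNReal.ofReal_toReal hC]
  · rw [ae_restrict_iff' (chartAt E p).open_target.measurableSet]
    filter_upwards [measure_eq_zero_iff_ae_notMem.1 (hnull p)] with y hn hy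
    exact hgood p y hy hn
  · rw [ae_restrict_iff' (chartAt E p).open_target.measurableSet, ae_iff]
    set V := (chartAt E p).target
    have hvit := vitaliNull V (chartMeas p μ₀) (chartMeas p ν) (chartAt E p).open_target
      (fun K _ _ => by
        have := isFiniteMeasure_chartMeas p μ₀
        exact measure_lt_top _ _)
      (hνq p) (poleSet V (chartMeas p μ)) (fun y hy => hy.1) (hPS p) (hnull p)
    refine measure_mono_null (fun y hy => ?_) hvit
    simp only [mem_ofPred_eq, Classical.not_imp] at hy
    refine ⟨by_contra fun hn => hy.2 (hgood p y hy.1 hn), hy.2⟩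

end Vale.Agent.P204.Tame.Mfd
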