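import Vale.Agent.P204.Tame.Mollifier
import Vale.Agent.P204.Tame.MeasureLocal
import Vale.Agent.P204.Tame.Mfd.CoreDefs
import Vale.Agent.P204.Tame.Mfd.GNorm
import Vale.Agent.P204.Tame.Mfd.Poles

/-!
The bootstrap: from finite mass through logarithmic growth to quadratic bounds, and boundedness
of the anti-invariant functional in `L²`, given the low frequency and density steps.
-/

namespace Vale.Agent.P204.Tame.Mfd

open scoped ContDiff Manifold Matrix Topology ENNReal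
open MeasureTheory Metric Set Filter

/-- A gauge on radii admissible for the bootstrap, growing at most like `q ^ j` over `j` halvings. -/
structure Gauge (g : ℝ → ℝ) (q : ℝ) : Prop where
  anti : AntitoneOn g (Ioc 0 1)
  one_le : ∀ r, 1 ≤ g r
  halve : ∀ t > 0, ∀ j : ℕ, g (t / 2 ^ j) ≤ q ^ j * g t

lemma gauge_inv : Gauge (fun r => max 1 r⁻¹) 2 where
  anti a ha b _ hab := max_le_max le_rfl (inv_anti₀ ha.1 hab)
  one_le r := le_max_left _ _
  halve t ht j := by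
    have h2 : (1 : ℝ) ≤ 2 ^ j := one_le_pow₀ one_le_two
    rw [inv_div, div_eq_mul_inv]
    refine max_le ?_ (mul_le_mul_of_nonneg_left (le_max_right _ _) (by positivity))
    exact (one_le_mul_of_one_le_of_one_le h2 (le_max_left _ _))

lemma gauge_log : Gauge (fun r => Real.sqrt (1 + max 0 (-Real.log r))) (3 / 2) where
  anti a ha b _ hab := Real.sqrt_le_sqrt (add_le_add le_rfl (max_le_max le_rfl
    (neg_le_neg (Real.log_le_log ha.1 hab))))
  one_le r := Real.one_le_sqrt.2 (le_add_of_nonneg_right (le_max_left _ _))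
  halve t ht j := by
    set x := max 0 (-Real.log t)
    have hx : 0 ≤ x := le_max_left _ _
    have hl : Real.log 2 ≤ 1 := by linarith [Real.log_le_sub_one_of_pos (two_pos (α := ℝ))]
    have hl0 : 0 ≤ Real.log 2 := Real.log_nonneg one_le_two
    have hj : (1 : ℝ) + j ≤ (9 / 4) ^ j := by
      have h := one_add_mul_le_pow (show (-2 : ℝ) ≤ 5 / 4 by norm_num) j
      norm_num at h
      linarith [(Nat.cast_nonneg j : (0 : ℝ) ≤ j)]
    have hjl : (j : ℝ) * Real.log 2 ≤ j := mul_le_of_le_one_right (Nat.cast_nonneg j) hl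
    rw [← Real.sqrt_sq (show (0 : ℝ) ≤ (3 / 2) ^ j by positivity), ← Real.sqrt_mul (sq_nonneg _),
      ← pow_mul, mul_comm j 2, pow_mul, show ((3 : ℝ) / 2) ^ 2 = 9 / 4 by norm_num]
    refine Real.sqrt_le_sqrt ?_
    have h1 : max 0 (-Real.log (t / 2 ^ j)) ≤ x + j := by
      rw [Real.log_div ht.ne' (by positivity), Real.log_pow]
      refine max_le (by positivity) ?_
      linarith [le_max_right 0 (-Real.log t)]
    calc 1 + max 0 (-Real.log (t / 2 ^ j)) ≤ (1 + j) * (1 + x) := by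
          nlinarith [mul_nonneg hx (Nat.cast_nonneg (α := ℝ) j)]
      _ ≤ _ := mul_le_mul_of_nonneg_right hj (by linarith)

lemma gauge_one : Gauge (fun _ => 1) 1 :=
  ⟨antitoneOn_const, fun _ => le_rfl, fun _ _ j => by simp⟩

section

variable {X : Type} [TopologicalSpace X] [ChartedSpace E X] [IsManifold 𝓘(ℝ, E) ∞ X]

lemma LowBound.mono {J : X → M} {Φ : (X → M) →ₗ[ℝ] ℝ} {ρ : E → ℝ} {c : X} {O : Set E}
    {t₀ t₁ : ℝ} {L L' : ℝ → ℝ} (h : LowBound J Φ ρ c O t₀ L) (ht : t₁ ≤ t₀)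
    (hL : ∀ t ∈ Ioc (0 : ℝ) t₁, L t ≤ L' t) : LowBound J Φ ρ c O t₁ L' :=
  fun t hts f hf hs a b => (h t ⟨hts.1, hts.2.trans ht⟩ f hf hs a b).trans
    (mul_le_mul_of_nonneg_right (hL t hts) (Real.sqrt_nonneg _))

variable [MeasurableSpace X] [BorelSpace X] [T2Space X] [CompactSpace X]

omit [IsManifold 𝓘(ℝ, E) ∞ X] [BorelSpace X] [T2Space X] [CompactSpace X] in
lemma growth_inv (μ : Measure X) [IsFiniteMeasure μ] : Growth μ fun r => max 1 r⁻¹ := by
  intro p K _ _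
  have := isFiniteMeasure_chartMeas p μ
  refine ⟨(chartMeas p μ univ).toReal, 1, one_pos, fun y _ r hr => ?_⟩
  refine (measure_mono (subset_univ _)).trans ?_
  simp only
  rw [max_eq_right ((one_le_inv₀ hr.1).2 hr.2), mul_inv_cancel₀ hr.1.ne', one_pow, mul_one,
    ENNReal.ofReal_toReal (measure_ne_top _ _)]

omit [T2Space X] [CompactSpace X] in
/-- Growth bounds may be checked near each point in some chart. -/
theorem growth_of_local (μ : Measure X) {g : ℝ → ℝ} {q : ℝ} (hg : Gauge g q)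
    (h : ∀ z₀ : X, ∃ (c : X) (O : Set E), IsOpen O ∧ O ⊆ (chartAt E c).target ∧
      z₀ ∈ (chartAt E c).source ∧ chartAt E c z₀ ∈ O ∧ ∀ K ⊆ O, IsCompact K →
        ∃ A : ℝ, ∃ r₀ > 0, ∀ y ∈ K, ∀ r ∈ Ioc (0 : ℝ) r₀,
          chartMeas c μ (closedBall y r) ≤ ENNReal.ofReal (A * (r * g r) ^ 2)) :
    Growth μ g := by
  intro p K hKp hK
  refine hK.induction_on (p := fun S => ∃ A : ℝ, ∃ r₀ > 0, ∀ y ∈ S, ∀ r ∈ Ioc (0 : ℝ) r₀,
    chartMeas p μ (closedBall y r) ≤ ENNReal.ofReal (A * (r * g r) ^ 2))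
    ⟨0, 1, one_pos, fun y hy => absurd hy (notMem_empty y)⟩
    (fun s t hst ⟨A, r₀, hr₀, h⟩ => ⟨A, r₀, hr₀, fun y hy => h y (hst hy)⟩) ?_ ?_
  · rintro s t ⟨A, r, hr, hs⟩ ⟨A', r', hr', ht⟩
    refine ⟨max A A', min r r', lt_min hr hr', fun y hy x hx => ?_⟩
    rcases hy with hy | hy
    · exact (hs y hy x ⟨hx.1, hx.2.trans (min_le_left _ _)⟩).trans (ENNReal.ofReal_le_ofReal
        (mul_le_mul_of_nonneg_right (le_max_left _ _) (sq_nonneg _)))
    · exact (ht y hy x ⟨hx.1, hx.2.trans (min_le_right _ _)⟩).trans (ENNReal.ofReal_le_ofReal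
        (mul_le_mul_of_nonneg_right (le_max_right _ _) (sq_nonneg _)))
  intro y₀ hy₀
  have hyt := hKp hy₀
  obtain ⟨c, O, hO, hOt, hzs, hzO, hloc⟩ := h ((chartAt E p).symm y₀)
  have hy₀d : y₀ ∈ trnDom p c := ⟨hyt, hzs⟩
  have hU : IsOpen (trnDom p c ∩ trn p c ⁻¹' O) :=
    (contDiffOn_trn p c).continuousOn.isOpen_inter_preimage (isOpen_trnDom p c) hO
  obtain ⟨d, hd, hball⟩ := nhds_basis_closedBall.mem_iff.1 (hU.mem_nhds ⟨hy₀d, hzO⟩)
  have hdd : closedBall y₀ d ⊆ trnDom p c := fun x hx => (hball hx).1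
  obtain ⟨Λ, hΛ⟩ := ((contDiffOn_trn p c).mono hdd).exists_lipschitzOnWith (by simp)
    (convex_closedBall y₀ d) (isCompact_closedBall y₀ d)
  set b := closedBall y₀ (d / 2)
  have hbd : b ⊆ closedBall y₀ d := closedBall_subset_closedBall (by linarith)
  obtain ⟨A, r₀, hr₀, hA⟩ := hloc (trn p c '' b) (by rintro _ ⟨x, hx, rfl⟩; exact (hball (hbd hx)).2)
    ((isCompact_closedBall y₀ (d / 2)).image_of_continuousOn
      ((contDiffOn_trn p c).continuousOn.mono (hbd.trans hdd)))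
  set l : ℝ := max (Λ : ℝ) 1
  have hl : 0 < l := lt_max_of_lt_right one_pos
  refine ⟨b, mem_nhdsWithin_of_mem_nhds (closedBall_mem_nhds y₀ (by linarith)),
    max A 0 * l ^ 2, min (min (d / 2) (r₀ / l)) (1 / l),
    lt_min (lt_min (by linarith) (by positivity)) (by positivity), fun y hy r hr => ?_⟩
  have hr1 : r ≤ d / 2 := hr.2.trans ((min_le_left _ _).trans (min_le_left _ _))
  have hr2 : l * r ≤ r₀ := by
    rw [mul_comm, ← le_div_iff₀ hl]
    exact hr.2.trans ((min_le_left _ _).trans (min_le_right _ _))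
  have hr3 : l * r ≤ 1 := by
    rw [mul_comm, ← le_div_iff₀ hl]
    exact hr.2.trans (min_le_right _ _)
  have hsub : closedBall y r ⊆ closedBall y₀ d :=
    closedBall_subset_closedBall' (by linarith [mem_closedBall.1 hy])
  have himg : ∀ x ∈ closedBall y r, trn p c x ∈ trnDom c p ∩ closedBall (trn p c y) (l * r) := by
    intro x hx
    have hxd := hdd (hsub hx)
    refine ⟨⟨trn_mem hxd, ?_⟩, mem_closedBall.2 ((hΛ.dist_le_mul x (hsub hx) y (hbd hy)).trans
      (mul_le_mul (le_max_left _ _) (mem_closedBall.1 hx) dist_nonneg hl.le))⟩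
    show (chartAt E c).symm (trn p c x) ∈ (chartAt E p).source
    rw [symm_trn hxd]
    exact (chartAt E p).map_target hxd.1
  refine (chartMeas_trn c p μ measurableSet_closedBall (hsub.trans hdd)
    ((isOpen_trnDom c p).measurableSet.inter measurableSet_closedBall) inter_subset_left
    himg).trans ((measure_mono (inter_subset_left.trans inter_subset_right)).trans
    ((hA _ ⟨y, hy, rfl⟩ (l * r) ⟨mul_pos hl hr.1, hr2⟩).trans (ENNReal.ofReal_le_ofReal ?_)))
  have hle : g (l * r) ≤ g r := hg.anti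
    ⟨hr.1, le_trans (le_mul_of_one_le_left hr.1.le (le_max_right _ _)) hr3⟩
    ⟨mul_pos hl hr.1, hr3⟩ (le_mul_of_one_le_left hr.1.le (le_max_right _ _))
  have h0 : 0 ≤ g (l * r) := zero_le_one.trans (hg.one_le _)
  calc A * (l * r * g (l * r)) ^ 2 ≤ max A 0 * (l * r * g (l * r)) ^ 2 :=
        mul_le_mul_of_nonneg_right (le_max_left _ _) (sq_nonneg _)
    _ ≤ max A 0 * (l * r * g r) ^ 2 := mul_le_mul_of_nonneg_left (pow_le_pow_left₀
        (mul_nonneg (mul_pos hl hr.1).le h0)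
        (mul_le_mul_of_nonneg_left hle (mul_pos hl hr.1).le) 2) (le_max_right _ _)
    _ = max A 0 * l ^ 2 * (r * g r) ^ 2 := by ring

variable {A : Atlas X} {J w : X → M} {μ : Measure X} {Θ : X → M} {Φ : (X → M) →ₗ[ℝ] ℝ}
  {ρ : E → ℝ}

/-- The absorption: a gauge for the ball masses bounds the size of `Φ`. -/
theorem exists_gPhi_le (hLS : LowStep) (hJ : IsACX J) (hw : IsHerm J w)
    (hob : IsObstruction A J w μ Θ Φ) (hρ : IsMol ρ) {g : ℝ → ℝ} {q : ℝ} (hg : Gauge g q)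
    (hq : q ∈ Icc (1 : ℝ) 2) (hμ : Growth μ g) :
    ∃ C : ℝ, 0 ≤ C ∧ ∃ τ > 0, τ ≤ 1 ∧ ∀ ε ∈ Ioc (0 : ℝ) τ, gPhi A J Φ ε ≤ C * g ε := by
  classical
  choose c O C t₀ ht₀ hO hOt hzs hzO hlow using
    hLS X A J w μ Θ Φ ρ hJ hw hob hρ g hg.anti (fun r _ => hg.one_le r) hμ
  obtain ⟨s, hs⟩ := isCompact_univ.elim_finite_subcover
    (fun z => (chartAt E (c z)).source ∩ chartAt E (c z) ⁻¹' O z)
    (fun z => (chartAt E (c z)).isOpen_inter_preimage (hO z))
    (fun z _ => mem_iUnion.2 ⟨z, hzs z, hzO z⟩)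
  let e' : Fin s.card ≃ s := s.equivFin.symm
  obtain ⟨t, ht, htle⟩ : ∃ t > 0, ∀ i, t ≤ t₀ (e' i) := by
    have h : ∀ᶠ x in 𝓝[>] (0 : ℝ), ∀ i, x ≤ t₀ (e' i) :=
      eventually_all.2 fun i => nhdsWithin_le_nhds (Iic_mem_nhds (ht₀ _))
    obtain ⟨b, hb, hsub⟩ := mem_nhdsGT_iff_exists_Ioc_subset.1 h
    exact ⟨b, hb, hsub ⟨hb, le_rfl⟩⟩
  obtain ⟨Cm, hCm0, hCm⟩ : ∃ Cm : ℝ, 0 ≤ Cm ∧ ∀ i, C (e' i) ≤ Cm :=
    ⟨∑ i, |C (e' i)|, Finset.sum_nonneg fun _ _ => abs_nonneg _, fun i => (le_abs_self _).trans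
      (Finset.single_le_sum (f := fun i => |C (e' i)|) (fun _ _ => abs_nonneg _)
        (Finset.mem_univ i))⟩
  set L : ℝ → ℝ := fun x =>
    Cm * Real.sqrt (g x ^ 2 + g x * gPhi A J Φ x + x ^ 2 * gPhi A J Φ x ^ 2)
  have hL0 : ∀ x, 0 ≤ L x := fun x => mul_nonneg hCm0 (Real.sqrt_nonneg _)
  obtain ⟨C', t₁, ht₁, htel⟩ := gTel molTelescope X A J ρ hJ hρ s.card (fun i => c (e' i))
    (fun i => O (e' i)) t ht (fun i => ⟨hO _, hOt _⟩) fun z => by
      obtain ⟨z', hz', hz⟩ := mem_iUnion₂.1 (hs (mem_univ z))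
      exact ⟨e'.symm ⟨z', hz'⟩, by simpa using hz.1, by simpa using hz.2⟩
  obtain ⟨B, hB⟩ := gPhi_le A hJ hob.bound
  set τ := min t₁ 1
  have hτ : 0 < τ := lt_min ht₁ one_pos
  have hτ1 : τ ≤ 1 := min_le_right _ _
  set a := max (max (max (Cm ^ 2) 1) C') (max B 0 * (τ ^ 4)⁻¹)
  have ha1 : 1 ≤ a := (le_max_right _ _).trans ((le_max_left _ _).trans (le_max_left _ _))
  have hmem : ∀ x ∈ Ioc (0 : ℝ) 1, τ * x ∈ Ioc (0 : ℝ) τ := fun x hx =>
    ⟨mul_pos hτ hx.1, mul_le_of_le_one_right hτ.le hx.2⟩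
  obtain ⟨C'', ε₁, hε₁, hfin⟩ := absorb (fun x => gPhi A J Φ (τ * x)) (fun x => L (τ * x))
    (fun x => g (τ * x)) a
    (fun x hx => ⟨hg.one_le _, gPhi_nonneg A J Φ (hmem x hx).1.le, hL0 _, by
      refine (hB _ ⟨(hmem x hx).1, (hmem x hx).2.trans hτ1⟩).trans ?_
      rw [mul_pow, mul_inv, ← mul_assoc]
      exact mul_le_mul_of_nonneg_right ((mul_le_mul_of_nonneg_right (le_max_left B 0)
        (by positivity)).trans (le_max_right _ _)) (inv_nonneg.2 (pow_nonneg hx.1.le 4))⟩)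
    (fun x hx j => by
      rw [← mul_div_assoc]
      refine (hg.halve _ (hmem x hx).1 j).trans (mul_le_mul_of_nonneg_right ?_
        (zero_le_one.trans (hg.one_le _)))
      exact (pow_le_pow_left₀ (zero_le_one.trans hq.1) (hq.2.trans (by norm_num)) j).trans
        (le_mul_of_one_le_left (by positivity) ha1))
    (fun x hx => by
      have hG := gPhi_nonneg A J Φ (hmem x hx).1.le
      have hg0 : 0 ≤ g (τ * x) := zero_le_one.trans (hg.one_le _)
      simp only [L]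
      rw [mul_pow, Real.sq_sqrt (add_nonneg (add_nonneg (sq_nonneg _) (mul_nonneg hg0 hG))
        (mul_nonneg (sq_nonneg _) (sq_nonneg _)))]
      refine mul_le_mul ((le_max_left _ _).trans ((le_max_left _ _).trans (le_max_left _ _))) ?_
        (add_nonneg (add_nonneg (sq_nonneg _) (mul_nonneg hg0 hG))
          (mul_nonneg (sq_nonneg _) (sq_nonneg _))) (zero_le_one.trans ha1)
      exact add_le_add le_rfl (mul_le_mul_of_nonneg_right (pow_le_pow_left₀ (hmem x hx).1.le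
        (mul_le_of_le_one_left hx.1.le hτ1) 2) (sq_nonneg _)))
    (fun x hx S hS => by
      have hS0 : 0 ≤ S := by simpa using hS 0
      refine (htel Φ hob.bound L hL0 (fun i => (hlow (e' i)).mono (htle i) fun y _ =>
        mul_le_mul_of_nonneg_right (hCm i) (Real.sqrt_nonneg _)) _
        ⟨(hmem x hx).1, (hmem x hx).2.trans (min_le_left _ _)⟩ S fun N => ?_).trans
        (mul_le_mul_of_nonneg_right ((le_max_right _ _).trans (le_max_left _ _)) hS0)
      simpa only [mul_div_assoc] using hS N)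
  refine ⟨max C'' 0, le_max_right _ _, τ * min ε₁ 1, mul_pos hτ (lt_min hε₁ one_pos),
    mul_le_one₀ hτ1 (lt_min hε₁ one_pos).le (min_le_right _ _), fun ε hε => ?_⟩
  have hy : ε / τ ∈ Ioc (0 : ℝ) ε₁ := ⟨div_pos hε.1 hτ, (div_le_iff₀' hτ).2 (hε.2.trans
    (mul_le_mul_of_nonneg_left (min_le_left _ _) hτ.le))⟩
  have h := hfin _ hy
  rw [mul_div_cancel₀ ε hτ.ne'] at h
  exact h.trans (mul_le_mul_of_nonneg_right (le_max_left _ _) (zero_le_one.trans (hg.one_le _)))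

/-- One stage of the bootstrap. -/
theorem growth_step (hLS : LowStep) (hDS : DensityStep) (hJ : IsACX J) (hw : IsHerm J w)
    (hob : IsObstruction A J w μ Θ Φ) (hρ : IsMol ρ) {g h : ℝ → ℝ} {q q' : ℝ} (hg : Gauge g q)
    (hh : Gauge h q') (hq : q ∈ Ioc (1 : ℝ) 2) (hμ : Growth μ g)
    (hsum : ∀ R > 0, ∃ C : ℝ, ∀ r > 0, ∀ m : ℕ, 2 ^ m * r ≤ R →
      ∑ i ∈ Finset.range (m + 1), (q / 2) ^ i ≤ C * h r ^ 2) :
    Growth μ h := by
  obtain ⟨C, hC, τ, hτ, -, hG⟩ := exists_gPhi_le hLS hJ hw hob hρ hg ⟨hq.1.le, hq.2⟩ hμ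
  refine growth_of_local μ hh fun z₀ => ?_
  obtain ⟨c, O, C₀, t₀, ht₀, hO, hOt, hzs, hzO, hlow⟩ :=
    hLS X A J w μ Θ Φ ρ hJ hw hob hρ g hg.anti (fun r _ => hg.one_le r) hμ z₀
  refine ⟨c, O, hO, hOt, hzs, hzO, fun K hKO hK => ?_⟩
  set t₁ := min (min t₀ τ) 1
  set D := |C₀| * (1 + C + C)
  have hD : 0 ≤ D := by positivity
  have hlow' : LowBound J Φ ρ c O t₁ fun x => D * g x := by
    refine hlow.mono ((min_le_left _ _).trans (min_le_left _ _)) fun x hx => ?_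
    have hx1 : x ≤ 1 := hx.2.trans (min_le_right _ _)
    have hG' := hG x ⟨hx.1, hx.2.trans ((min_le_left _ _).trans (min_le_right _ _))⟩
    have hG0 := gPhi_nonneg A J Φ hx.1.le
    have hg0 : 0 ≤ g x := zero_le_one.trans (hg.one_le x)
    refine (mul_le_mul_of_nonneg_right (le_abs_self C₀) (Real.sqrt_nonneg _)).trans ?_
    rw [mul_assoc]
    refine mul_le_mul_of_nonneg_left ((Real.sqrt_le_left (by positivity)).2 ?_) (abs_nonneg _)
    calc g x ^ 2 + g x * gPhi A J Φ x + x ^ 2 * gPhi A J Φ x ^ 2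
        ≤ g x ^ 2 + g x * (C * g x) + 1 * (C * g x) ^ 2 := by
          gcongr
          exact pow_le_one₀ hx.1.le hx1
      _ ≤ ((1 + C + C) * g x) ^ 2 := by
          nlinarith [mul_nonneg hC (sq_nonneg (g x)), mul_nonneg (mul_nonneg hC hC) (sq_nonneg (g x))]
  obtain ⟨R, hR, A', hA'⟩ := hDS X A J w μ Θ Φ ρ hJ hw hob hρ c O t₁
    (lt_min (lt_min ht₀ hτ) one_pos) hO hOt (fun x => D * g x)
    (fun x => mul_nonneg hD (zero_le_one.trans (hg.one_le x))) hlow' q hq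
    (fun t ht => ⟨D * g t, fun j => (mul_le_mul_of_nonneg_left (hg.halve t ht.1 j) hD).trans
      (le_of_eq (by ring))⟩) K hKO hK
  obtain ⟨Cs, hCs⟩ := hsum R hR
  refine ⟨4 * max A' 0 * Cs, R, hR, fun y hy r hr => ?_⟩
  obtain ⟨m, hm1, hm2⟩ := exists_nat_pow_near ((one_le_div hr.1).2 hr.2) one_lt_two
  rw [le_div_iff₀ hr.1] at hm1
  rw [div_lt_iff₀ hr.1] at hm2
  have hp : (0 : ℝ) < 2 ^ m := by positivity
  have hle : r ≤ R / 2 ^ m := (le_div_iff₀' hp).2 hm1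
  have hlt : R / 2 ^ m ≤ 2 * r := by
    rw [div_le_iff₀ hp]
    rw [pow_succ] at hm2
    linarith
  have hsn : 0 ≤ ∑ i ∈ Finset.range (m + 1), (q / 2) ^ i :=
    Finset.sum_nonneg fun i _ => pow_nonneg (div_nonneg (zero_le_one.trans hq.1.le) two_pos.le) i
  refine (measure_mono (closedBall_subset_closedBall hle)).trans
    ((hA' m y hy).trans (ENNReal.ofReal_le_ofReal ?_))
  calc A' * (R / 2 ^ m) ^ 2 * ∑ i ∈ Finset.range (m + 1), (q / 2) ^ i
      ≤ max A' 0 * (2 * r) ^ 2 * (Cs * h r ^ 2) :=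
        mul_le_mul (mul_le_mul (le_max_left _ _) (pow_le_pow_left₀ (by positivity) hlt 2)
          (sq_nonneg _) (le_max_right _ _)) (hCs r hr.1 m hm1) hsn
          (mul_nonneg (le_max_right _ _) (sq_nonneg _))
    _ = 4 * max A' 0 * Cs * (r * h r) ^ 2 := by ring

end

lemma sum_halves_log (R : ℝ) : ∃ C : ℝ, ∀ r > 0, ∀ m : ℕ, 2 ^ m * r ≤ R →
    ∑ i ∈ Finset.range (m + 1), ((2 : ℝ) / 2) ^ i ≤
      C * Real.sqrt (1 + max 0 (-Real.log r)) ^ 2 := by
  have hl : 0 < Real.log 2 := Real.log_pos one_lt_two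
  refine ⟨1 + (|Real.log R| + 1) / Real.log 2, fun r hr m hm => ?_⟩
  set x := max 0 (-Real.log r)
  have hx : 0 ≤ x := le_max_left _ _
  rw [Real.sq_sqrt (by linarith)]
  have h1 : (m : ℝ) * Real.log 2 + Real.log r ≤ Real.log R := by
    rw [← Real.log_pow, ← Real.log_mul (by positivity) hr.ne']
    exact Real.log_le_log (by positivity) hm
  have h2 : (m : ℝ) ≤ (|Real.log R| + x) / Real.log 2 := by
    rw [le_div_iff₀ hl]
    linarith [le_abs_self (Real.log R), le_max_right 0 (-Real.log r)]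
  have h3 : (|Real.log R| + x) / Real.log 2 ≤ (|Real.log R| + 1) / Real.log 2 * (1 + x) := by
    rw [div_mul_eq_mul_div, div_le_div_iff_of_pos_right hl]
    nlinarith [mul_nonneg (abs_nonneg (Real.log R)) hx]
  simp only [div_self (two_ne_zero (α := ℝ)), one_pow, Finset.sum_const, Finset.card_range,
    nsmul_eq_mul, mul_one, Nat.cast_add, Nat.cast_one]
  linarith

/-- Module Bootstrap: regularity of obstructions. -/
theorem obstructionRegular_of (hLS : LowStep) (hDS : DensityStep) : ObstructionRegular := by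
  intro X _ _ _ _ _ _ _ A J w μ Θ Φ hJ hw hob
  obtain ⟨ρ, hρ⟩ := molExists
  have := hob.finite
  have hlog : Growth μ fun r => Real.sqrt (1 + max 0 (-Real.log r)) :=
    growth_step hLS hDS hJ hw hob hρ gauge_inv gauge_log ⟨one_lt_two, le_rfl⟩ (growth_inv μ)
      fun R _ => sum_halves_log R
  have hquad : Growth μ fun _ => 1 := by
    refine growth_step hLS hDS hJ hw hob hρ gauge_log gauge_one ⟨by norm_num, by norm_num⟩ hlog
      fun _ _ => ⟨4, fun r _ m _ => ?_⟩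
    rw [geom_sum_eq (by norm_num), div_le_iff_of_neg (by norm_num)]
    norm_num
  refine ⟨fun p K hK hKc => by simpa using hquad p K hK hKc, ?_⟩
  obtain ⟨C, -, τ, hτ, hτ1, hG⟩ :=
    exists_gPhi_le hLS hJ hw hob hρ gauge_one ⟨le_rfl, one_le_two⟩ hquad
  refine ⟨C, fun u hu hanti => ge_of_tendsto ((tendsto_hnorm A 8 u).const_mul C) ?_⟩
  filter_upwards [Ioc_mem_nhdsGT hτ] with ε hε
  have h := abs_le_gPhi A hJ hob.bound hu (ε := ε) ⟨hε.1, hε.2.trans hτ1⟩
  rw [funext hanti] at h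
  exact h.trans ((mul_le_mul_of_nonneg_right (hG ε hε) (hnorm_nonneg A 8 hε.1.le u)).trans
    (le_of_eq (by rw [mul_one])))

end Vale.Agent.P204.Tame.Mfd
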