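import Vale.Agent.P204.Defs

/-!
P204: the tamed to compatible statement for closed four-manifolds, with smoothness and closedness
of fields read in the charts of the smooth atlas.

A field of endomorphisms or of bilinear forms on the tangent spaces is a function with values in
the maps of `E`, the type of which the tangent space at a point is a copy; `dChart` and `dSymm`
are the differentials of the charts and of their inverses.
-/

namespace Vale.Agent.P204

open scoped ContDiff Manifold

/-- The model with corners of `E`: no boundary. -/
noncomputable abbrev modelE : ModelWithCorners ℝ E E := modelWithCornersSelf ℝ E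

/-- Endomorphisms of `E`. -/
abbrev EndE : Type := E →L[ℝ] E

/-- Bilinear forms on `E`. -/
abbrev BilE : Type := E →L[ℝ] E →L[ℝ] ℝ

/-- The value of an endomorphism. -/
noncomputable def endVal (A : EndE) (v : E) : E := A v

/-- The value of a bilinear form. -/
noncomputable def bilVal (B : BilE) (u v : E) : ℝ := B u v

variable {X : Type} [TopologicalSpace X] [ChartedSpace E X]

/-- The differential at `x` of the chart at `p`. -/
noncomputable def dChart (p x : X) : EndE := mfderiv modelE modelE (chartAt E p) x

/-- The differential at `y` of the inverse of the chart at `p`. -/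
noncomputable def dSymm (p : X) (y : E) : EndE := mfderiv modelE modelE (chartAt E p).symm y

/-- A field of endomorphisms of the tangent spaces read in the chart at `p`. -/
noncomputable def endChart (J : X → EndE) (p : X) (u : E) (y : E) : E :=
  endVal (dChart p ((chartAt E p).symm y)) (endVal (J ((chartAt E p).symm y)) (endVal (dSymm p y) u))

/-- A field of bilinear forms on the tangent spaces pulled back by the inverse of the chart at `p`,
evaluated on two constant vectors. -/
noncomputable def pullChart (W : X → BilE) (p : X) (u v : E) (y : E) : ℝ :=
  bilVal (W ((chartAt E p).symm y)) (endVal (dSymm p y) u) (endVal (dSymm p y) v)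

/-- A field of endomorphisms of the tangent spaces is smooth: smooth in every chart. -/
def IsSmoothEndField (J : X → EndE) : Prop :=
  ∀ p : X, ∀ u : E, ∀ i : Fin 4, ContDiffOn ℝ ∞ (fun y => endChart J p u y i) ((chartAt E p).target)

/-- A field of bilinear forms is smooth in every chart and closed there. -/
def IsSmoothClosed (W : X → BilE) : Prop :=
  (∀ p : X, ∀ u v : E, ContDiffOn ℝ ∞ (pullChart W p u v) ((chartAt E p).target)) ∧
    ∀ p : X, ∀ y ∈ (chartAt E p).target, ∀ a b c : E,
      fderiv ℝ (pullChart W p b c) y a + fderiv ℝ (pullChart W p c a) y b +
        fderiv ℝ (pullChart W p a b) y c = 0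

/-- A symplectic form: smooth and closed, alternating, nondegenerate. -/
def IsSymplecticField (W : X → BilE) : Prop :=
  IsSmoothClosed W ∧ (∀ x v, bilVal (W x) v v = 0) ∧
    ∀ x v, v ≠ 0 → ∃ w, bilVal (W x) v w ≠ 0

/-- The square of the field is minus the identity. -/
def IsAlmostComplex (J : X → EndE) : Prop := ∀ x v, endVal (J x) (endVal (J x) v) = -v

/-- The form is positive on complex lines. -/
def IsTamedBy (J : X → EndE) (W : X → BilE) : Prop :=
  ∀ x v, v ≠ 0 → 0 < bilVal (W x) v (endVal (J x) v)

/-- The form is invariant under the field. -/
def IsInvariantUnder (J : X → EndE) (W : X → BilE) : Prop :=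
  ∀ x u v, bilVal (W x) (endVal (J x) u) (endVal (J x) v) = bilVal (W x) u v

/-- Donaldson's question: on a closed connected four-manifold, a tamed almost complex structure
has a compatible symplectic form. -/
def DonaldsonTamedToCompatible : Prop :=
  ∀ (X : Type) [TopologicalSpace X] [T2Space X] [CompactSpace X] [ConnectedSpace X]
    [ChartedSpace E X] [IsManifold modelE ∞ X] (J : X → EndE) (W : X → BilE),
    IsSmoothEndField J → IsAlmostComplex J → IsSymplecticField W → IsTamedBy J W →
    ∃ Ω : X → BilE, IsSymplecticField Ω ∧ IsTamedBy J Ω ∧ IsInvariantUnder J Ω

end Vale.Agent.P204
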