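import Vale.Agent.P204.Tame.Mfd.Assembly
import Vale.Agent.P204.Tame.Mfd.ChartStatement

/-!
P204: the chart form of the theorem from the global steps.
-/

namespace Vale.Agent.P204.Tame.Mfd

open scoped ContDiff Manifold Matrix Topology
open Bundle Set

variable {X : Type} [TopologicalSpace X] [ChartedSpace E X] [IsManifold 𝓘(ℝ, E) ∞ X]

/-- The differential of a chart in the preferred coordinates. -/
lemma dChart_apply {p z : X} (hz : z ∈ (chartAt E p).source) (v : E) :
    dChart p z v = (chg z p z *ᵥ v : E) := by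
  rw [← continuousLinearMapAt_eq_chg hz, TangentBundle.continuousLinearMapAt_trivializationAt hz]
  simp [dChart, modelE]
  rfl

/-- The differential of an inverse chart in the preferred coordinates. -/
lemma dSymm_apply {p : X} {y : E} (hy : y ∈ (chartAt E p).target) (v : E) :
    dSymm p y v = (chg p ((chartAt E p).symm y) ((chartAt E p).symm y) *ᵥ v : E) :=
  mfderiv_symm hy v

omit [IsManifold 𝓘(ℝ, E) ∞ X] in
lemma endVal_mat (J : X → EndE) (z : X) (v : E) : endVal (J z) v = matEnd J z *ᵥ v :=
  matEnd_apply J z v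

omit [IsManifold 𝓘(ℝ, E) ∞ X] in
lemma bilVal_mat (W : X → BilE) (z : X) (u v : E) : bilVal (W z) u v = val (matForm W z) u v :=
  matForm_apply W z u v

lemma endChart_eq (J : X → EndE) {p : X} {y : E} (hy : y ∈ (chartAt E p).target) (u : E) :
    endChart J p u y = repEnd p (matEnd J) y *ᵥ u := by
  simp only [endChart, endVal_mat J]
  simp only [endVal, dChart_apply ((chartAt E p).map_target hy), dSymm_apply hy, repEnd,
    Matrix.mulVec_mulVec, Matrix.mul_assoc]

lemma pullChart_eq (W : X → BilE) {p : X} {y : E} (hy : y ∈ (chartAt E p).target) (u v : E) :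
    pullChart W p u v y = val (rep p (matForm W) y) u v := by
  simp only [pullChart, bilVal_mat W]
  simp only [endVal, dSymm_apply hy, rep, val_congr]

lemma isACX_of_chart {J : X → EndE} (hJ : IsSmoothEndField J) (hsq : IsAlmostComplex J) :
    IsACX (matEnd J) where
  smooth p a b := (hJ p (e b) a).congr fun y hy => by
    rw [endChart_eq J hy]
    simp [e]
  sq z := by
    apply Matrix.ext_of_mulVec_single
    intro i
    rw [← Matrix.mulVec_mulVec, ← endVal_mat J, ← endVal_mat J, Matrix.neg_mulVec,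
      Matrix.one_mulVec]
    exact hsq z _

lemma isForm_of_chart {W : X → BilE} (hW : IsSymplecticField W) : IsForm (matForm W) where
  smooth p a b := (hW.1.1 p (e a) (e b)).congr fun y hy => by
    rw [pullChart_eq W hy, val_basis]
  skew z := by
    ext a b
    have h : ∀ u, formCLM W z u u = 0 := fun u => hW.2.1 z u
    have hab := h (e a + e b)
    simp only [map_add, add_apply, h (e a), h (e b)] at hab
    simp only [Matrix.transpose_apply, Matrix.neg_apply, matForm]
    linarith

lemma isClosedX_of_chart {W : X → BilE} (hW : IsSymplecticField W) : IsClosedX (matForm W) := by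
  intro p y hy i j k
  have h := (closed_iff W (isForm_of_chart hW).smooth hy (e i) (e j) (e k)).symm.trans
    (hW.1.2 p y hy (e i) (e j) (e k))
  simpa [e, Pi.single_apply, Finset.sum_ite_eq'] using h

/-- The compatible form of matrices gives a compatible form. -/
lemma exists_chartField {J : X → EndE} {θ : X → M} (hθ : IsForm θ) (hcl : IsClosedX θ)
    (hinv : ∀ z, (matEnd J z)ᵀ * θ z * matEnd J z = θ z) (ht : TamesX θ (matEnd J)) :
    ∃ Ω : X → BilE, IsSymplecticField Ω ∧ IsTamedBy J Ω ∧ IsInvariantUnder J Ω := by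
  set Ω : X → BilE := fun x => clmForm (θ x)
  have hmat : matForm Ω = θ := funext fun z => by
    ext a b
    show clmForm (θ z) (e a) (e b) = _
    rw [clmForm_apply, val_basis]
  have htame : IsTamedBy J Ω := fun x v hv => by
    show 0 < clmForm (θ x) v (endVal (J x) v)
    rw [clmForm_apply, endVal_mat J]
    exact ht x v hv
  refine ⟨Ω, ⟨⟨fun p u v => ?_, fun p y hy a b c => ?_⟩, fun x v => ?_,
    fun x v hv => ⟨_, (htame x v hv).ne'⟩⟩, htame, fun x u v => ?_⟩
  · have hc : ContDiffOn ℝ ∞ (fun y => val (rep p θ y) u v) (chartAt E p).target := by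
      simp only [val, dotProduct, Matrix.mulVec]
      have := hθ.smooth p
      fun_prop
    exact hc.congr fun y hy => by rw [pullChart_eq Ω hy, hmat]
  · refine (closed_iff Ω (by rw [hmat]; exact hθ.smooth) hy a b c).trans ?_
    refine Finset.sum_eq_zero fun i _ => Finset.sum_eq_zero fun j _ =>
      Finset.sum_eq_zero fun k _ => ?_
    rw [hmat, hcl p y hy i j k, mul_zero]
  · refine (clmForm_apply (θ x) v v).trans ?_
    simp only [val, dotProduct, Matrix.mulVec, Fin.sum_univ_four, skew_diag (hθ.skew x)]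
    have s := skew_apply (hθ.skew x)
    rw [s 0 1, s 0 2, s 0 3, s 1 2, s 1 3, s 2 3]
    ring
  · refine ((clmForm_apply (θ x) (endVal (J x) u) (endVal (J x) v)).trans ?_).trans
      (clmForm_apply (θ x) u v).symm
    have key : ∀ a b : E, val (θ x) (endVal (J x) a) (endVal (J x) b) = val (θ x) a b := fun a b => by
      rw [endVal_mat J, endVal_mat J, ← val_congr, hinv]
    exact key u v

/-- The theorem from the five global steps. -/
theorem donaldsonTamedToCompatible_of (hK : KaehlerCurrent) (hP : RemovePoles) (hS : Separation)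
    (hR : ObstructionRegular) (hN : NoObstruction) : DonaldsonTamedToCompatible := by
  intro X _ _ _ _ _ _ J W hJ hsq hW hWt
  borelize X
  obtain ⟨A⟩ := nonempty_atlas (X := X)
  have hJX := isACX_of_chart hJ hsq
  obtain ⟨w, hw⟩ := exists_isHerm hJX
  have ht : TamesX (matForm W) (matEnd J) := fun z v hv => by
    rw [← endVal_mat J, ← bilVal_mat W]
    exact hWt z v hv
  by_contra hne
  have hno : ¬ ∃ θ, IsForm θ ∧ IsClosedX θ ∧
      (∀ z, (matEnd J z)ᵀ * θ z * matEnd J z = θ z) ∧ TamesX θ (matEnd J) :=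
    fun ⟨θ, h1, h2, h3, h4⟩ => hne (exists_chartField h1 h2 h3 h4)
  obtain ⟨μ, Θ, hcur, hdom⟩ := hK X A (matEnd J) w (matForm W) hJX hw (isForm_of_chart hW)
    (isClosedX_of_chart hW) ht
  obtain ⟨μ₀, Θ₀, hcur₀, hdom₀, hq₀, hd₀, hν⟩ := hP X A _ w μ Θ hJX hw hcur hdom
  obtain ⟨ν, Θ', Φ, hobs, hν0⟩ := hS X A _ w hJX hw hno
  obtain ⟨hqν, hΦ⟩ := hR X A _ w ν Θ' Φ hJX hw hobs
  exact hν0 (hN X A _ w μ₀ Θ₀ ν Θ' Φ hJX hw hcur₀ hdom₀ hq₀ hd₀ hobs (hν ν hobs.finite hqν) hΦ)

end Vale.Agent.P204.Tame.Mfd
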