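import Vale.Agent.P204.Tame.Mfd.Tau
import Vale.Agent.P204.Tame.Mfd.Charts

/-!
P204, manifold layer: the smoother of an atlas is, in every chart, an averaged pullback; it
produces forms and spreads supports only slightly; near a point covered by a single plateau it is
a translation.
-/

namespace Vale.Agent.P204.Tame.Mfd

open scoped ContDiff Manifold Matrix Topology
open MeasureTheory Metric Set Filter

/-! ### The parameter space -/

lemma divNat_modNat {k : ℕ} (m : Fin (k * 4)) : finProdFinEquiv (m.divNat, m.modNat) = m :=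
  finProdFinEquiv.apply_symm_apply m

lemma measurePreserving_flat (k : ℕ) :
    MeasurePreserving (flat (k := k)) volume volume := by
  have hm : Measurable (flat (k := k)) :=
    measurable_pi_lambda _ fun m => (measurable_pi_apply _).comp (measurable_pi_apply _)
  refine ⟨hm, ?_⟩
  show Measure.map (flat (k := k)) volume = Measure.pi fun _ => volume
  refine (Measure.pi_eq fun s hs => ?_).symm
  have hpre : flat (k := k) ⁻¹' (univ.pi s) =
      univ.pi fun i : Fin k => univ.pi fun j : Fin 4 => s (finProdFinEquiv (i, j)) := by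
    ext w
    simp only [mem_preimage, mem_univ_pi]
    constructor
    · intro h i j
      simpa [flat] using h (finProdFinEquiv (i, j))
    · intro h m
      have h' := h (finProdFinEquiv.symm m).1 (finProdFinEquiv.symm m).2
      simpa [flat, divNat_modNat] using h'
  rw [Measure.map_apply hm (MeasurableSet.univ_pi hs), hpre, volume_pi_pi]
  simp only [volume_pi_pi]
  rw [← Fintype.prod_prod_type (f := fun x : Fin k × Fin 4 => volume (s (finProdFinEquiv x)))]
  exact finProdFinEquiv.prod_comp fun m => volume (s m)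

lemma flat_unflat {k : ℕ} (v : Fin (k * 4) → ℝ) : flat (unflat v) = v := by
  funext m
  simp [flat, unflat, divNat_modNat]

lemma integral_flat {k : ℕ} (g : (Fin (k * 4) → ℝ) → ℝ) :
    ∫ w : Fin k → E, g (flat w) = ∫ v, g v := by
  refine (measurePreserving_flat k).integral_comp ?_ g
  let e' : (Fin k → E) ≃ᵐ (Fin (k * 4) → ℝ) :=
    { toFun := flat
      invFun := unflat
      left_inv := unflat_flat
      right_inv := flat_unflat
      measurable_toFun := (measurePreserving_flat k).measurable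
      measurable_invFun := (continuous_unflat k).measurable }
  exact e'.measurableEmbedding

lemma isWeight_wgtA (k : ℕ) {ρ : E → ℝ} (hρ : IsMol ρ) : IsWeight (wgtA k ρ) where
  smooth := contDiff_prod fun i _ => hρ.smooth.comp (contDiff_pi.1 (contDiff_unflat k) i)
  supp := by
    refine closure_minimal (fun v hv => ?_) isClosed_closedBall
    have hv' : ∀ i, ‖unflat v i‖ ≤ 1 := fun i => by
      have h : ρ (unflat v i) ≠ 0 := Finset.prod_ne_zero_iff.1 hv i (Finset.mem_univ i)
      simpa using hρ.supp (subset_tsupport _ h)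
    rw [mem_closedBall_zero_iff, pi_norm_le_iff_of_nonneg zero_le_one]
    intro m
    have h := (norm_le_pi_norm (unflat v (finProdFinEquiv.symm m).1)
      (finProdFinEquiv.symm m).2).trans (hv' _)
    simpa [unflat, divNat_modNat] using h
  nonneg := fun v => Finset.prod_nonneg fun i _ => hρ.nonneg _
  mass := by
    rw [← integral_flat]
    simp only [wgtA, unflat_flat]
    rw [integral_fintype_prod_volume_eq_pow, hρ.mass, one_pow]

lemma norm_le_of_weight {n : ℕ} {ρ : (Fin n → ℝ) → ℝ} (hρ : IsWeight ρ) {ε : ℝ} (hε : 0 < ε)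
    {v : Fin n → ℝ} (h : ρ (ε⁻¹ • v) ≠ 0) : ‖v‖ ≤ ε :=
  not_lt.1 fun h' => h (hρ.eq_zero hε h')

variable {X : Type} [TopologicalSpace X] [ChartedSpace E X] [IsManifold 𝓘(ℝ, E) ∞ X]

omit [IsManifold 𝓘(ℝ, E) ∞ X] in
lemma smX_apply (A : Atlas X) (ρ : E → ℝ) {ε : ℝ} (hε : 0 < ε) (u : X → M) (z : X) (a b : Fin 4) :
    smX A ρ ε u z a b = (ε ^ (A.n * 4))⁻¹ *
      ∫ v, wgtA A.n ρ (ε⁻¹ • v) * pullX (tau A (unflat v)) u z a b := by
  set f : (Fin (A.n * 4) → ℝ) → ℝ :=
    fun v => wgtA A.n ρ (ε⁻¹ • v) * pullX (tau A (unflat v)) u z a b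
  have h1 : smX A ρ ε u z a b = ∫ v, f (ε • v) := by
    rw [← integral_flat (fun v => f (ε • v))]
    simp only [smX, smear]
    refine integral_congr_ae (Eventually.of_forall fun w => ?_)
    simp [f, wgtA, unflat_smul, unflat_flat, smul_smul, inv_mul_cancel₀ hε.ne']
  rw [h1, Measure.integral_comp_smul volume f ε, Module.finrank_fin_fun, smul_eq_mul,
    abs_of_pos (inv_pos.2 (pow_pos hε _))]

omit [IsManifold 𝓘(ℝ, E) ∞ X] in
lemma smX_skew (A : Atlas X) (ρ : E → ℝ) (ε : ℝ) {u : X → M} (hu : ∀ z, (u z)ᵀ = -u z) (z : X) :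
    (smX A ρ ε u z)ᵀ = -smX A ρ ε u z := by
  ext a b
  simp only [smX, smear, Matrix.transpose_apply, Matrix.neg_apply, ← integral_neg]
  refine integral_congr_ae (Eventually.of_forall fun v => ?_)
  simp only [pullX, skew_apply (skew_congr _ (hu _)) a b, mul_neg]

/-- In every chart the smoother is the averaged pullback. -/
theorem smX_chart (A : Atlas X) {ρ : E → ℝ} (hρ : IsMol ρ) (hF : SmootherFibre) (p : X)
    {K : Set E} (hKU : K ⊆ (chartAt E p).target) (hK : IsCompact K) :
    ∃ K' ⊆ (chartAt E p).target, IsCompact K' ∧ K ⊆ interior K' ∧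
      ∃ ε₀ > 0, ∀ ε ∈ Ioc (0 : ℝ) ε₀, ∀ u, IsL2X u →
      ∀ y ∈ K, rep p (smX A ρ ε u) y =
        smL (readTau A p) (wgtA A.n ρ) ε (K'.indicator (rep p u)) y := by
  obtain ⟨K', hK'c, hKK', hK't⟩ := exists_compact_between hK (chartAt E p).open_target hKU
  have hW : IsOpen (tauDom A p ∩
      (fun a : (Fin (A.n * 4) → ℝ) × E => readTau A p a.1 a.2) ⁻¹' interior K') :=
    (contDiffOn_readTau A p).continuousOn.isOpen_inter_preimage (isOpen_tauDom A p) isOpen_interior
  obtain ⟨δ, hδ, hT⟩ := exists_tube hW hK (by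
    rintro ⟨v, y⟩ ⟨rfl : v = 0, hy : y ∈ K⟩
    exact ⟨mem_tauDom_zero A p ⟨rfl, hKU hy⟩, by
      simpa [readTau_zero A (hKU hy)] using hKK' hy⟩)
  obtain ⟨C, -, ε₁, hε₁, hfacts⟩ :=
    exists_smL_facts hF (isSmoother_readTau A p) (isWeight_wgtA A.n hρ) hKU hK
  refine ⟨K', hK't, hK'c, hKK', min δ ε₁, lt_min hδ hε₁, fun ε hε u hu y hy => ?_⟩
  set σ := readTau A p
  set a := K'.indicator (rep p u) with ha
  set cp := chartAt E p
  set z := cp.symm y with hz
  set S := chg z p z
  have haL : IsL2Field volume a :=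
    (hu.memLp p K' hK't hK'c).indicator hK'c.isClosed.measurableSet
  have hev := (hfacts ε ⟨hε.1, hε.2.trans (min_le_right _ _)⟩ y hy).2.2.2 a haL
  have hzp : z ∈ cp.source := cp.map_target (hKU hy)
  have hexp : ∀ (B : M) (i j : Fin 4),
      (Sᵀ * B * S) i j = ∑ r, ∑ s, S r i * S s j * B r s := fun B i j => by
    simp only [Matrix.mul_apply, Matrix.transpose_apply, Finset.sum_mul]
    rw [Finset.sum_comm]
    exact Finset.sum_congr rfl fun r _ => Finset.sum_congr rfl fun s _ => by ring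
  have hmain : smX A ρ ε u z = Sᵀ * smL σ (wgtA A.n ρ) ε a y * S := by
    ext i j
    rw [smX_apply A ρ hε.1, hexp, (hev fun r s => S r i * S s j).2]
    congr 1
    refine integral_congr_ae (Eventually.of_forall fun v => ?_)
    by_cases h : wgtA A.n ρ (ε⁻¹ • v) = 0
    · simp [h]
    · have hv : v ∈ closedBall (0 : Fin (A.n * 4) → ℝ) δ := mem_closedBall_zero_iff.2
        ((norm_le_of_weight (isWeight_wgtA A.n hρ) hε.1 h).trans (hε.2.trans (min_le_left _ _)))
      obtain ⟨hd, hin⟩ := hT (mk_mem_prod hv hy)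
      have hpv : pullV σ v (rep p u) y = pullV σ v a y := by
        simp only [pullV, ha, σ, Set.indicator_of_mem (interior_subset hin)]
      simp only
      rw [← hexp (pullV σ v a y), ← hpv, ← rep_pullX_tau A u hd,
        eq_rep (pullX (tau A (unflat v)) u) hzp]
      rw [show cp z = y from cp.right_inv (hKU hy)]
  have hST : S * chg p z z = 1 := chg_mul_chg hzp (mem_chart_source E z)
  show (chg p z z)ᵀ * smX A ρ ε u z * chg p z z = _
  rw [hmain]
  calc (chg p z z)ᵀ * (Sᵀ * smL σ (wgtA A.n ρ) ε a y * S) * chg p z z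
      = (S * chg p z z)ᵀ * smL σ (wgtA A.n ρ) ε a y * (S * chg p z z) := by
        rw [Matrix.transpose_mul]; simp only [Matrix.mul_assoc]
    _ = _ := by rw [hST]; simp

/-- For small scales the smoother produces forms. -/
theorem smX_isForm (A : Atlas X) {ρ : E → ℝ} (hρ : IsMol ρ) (hF : SmootherFibre)
    (hS : SmootherSobolev) :
    ∃ ε₀ > 0, ∀ ε ∈ Ioc (0 : ℝ) ε₀, ∀ u, IsL2X u → IsForm (smX A ρ ε u) := by
  have key : ∀ i : Fin A.n, ∃ O : Set E, IsOpen O ∧ O ⊆ (chartAt E (A.c i)).target ∧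
      (∀ z ∈ tsupport (A.φ i), chartAt E (A.c i) z ∈ O) ∧
      ∀ᶠ ε in 𝓝[>] (0 : ℝ), ∀ u, IsL2X u → ∀ y ∈ O, ∀ a b,
        ContDiffAt ℝ ∞ (fun x => rep (A.c i) (smX A ρ ε u) x a b) y := by
    intro i
    set c := chartAt E (A.c i)
    have hQ : IsCompact (c '' tsupport (A.φ i)) :=
      (A.φ_supp i).1.image_of_continuousOn (c.continuousOn.mono (A.φ_supp i).2)
    have hQt : c '' tsupport (A.φ i) ⊆ c.target := by
      rintro _ ⟨z, hz, rfl⟩
      exact c.map_source ((A.φ_supp i).2 hz)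
    obtain ⟨K, hKc, hQK, hKt⟩ := exists_compact_between hQ c.open_target hQt
    obtain ⟨K', hK't, hK'c, -, ε₁, hε₁, hchart⟩ := smX_chart A hρ hF (A.c i) hKt hKc
    obtain ⟨W, hWo, hW0, hWσ⟩ := (isSmoother_readTau A (A.c i)).smooth
    choose ε₂ hε₂ hsm using fun k : Fin 4 × Fin 4 × Fin 4 × Fin 4 =>
      hS _ _ _ (isSmoother_readTau A (A.c i)) (wgtA A.n ρ)
        (pullCoef (readTau A (A.c i)) k.1 k.2.1 k.2.2.1 k.2.2.2)
        (isWeight_wgtA A.n hρ).smooth (isWeight_wgtA A.n hρ).supp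
        ⟨W, hWo, hW0, (contDiffOn_jacV hWo hWσ _ _).mul (contDiffOn_jacV hWo hWσ _ _)⟩ K hKt hKc
    refine ⟨interior K, isOpen_interior, interior_subset.trans hKt,
      fun z hz => hQK ⟨z, hz, rfl⟩, ?_⟩
    have e2 : ∀ k, ∀ᶠ ε in 𝓝[>] (0 : ℝ), ε ∈ Ioc (0 : ℝ) (ε₂ k) := fun k =>
      Ioc_mem_nhdsGT (hε₂ k)
    filter_upwards [eventually_all.2 e2, (Ioc_mem_nhdsGT hε₁ : Ioc (0 : ℝ) ε₁ ∈ 𝓝[>] (0 : ℝ))]
      with ε h2 h1 u hu y hy a b
    have hL : IsL2Field volume (K'.indicator (rep (A.c i) u)) :=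
      (hu.memLp _ K' hK't hK'c).indicator hK'c.isClosed.measurableSet
    have hd : ContDiffAt ℝ ∞ (fun x => smL (readTau A (A.c i)) (wgtA A.n ρ) ε
        (K'.indicator (rep (A.c i) u)) x a b) y := by
      simp only [smL, Matrix.of_apply]
      exact ContDiffAt.sum fun r _ => ContDiffAt.sum fun s _ =>
        (hsm (a, b, r, s)).1 ε (h2 _) _ (hL r s) y (interior_subset hy)
    refine hd.congr_of_eventuallyEq ?_
    filter_upwards [isOpen_interior.mem_nhds hy] with x hx
    rw [hchart ε h1 u hu x (interior_subset hx)]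
  choose O hO hOt hOm hev using key
  obtain ⟨ε₀, hε₀, hsub⟩ := mem_nhdsGT_iff_exists_Ioc_subset.1 (eventually_all.2 hev)
  refine ⟨ε₀, hε₀, fun ε hε u hu => ⟨fun p a b => ?_, smX_skew A ρ ε hu.skew⟩⟩
  intro y hy
  obtain ⟨i, hi⟩ : ∃ i, A.φ i ((chartAt E p).symm y) ≠ 0 := by
    by_contra! h
    simpa [h] using A.sum_φ ((chartAt E p).symm y)
  have his : (chartAt E p).symm y ∈ tsupport (A.φ i) := subset_tsupport _ hi
  have hy' : y ∈ trnDom p (A.c i) := ⟨hy, (A.φ_supp i).2 his⟩
  have hN : trnDom p (A.c i) ∈ 𝓝 y := (isOpen_trnDom p (A.c i)).mem_nhds hy'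
  have hr : ∀ r s, ContDiffAt ℝ ∞
      (fun x => rep (A.c i) (smX A ρ ε u) (trn p (A.c i) x) r s) y := fun r s =>
    ContDiffAt.comp (g := fun x => rep (A.c i) (smX A ρ ε u) x r s) y
      (hsub hε i u hu _ (hOm i _ his) r s) ((contDiffOn_trn p (A.c i)).contDiffAt hN)
  refine (ContDiffAt.congr_of_eventuallyEq ?_ (f := fun x => ∑ s, (∑ r,
    chg p (A.c i) ((chartAt E p).symm x) r a * rep (A.c i) (smX A ρ ε u) (trn p (A.c i) x) r s) *
      chg p (A.c i) ((chartAt E p).symm x) s b) ?_).contDiffWithinAt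
  · exact ContDiffAt.sum fun s _ => (ContDiffAt.sum fun r _ =>
      ((contDiffOn_chg p (A.c i) r a).contDiffAt hN).mul (hr r s)).mul
      ((contDiffOn_chg p (A.c i) s b).contDiffAt hN)
  · filter_upwards [hN] with x hx
    rw [rep_trn _ hx]
    simp [Matrix.mul_apply]

/-- Supports spread only slightly. -/
theorem smX_supp (A : Atlas X) {ρ : E → ℝ} (hρ : IsMol ρ) [T2Space X] [CompactSpace X]
    {Z N : Set X} (hZ : IsCompact Z) (hN : IsOpen N) (hZN : Z ⊆ N) :
    ∃ ε₀ > 0, ∀ ε ∈ Ioc (0 : ℝ) ε₀, ∀ u, (∀ z ∉ Z, u z = 0) → ∀ z ∉ N, smX A ρ ε u z = 0 := by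
  have hev : ∀ z ∈ Nᶜ, ∀ᶠ a : (Fin (A.n * 4) → ℝ) × X in 𝓝 (0, z),
      tau A (unflat a.1) a.2 ∉ Z := by
    intro z hz
    have hzs : z ∈ (chartAt E z).source := mem_chart_source E z
    have hc := (eventually_contMDiffAt_tau A ((chartAt E z).map_source hzs)).self_of_nhds.continuousAt
    have hz0 : tau A (unflat (0 : Fin (A.n * 4) → ℝ))
        ((chartAt E z).symm (chartAt E z z)) ∈ Zᶜ := by
      rw [show unflat (0 : Fin (A.n * 4) → ℝ) = 0 from rfl, tau_zero,
        (chartAt E z).left_inv hzs]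
      exact fun h => hz (hZN h)
    have h1 := hc.eventually_mem (hZ.isClosed.isOpen_compl.mem_nhds hz0)
    have hm : ContinuousAt (fun a : (Fin (A.n * 4) → ℝ) × X => (a.1, chartAt E z a.2)) (0, z) :=
      continuousAt_fst.prodMk (((chartAt E z).continuousAt hzs).comp continuousAt_snd)
    filter_upwards [hm.eventually h1,
      continuousAt_snd.eventually_mem ((chartAt E z).open_source.mem_nhds (x := z) hzs)]
      with a ha has
    simpa [(chartAt E z).left_inv has] using ha
  have hall := (hN.isClosed_compl.isCompact).eventually_forall_of_forall_eventually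
    (P := fun (v : Fin (A.n * 4) → ℝ) (z : X) => tau A (unflat v) z ∉ Z) hev
  obtain ⟨δ, hδ, hb⟩ := nhds_basis_closedBall.mem_iff.1 hall
  refine ⟨δ, hδ, fun ε hε u hu z hz => ?_⟩
  ext a b
  rw [smX_apply A ρ hε.1, Matrix.zero_apply]
  refine mul_eq_zero_of_right _ ?_
  refine (integral_congr_ae (Eventually.of_forall fun v => ?_)).trans (integral_zero _ _)
  by_cases h : wgtA A.n ρ (ε⁻¹ • v) = 0
  · simp [h]
  · have hv := hb (mem_closedBall_zero_iff.2
      ((norm_le_of_weight (isWeight_wgtA A.n hρ) hε.1 h).trans hε.2)) z hz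
    simp [pullX, hu _ hv]

/-- The facts about the smoother hold for every atlas and mollifier. -/
theorem smearFactsHold : SmearFactsHold := fun _ _ _ _ _ _ A _ hF hS hρ =>
  { weight := isWeight_wgtA A.n hρ
    smoother := isSmoother_readTau A
    chart := fun p _ hKU hK => smX_chart A hρ hF p hKU hK
    form := smX_isForm A hρ hF hS
    supp := fun _ _ hZ hN hZN => smX_supp A hρ hZ hN hZN }

/-- Near a point covered by a single plateau the smoother is a translation. -/
theorem readTauTranslation : ReadTauTranslation := by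
  intro X _ _ _ _ _ z₀
  obtain ⟨A, i₀, B, hB, hz₀, hBs, hc, h1, h0⟩ := exists_atlas_at z₀
  set c := chartAt E (A.c i₀)
  refine ⟨A, i₀, c.target ∩ c.symm ⁻¹' B, c.isOpen_inter_preimage_symm hB, inter_subset_left,
    hBs hz₀, ⟨c.map_source (hBs hz₀), by
      show c.symm (c z₀) ∈ B
      rwa [c.left_inv (hBs hz₀)]⟩,
    fun y hy => ?_, fun K hK hKc => ?_⟩
  · have hsum := A.sum_φ (c.symm y)
    rw [Finset.sum_eq_single i₀ (fun j _ hj => ?_) (by simp)] at hsum
    · exact hsum
    · by_contra hne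
      have h := A.ζ_one j _ (subset_tsupport _ hne)
      rw [h0 j hj _ hy.2] at h
      exact zero_ne_one h
  · have hev : ∀ᶠ v in 𝓝 (0 : Fin (A.n * 4) → ℝ), ∀ y ∈ K,
        y + unflat v i₀ ∈ c.target ∩ c.symm ⁻¹' B := by
      refine hKc.eventually_forall_of_forall_eventually
        (P := fun (v : Fin (A.n * 4) → ℝ) (y : E) => y + unflat v i₀ ∈ c.target ∩ c.symm ⁻¹' B)
        fun y hy => ?_
      have hu : Continuous fun v : Fin (A.n * 4) → ℝ => unflat v i₀ :=
        (continuous_apply i₀).comp (continuous_unflat A.n)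
      refine (continuous_snd.add (hu.comp continuous_fst)).continuousAt.eventually_mem
        ((c.isOpen_inter_preimage_symm hB).mem_nhds ?_)
      have h00 : y + unflat (0 : Fin (A.n * 4) → ℝ) i₀ = y := by
        funext j; simp [unflat]
      show y + unflat (0 : Fin (A.n * 4) → ℝ) i₀ ∈ _
      rw [h00]
      exact hK hy
    obtain ⟨δ, hδ, hb⟩ := nhds_basis_closedBall.mem_iff.1 hev
    refine ⟨δ, hδ, fun v hv y hy => ?_⟩
    obtain ⟨hwt, hwB⟩ := hb hv y hy
    obtain ⟨hyt, hyB⟩ := hK hy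
    have hsrc : c.symm y ∈ c.source := c.map_target hyt
    have hbump : bump (A.c i₀) (A.ζ i₀) (unflat v i₀) (c.symm y) = c.symm (y + unflat v i₀) := by
      simp only [bump]
      rw [if_pos hsrc, h1 _ hyB, one_smul, c.right_inv hyt]
    rw [readTau, tau_eq_bump A (unflat v) i₀ _ fun i hi =>
      Or.inr ⟨h0 i hi _ hyB, by rw [hbump]; exact h0 i hi _ hwB⟩, hbump, c.right_inv hwt]

end Vale.Agent.P204.Tame.Mfd
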