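import Vale.Agent.P204.Tame.Mfd.GlueBase
import Vale.Agent.P204.Tame.Mfd.SmearFacts
import Vale.Agent.P204.Tame.Mfd.CoreDefs
import Vale.Agent.P204.Tame.SmootherBasic
import Vale.Agent.P204.Tame.Loc.SmL
import Vale.Agent.P204.Tame.ElMir.Param

/-!
P204, manifold layer: the smoother of an exact form is the exterior derivative of the averaged
pullback of the one-form, hence pairs to zero with a current.
-/

namespace Vale.Agent.P204.Tame.Mfd

open scoped ContDiff Manifold Matrix Topology
open MeasureTheory Metric Set Filter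

/-- A function smooth on an open set containing its support is smooth. -/
lemma contDiff_of_tsupport_normed {G : Type*} [NormedAddCommGroup G] [NormedSpace ℝ G] {V : Set G}
    (hV : IsOpen V) {f : G → ℝ} (hf : ContDiffOn ℝ ∞ f V) (hs : tsupport f ⊆ V) :
    ContDiff ℝ ∞ f := by
  refine contDiff_iff_contDiffAt.2 fun x => ?_
  by_cases hx : x ∈ tsupport f
  · exact hf.contDiffAt (hV.mem_nhds (hs hx))
  · exact contDiffAt_const.congr_of_eventuallyEq (notMem_tsupport_iff_eventuallyEq.1 hx)

/-- The averaged pullback of a one-form in coordinates. -/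
noncomputable def avg1 {n : ℕ} (σ : (Fin n → ℝ) → E → E) (ρ : (Fin n → ℝ) → ℝ) (ε : ℝ)
    (a : E → E) (y : E) : E :=
  fun i => (ε ^ n)⁻¹ * ∫ v, ρ (ε⁻¹ • v) * ∑ k, pd i (fun x => σ v x k) y * a (σ v y) k

/-- The averaged pullback of a one-form is smooth and its exterior derivative is the average of
the pullbacks of the exterior derivative. -/
theorem avg1_spec {n : ℕ} {σ : (Fin n → ℝ) → E → E} {ρ : (Fin n → ℝ) → ℝ} (hρ : IsWeight ρ)
    {W : Set ((Fin n → ℝ) × E)} (hW : IsOpen W)
    (hσ : ContDiffOn ℝ ∞ (fun z => σ z.1 z.2) W) {T : Set E} (hT : IsOpen T)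
    (hWT : ∀ z ∈ W, σ z.1 z.2 ∈ T) {K : Set E} {ε : ℝ} (hε : 0 < ε)
    (htube : closedBall (0 : Fin n → ℝ) ε ×ˢ K ⊆ W) {a : E → E}
    (ha : ∀ k, ContDiffOn ℝ ∞ (fun x => a x k) T) {y : E} (hy : y ∈ interior K) :
    (∀ i, ContDiffAt ℝ ∞ (fun x => avg1 σ ρ ε a x i) y) ∧
      ∀ i j, dOne (avg1 σ ρ ε a) y i j
        = (ε ^ n)⁻¹ * ∫ v, ρ (ε⁻¹ • v) * pullV σ v (dOne a) y i j := by
  obtain ⟨χ, hχ, -, U₁, hU₁, hyU₁, hU₁K, hχ1⟩ :=
    Tame.exists_cutoff isOpen_interior isCompact_singleton (singleton_subset_iff.2 hy)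
  have hyU : y ∈ U₁ := hyU₁ rfl
  let Z : Fin 4 → E × (Fin n → ℝ) → ℝ := fun i p =>
    ∑ k, pd i (fun x => σ p.2 x k) p.1 * a (σ p.2 p.1) k
  let F : Fin 4 → E × (Fin n → ℝ) → ℝ := fun i p => χ p.1 * ρ (ε⁻¹ • p.2) * Z i p
  set L := closedBall (0 : Fin n → ℝ) ε with hL
  set W' : Set (E × (Fin n → ℝ)) := (fun p => (p.2, p.1)) ⁻¹' W with hW'
  have hW'o : IsOpen W' := hW.preimage (continuous_snd.prodMk continuous_fst)
  have hsw : ContDiff ℝ ∞ (fun p : E × (Fin n → ℝ) => (p.2, p.1)) :=
    contDiff_snd.prodMk contDiff_fst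
  have hZ : ∀ i, ContDiffOn ℝ ∞ (Z i) W' := fun i => by
    refine ContDiffOn.sum fun k _ => ?_
    refine ContDiffOn.mul ?_ ?_
    · exact ((contDiffOn_jacV hW hσ k i).comp hsw.contDiffOn fun p hp => hp)
    · exact (ha k).comp (hσ.comp hsw.contDiffOn fun p hp => hp) fun p hp => hWT (p.2, p.1) hp
  have hρs : ContDiff ℝ ∞ fun v : Fin n → ℝ => ρ (ε⁻¹ • v) :=
    hρ.smooth.comp (contDiff_id.const_smul ε⁻¹)
  have hsuppF : ∀ i, tsupport (F i) ⊆ W' := fun i => by
    have hsub : tsupport (F i) ⊆ tsupport χ ×ˢ L := by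
      refine closure_minimal (fun p hp => ?_) ((isClosed_tsupport χ).prod isClosed_closedBall)
      simp only [F, Function.mem_support, ne_eq, mul_eq_zero, not_or] at hp
      exact ⟨subset_tsupport _ hp.1.1,
        mem_closedBall_zero_iff.2 (not_lt.1 fun h => hp.1.2 (hρ.eq_zero hε h))⟩
    exact hsub.trans fun p hp => htube ⟨hp.2, interior_subset (hχ.supp hp.1)⟩
  have hF : ∀ i, ContDiff ℝ ∞ (F i) := fun i =>
    contDiff_of_tsupport_normed hW'o
      (((hχ.smooth.comp contDiff_fst).contDiffOn.mul (hρs.comp contDiff_snd).contDiffOn).mul (hZ i))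
      (hsuppF i)
  set ν := (volume : Measure (Fin n → ℝ)).restrict L with hν
  have hfin : IsFiniteMeasure ν := ⟨by
    rw [hν, Measure.restrict_apply_univ]; exact (isCompact_closedBall _ _).measure_lt_top⟩
  have hνL : ν Lᶜ = 0 := by
    rw [hν, Measure.restrict_apply isClosed_closedBall.measurableSet.compl, compl_inter_self,
      measure_empty]
  have hLc : IsCompact L := isCompact_closedBall _ _
  have hg : AEStronglyMeasurable (fun _ : Fin n → ℝ => (1 : ℝ)) ν := aestronglyMeasurable_const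
  have hgB : ∀ᵐ _z ∂ν, |(1 : ℝ)| ≤ 1 := ae_of_all _ fun _ => by simp
  have heq : ∀ i, (fun x => avg1 σ ρ ε a x i) =ᶠ[𝓝 y]
      fun x => (ε ^ n)⁻¹ * ∫ v, (1 : ℝ) • F i (x, v) ∂ν := fun i => by
    filter_upwards [hU₁.mem_nhds hyU] with x hx
    simp only [avg1, F, Z, hχ1 x hx, one_mul, one_smul, hν]
    rw [setIntegral_eq_integral_of_forall_compl_eq_zero fun v hv => by
      rw [hρ.eq_zero hε (not_le.1 fun h => hv (mem_closedBall_zero_iff.2 h)), zero_mul]]
  have hcd : ∀ i, ContDiff ℝ ∞ fun x => ∫ v, (1 : ℝ) • F i (x, v) ∂ν := fun i =>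
    ElMir.contDiff_param hLc hνL hg hgB (hF i)
  refine ⟨fun i => ((contDiff_const.mul (hcd i)).contDiffAt).congr_of_eventuallyEq (heq i),
    fun i j => ?_⟩
  have hpd : ∀ p q, pd p (fun x => avg1 σ ρ ε a x q) y
      = (ε ^ n)⁻¹ * ∫ v, fderiv ℝ (fun x => F q (x, v)) y (e p) ∂ν := fun p q => by
    rw [pd_congr p (heq q)]
    unfold pd
    rw [fderiv_const_mul ((hcd q).differentiable (by simp) y), smul_apply, smul_eq_mul,
      ElMir.fderiv_param hLc hνL hg hgB (hF q)]
    simp only [one_smul]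
  have hint : ∀ p q, Integrable (fun v => fderiv ℝ (fun x => F q (x, v)) y (e p)) ν := fun p q => by
    have h1 : Continuous fun v => ElMir.dfst (F q) (y, v) (e p) :=
      ((ElMir.contDiff_dfst (hF q)).continuous.comp (Continuous.prodMk_right y)).clm_apply
        continuous_const
    have he : (fun v => fderiv ℝ (fun x => F q (x, v)) y (e p))
        = fun v => ElMir.dfst (F q) (y, v) (e p) := by
      funext v
      rw [(ElMir.hasFDerivAt_fst ((hF q).differentiable (by simp)) y v).fderiv]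
    rw [he]
    exact h1.continuousOn.integrableOn_compact hLc
  show pd i (fun x => avg1 σ ρ ε a x j) y - pd j (fun x => avg1 σ ρ ε a x i) y = _
  rw [hpd, hpd, ← mul_sub, ← integral_sub (hint i j) (hint j i),
    ← setIntegral_eq_integral_of_forall_compl_eq_zero (s := L)
      (f := fun v => ρ (ε⁻¹ • v) * pullV σ v (dOne a) y i j) fun v hv => by
      rw [hρ.eq_zero hε (not_le.1 fun h => hv (mem_closedBall_zero_iff.2 h)), zero_mul]]
  congr 1
  refine setIntegral_congr_fun isClosed_closedBall.measurableSet fun v hv => ?_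
  set U : Set E := {x | (v, x) ∈ W} with hU
  have hUo : IsOpen U := hW.preimage (Continuous.prodMk_right v)
  have hyv : y ∈ U := htube ⟨hv, interior_subset hy⟩
  have ht : ContDiffOn ℝ ∞ (σ v) U := hσ.comp (contDiff_prodMk_right v).contDiffOn fun x hx => hx
  let G : E → E := fun x b => ∑ k, pd b (fun z => σ v z k) x * a (σ v x) k
  have hG : ∀ b, DifferentiableAt ℝ (fun x => G x b) y := fun b =>
    ((((hZ b).comp (contDiff_prodMk_left v).contDiffOn fun x hx => hx) :
      ContDiffOn ℝ ∞ (fun x => G x b) U).contDiffAt (hUo.mem_nhds hyv)).differentiableAt (by simp)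
  have hd : ∀ p q, fderiv ℝ (fun x => F q (x, v)) y (e p)
      = ρ (ε⁻¹ • v) * pd p (fun x => G x q) y := fun p q => by
    have he : (fun x => F q (x, v)) =ᶠ[𝓝 y] fun x => ρ (ε⁻¹ • v) * G x q := by
      filter_upwards [hU₁.mem_nhds hyU] with x hx
      simp [F, Z, G, hχ1 x hx]
    rw [he.fderiv_eq, fderiv_const_mul (hG q), smul_apply, smul_eq_mul]
    rfl
  simp only [hd, ← mul_sub]
  congr 1
  have hp := congrFun (congrFun
    (dOne_pullback hUo hT ht (fun x hx => hWT (v, x) hx) ha hyv) i) j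
  exact hp

variable {X : Type} [TopologicalSpace X] [ChartedSpace E X] [IsManifold 𝓘(ℝ, E) ∞ X]

/-- The differential of a map in preferred coordinates and in a fixed chart. -/
lemma dMap_mul_chg {f : X → X} {p : X} {y : E} (hy : y ∈ (chartAt E p).target)
    (hf : ContMDiffAt 𝓘(ℝ, E) 𝓘(ℝ, E) ∞ (fun x => f ((chartAt E p).symm x)) y)
    (hfp : f ((chartAt E p).symm y) ∈ (chartAt E p).source) :
    dMap f ((chartAt E p).symm y) * chg p ((chartAt E p).symm y) ((chartAt E p).symm y) =
      chg p (f ((chartAt E p).symm y)) (f ((chartAt E p).symm y)) *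
        jac (fun x => chartAt E p (f ((chartAt E p).symm x))) y := by
  set cp := chartAt E p
  set z := cp.symm y with hz
  set F : E → E := fun x => cp (f (cp.symm x))
  have hzp : z ∈ cp.source := cp.map_target hy
  set cz := chartAt E z
  set S : E → E := fun x => chartAt E (f z) (f (cp.symm x))
  have hzy : cz z ∈ trnDom z p := ⟨cz.map_source (mem_chart_source E z), by
    rw [mem_preimage, show cz.symm (cz z) = z from cz.left_inv (mem_chart_source E z)]; exact hzp⟩
  have htz : trn z p (cz z) = y := by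
    simp [trn, cz, cp, hz, cp.right_inv hy]
  have hSd : DifferentiableAt ℝ S y :=
    (contMDiffAt_chart_comp hf (mem_chart_source E (f z))).differentiableAt (by simp)
  have hFd : DifferentiableAt ℝ F y :=
    (contMDiffAt_chart_comp hf hfp).differentiableAt (by simp)
  have hF : F y ∈ trnDom p (f z) := ⟨cp.map_source hfp, by
    rw [mem_preimage, show cp.symm (F y) = f z from cp.left_inv hfp]
    exact mem_chart_source E (f z)⟩
  have e1 : dMap f z = jac S y * chg z p z := by
    have he : (fun x => chartAt E (f z) (f (cz.symm x))) =ᶠ[𝓝 (cz z)] fun x => S (trn z p x) := by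
      filter_upwards [(isOpen_trnDom z p).mem_nhds hzy] with x hx
      simp only [S]
      rw [show cp.symm (trn z p x) = cz.symm x from symm_trn hx]
    have hjac : dMap f z = jac (fun x => chartAt E (f z) (f (cz.symm x))) (cz z) := rfl
    rw [hjac, jac_congr he, jac_comp (g := S) (f := trn z p) (by rw [htz]; exact hSd)
      ((hasFDerivAt_trn hzy).differentiableAt), htz, ← toLin_jac (hasFDerivAt_trn hzy)]
    simp [chg, cz, (chartAt E z).left_inv (mem_chart_source E z)]
  have e2 : jac S y = chg p (f z) (f z) * jac F y := by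
    have he : S =ᶠ[𝓝 y] fun x => trn p (f z) (F x) := by
      filter_upwards [hf.continuousAt.eventually_mem (cp.open_source.mem_nhds hfp)] with x hx
      simp only [S, F, trn]
      rw [cp.left_inv hx]
    rw [jac_congr he, jac_comp (g := trn p (f z)) ((hasFDerivAt_trn hF).differentiableAt) hFd,
      ← toLin_jac (hasFDerivAt_trn hF)]
    simp [chg, F, cp, z, cp.left_inv hfp]
  have hone : chg z p z * chg p z z = 1 := chg_mul_chg hzp (mem_chart_source E z)
  rw [e1, e2, Matrix.mul_assoc, Matrix.mul_assoc, hone, Matrix.mul_one]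

/-- The averaged pullback of a one-form along the smoother maps. -/
noncomputable def smX1 (B : Atlas X) (ρ : E → ℝ) (ε : ℝ) (S : X → E) (z : X) : E :=
  fun i => (ε ^ (B.n * 4))⁻¹ * ∫ v, wgtA B.n ρ (ε⁻¹ • v) *
    ((dMap (tau B (unflat v)) z)ᵀ *ᵥ S (tau B (unflat v) z)) i

/-- In every chart the averaged one-form is the averaged pullback. -/
theorem smX1_chart (B : Atlas X) {ρ : E → ℝ} (hρ : IsMol ρ) (p : X) {K : Set E}
    {ε : ℝ} (hε : 0 < ε) (hKt : K ⊆ (chartAt E p).target)
    (htube : closedBall (0 : Fin (B.n * 4) → ℝ) ε ×ˢ K ⊆ tauDom B p)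
    {S : X → E} (hS : IsForm1 S) {y : E} (hy : y ∈ K) :
    rep1 p (smX1 B ρ ε S) y = avg1 (readTau B p) (wgtA B.n ρ) ε (rep1 p S) y := by
  set c := chartAt E p
  set z := c.symm y with hz
  have hzp : z ∈ c.source := c.map_target (hKt hy)
  set σ := readTau B p
  set P := chg p z z with hP
  set Q := chg z p z with hQ
  set L := closedBall (0 : Fin (B.n * 4) → ℝ) ε with hL
  have hPQ : P * Q = 1 := chg_mul_chg (mem_chart_source E z) hzp
  let G : (Fin (B.n * 4) → ℝ) → Fin 4 → ℝ := fun v i =>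
    ∑ k, pd i (fun x => σ v x k) y * rep1 p S (σ v y) k
  let D : (Fin (B.n * 4) → ℝ) → E := fun v =>
    (dMap (tau B (unflat v)) z)ᵀ *ᵥ S (tau B (unflat v) z)
  have hread : ∀ v ∈ L, Pᵀ *ᵥ D v = G v := by
    intro v hv
    obtain ⟨hyt, hs, hp⟩ := tauDom_spec (htube (mk_mem_prod hv hy))
    have hf : ContMDiffAt 𝓘(ℝ, E) 𝓘(ℝ, E) ∞ (fun x => tau B (unflat v) (c.symm x)) y :=
      hs.comp y (contDiffAt_const.prodMk contDiffAt_id).contMDiffAt
    have h := dMap_mul_chg hyt hf hp
    simp only [D, P, z]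
    rw [Matrix.mulVec_mulVec, ← Matrix.transpose_mul, h, Matrix.transpose_mul,
      ← Matrix.mulVec_mulVec]
    funext i
    have hsym : c.symm (c (tau B (unflat v) (c.symm y))) = tau B (unflat v) (c.symm y) :=
      c.left_inv hp
    simp only [G, σ, readTau, rep1, c] at hsym ⊢
    rw [hsym]
    rfl
  have hback : ∀ v ∈ L, D v = Qᵀ *ᵥ G v := fun v hv => by
    rw [← hread v hv, Matrix.mulVec_mulVec, ← Matrix.transpose_mul, hPQ, Matrix.transpose_one,
      Matrix.one_mulVec]
  have hmap : MapsTo (fun v => (v, y)) L (tauDom B p) := fun v hv => htube (mk_mem_prod hv hy)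
  have hcont : ∀ i, ContinuousOn (fun v => G v i) L := fun i => by
    refine continuousOn_finsetSum _ fun k _ => ContinuousOn.mul ?_ ?_
    · have h1 : ContinuousOn (fun a : (Fin (B.n * 4) → ℝ) × E => jacV (readTau B p) a.1 a.2 k i)
          (tauDom B p) :=
        (contDiffOn_jacV (isOpen_tauDom B p) (contDiffOn_readTau B p) k i).continuousOn
      have h2 := h1.comp (Continuous.prodMk_left y).continuousOn hmap
      exact h2
    · have hcσ : ContinuousOn (fun v => σ v y) L := (contDiffOn_readTau B p).continuousOn.comp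
        (Continuous.prodMk_left y).continuousOn hmap
      exact (hS p k).continuousOn.comp hcσ fun v hv =>
        c.map_source (tauDom_spec (htube (mk_mem_prod hv hy))).2.2
  have hw : ∀ v, v ∉ L → wgtA B.n ρ (ε⁻¹ • v) = 0 := fun v hv =>
    (isWeight_wgtA B.n hρ).eq_zero hε (not_le.1 fun h => hv (mem_closedBall_zero_iff.2 h))
  have hint : ∀ k, Integrable fun v => wgtA B.n ρ (ε⁻¹ • v) * D v k := fun k => by
    have hw' : Continuous fun v : Fin (B.n * 4) → ℝ => wgtA B.n ρ (ε⁻¹ • v) :=
      (isWeight_wgtA B.n hρ).smooth.continuous.comp (continuous_const_smul _)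
    have hD : ContinuousOn (fun v => D v k) L := by
      refine ContinuousOn.congr (f := fun v => ∑ l, Q l k * G v l)
        (continuousOn_finsetSum _ fun l _ => continuousOn_const.mul (hcont l)) fun v hv => ?_
      simp [hback v hv, Matrix.mulVec, dotProduct]
    refine (integrableOn_iff_integrable_of_support_subset (s := L) fun v hv => ?_).1
      ((hw'.continuousOn.mul hD).integrableOn_compact (isCompact_closedBall _ _))
    by_contra h
    exact hv (by simp [hw v h])
  funext i
  simp only [avg1]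
  show ∑ k, P k i * smX1 B ρ ε S z k = _
  simp only [smX1, mul_left_comm (P _ i), ← Finset.mul_sum]
  congr 1
  rw [Finset.sum_congr rfl fun k _ => (integral_const_mul (P k i)
    fun v => wgtA B.n ρ (ε⁻¹ • v) * D v k).symm,
    ← integral_finsetSum _ fun k _ => (hint k).const_mul _]
  refine integral_congr_ae (ae_of_all _ fun v => ?_)
  by_cases hv : v ∈ L
  · have h := congrFun (hread v hv) i
    simp only [Matrix.mulVec, dotProduct, Matrix.transpose_apply] at h
    show ∑ k, P k i * (wgtA B.n ρ (ε⁻¹ • v) * D v k) = wgtA B.n ρ (ε⁻¹ • v) * G v i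
    rw [← h, Finset.mul_sum]
    exact Finset.sum_congr rfl fun k _ => by ring
  · simp [hw v hv]

/-- The smoother of an exact form pairs to zero with a current. -/
theorem smearExact : SmearExact := by
  intro X _ _ _ _ _ _ _ J w μ Θ B ρ hJ hw hΘ hρ
  have hreg : ∀ i, ∃ K : Set E, IsCompact K ∧
      chartAt E (B.c i) '' tsupport (B.φ i) ⊆ interior K ∧ K ⊆ (chartAt E (B.c i)).target := fun i =>
    exists_compact_between (isCompact_cell B i) (chartAt E (B.c i)).open_target (cell_subset B i)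
  choose K hKc hcell hKt using hreg
  have h0 : ∀ i, ∀ᶠ ε in 𝓝[>] (0 : ℝ), 0 < ε ∧
      closedBall (0 : Fin (B.n * 4) → ℝ) ε ×ˢ K i ⊆ tauDom B (B.c i) ∧
      ∀ S, IsForm1 S → ∀ y ∈ interior (K i),
        rep (B.c i) (smX B ρ ε (dX S)) y =
          dOne (avg1 (readTau B (B.c i)) (wgtA B.n ρ) ε (rep1 (B.c i) S)) y ∧
        ∀ a, ContDiffAt ℝ ∞
          (fun x => avg1 (readTau B (B.c i)) (wgtA B.n ρ) ε (rep1 (B.c i) S) x a) y := by
    intro i
    set p := B.c i
    set σ := readTau B p
    have hW : IsOpen (tauDom B p) := isOpen_tauDom B p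
    obtain ⟨δ, hδ, htube⟩ := exists_tube hW (hKc i)
      ((prod_mono subset_rfl (hKt i)).trans (mem_tauDom_zero B p))
    obtain ⟨K', hK't, hK'c, hKK', ε₁, hε₁, hchart⟩ :=
      smX_chart B hρ smootherFibre p (hKt i) (hKc i)
    obtain ⟨δ', hδ', htube'⟩ := exists_tube
      ((contDiffOn_readTau B p).continuousOn.isOpen_inter_preimage hW isOpen_interior)
      (hKc i) (fun z hz => by
        obtain ⟨h1, h2⟩ := hz
        refine ⟨mem_tauDom_zero B p ⟨h1, hKt i h2⟩, ?_⟩
        show readTau B p z.1 z.2 ∈ interior K'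
        rw [mem_singleton_iff.1 h1, readTau_zero B (hKt i h2)]
        exact hKK' h2)
    obtain ⟨C, -, ε₂, hε₂, hfacts⟩ := exists_smL_facts smootherFibre (isSmoother_readTau B p)
      (isWeight_wgtA B.n hρ) (hKt i) (hKc i)
    filter_upwards [Ioc_mem_nhdsGT (lt_min (lt_min hδ hδ') (lt_min hε₁ hε₂))] with ε hε
    have hεpos : 0 < ε := hε.1
    have hεd : ε ≤ δ := hε.2.trans ((min_le_left _ _).trans (min_le_left _ _))
    have hεd' : ε ≤ δ' := hε.2.trans ((min_le_left _ _).trans (min_le_right _ _))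
    have ht := (prod_mono (closedBall_subset_closedBall hεd) subset_rfl).trans htube
    refine ⟨hεpos, ht, fun S hS y hy => ?_⟩
    obtain ⟨hsm, hd⟩ := avg1_spec (isWeight_wgtA B.n hρ) hW (contDiffOn_readTau B p)
      (chartAt E p).open_target
      (fun z hz => (chartAt E p).map_source (tauDom_spec hz).2.2) hεpos ht (hS p) hy
    refine ⟨?_, hsm⟩
    have hu : IsL2X (dX S) := isL2X_of_isForm (isForm_dX hS)
    rw [hchart ε ⟨hεpos, hε.2.trans ((min_le_right _ _).trans (min_le_left _ _))⟩ _ hu y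
      (interior_subset hy)]
    have hL : IsL2Field volume (K'.indicator (rep p (dX S))) :=
      (hu.memLp p K' hK't hK'c).indicator hK'c.isClosed.measurableSet
    have hev := (hfacts ε ⟨hεpos, hε.2.trans ((min_le_right _ _).trans (min_le_right _ _))⟩ y
      (interior_subset hy)).2.2.2 _ hL
    ext a b
    have h := (hev fun c d => if c = a ∧ d = b then 1 else 0).2
    simp [ite_and] at h
    rw [hd a b, h]
    congr 1
    refine integral_congr_ae (ae_of_all _ fun v => ?_)
    by_cases hv : ‖v‖ ≤ ε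
    · have hin := (htube' (mk_mem_prod (mem_closedBall_zero_iff.2 (hv.trans hεd')) (interior_subset hy))).2
      have hin' : readTau B p v y ∈ K' := interior_subset hin
      simp only [pullV, Set.indicator_of_mem hin', rep_dX hS (hK't hin')]
    · simp [(isWeight_wgtA B.n hρ).eq_zero hεpos (not_le.1 hv)]
  obtain ⟨ε₀, hε₀, hsub⟩ := mem_nhdsGT_iff_exists_Ioc_subset.1 (eventually_all.2 h0)
  refine ⟨ε₀, hε₀, fun ε hε S hS => ?_⟩
  have hall := hsub hε
  have hcover : ∀ z : X, ∃ i, z ∈ (chartAt E (B.c i)).source ∧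
      chartAt E (B.c i) z ∈ interior (K i) := by
    intro z
    obtain ⟨i, hi⟩ : ∃ i, B.φ i z ≠ 0 := by
      by_contra! h
      simpa [h] using B.sum_φ z
    exact ⟨i, (B.φ_supp i).2 (subset_tsupport _ hi), hcell i ⟨z, subset_tsupport _ hi, rfl⟩⟩
  have hrep : ∀ i, ∀ y ∈ interior (K i), rep1 (B.c i) (smX1 B ρ ε S) y =
      avg1 (readTau B (B.c i)) (wgtA B.n ρ) ε (rep1 (B.c i) S) y := fun i y hy =>
    smX1_chart B hρ (B.c i) hε.1 (hKt i) (hall i).2.1 hS (interior_subset hy)
  have hS' : IsForm1 (smX1 B ρ ε S) := by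
    intro q a y hy
    obtain ⟨i, hzs, hzi⟩ := hcover ((chartAt E q).symm y)
    have hy' : y ∈ trnDom q (B.c i) := ⟨hy, hzs⟩
    have hN : trnDom q (B.c i) ∈ 𝓝 y := (isOpen_trnDom q (B.c i)).mem_nhds hy'
    have hr : ∀ k, ContDiffAt ℝ ∞ (fun x => rep1 (B.c i) (smX1 B ρ ε S) x k)
        (trn q (B.c i) y) := fun k =>
      (((hall i).2.2 S hS _ hzi).2 k).congr_of_eventuallyEq (by
        filter_upwards [isOpen_interior.mem_nhds hzi] with x hx
        rw [hrep i x hx])
    refine (ContDiffAt.congr_of_eventuallyEq (f := fun x => ∑ k,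
      chg q (B.c i) ((chartAt E q).symm x) k a *
        rep1 (B.c i) (smX1 B ρ ε S) (trn q (B.c i) x) k) ?_ ?_).contDiffWithinAt
    · exact ContDiffAt.sum fun k _ => ((contDiffOn_chg q (B.c i) k a).contDiffAt hN).mul
        (ContDiffAt.comp (g := fun x => rep1 (B.c i) (smX1 B ρ ε S) x k) y (hr k)
          ((contDiffOn_trn q (B.c i)).contDiffAt hN))
    · filter_upwards [hN] with x hx
      rw [rep1_trn _ hx]
      simp [Matrix.mulVec, dotProduct]
  have hdS : dX (smX1 B ρ ε S) = smX B ρ ε (dX S) := by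
    funext z
    obtain ⟨i, hzs, hzi⟩ := hcover z
    rw [eq_rep (dX (smX1 B ρ ε S)) hzs, eq_rep (smX B ρ ε (dX S)) hzs,
      rep_dX hS' ((chartAt E (B.c i)).map_source hzs), ((hall i).2.2 S hS _ hzi).1]
    congr 2
    ext a b
    simp only [dOne]
    congr 1 <;> refine pd_congr _ ?_ <;>
      (filter_upwards [isOpen_interior.mem_nhds hzi] with x hx; rw [hrep i x hx])
  rw [← hdS]
  exact hΘ.closed _ hS'

end Vale.Agent.P204.Tame.Mfd
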