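import Vale.Agent.P204.Tame.Mfd.ConcludePiece
import Vale.Agent.P204.Tame.Mfd.SmearExact
import Vale.Agent.P204.Tame.Mollifier

/-!
Obstructions vanish: near every point the smoothed field representing the current pairs strictly
positively with the obstruction, while all error terms tend to zero with the scale.
-/

namespace Vale.Agent.P204.Tame.Mfd

open scoped ContDiff Manifold Topology ENNReal Matrix
open MeasureTheory Metric Set Filter

variable {X : Type} [TopologicalSpace X] [ChartedSpace E X] [IsManifold 𝓘(ℝ, E) ∞ X]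

/-- An additive map commutes with finite sums of square integrable fields. -/
lemma smX_sum_conc (B : Atlas X) {ρ : E → ℝ} {ε : ℝ}
    (hlin : ∀ u v, IsL2X u → IsL2X v → ∀ r : ℝ,
      smX B ρ ε (u + v) = smX B ρ ε u + smX B ρ ε v ∧ smX B ρ ε (r • u) = r • smX B ρ ε u)
    {ι : Type*} (s : Finset ι) {u : ι → X → M} (h : ∀ i ∈ s, IsL2X (u i)) :
    smX B ρ ε (∑ i ∈ s, u i) = ∑ i ∈ s, smX B ρ ε (u i) := by
  classical
  induction s using Finset.induction with
  | empty =>
    have := (hlin 0 0 isL2X_zero isL2X_zero 0).2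
    simpa using this
  | insert k s hk ih =>
    rw [Finset.sum_insert hk, Finset.sum_insert hk,
      (hlin _ _ (h k (Finset.mem_insert_self _ _))
        (isL2X_sum s fun l hl => h l (Finset.mem_insert_of_mem hl)) 0).1,
      ih fun l hl => h l (Finset.mem_insert_of_mem hl)]

set_option maxHeartbeats 1000000 in
/-- Obstructions vanish. -/
theorem noObstruction_of (hPR : PairRep) (hGl : GlueHolds) (hEx : SmearExact) : NoObstruction := by
  intro X _ _ _ _ _ _ _ A J w μ₀ Θ₀ μ Θ Φ hJ hw hcur hdom hQB hND hobs hND' hΦ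
  classical
  have := hobs.finite
  have := hcur.finite
  obtain ⟨ρ, hρ⟩ := molExists
  refine Measure.measure_univ_eq_zero.1 (isCompact_univ.measure_zero_of_nhdsWithin fun z₀ _ => ?_)
  rw [nhdsWithin_univ]
  obtain ⟨B, i₀, O₀, hO₀, hO₀t, hz₀, hy₀, hφ, hT⟩ := readTauTranslation X z₀
  obtain ⟨R⟩ := nonempty_regions B
  set c := chartAt E (B.c i₀)
  -- constants
  choose C₀ hC₀ eP heP hrep using fun i => hPR X J w μ₀ Θ₀ B ρ hJ hw hcur.finite hcur.meas
    hcur.psd hcur.unit hρ R i
  choose E' P hE' hP eQ heQ hest using fun i =>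
    exists_piece_est A hJ hw μ₀ hobs hΦ B hρ R i (hC₀ i)
  obtain ⟨r, hr, hNK, a, ha, C₁, hC₁, eC, heC, hcore⟩ :=
    exists_core_piece A hJ hw hcur hdom B hρ R i₀ hO₀ hO₀t hφ hT hy₀
  obtain ⟨cw, hcw, Cw, hCw, hge⟩ := exists_wd_ge linearFacts (J := repEnd (B.c i₀) J)
    (R.compact i₀).2 (fun i j => ((hJ.smooth (B.c i₀) i j).continuousOn).mono (R.target i₀))
    fun y hy => repEnd_sq hJ.sq (R.target i₀ hy)
  obtain ⟨eX, heX, hexact⟩ := hEx X J w μ₀ Θ₀ B ρ hJ hw hcur hρ
  obtain ⟨eF, heF, hform⟩ := (smearFacts_of B hρ).form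
  obtain ⟨eL, heL, hlin⟩ := (smearUse_of smearUse B hρ).linear
  obtain ⟨eW, heW, hclosed⟩ := (smearUse_of smearUse B hρ).closed B J w hJ hw
  set ν : Fin B.n → Measure E := fun j => chartMeas (B.c j) μ₀
  set m : Fin B.n → Measure E := fun j => locMeas (B.c j) J w μ Θ
  set N := closedBall (c z₀) r
  -- the error terms tend to zero
  have hfield := fun j => isPosField_chart hJ hw hobs.finite hobs.meas hobs.psd hobs.unit (B.c j)
    (R.target j) (R.compact j).2
  have hνf : ∀ j, IsFiniteMeasure (ν j) := fun j => isFiniteMeasure_chartMeas _ μ₀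
  have hlimT : ∀ j, Tendsto (fun ε => ballMean (ν j) (m j) (R.K j) (E' j) ε) (𝓝[>] 0) (𝓝 0) := by
    intro j
    obtain ⟨Aq, r₀, hr₀, hq⟩ := hQB (B.c j) (R.K j) (R.target j) (R.compact j).2
    refine tendsto_ball_mass (R.compact j).2 (hfield j).finite hr₀ hq ?_ (by linarith [hE' j])
    exact ae_restrict_of_ae_restrict_of_subset (R.target j)
      (((withDensity_absolutelyContinuous _ _).restrict _).ae_le (hND' (B.c j)))
  have hlimS : ∀ j, Tendsto (fun ε => ballMean (ν j) (ν j) (R.K j) (E' j) ε) (𝓝[>] 0) (𝓝 0) := by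
    intro j
    obtain ⟨Aq, r₀, hr₀, hq⟩ := hQB (B.c j) (R.K j) (R.target j) (R.compact j).2
    refine tendsto_ball_mass (R.compact j).2 (measure_lt_top _ _) hr₀ hq ?_ (by linarith [hE' j])
    exact ae_restrict_of_ae_restrict_of_subset (R.target j) (hND (B.c j))
  set H : ℝ → ℝ := fun ε => (∑ j, (P j + Cw * C₁) * ballMean (ν j) (m j) (R.K j) (E' j) ε) +
    ∑ j, P j * Real.sqrt (P j * ballMean (ν j) (ν j) (R.K j) (E' j) ε)
  have hH : Tendsto H (𝓝[>] 0) (𝓝 0) := by
    have h1 := tendsto_finsetSum (Finset.univ : Finset (Fin B.n)) fun j _ =>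
      (hlimT j).const_mul (P j + Cw * C₁)
    have h2 := tendsto_finsetSum (Finset.univ : Finset (Fin B.n)) fun j _ =>
      (((hlimS j).const_mul (P j)).sqrt).const_mul (P j)
    simpa [H] using h1.add h2
  -- the inequality at a small scale
  have hkey : ∀ᶠ ε in 𝓝[>] (0 : ℝ), cw * a * (m i₀).real N ≤ H ε := by
    have hI : ∀ {e : ℝ}, 0 < e → ∀ᶠ ε in 𝓝[>] (0 : ℝ), ε ∈ Ioc (0 : ℝ) e :=
      fun he => Ioc_mem_nhdsGT he
    filter_upwards [eventually_all.2 fun j => hI (heP j), eventually_all.2 fun j => hI (heQ j),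
      hI heC, hI heX, hI heF, hI heL, hI heW] with ε h1 h2 h3 h4 h5 h6 h7
    choose t0 ht0 hts0 htr0 htb0 using fun i => hrep i ε (h1 i)
    have hgood : ∀ i, ∃ G : Set E, MeasurableSet G ∧ volume.restrict (R.O i) Gᶜ = 0 ∧ ∀ x ∈ G,
        nrm1 (t0 i x) ≤ C₀ i * kball (ν i) (R.K i) (C₀ i) ε x ∧
        nrm1 (panti (repEnd (B.c i) J x) (t0 i x)) ≤
          C₀ i * ε * kball (ν i) (R.K i) (C₀ i) ε x ∧
        ∀ v, -(C₀ i * ε ^ 2 * kball (ν i) (R.K i) (C₀ i) ε x * (v ⬝ᵥ v)) ≤
          val (t0 i x) v (repEnd (B.c i) J x *ᵥ v) := fun i => by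
      obtain ⟨T, hT1, hT2, hT3⟩ := exists_measurable_superset_of_null (ae_iff.1 (htb0 i))
      refine ⟨Tᶜ, hT2.compl, by rwa [compl_compl], fun x hx => ?_⟩
      by_contra hn
      exact hx (hT1 hn)
    choose G hGm hG0 hGb using hgood
    set t : Fin B.n → E → M := fun i => (G i).indicator (t0 i) with ht
    have hae : ∀ i, ∀ᵐ x ∂volume.restrict (R.O i), t i x = t0 i x := fun i => by
      filter_upwards [mem_ae_iff.2 (hG0 i)] with x hx
      exact indicator_of_mem hx _
    have ht2 : ∀ i, IsL2Field (volume.restrict (R.O i)) (t i) := fun i a b =>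
      (ht0 i a b).ae_eq (by filter_upwards [hae i] with x hx; rw [hx])
    have hts : ∀ i x, (t i x)ᵀ = -t i x := fun i x => by
      by_cases hx : x ∈ G i <;> simp [ht, hx, hts0 i x]
    have hbd : ∀ i, ∀ x ∈ R.O i,
        nrm1 (t i x) ≤ C₀ i * kball (ν i) (R.K i) (C₀ i) ε x ∧
        nrm1 (panti (repEnd (B.c i) J x) (t i x)) ≤
          C₀ i * ε * kball (ν i) (R.K i) (C₀ i) ε x ∧
        ∀ v, -(C₀ i * ε ^ 2 * kball (ν i) (R.K i) (C₀ i) ε x * (v ⬝ᵥ v)) ≤
          val (t i x) v (repEnd (B.c i) J x *ᵥ v) := fun i x _ => by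
      have hk0 := kball_nonneg (ν i) (R.K i) (hC₀ i) (h1 i).1 x
      by_cases hx : x ∈ G i
      · simpa only [ht, indicator_of_mem hx] using hGb i x hx
      · simp only [ht, indicator_of_notMem hx]
        have hε0 : 0 ≤ ε := (h1 i).1.le
        refine ⟨?_, ?_, fun v => ?_⟩
        · simpa [nrm1] using mul_nonneg (hC₀ i) hk0
        · simpa [nrm1, panti] using mul_nonneg (mul_nonneg (hC₀ i) hε0) hk0
        · simpa [val] using mul_nonneg (mul_nonneg (mul_nonneg (hC₀ i) (sq_nonneg ε)) hk0)
            (dot_self_nonneg v)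
    have htr : ∀ i, ∀ b : E → M, IsL2Field (volume.restrict (R.O i)) b →
        (∀ x, (b x)ᵀ = -b x) →
        ∫ z, pr (w z) (Θ₀ z) (smX B ρ ε (ext (B.c i) ((R.O i).indicator b)) z) ∂μ₀ =
          ∫ x in R.O i, wd (repEnd (B.c i) J x) (t i x) (b x) := fun i b hb hbs => by
      rw [htr0 i b hb hbs]
      exact integral_congr_ae (by filter_upwards [hae i] with x hx; rw [hx])
    set Q : (X → M) → ℝ := fun u => ∫ z, pr (w z) (Θ₀ z) (smX B ρ ε u z) ∂μ₀
    have hadd : ∀ u v, IsL2X u → IsL2X v → Q (u + v) = Q u + Q v := fun u v hu hv => by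
      simp only [Q, (hlin ε h6 u v hu hv 0).1, Pi.add_apply, pr_add_conc]
      exact integral_add
        (integrable_pr_conc hJ hw hcur.finite hcur.meas hcur.psd hcur.unit (hform ε h5 u hu).cont)
        (integrable_pr_conc hJ hw hcur.finite hcur.meas hcur.psd hcur.unit (hform ε h5 v hv).cont)
    obtain ⟨hUL, hUW, -⟩ := hGl X J w B hJ hw R Q hadd t ht2 hts htr (hexact ε h4)
    have hcl := hclosed ε h7 _ hUL hUW
    have hvan := hobs.vanish _ (hform ε h5 _ hUL) hcl
    have hglue : glue B R t = ∑ j, ext (B.c j) (cutField B R j (t j)) := rfl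
    have hpieceL2 : ∀ j, IsL2X (ext (B.c j) (cutField B R j (t j))) := fun j =>
      isL2X_ext (B.c j) (R.measurableSet j) (R.compact j).1 (R.closure_target j)
        (isL2Field_cut B R j (ht2 j)) (skew_cut B j (hts j))
    set g : Fin B.n → E → M := fun j => (R.K j).indicator
      (smL (readTau B (B.c j)) (wgtA B.n ρ) ε (cutField B R j (t j)))
    have hpc := fun j => hest j ε (h2 j) (t j) (ht2 j) (hts j) (hbd j)
    have hth : smX B ρ ε (glue B R t) = ∑ j, ext (B.c j) (g j) := by
      rw [hglue, smX_sum_conc B (hlin ε h6) _ fun j _ => hpieceL2 j]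
      exact Finset.sum_congr rfl fun j _ => (hpc j).1
    have hpt : pantiX J (∑ j, ext (B.c j) (g j)) = ∑ j, pantiX J (ext (B.c j) (g j)) := by
      funext z
      simp only [pantiX, panti, Finset.sum_apply, Matrix.mul_sum, Matrix.sum_mul,
        ← Finset.sum_sub_distrib, Finset.smul_sum]
    rw [hth, hpt, map_sum] at hvan
    simp only [Finset.sum_apply, pr_sum_conc] at hvan
    rw [integral_finsetSum _ fun j _ =>
      integrable_pr_conc hJ hw hobs.finite hobs.meas hobs.psd hobs.unit (hpc j).2.1.cont] at hvan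
    set lb : Fin B.n → ℝ := fun j => (if j = i₀ then cw * a * (m j).real N else 0) -
      (P j + Cw * C₁) * ballMean (ν j) (m j) (R.K j) (E' j) ε
    have hlow : ∀ j, lb j ≤ ∫ z, pr (w z) (Θ z) (ext (B.c j) (g j) z) ∂μ := by
      intro j
      obtain ⟨-, -, hint, heq, hge0, -⟩ := hpc j
      rw [heq]
      have hfm : IsFiniteMeasure ((m j).restrict (R.K j)) := ⟨by simpa using (hfield j).finite⟩
      have hbi := integrable_ball_mass (ν j) ((m j).restrict (R.K j))
        (inv_nonneg.2 (sq_nonneg ε)) (E' j * ε)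
      have hCC : 0 ≤ Cw * C₁ := mul_nonneg hCw hC₁
      have hmass : ∀ y, 0 ≤ (ε ^ 2)⁻¹ * (ν j).real (closedBall y (E' j * ε)) :=
        fun y => mul_nonneg (inv_nonneg.2 (sq_nonneg ε)) measureReal_nonneg
      by_cases hj : j = i₀
      · subst hj
        have hsub : N ∩ R.K j = N := inter_eq_left.2 hNK
        simp only [lb, if_true, ballMean]
        rw [← integral_const_mul, show cw * a * (m j).real N =
          ∫ y in R.K j, N.indicator (fun _ => cw * a) y ∂m j by
            rw [integral_indicator measurableSet_closedBall, setIntegral_const, smul_eq_mul,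
              measureReal_restrict_apply measurableSet_closedBall, hsub, mul_comm],
          ← integral_sub ((integrable_const _).indicator measurableSet_closedBall)
            (hbi.const_mul _)]
        refine integral_mono_ae (((integrable_const _).indicator measurableSet_closedBall).sub
          (hbi.const_mul _)) hint ?_
        filter_upwards [hge0, (hfield j).psd, (hfield j).unit] with y hy hp hu
        have hmy := hmass y
        by_cases hyN : y ∈ N
        · have hv := hcore ε h3 (t j) (ht2 j) (hts j) (htr j) y hyN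
          have hw2 : (ε ^ 2)⁻¹ * (ν j).real (closedBall y (2 * ε)) ≤
              (ε ^ 2)⁻¹ * (ν j).real (closedBall y (E' j * ε)) :=
            mul_le_mul_of_nonneg_left (measureReal_mono (closedBall_subset_closedBall
              (mul_le_mul_of_nonneg_right (hE' j) (h1 j).1.le))) (inv_nonneg.2 (sq_nonneg ε))
          have := hge y (hNK hyN) _ hp hu _ (smL_skew _ _ _ (skew_cutField B R j (hts j)) y) a
            (C₁ * ((ε ^ 2)⁻¹ * (ν j).real (closedBall y (2 * ε)))) ha.le
            (mul_nonneg hC₁ (mul_nonneg (inv_nonneg.2 (sq_nonneg ε)) measureReal_nonneg)) hv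
          rw [indicator_of_mem hyN]
          have := mul_le_mul_of_nonneg_left hw2 hCC
          have := mul_nonneg (hP j) hmy
          linarith
        · rw [indicator_of_notMem hyN]
          have := mul_nonneg hCC hmy
          linarith
      · simp only [lb, if_neg hj, ballMean, zero_sub]
        rw [← integral_const_mul, ← integral_neg]
        refine integral_mono_ae (hbi.const_mul _).neg hint ?_
        filter_upwards [hge0] with y hy
        have := mul_nonneg hCC (hmass y)
        linarith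
    have hup : -∑ j, P j * Real.sqrt (P j * ballMean (ν j) (ν j) (R.K j) (E' j) ε) ≤
        ∑ j, Φ (pantiX J (ext (B.c j) (g j))) := by
      rw [← Finset.sum_neg_distrib]
      exact Finset.sum_le_sum fun j _ => (abs_le.1 (hpc j).2.2.2.2.2).1
    have hs := Finset.sum_le_sum fun j (_ : j ∈ Finset.univ) => hlow j
    simp only [lb, Finset.sum_sub_distrib, Finset.sum_ite_eq', Finset.mem_univ, if_true] at hs
    simp only [H]
    linarith
  have hm0 : (m i₀).real N ≤ 0 := by
    have h := ge_of_tendsto hH hkey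
    nlinarith [mul_pos hcw ha]
  have hmN : m i₀ N = 0 := by
    have hfin : m i₀ N ≠ ⊤ := ((measure_mono hNK).trans_lt (hfield i₀).finite).ne
    exact (measureReal_eq_zero_iff hfin).1 (le_antisymm hm0 measureReal_nonneg)
  refine ⟨c.source ∩ c ⁻¹' N, ?_, ?_⟩
  · exact inter_mem (c.open_source.mem_nhds hz₀)
      ((c.continuousAt hz₀).preimage_mem_nhds (closedBall_mem_nhds _ hr))
  -- the mass of the neighbourhood
  set K := R.K i₀
  set gN : E → M := N.indicator (rep (B.c i₀) w) with hgN
  have hgm : ∀ i j, Measurable fun y => gN y i j := fun i j => by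
    have : (fun y => gN y i j) = N.indicator fun y => rep (B.c i₀) w y i j :=
      funext fun y => indicator_field_apply N _ y i j
    rw [this, ← Set.piecewise_eq_indicator]
    exact (((hw.form.cont.cont (B.c i₀) i j).mono (hNK.trans (R.target i₀)))).measurable_piecewise
      continuousOn_const measurableSet_closedBall
  have hgs : ∀ y, (gN y)ᵀ = -gN y := fun y => by
    by_cases hy : y ∈ N <;> simp [hgN, hy, skew_rep hw.form.skew]
  have e := integral_pr_ext linearFacts hJ hw hobs.finite hobs.meas hobs.psd hobs.unit (B.c i₀)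
    (R.target i₀) (R.compact i₀).2 hgm hgs
    (fun y hy => indicator_of_notMem (fun h => hy (hNK h)) _)
  have hz : ∫ y in K, wd (repEnd (B.c i₀) J y)
      (fun a b => c.target.indicator (fun x => locField (B.c i₀) J Θ x a b) y) (gN y)
      ∂locMeas (B.c i₀) J w μ Θ = 0 := by
    refine integral_eq_zero_of_ae ?_
    have hN' : ∀ᵐ y ∂(m i₀).restrict K, y ∉ N :=
      ae_restrict_of_ae (measure_eq_zero_iff_ae_notMem.1 hmN)
    filter_upwards [hN'] with y hy
    simp [hgN, hy, wd, pfq]
  rw [hz] at e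
  have hS : MeasurableSet (c.source ∩ c ⁻¹' N) := by
    have hp : Measurable (c.source.piecewise c fun _ => (0 : E)) :=
      c.continuousOn.measurable_piecewise continuousOn_const c.open_source.measurableSet
    have : c.source ∩ c ⁻¹' N = c.source ∩ (c.source.piecewise c fun _ => (0 : E)) ⁻¹' N := by
      ext z
      by_cases hz : z ∈ c.source <;> simp [hz]
    rw [this]
    exact c.open_source.measurableSet.inter (hp measurableSet_closedBall)
  have e2 : ∫ z, pr (w z) (Θ z) (ext (B.c i₀) gN z) ∂μ = μ.real (c.source ∩ c ⁻¹' N) := by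
    rw [← integral_indicator_one hS]
    refine integral_congr_ae ?_
    filter_upwards [hobs.unit] with z hu
    by_cases hzs : z ∈ c.source
    · by_cases hzN : c z ∈ N
      · simp only [ext, c, if_pos hzs, hgN, indicator_of_mem hzN]
        rw [← eq_rep w hzs, hu, indicator_of_mem (show z ∈ c.source ∩ c ⁻¹' N from ⟨hzs, hzN⟩)]
        rfl
      · have : ext (B.c i₀) gN z = 0 := by simp [ext, hgN, c, hzs, hzN]
        rw [this, indicator_of_notMem fun h : z ∈ c.source ∩ c ⁻¹' N => hzN h.2, pr_zero_conc]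
    · have : ext (B.c i₀) gN z = 0 := by simp [ext, c, hzs]
      rw [this, indicator_of_notMem fun h : z ∈ c.source ∩ c ⁻¹' N => hzs h.1, pr_zero_conc]
  rw [e2] at e
  exact (measureReal_eq_zero_iff (measure_ne_top _ _)).1 e

/-- Obstructions vanish, unconditionally. -/
theorem noObstruction : NoObstruction :=
  noObstruction_of (pairRep_of smearUse) glueHolds smearExact

end Vale.Agent.P204.Tame.Mfd
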