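import Vale.Agent.P204.Tame.Mfd.CoreTools

/-!
The low frequency bound for the anti-invariant part of an obstruction near every point.
-/

namespace Vale.Agent.P204.Tame.Mfd

open scoped ContDiff Manifold Matrix Topology ENNReal
open MeasureTheory Metric Set Filter

variable {X : Type} [TopologicalSpace X] [ChartedSpace E X] [IsManifold 𝓘(ℝ, E) ∞ X]

/-- The squared size of the invariant part from its coefficient bounds. -/
lemma integral_nrm1_sq_le {O : Set E} {a : E → M} (ha : IsL2Field (volume.restrict O) a) {B : ℝ}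
    (hB : ∀ i j, Real.sqrt (∫ x in O, a x i j ^ 2) ≤ B) :
    ∫ x in O, nrm1 (a x) ^ 2 ≤ 256 * B ^ 2 := by
  have hB0 : 0 ≤ B := (Real.sqrt_nonneg _).trans (hB 0 0)
  have hi := fun i j => (ha i j).integrable_sq
  have hb : ∀ x, nrm1 (a x) ^ 2 ≤ 16 * ∑ i, ∑ j, a x i j ^ 2 := fun x => by
    have h := sq_sum_le_card_mul_sum_sq
      (s := (Finset.univ : Finset (Fin 4 × Fin 4))) (f := fun p => |a x p.1 p.2|)
    simp only [Fintype.sum_prod_type, Finset.card_univ, Fintype.card_prod, Fintype.card_fin,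
      sq_abs] at h
    simpa [nrm1] using h
  have hs : Integrable (fun x => ∑ i, ∑ j, a x i j ^ 2) (volume.restrict O) :=
    integrable_finsetSum _ fun i _ => integrable_finsetSum _ fun j _ => hi i j
  refine (integral_mono_of_nonneg (Eventually.of_forall fun x => sq_nonneg _) (hs.const_mul 16)
    (Eventually.of_forall hb)).trans ?_
  rw [integral_const_mul, integral_finsetSum _ fun i _ => integrable_finsetSum _ fun j _ => hi i j]
  simp only [integral_finsetSum _ fun j (_ : j ∈ (Finset.univ : Finset (Fin 4))) => hi _ j]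
  calc 16 * ∑ i, ∑ j, ∫ x in O, a x i j ^ 2 ≤ 16 * ∑ _i : Fin 4, ∑ _j : Fin 4, B ^ 2 :=
        mul_le_mul_of_nonneg_left (Finset.sum_le_sum fun i _ => Finset.sum_le_sum fun j _ =>
          (Real.sqrt_le_left hB0).1 (hB i j)) (by norm_num)
    _ = _ := by simp; ring

/-- The error of the pointwise estimate integrated over a region. -/
lemma integral_error_le {O : Set E} {k σ : E → ℝ} (hk : MemLp k 2 (volume.restrict O))
    (hσ : MemLp σ 2 (volume.restrict O)) {ε a b g G : ℝ} (hε : 0 < ε) (ha : 0 ≤ a) (hb : 0 ≤ b)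
    (hg : 0 ≤ g) (hG : 0 ≤ G) (hkb : ε ^ 2 * ∫ x in O, k x ^ 2 ≤ a * g ^ 2)
    (hσb : ∫ x in O, σ x ^ 2 ≤ b * (ε * G) ^ 2) :
    ∫ x in O, (ε ^ 2 * k x ^ 2 + k x * σ x + σ x ^ 2) ≤
      (a + Real.sqrt a * Real.sqrt b + b) * (g ^ 2 + g * G + ε ^ 2 * G ^ 2) := by
  have hi1 := hk.integrable_sq.const_mul (ε ^ 2)
  have hi2 : Integrable (fun x => k x * σ x) (volume.restrict O) := hk.integrable_mul hσ
  have hi3 := hσ.integrable_sq
  rw [integral_add (hi1.fun_add hi2) hi3, integral_add hi1 hi2, integral_const_mul]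
  have hk2 : Real.sqrt (∫ x in O, k x ^ 2) ≤ Real.sqrt a * g / ε := by
    rw [le_div_iff₀ hε, ← Real.sqrt_sq hε.le, ← Real.sqrt_sq hg, ← Real.sqrt_mul
      (integral_nonneg fun x => sq_nonneg _), ← Real.sqrt_mul ha]
    exact Real.sqrt_le_sqrt (by linarith)
  have hσ2 : Real.sqrt (∫ x in O, σ x ^ 2) ≤ Real.sqrt b * (ε * G) := by
    rw [← Real.sqrt_sq (mul_nonneg hε.le hG), ← Real.sqrt_mul hb]
    exact Real.sqrt_le_sqrt hσb
  have hcs : ∫ x in O, k x * σ x ≤ Real.sqrt a * Real.sqrt b * (g * G) := by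
    refine (le_abs_self _).trans ((abs_integral_mul_le hk hσ).trans
      ((mul_le_mul hk2 hσ2 (Real.sqrt_nonneg _) (by positivity)).trans (le_of_eq ?_)))
    field_simp
  have h0 := Real.sqrt_nonneg a
  have h1 := Real.sqrt_nonneg b
  nlinarith [mul_nonneg (mul_nonneg h0 h1) (sq_nonneg g), mul_nonneg (mul_nonneg h0 h1)
    (sq_nonneg (ε * G)), mul_nonneg ha (mul_nonneg hg hG), mul_nonneg ha (sq_nonneg (ε * G)),
    mul_nonneg hb (mul_nonneg hg hG), mul_nonneg hb (sq_nonneg g)]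

/-- The pairing of a field with a test multiple of a constant form. -/
lemma abs_integral_wd_test_le (J : X → M) (p : X) {U O : Set E} (hU : MeasurableSet U)
    (hO : MeasurableSet O) (hOU : O ⊆ U) {s : E → M} (hs : IsL2Field (volume.restrict U) s)
    {f : E → ℝ} (hf : IsTest O f) (β : M) {C Z : ℝ} (hC : 0 ≤ C)
    (hsb : ∀ k l, ∫ x in O, s x k l ^ 2 ≤ C * Z) :
    |∫ x in U, wd (repEnd p J x) (s x) (f x • β)| ≤
      6 * nrm1 β * (16 * Real.sqrt C) * Real.sqrt Z * Real.sqrt (∫ y, f y ^ 2) := by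
  have hf0 : ∀ x, x ∉ O → f x = 0 := fun x hx =>
    image_eq_zero_of_notMem_tsupport fun h => hx (hf.supp h)
  have hf2 : MemLp f 2 volume := hf.smooth.continuous.memLp_of_hasCompactSupport hf.compact
  have hsO : ∀ p q, MemLp (fun x => |s x p q|) 2 (volume.restrict O) := fun p q =>
    ((hs p q).mono_measure (Measure.restrict_mono_set _ hOU)).norm
  have hfO : MemLp (fun x => |f x|) 2 (volume.restrict O) := (hf2.restrict O).norm
  have hi : ∀ p q, Integrable (fun x => |s x p q| * |f x|) (volume.restrict O) :=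
    fun p q => (hsO p q).integrable_mul hfO
  have hi1 : ∀ p, Integrable (fun x => ∑ q, |s x p q| * |f x|) (volume.restrict O) :=
    fun p => integrable_finsetSum _ fun q _ => hi p q
  have hsum : ∀ p q, ∫ x in O, |s x p q| * |f x| ≤
      Real.sqrt C * Real.sqrt Z * Real.sqrt (∫ y, f y ^ 2) := fun p q => by
    refine (le_abs_self _).trans ((abs_integral_mul_le (hsO p q) hfO).trans ?_)
    simp only [sq_abs]
    refine mul_le_mul ((Real.sqrt_le_sqrt (hsb p q)).trans (le_of_eq (Real.sqrt_mul hC _))) ?_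
      (Real.sqrt_nonneg _) (by positivity)
    exact Real.sqrt_le_sqrt (setIntegral_le_integral hf2.integrable_sq
      (Eventually.of_forall fun x => sq_nonneg _))
  rw [setIntegral_eq_of_subset_of_forall_sdiff_eq_zero hU hOU fun x hx => by
    rw [hf0 x hx.2, zero_smul]; simp [wd, pfq]]
  calc |∫ x in O, wd (repEnd p J x) (s x) (f x • β)|
      ≤ ∫ x in O, |wd (repEnd p J x) (s x) (f x • β)| := abs_integral_le_integral_abs
    _ ≤ ∫ x in O, 6 * nrm1 β * ∑ p, ∑ q, |s x p q| * |f x| := by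
        refine integral_mono_of_nonneg (Eventually.of_forall fun x => abs_nonneg _)
          ((integrable_finsetSum _ fun p _ => hi1 p).const_mul _)
          (Eventually.of_forall fun x => ?_)
        refine (abs_wd_le _ _ _).trans (le_of_eq ?_)
        rw [nrm1_smul_unit]
        simp only [← Finset.sum_mul, nrm1]
        ring
    _ = 6 * nrm1 β * ∑ p, ∑ q, ∫ x in O, |s x p q| * |f x| := by
        rw [integral_const_mul, integral_finsetSum _ fun p _ => hi1 p]
        exact congrArg _ (Finset.sum_congr rfl fun p _ => integral_finsetSum _ fun q _ => hi p q)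
    _ ≤ 6 * nrm1 β * ∑ _p : Fin 4, ∑ _q : Fin 4,
          Real.sqrt C * Real.sqrt Z * Real.sqrt (∫ y, f y ^ 2) :=
        mul_le_mul_of_nonneg_left (Finset.sum_le_sum fun p _ => Finset.sum_le_sum fun q _ =>
          hsum p q) (mul_nonneg (by norm_num) (nrm1_nonneg _))
    _ = _ := by simp; ring

variable [MeasurableSpace X] [BorelSpace X] [T2Space X] [CompactSpace X]

/-- The chart fields of an obstruction at small scales and the bound on their anti-invariant part. -/
theorem exists_fields_bound (A : Atlas X) {J w : X → M} (hJ : IsACX J) (hw : IsHerm J w)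
    {μ : Measure X} {Θ : X → M} {Φ : (X → M) →ₗ[ℝ] ℝ} (hob : IsObstruction A J w μ Θ Φ)
    (B : Atlas X) {ρ : E → ℝ} (hρ : IsMol ρ) (R : Regions B) {g : ℝ → ℝ}
    (hga : AntitoneOn g (Ioc 0 1)) (hg1 : ∀ r ∈ Ioc (0 : ℝ) 1, 1 ≤ g r) (hG : Growth μ g)
    (i₀ : Fin B.n) {O : Set E} (hO : MeasurableSet O) (hOR : O ⊆ R.O i₀)
    (hφ : ∀ y ∈ O, B.φ i₀ ((chartAt E (B.c i₀)).symm y) = 1) :
    ∃ C : ℝ, 0 ≤ C ∧ ∃ ε₀ > 0, ∀ ε ∈ Ioc (0 : ℝ) ε₀, ∃ s : E → M,
      IsL2Field (volume.restrict (R.O i₀)) s ∧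
      (∀ a : E → M, IsL2Field (volume.restrict (R.O i₀)) a → (∀ x, (a x)ᵀ = -a x) →
        Φ (pantiX J (smX B ρ ε (ext (B.c i₀) ((R.O i₀).indicator a)))) =
          ∫ x in R.O i₀, wd (repEnd (B.c i₀) J x) (s x) (a x)) ∧
      ∀ k l, ∫ x in O, s x k l ^ 2 ≤
        C * (g ε ^ 2 + g ε * gPhi A J Φ ε + ε ^ 2 * gPhi A J Φ ε ^ 2) := by
  classical
  have := hob.finite
  choose Ct hCt et het htr using fun i => pairRep_of smearUse X J w μ Θ B ρ hJ hw hob.finite
    hob.meas hob.psd hob.unit hρ R i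
  choose Cs hCs es hes hsr using fun i => exists_phiRep A hJ hw hob.bound B hρ R i
  choose Ck hCk ek hek hkb using fun i => exists_kball_sq hga hg1 hG (B.c i) (R.target i)
    (R.compact i).2 (R.measurableSet i) (R.volume_lt_top i) (hCt i)
  choose c hc Ce hCe hest using fun i => exists_anti_sq_le (R.compact i).1
    (fun a b => (hJ.smooth (B.c i) a b).continuousOn.mono (R.closure_target i))
    (fun y hy => repEnd_sq hJ.sq (R.closure_target i hy)) (hCt i)
  obtain ⟨eI, heI, hid⟩ := exists_identity A hJ hw hob B hρ R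
  haveI : Nonempty (Fin B.n) := ⟨i₀⟩
  set D : Fin B.n → ℝ := fun i => Ck i + Real.sqrt (Ck i) * Real.sqrt (256 * Cs i ^ 2) +
    256 * Cs i ^ 2
  have hD : ∀ i, 0 ≤ D i := fun i => by
    have := hCk i; have := hCs i; positivity
  set S₀ : ℝ := (∑ i, Ce i * D i) / c i₀
  have hS₀ : 0 ≤ S₀ :=
    div_nonneg (Finset.sum_nonneg fun i _ => mul_nonneg (hCe i) (hD i)) (hc i₀).le
  refine ⟨3 * (256 * Cs i₀ ^ 2 + S₀ + Ct i₀ ^ 2 * Ck i₀), by have := hCk i₀; positivity,
    min (min (Finset.univ.inf' Finset.univ_nonempty et) (Finset.univ.inf' Finset.univ_nonempty es))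
      (min (Finset.univ.inf' Finset.univ_nonempty ek) (min eI 1)),
    lt_min (lt_min ((Finset.lt_inf'_iff _).2 fun i _ => het i)
      ((Finset.lt_inf'_iff _).2 fun i _ => hes i))
      (lt_min ((Finset.lt_inf'_iff _).2 fun i _ => hek i) (lt_min heI one_pos)), fun ε hε => ?_⟩
  simp only [mem_Ioc, le_min_iff, Finset.le_inf'_iff] at hε
  obtain ⟨hε0, ⟨h1, h2⟩, h3, h4, h5⟩ := hε
  choose t ht hts htrep htb using fun i => htr i ε ⟨hε0, h1 i (Finset.mem_univ i)⟩
  choose s hs hss hsrep hsb using fun i => hsr i ε ⟨hε0, h2 i (Finset.mem_univ i)⟩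
  refine ⟨s i₀, hs i₀, hsrep i₀, ?_⟩
  set G := gPhi A J Φ ε
  have hG0 : 0 ≤ G := gPhi_nonneg A J Φ hε0.le
  have hgε : 0 ≤ g ε := zero_le_one.trans (hg1 ε ⟨hε0, h5⟩)
  set Z := g ε ^ 2 + g ε * G + ε ^ 2 * G ^ 2 with hZ
  have hsum := hid ε ⟨hε0, h4⟩ t s ht hts hs hss htrep hsrep
  set kk : Fin B.n → E → ℝ := fun i x => kball (chartMeas (B.c i) μ) (R.K i) (Ct i) ε x
  set σσ : Fin B.n → E → ℝ := fun i x => nrm1 (pinv (repEnd (B.c i) J x) (s i x))
  have hfin : ∀ i, chartMeas (B.c i) μ (R.K i) < ⊤ := fun i =>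
    haveI := isFiniteMeasure_chartMeas (B.c i) μ; measure_lt_top _ _
  have hkk : ∀ i, MemLp (kk i) 2 (volume.restrict (R.O i)) := fun i =>
    memLp_kball _ (hfin i) (R.volume_lt_top i) _ _
  have hpin : ∀ i, IsL2Field (volume.restrict (R.O i)) fun x =>
      pinv (repEnd (B.c i) J x) (s i x) := fun i =>
    isL2Field_pinv hJ _ (R.measurableSet i) (R.compact i).1 (R.closure_target i) (hs i)
  have hσσ : ∀ i, MemLp (σσ i) 2 (volume.restrict (R.O i)) := fun i => isL2Field_nrm1 (hpin i)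
  have hσb : ∀ i, ∫ x in R.O i, σσ i x ^ 2 ≤ 256 * Cs i ^ 2 * (ε * G) ^ 2 := fun i => by
    refine (integral_nrm1_sq_le (hpin i) (fun a b => (hsb i a b).2)).trans (le_of_eq ?_)
    ring
  have herr : ∀ i, ∫ x in R.O i, (ε ^ 2 * kk i x ^ 2 + kk i x * σσ i x + σσ i x ^ 2) ≤ D i * Z :=
    fun i => integral_error_le (hkk i) (hσσ i) hε0 (hCk i) (by positivity) hgε hG0
      (hkb i ε ⟨hε0, h3 i (Finset.mem_univ i)⟩) (hσb i)
  have hf : ∀ i, IsL2Field (volume.restrict (R.O i)) fun x => t i x + s i x :=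
    fun i => (ht i).add (hs i)
  set P : Fin B.n → E → ℝ := fun i x =>
    ∑ a, ∑ b, panti (repEnd (B.c i) J x) (t i x + s i x) a b ^ 2
  have hPi : ∀ i, Integrable (P i) (volume.restrict (R.O i)) := fun i =>
    integrable_finsetSum _ fun a _ => integrable_finsetSum _ fun b _ =>
      (isL2Field_panti hJ _ (R.measurableSet i) (R.compact i).1 (R.closure_target i) (hf i)
        a b).integrable_sq
  set φ : Fin B.n → E → ℝ := fun i x => B.φ i ((chartAt E (B.c i)).symm x)
  have hφm : ∀ i, AEStronglyMeasurable (φ i) (volume.restrict (R.O i)) := fun i =>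
    ((continuousOn_read (B.φ_smooth i).continuous (B.c i)).mono
      (R.subset_target i)).aestronglyMeasurable (R.measurableSet i)
  have hφ1 : ∀ i x, ‖φ i x‖ ≤ 1 := fun i x => by
    rw [Real.norm_eq_abs, abs_of_nonneg (B.φ_nonneg i _)]; exact φ_le_one B i _
  have hW : ∀ i, Integrable (fun x => φ i x * wd (repEnd (B.c i) J x) (t i x + s i x)
      (t i x + s i x)) (volume.restrict (R.O i)) := fun i =>
    (integrable_wd hJ _ (R.measurableSet i) (R.subset_target i) (hf i) (hf i)).bdd_mul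
      (hφm i) (Eventually.of_forall (hφ1 i))
  have hφP : ∀ i, Integrable (fun x => φ i x * P i x) (volume.restrict (R.O i)) := fun i =>
    (hPi i).bdd_mul (hφm i) (Eventually.of_forall (hφ1 i))
  have hEi : ∀ i, Integrable (fun x => ε ^ 2 * kk i x ^ 2 + kk i x * σσ i x + σσ i x ^ 2)
      (volume.restrict (R.O i)) := fun i =>
    (((hkk i).integrable_sq.const_mul _).fun_add ((hkk i).integrable_mul (hσσ i))).fun_add
      (hσσ i).integrable_sq
  have hpt : ∀ i, ∀ᵐ x ∂volume.restrict (R.O i), c i * (φ i x * P i x) ≤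
      φ i x * wd (repEnd (B.c i) J x) (t i x + s i x) (t i x + s i x) +
        Ce i * (ε ^ 2 * kk i x ^ 2 + kk i x * σσ i x + σσ i x ^ 2) := fun i => by
    filter_upwards [htb i, ae_restrict_mem (R.measurableSet i)] with x ⟨hx1, _, hx3⟩ hx
    have hk0 : 0 ≤ kk i x := kball_nonneg _ _ (hCt i) hε0 x
    have h := hest i ε ⟨hε0, h5⟩ x (subset_closure hx) (t i x) (s i x) (hts i x) (hss i x)
      (kk i x) hk0 hx1 hx3
    have hp0 : 0 ≤ φ i x := B.φ_nonneg i _
    have hE0 : 0 ≤ Ce i * (ε ^ 2 * kk i x ^ 2 + kk i x * σσ i x + σσ i x ^ 2) :=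
      mul_nonneg (hCe i) (by
        have := mul_nonneg hk0 (nrm1_nonneg (pinv (repEnd (B.c i) J x) (s i x))); positivity)
    calc c i * (φ i x * P i x) = φ i x * (c i * P i x) := by ring
      _ ≤ φ i x * (wd (repEnd (B.c i) J x) (t i x + s i x) (t i x + s i x) +
            Ce i * (ε ^ 2 * kk i x ^ 2 + kk i x * σσ i x + σσ i x ^ 2)) :=
          mul_le_mul_of_nonneg_left h hp0
      _ ≤ _ := by
          rw [mul_add]
          exact add_le_add_right (mul_le_of_le_one_left hE0 (φ_le_one B i _)) _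
  have hmain : c i₀ * ∫ x in R.O i₀, φ i₀ x * P i₀ x ≤ (∑ i, Ce i * D i) * Z := by
    have hi : ∀ i, c i * ∫ x in R.O i, φ i x * P i x ≤
        (∫ x in R.O i, φ i x * wd (repEnd (B.c i) J x) (t i x + s i x) (t i x + s i x)) +
          Ce i * D i * Z := fun i => by
      have := integral_mono_ae ((hφP i).const_mul (c i)) ((hW i).fun_add ((hEi i).const_mul (Ce i)))
        (hpt i)
      rw [integral_const_mul, integral_add (hW i) ((hEi i).const_mul (Ce i)),
        integral_const_mul] at this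
      refine this.trans (add_le_add_right ?_ _)
      rw [mul_assoc]
      exact mul_le_mul_of_nonneg_left (herr i) (hCe i)
    have h0 : ∀ i, 0 ≤ c i * ∫ x in R.O i, φ i x * P i x := fun i =>
      mul_nonneg (hc i).le (integral_nonneg fun x => mul_nonneg (B.φ_nonneg i _)
        (Finset.sum_nonneg fun a _ => Finset.sum_nonneg fun b _ => sq_nonneg _))
    refine (Finset.single_le_sum (fun i _ => h0 i) (Finset.mem_univ i₀)).trans
      ((Finset.sum_le_sum fun i _ => hi i).trans (le_of_eq ?_))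
    rw [Finset.sum_add_distrib, hsum, zero_add, Finset.sum_mul]
  intro a b
  set σ := σσ i₀
  set k := kk i₀
  have hmono := fun {F : E → ℝ} (hF : Integrable F (volume.restrict (R.O i₀))) (h0 : ∀ x, 0 ≤ F x) =>
    setIntegral_mono_set hF (Eventually.of_forall h0) (Eventually.of_forall hOR)
  have hres : ∀ {F : E → ℝ}, Integrable F (volume.restrict (R.O i₀)) →
      Integrable F (volume.restrict O) := fun hF => IntegrableOn.mono_set hF hOR
  have hp : ∀ᵐ x ∂volume.restrict O, s i₀ x a b ^ 2 ≤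
      3 * (σ x ^ 2 + φ i₀ x * P i₀ x + Ct i₀ ^ 2 * (ε ^ 2 * k x ^ 2)) := by
    filter_upwards [ae_restrict_of_ae_restrict_of_subset hOR (htb i₀), ae_restrict_mem hO]
      with x ⟨_, hx2, _⟩ hxO
    set j := repEnd (B.c i₀) J x
    have e : s i₀ x a b = pinv j (s i₀ x) a b + panti j (t i₀ x + s i₀ x) a b
        - panti j (t i₀ x) a b := by
      have h1 := congrFun (congrFun (pinv_add_panti j (s i₀ x)) a) b
      simp only [Matrix.add_apply] at h1
      simp only [panti, Matrix.mul_add, Matrix.add_mul, Matrix.smul_apply, Matrix.sub_apply,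
        Matrix.add_apply, smul_eq_mul] at h1 ⊢
      linarith
    have q1 : pinv j (s i₀ x) a b ^ 2 ≤ σ x ^ 2 := sq_le_sq' (neg_le_of_abs_le (abs_le_nrm1 _ a b))
      (le_of_abs_le (abs_le_nrm1 _ a b))
    have q2 : panti j (t i₀ x + s i₀ x) a b ^ 2 ≤ φ i₀ x * P i₀ x := by
      rw [show φ i₀ x = 1 from hφ x hxO, one_mul]
      exact (Finset.single_le_sum (f := fun b => panti j (t i₀ x + s i₀ x) a b ^ 2)
        (fun b _ => sq_nonneg _) (Finset.mem_univ b)).trans (Finset.single_le_sum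
          (f := fun a => ∑ b, panti j (t i₀ x + s i₀ x) a b ^ 2)
          (fun a _ => Finset.sum_nonneg fun b _ => sq_nonneg _) (Finset.mem_univ a))
    have q3 : panti j (t i₀ x) a b ^ 2 ≤ Ct i₀ ^ 2 * (ε ^ 2 * k x ^ 2) := by
      have h := (abs_le_nrm1 _ a b).trans hx2
      calc panti j (t i₀ x) a b ^ 2 ≤ (Ct i₀ * ε * k x) ^ 2 :=
            sq_le_sq' (neg_le_of_abs_le h) (le_of_abs_le h)
        _ = _ := by ring
    rw [e]
    nlinarith [sq_nonneg (pinv j (s i₀ x) a b - panti j (t i₀ x + s i₀ x) a b),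
      sq_nonneg (pinv j (s i₀ x) a b + panti j (t i₀ x) a b),
      sq_nonneg (panti j (t i₀ x + s i₀ x) a b + panti j (t i₀ x) a b)]
  have iσ := (hσσ i₀).integrable_sq
  have ik := ((hkk i₀).integrable_sq.const_mul (ε ^ 2)).const_mul (Ct i₀ ^ 2)
  refine (integral_mono_ae (hres (hs i₀ a b).integrable_sq)
    ((((hres iσ).fun_add (hres (hφP i₀))).fun_add (hres ik)).const_mul 3) hp).trans ?_
  rw [integral_const_mul, integral_add ((hres iσ).fun_add (hres (hφP i₀))) (hres ik),
    integral_add (hres iσ) (hres (hφP i₀)), mul_assoc 3]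
  refine mul_le_mul_of_nonneg_left ?_ (by norm_num)
  rw [add_mul, add_mul]
  refine add_le_add (add_le_add ?_ ?_) ?_
  · refine ((hmono iσ fun x => sq_nonneg _).trans (hσb i₀)).trans ?_
    refine mul_le_mul_of_nonneg_left ?_ (by positivity)
    nlinarith [sq_nonneg (g ε), mul_nonneg hgε hG0]
  · refine (hmono (hφP i₀) fun x => mul_nonneg (B.φ_nonneg i₀ _)
      (Finset.sum_nonneg fun a _ => Finset.sum_nonneg fun b _ => sq_nonneg _)).trans ?_
    rw [show S₀ * Z = ((∑ i, Ce i * D i) * Z) / c i₀ by ring, le_div_iff₀ (hc i₀), mul_comm]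
    exact hmain
  · refine (hmono ik fun x => by positivity).trans ?_
    rw [integral_const_mul, integral_const_mul, mul_assoc]
    refine mul_le_mul_of_nonneg_left ((hkb i₀ ε ⟨hε0, h3 i₀ (Finset.mem_univ i₀)⟩).trans ?_)
      (sq_nonneg _)
    refine mul_le_mul_of_nonneg_left ?_ (hCk i₀)
    nlinarith [sq_nonneg (ε * G), mul_nonneg hgε hG0]

/-- The low frequency bound near every point. -/
theorem lowStep : LowStep := by
  intro X _ _ _ _ _ _ _ A J w μ Θ Φ ρ hJ hw hob hρ g hga hg1 hG z₀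
  obtain ⟨B, i₀, O₀, hO₀, hO₀t, hzs, hz₀, hφ, hT⟩ := readTauTranslation X z₀
  obtain ⟨R⟩ := nonempty_regions B
  set c := B.c i₀
  set y₀ := chartAt E c z₀
  have hO₀R : O₀ ⊆ R.O i₀ := fun y hy => R.cell i₀ ⟨(chartAt E c).symm y,
    subset_tsupport _ (by rw [Function.mem_support, hφ y hy]; exact one_ne_zero),
    (chartAt E c).right_inv (hO₀t hy)⟩
  obtain ⟨r', hr', hsub'⟩ := nhds_basis_closedBall.mem_iff.1 (hO₀.mem_nhds hz₀)
  set r := r' / 2
  have hr : 0 < r := half_pos hr'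
  have hsub : closedBall y₀ (2 * r) ⊆ O₀ := by
    rw [show 2 * r = r' by ring]; exact hsub'
  have hball : ball y₀ r ⊆ O₀ :=
    (ball_subset_closedBall.trans (closedBall_subset_closedBall (by linarith))).trans hsub
  obtain ⟨e₁, he₁, hsm⟩ := exists_smX_test B hρ R i₀ hr (hsub.trans hO₀R)
    (hT _ hsub (isCompact_closedBall _ _))
  obtain ⟨C, hC, e₂, he₂, hfld⟩ := exists_fields_bound A hJ hw hob B hρ R hga hg1 hG i₀
    measurableSet_ball (hball.trans hO₀R) fun y hy => hφ y (hball hy)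
  set Cb := ∑ a : Fin 4, ∑ b : Fin 4, nrm1 (starF (wedge2 (e a) (e b)))
  refine ⟨c, ball y₀ r, 6 * Cb * (16 * Real.sqrt C), min (min e₁ e₂) 1,
    lt_min (lt_min he₁ he₂) one_pos, isOpen_ball, hball.trans hO₀t, hzs, mem_ball_self hr,
    fun t ht f hf hth a b => ?_⟩
  simp only [mem_Ioc, le_min_iff] at ht
  obtain ⟨ht0, ⟨h1, h2⟩, h3⟩ := ht
  set β := starF (wedge2 (e a) (e b))
  have hβ : βᵀ = -β := starF_skew _
  obtain ⟨s, hs, hrep, hsb⟩ := hfld t ⟨ht0, h2⟩
  have haL : IsL2Field (volume.restrict (R.O i₀)) fun x => f x • β := fun p q => by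
    simp only [Matrix.smul_apply, smul_eq_mul]
    exact ((hf.smooth.continuous.mul continuous_const).memLp_of_hasCompactSupport
      hf.compact.mul_right).restrict _
  rw [← hsm t ⟨ht0, h1⟩ f hf hth β hβ, hrep _ haL fun x => by
    rw [Matrix.transpose_smul, hβ, smul_neg]]
  have h := abs_integral_wd_test_le J c (R.measurableSet i₀) measurableSet_ball
    (hball.trans hO₀R) hs hf β hC hsb
  refine h.trans (le_of_eq_of_le rfl ?_)
  refine mul_le_mul_of_nonneg_right (mul_le_mul_of_nonneg_right (mul_le_mul_of_nonneg_right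
    (mul_le_mul_of_nonneg_left ?_ (by norm_num)) (by positivity)) (Real.sqrt_nonneg _))
    (Real.sqrt_nonneg _)
  exact (Finset.single_le_sum (f := fun b => nrm1 (starF (wedge2 (e a) (e b))))
    (fun b _ => nrm1_nonneg _) (Finset.mem_univ b)).trans (Finset.single_le_sum
      (f := fun a => ∑ b, nrm1 (starF (wedge2 (e a) (e b))))
      (fun a _ => Finset.sum_nonneg fun b _ => nrm1_nonneg _) (Finset.mem_univ a))

end Vale.Agent.P204.Tame.Mfd
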