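import Vale.Agent.P204.Tame.Mfd.Norm
import Vale.Agent.P204.Tame.Mfd.Vol

/-!
P204: a closed taming form gives a closed positive current dominating the Hermitian form.
-/

namespace Vale.Agent.P204.Tame

open scoped Matrix

/-- Anti-invariant forms have a nonnegative square. -/
lemma pr_anti_nonneg {J w u : M} (hJ : J * J = -1) (hw : wᵀ = -w) (hinv : Jᵀ * w * J = w)
    (ht : ∀ v, v ≠ 0 → 0 < val w v (J *ᵥ v)) (hu : uᵀ = -u) (ha : Jᵀ * u * J = -u) :
    0 ≤ Mfd.pr w u u := by
  obtain ⟨P, Q, hPQ, hQP, rfl, hpos⟩ := exists_oriented_frame hJ hw hinv ht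
  have hs : stdJ = Q * (P * stdJ * Q) * P := by
    simp only [← Matrix.mul_assoc, hQP, Matrix.one_mul]
    rw [Matrix.mul_assoc, hQP, Matrix.mul_one]
  set v := Pᵀ * u * P with hv
  have hvs : vᵀ = -v := Mfd.skew_congr P hu
  have hva : stdJᵀ * v * stdJ = -v := by
    rw [hs, hv, Mfd.congr_inv hPQ, ha]
    simp
  have h : 0 ≤ pfq v v := by
    have h01 := congrFun (congrFun hva 0) 1
    have h23 := congrFun (congrFun hva 2) 3
    have h02 := congrFun (congrFun hva 0) 2
    have h03 := congrFun (congrFun hva 0) 3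
    simp [Matrix.mul_apply, stdJ, Fin.sum_univ_four] at h01 h23 h02 h03
    have s := skew_apply hvs
    rw [s 0 1] at h01
    rw [s 2 3] at h23
    have a0 : v 0 1 = 0 := by linarith
    have a1 : v 2 3 = 0 := by linarith
    have a2 : v 1 3 = -v 0 2 := by linarith
    have a3 : v 1 2 = v 0 3 := by linarith
    simp only [pfq, a0, a1, a2, a3]
    nlinarith [mul_self_nonneg (v 0 2), mul_self_nonneg (v 0 3)]
  rw [hv, pfq_congr_skew P hu hu] at h
  rw [Mfd.pr, show pfq u u / pfq w w = P.det * pfq u u / (pfq w w * P.det) by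
    rw [mul_comm (pfq w w), mul_div_mul_left _ _ (right_ne_zero_of_mul hpos.ne')]]
  exact div_nonneg h hpos.le

lemma anti_panti {J u : M} (hJ : J * J = -1) : Jᵀ * panti J u * J = -panti J u := by
  have hT : Jᵀ * Jᵀ = -1 := by rw [← Matrix.transpose_mul, hJ]; simp
  have e : Jᵀ * (Jᵀ * u * J) * J = u := by
    calc Jᵀ * (Jᵀ * u * J) * J = (Jᵀ * Jᵀ) * u * (J * J) := by simp only [Matrix.mul_assoc]
      _ = u := by rw [hT, hJ]; simp
  simp only [panti, Matrix.mul_smul, Matrix.smul_mul, Matrix.mul_sub, Matrix.sub_mul, e,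
    ← smul_neg, neg_sub]

lemma skew_panti {J u : M} (h : uᵀ = -u) : (panti J u)ᵀ = -panti J u := by
  rw [panti, Matrix.transpose_smul, Matrix.transpose_sub, Mfd.skew_congr J h, h, ← smul_neg,
    neg_sub, neg_sub_neg]

lemma pinv_add_panti_eq (J u : M) : pinv J u + panti J u = u := by
  rw [pinv, panti, ← smul_add]
  module

namespace Mfd

open scoped ContDiff Manifold ENNReal
open MeasureTheory Set Filter
open scoped Pointwise

lemma pr_add_right (w θ a b : M) : pr w θ (a + b) = pr w θ a + pr w θ b := by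
  rw [pr, pr, pr, pfq_comm, pfq_add_left, pfq_comm a, pfq_comm b, add_div]

lemma pr_smul_right (w θ : M) (r : ℝ) (a : M) : pr w θ (r • a) = r * pr w θ a := by
  rw [pr, pr, pfq_comm, pfq_smul_left, pfq_comm a, mul_div_assoc]

lemma pr_comm (w a b : M) : pr w a b = pr w b a := by rw [pr, pr, pfq_comm]

lemma pr_sub_right (w θ a b : M) : pr w θ (a - b) = pr w θ a - pr w θ b := by
  rw [sub_eq_add_neg, ← neg_one_smul ℝ b, pr_add_right, pr_smul_right]
  ring

lemma pr_pinv_panti {J w a b : M} (hJ : J * J = -1) (ha : aᵀ = -a) (hb : bᵀ = -b) :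
    pr w a b = pr w (pinv J a) (pinv J b) + pr w (panti J a) (panti J b) := by
  have hz : ∀ x y : M, xᵀ = -x → yᵀ = -y → pr w (pinv J x) (panti J y) = 0 := by
    intro x y hx hy
    have h1 := pfq_pinv_left hJ (skew_panti (J := J) hy) (skew_pinv (J := J) hx) (inv_pinv hJ)
    have h2 : pinv J (panti J y) = 0 := by
      rw [pinv, anti_panti hJ, add_neg_cancel, smul_zero]
    rw [h2] at h1
    rw [pr, pfq_comm, ← h1]
    simp [pfq]
  have h2 : pr w (panti J a) (pinv J b) = 0 := by rw [pr_comm]; exact hz b a hb ha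
  conv_lhs => rw [← pinv_add_panti_eq J a, ← pinv_add_panti_eq J b]
  rw [pr_comm w (_ + _) (_ + _), pr_add_right, pr_comm w _ (pinv J a), pr_comm w _ (panti J a),
    pr_add_right, pr_add_right, hz a b ha hb, h2]
  ring

/-- Finite measures compared on continuous functions. -/
lemma measure_le_of_continuous {Y : Type*} [TopologicalSpace Y] [MeasurableSpace Y] [BorelSpace Y]
    [TopologicalSpace.PseudoMetrizableSpace Y] {ν₁ ν₂ : Measure Y} [IsFiniteMeasure ν₁]
    [IsFiniteMeasure ν₂]
    (h : ∀ f : BoundedContinuousFunction Y NNReal, ∫⁻ y, f y ∂ν₂ ≤ ∫⁻ y, f y ∂ν₁) : ν₂ ≤ ν₁ := by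
  have hc : ∀ F, IsClosed F → ν₂ F ≤ ν₁ F := fun F hF =>
    le_of_tendsto_of_tendsto' (HasOuterApproxClosed.tendsto_lintegral_apprSeq hF ν₂)
      (HasOuterApproxClosed.tendsto_lintegral_apprSeq hF ν₁) fun n => h _
  refine Measure.le_iff.2 fun s hs => ?_
  rw [hs.measure_eq_iSup_isClosed_of_ne_top (measure_ne_top _ _)]
  exact iSup₂_le fun F hF => iSup_le fun hF' => (hc F hF').trans (measure_mono hF)

variable {X : Type} [TopologicalSpace X] [ChartedSpace E X] [IsManifold 𝓘(ℝ, E) ∞ X]

lemma isHerm_pinvX {J W : X → M} (hJ : IsACX J) (hW : IsForm W) (ht : TamesX W J) :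
    IsHerm J (pinvX J W) where
  form := isForm_pinvX hJ hW
  inv z := inv_pinv (hJ.sq z)
  tames z v hv := by
    have h1 : val (pinv (J z) (W z)) v (J z *ᵥ v) =
        (val (W z) v (J z *ᵥ v) + val (W z) (J z *ᵥ v) (J z *ᵥ (J z *ᵥ v))) / 2 := by
      rw [← val_congr (J z) (W z) v (J z *ᵥ v)]
      simp only [pinv, val, Matrix.smul_mulVec, Matrix.add_mulVec, dotProduct_smul, dotProduct_add,
        smul_eq_mul]
      ring
    show 0 < val (pinv (J z) (W z)) v (J z *ᵥ v)
    rw [h1]
    have hne : J z *ᵥ v ≠ 0 := fun h => hv (by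
      have := congrArg (fun x => -(J z *ᵥ x)) h
      simpa [Matrix.mulVec_mulVec, hJ.sq, Matrix.neg_mulVec] using this)
    linarith [ht z v hv, ht z _ hne]

variable [MeasurableSpace X] [BorelSpace X] [T2Space X] [CompactSpace X]

/-- The main estimate: exact forms bounded above have bounded integral. -/
lemma exact_bound (A : Atlas X) {J w W : X → M} (hJ : IsACX J) (hw : IsHerm J w) (hW : IsForm W)
    (hWc : IsClosedX W) (hWt : TamesX W J) :
    ∃ C : ℝ, 0 ≤ C ∧ ∀ S, IsForm1 S → ∀ t : ℝ, 0 < t →
      (∀ z, Psd (J z) (t • w z - pinv (J z) (dX S z))) →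
      -∫ z, pr (w z) (w z) (dX S z) ∂vol A w ≤ C * t := by
  set ωi := pinvX J W
  set ωa := pantiX J W
  have hωi : IsHerm J ωi := isHerm_pinvX hJ hW hWt
  have hωa : IsForm ωa := isForm_pantiX hJ hW
  obtain ⟨C₁, hC₁, hC₁'⟩ := exists_le_herm A hJ hωi hw.mem_contInv
  have := isFiniteMeasure_vol A hw
  set m := vol A w
  set P := fun a b : X → M => fun z => pr (w z) (a z) (b z)
  have hint : ∀ {a b : X → M}, IsContForm a → IsContForm b → Integrable (P a b) m :=
    fun ha hb => continuous_integrable A hw (continuous_pr hJ hw ha hb)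
  set a₀ := ∫ z, P w ωi z ∂m
  set Q := ∫ z, P ωa ωa z ∂m
  set V := ∫ z, P w w z ∂m
  have hV : 0 ≤ V := integral_nonneg fun z =>
    pr_nonneg (hJ.sq z) (hw.form.skew z) (hw.inv z) (hw.tames z) (psd_herm hw z) (psd_herm hw z)
  refine ⟨|2 * C₁ * a₀| + 2 * C₁ ^ 2 * |Q|, by positivity, fun S hS t ht hpsd => ?_⟩
  have hd := isForm_dX hS
  set d := dX S
  set di := pinvX J d
  set da := pantiX J d
  set T := t • w - di with hT
  have hdi := isForm_pinvX hJ hd
  have hda := isForm_pantiX hJ hd
  have hTf : IsForm T := (hw.form.smul t).sub hdi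
  have key1 : ∫ z, P d d z ∂m = 0 := stokes A hJ hw hd (isClosedX_dX hS) hS
  have key2 : ∫ z, P d W z ∂m = 0 := stokes A hJ hw hW hWc hS
  have hdec : ∀ (b : X → M), IsForm b → ∀ z, P d b z =
      P di (pinvX J b) z + P da (pantiX J b) z := fun b hb z =>
    pr_pinv_panti (hJ.sq z) (hd.skew z) (hb.skew z)
  have hdi_eq : ∀ z, di z = t • w z - T z := fun z => by simp [T]
  have e1 : ∀ z, P di di z ≥ -(2 * t) * P w T z := fun z => by
    simp only [P, hdi_eq z]
    rw [pr_sub_right, pr_smul_right, pr_comm (w z) _ (w z), pr_comm (w z) _ (T z), pr_sub_right,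
      pr_sub_right, pr_smul_right, pr_smul_right, pr_comm (w z) (T z) (w z)]
    have n1 : 0 ≤ pr (w z) (w z) (w z) := pr_nonneg (hJ.sq z) (hw.form.skew z) (hw.inv z)
      (hw.tames z) (psd_herm hw z) (psd_herm hw z)
    have n2 : 0 ≤ pr (w z) (T z) (T z) := pr_nonneg (hJ.sq z) (hw.form.skew z) (hw.inv z)
      (hw.tames z) (hpsd z) (hpsd z)
    nlinarith [mul_nonneg (mul_nonneg ht.le ht.le) n1]
  have e2 : ∀ z, P w T z ≤ C₁ * P T ωi z := fun z => by
    have h := pr_nonneg (hJ.sq z) (hw.form.skew z) (hw.inv z) (hw.tames z) (hpsd z) (hC₁' z).2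
    rw [pr_sub_right, pr_smul_right, pr_comm (w z) _ (w z)] at h
    exact sub_nonneg.1 h
  have e3 : ∀ z (l : ℝ), 0 ≤ l ^ 2 * P da da z + 2 * l * P da ωa z + P ωa ωa z := fun z l => by
    have h := pr_anti_nonneg (hJ.sq z) (hw.form.skew z) (hw.inv z) (hw.tames z)
      (u := l • da z + ωa z) (by rw [Matrix.transpose_add, Matrix.transpose_smul,
        show (da z)ᵀ = -da z from hda.skew z, hωa.skew z, smul_neg, neg_add])
      (by simp [Matrix.mul_add, Matrix.add_mul, da, ωa, pantiX, anti_panti (hJ.sq z)]; abel)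
    rw [pr_add_right, pr_smul_right, pr_comm (w z) _ (da z), pr_comm (w z) _ (ωa z), pr_add_right,
      pr_add_right, pr_smul_right, pr_smul_right, pr_comm (w z) (ωa z) (da z)] at h
    simp only [P]
    linarith
  set mT := ∫ z, P w T z ∂m
  set IA := ∫ z, P da da z ∂m
  set IB := ∫ z, P da ωa z ∂m
  have hA : IA ≤ 2 * t * mT := by
    have h1 : (∫ z, P di di z ∂m) + IA = 0 := by
      rw [← integral_add (hint hdi.cont hdi.cont) (hint hda.cont hda.cont), ← key1]
      exact integral_congr_ae (Eventually.of_forall fun z => (hdec d hd z).symm)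
    have h2 : -(2 * t) * mT ≤ ∫ z, P di di z ∂m := by
      rw [← integral_const_mul]
      exact integral_mono ((hint hw.form.cont hTf.cont).const_mul _) (hint hdi.cont hdi.cont) e1
    linarith
  have hB : ∫ z, P T ωi z ∂m = t * a₀ + IB := by
    have h1 : (∫ z, P di ωi z ∂m) + IB = 0 := by
      rw [← integral_add (hint hdi.cont hωi.form.cont) (hint hda.cont hωa.cont), ← key2]
      exact integral_congr_ae (Eventually.of_forall fun z => (hdec W hW z).symm)
    have h2 : (∫ z, P di ωi z ∂m) = t * a₀ - ∫ z, P T ωi z ∂m := by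
      rw [← integral_const_mul, ← integral_sub ((hint hw.form.cont hωi.form.cont).const_mul _)
        (hint hTf.cont hωi.form.cont)]
      refine integral_congr_ae (Eventually.of_forall fun z => ?_)
      simp only [P, hdi_eq z]
      rw [pr_comm (w z) _ (ωi z), pr_sub_right, pr_smul_right, pr_comm (w z) (ωi z) (w z),
        pr_comm (w z) (ωi z) (T z)]
    linarith
  have hC : mT ≤ C₁ * ∫ z, P T ωi z ∂m := by
    rw [← integral_const_mul]
    exact integral_mono (hint hw.form.cont hTf.cont) ((hint hTf.cont hωi.form.cont).const_mul _) e2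
  have hD : ∀ l : ℝ, 0 ≤ l ^ 2 * IA + 2 * l * IB + Q := fun l => by
    have hi1 : Integrable (fun z => l ^ 2 * P da da z) m := (hint hda.cont hda.cont).const_mul _
    have hi2 : Integrable (fun z => 2 * l * P da ωa z) m := (hint hda.cont hωa.cont).const_mul _
    have hi : Integrable (fun z => l ^ 2 * P da da z + 2 * l * P da ωa z) m := hi1.add hi2
    have h := integral_nonneg (μ := m) (f := fun z => l ^ 2 * P da da z + 2 * l * P da ωa z +
      P ωa ωa z) fun z => e3 z l
    rw [integral_add hi (hint hωa.cont hωa.cont), integral_add hi1 hi2,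
      integral_const_mul, integral_const_mul] at h
    exact h
  have hgoal : -∫ z, pr (w z) (w z) (d z) ∂m = mT - t * V := by
    have h2 : (∫ z, P w d z ∂m) = t * V - mT := by
      rw [← integral_const_mul, ← integral_sub ((hint hw.form.cont hw.form.cont).const_mul _)
        (hint hw.form.cont hTf.cont)]
      refine integral_congr_ae (Eventually.of_forall fun z => ?_)
      simp only [P]
      rw [← pr_pinv_right (hJ.sq z) (psd_herm hw z) (hd.skew z), show pinv (J z) (d z) = di z from rfl,
        hdi_eq z, pr_sub_right, pr_smul_right]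
    show -(∫ z, P w d z ∂m) = _
    linarith
  show -∫ z, pr (w z) (w z) (d z) ∂m ≤ _
  rw [hgoal]
  -- AM-GM with the parameter `l`
  have hm : mT ≤ C₁ * (t * a₀ + IB) := hB ▸ hC
  rcases hC₁.eq_or_lt with h0 | h0
  · rw [← h0] at hm ⊢
    simp at hm ⊢
    nlinarith [mul_nonneg ht.le hV]
  · have hl := hD (-1 / (2 * C₁ * t))
    have hkey : C₁ * IB ≤ mT / 2 + C₁ ^ 2 * t * |Q| := by
      have hQ := le_abs_self Q
      have hpos : 0 < 2 * C₁ * t := by positivity
      have h3 : 0 ≤ IA - 4 * C₁ * t * IB + 4 * C₁ ^ 2 * t ^ 2 * Q := by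
        have := mul_nonneg (pow_nonneg hpos.le 2) hl
        field_simp at this
        nlinarith [this]
      have h4 : 4 * C₁ * t * IB ≤ 2 * t * mT + 4 * C₁ ^ 2 * t ^ 2 * |Q| := by
        nlinarith [mul_le_mul_of_nonneg_left hQ (show 0 ≤ 4 * C₁ ^ 2 * t ^ 2 by positivity)]
      refine le_of_mul_le_mul_left (a := 4 * t) ?_ (by linarith)
      nlinarith
    have h5 : 2 * C₁ * a₀ * t ≤ |2 * C₁ * a₀| * t :=
      mul_le_mul_of_nonneg_right (le_abs_self _) ht.le
    nlinarith [mul_nonneg ht.le hV]

/-- Hahn-Banach: a functional above the Hermitian integral vanishing on exact forms. -/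
lemma exists_functional (A : Atlas X) {J w W : X → M} (hJ : IsACX J) (hw : IsHerm J w)
    (hW : IsForm W) (hWc : IsClosedX W) (hWt : TamesX W J) :
    ∃ L : contInv J →ₗ[ℝ] ℝ,
      (∀ u : contInv J, (∀ z, Psd (J z) (u.1 z)) → ∫ z, pr (w z) (w z) (u.1 z) ∂vol A w ≤ L u) ∧
      (∀ u : contInv J, (∀ z, Psd (J z) (u.1 z)) → 0 ≤ L u) ∧
      ∀ S, IsForm1 S → ∀ u : contInv J, u.1 = pinvX J (dX S) → L u = 0 := by
  obtain ⟨C, hC0, hC⟩ := exact_bound A hJ hw hW hWc hWt
  have hint : ∀ u : contInv J, Integrable (fun z => pr (w z) (w z) (u.1 z)) (vol A w) := fun u =>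
    continuous_integrable A hw (continuous_pr hJ hw hw.form.cont u.2.1)
  let L₀ : contInv J →ₗ[ℝ] ℝ :=
    { toFun := fun u => ∫ z, pr (w z) (w z) (u.1 z) ∂vol A w
      map_add' := fun u v => by
        rw [← integral_add (hint u) (hint v)]
        exact integral_congr_ae (Eventually.of_forall fun z => pr_add_right _ _ _ _)
      map_smul' := fun r u => by
        rw [RingHom.id_apply, smul_eq_mul, ← integral_const_mul]
        exact integral_congr_ae (Eventually.of_forall fun z => pr_smul_right _ _ _ _) }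
  let D : Submodule ℝ (contInv J) :=
    { carrier := {u | ∃ S, IsForm1 S ∧ u.1 = pinvX J (dX S)}
      zero_mem' := ⟨0, fun p i => by simp [rep1, contDiffOn_const], by
        funext z
        have : dX (0 : X → E) z = 0 := by ext i j; simp [dX, dOne, rep1, pd]
        simp [pinvX, this, pinv]⟩
      add_mem' := by
        rintro u v ⟨S, hS, hu⟩ ⟨S', hS', hv⟩
        refine ⟨S + S', fun p i => ?_, ?_⟩
        · simp only [rep1, Pi.add_apply, Matrix.mulVec_add]
          exact (hS p i).add (hS' p i)
        · funext z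
          have hd : ∀ (S : X → E), IsForm1 S → ∀ r, DifferentiableAt ℝ (fun v => rep1 z S v r)
              (chartAt E z z) := fun S hS r => ((hS z r).contDiffAt
            ((chartAt E z).open_target.mem_nhds ((chartAt E z).map_source
              (mem_chart_source E z)))).differentiableAt (by simp)
          have : dX (S + S') z = dX S z + dX S' z := by
            ext i j
            simp only [dX, dOne, pd, Matrix.add_apply, rep1, Pi.add_apply, Matrix.mulVec_add]
            simp only [rep1] at hd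
            rw [fderiv_fun_add (hd S hS j) (hd S' hS' j),
              fderiv_fun_add (hd S hS i) (hd S' hS' i), add_apply, add_apply]
            ring
          simp only [AddMemClass.coe_add, Pi.add_apply, hu, hv, pinvX, this, pinv, Matrix.mul_add,
            Matrix.add_mul, smul_add]
          abel
      smul_mem' := by
        rintro r u ⟨S, hS, hu⟩
        refine ⟨r • S, fun p i => ?_, ?_⟩
        · simp only [rep1, Pi.smul_apply, Matrix.mulVec_smul]
          exact contDiffOn_const.mul (hS p i)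
        · funext z
          have hd : ∀ r', DifferentiableAt ℝ (fun v => rep1 z S v r')
              (chartAt E z z) := fun r' => ((hS z r').contDiffAt
            ((chartAt E z).open_target.mem_nhds ((chartAt E z).map_source
              (mem_chart_source E z)))).differentiableAt (by simp)
          have : dX (r • S) z = r • dX S z := by
            ext i j
            simp only [dX, dOne, pd, Matrix.smul_apply, rep1, Pi.smul_apply, Matrix.mulVec_smul,
              smul_eq_mul]
            simp only [rep1] at hd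
            rw [fderiv_const_mul (hd j), fderiv_const_mul (hd i)]
            simp
            ring
          simp only [SetLike.val_smul, Pi.smul_apply, hu, pinvX, this, pinv, Matrix.mul_smul,
            Matrix.smul_mul, smul_add, smul_comm r] }
  let S : contInv J → Set ℝ := fun u => {t | 0 < t ∧ ∀ z, Psd (J z) (t • w z - u.1 z)}
  have hne : ∀ u, (S u).Nonempty := fun u => by
    obtain ⟨c, hc0, hc⟩ := exists_le_herm A hJ hw u.2
    refine ⟨c + 1, by linarith, fun z => ?_⟩
    have h1 := (hc z).2
    have h2 := psd_herm hw z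
    exact ⟨by simp [hw.form.skew z, u.2.1.skew z]; abel,
      by simp [Matrix.mul_sub, Matrix.sub_mul, hw.inv z, u.2.2 z], fun v => by
        have := h1.nonneg v
        have := h2.nonneg v
        simp only [val, Matrix.sub_mulVec, Matrix.smul_mulVec, dotProduct_sub, dotProduct_smul,
          smul_eq_mul] at *
        linarith⟩
  have hbb : ∀ u, BddBelow (S u) := fun u => ⟨0, fun t ht => ht.1.le⟩
  let N : contInv J → ℝ := fun u => C * sInf (S u)
  have hN_hom : ∀ c : ℝ, 0 < c → ∀ u, N (c • u) = c * N u := by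
    intro c hc u
    have : S (c • u) = c • S u := by
      ext t
      simp only [mem_smul_set, smul_eq_mul, S, mem_ofPred_eq]
      constructor
      · rintro ⟨ht, h⟩
        refine ⟨t / c, ⟨by positivity, fun z => ?_⟩, by field_simp⟩
        have := psd_smul (inv_nonneg.2 hc.le) (h z)
        simpa [smul_sub, smul_smul, hc.ne', div_eq_inv_mul] using this
      · rintro ⟨s, ⟨hs, h⟩, rfl⟩
        refine ⟨by positivity, fun z => ?_⟩
        have := psd_smul hc.le (h z)
        simpa [smul_sub, smul_smul] using this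
    simp only [N, this, Real.sInf_smul_of_nonneg hc.le, smul_eq_mul]
    ring
  have hN_add : ∀ u v, N (u + v) ≤ N u + N v := by
    intro u v
    simp only [N, ← mul_add]
    refine mul_le_mul_of_nonneg_left ?_ hC0
    rw [← sub_le_iff_le_add]
    refine le_csInf (hne u) fun s hs => ?_
    rw [sub_le_comm]
    refine le_csInf (hne v) fun t ht => ?_
    rw [sub_le_iff_le_add']
    refine csInf_le (hbb _) ⟨add_pos hs.1 ht.1, fun z => ?_⟩
    have h1 := hs.2 z
    have h2 := ht.2 z
    refine ⟨by simp [hw.form.skew z, u.2.1.skew z, v.2.1.skew z]; abel,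
      by simp [Matrix.mul_sub, Matrix.sub_mul, Matrix.mul_add, Matrix.add_mul, hw.inv z, u.2.2 z,
        v.2.2 z], fun x => ?_⟩
    have := h1.nonneg x
    have := h2.nonneg x
    simp only [val, AddMemClass.coe_add, Pi.add_apply, Matrix.sub_mulVec, Matrix.add_mulVec,
      Matrix.smul_mulVec, dotProduct_sub, dotProduct_add, dotProduct_smul, smul_eq_mul] at *
    linarith
  obtain ⟨L₁, hL₁, hL₁'⟩ := exists_extension_of_le_sublinear
    ⟨D, (-L₀).comp D.subtype⟩ N hN_hom hN_add (fun x => by
      obtain ⟨S', hS', hx⟩ := x.2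
      show -L₀ x.1 ≤ _
      have hb : ∀ t ∈ S x.1, -L₀ x.1 ≤ C * t := fun t ht => by
        have h := hC S' hS' t ht.1 fun z => by
          have := ht.2 z
          rwa [hx] at this
        refine le_trans (le_of_eq ?_) h
        show -(∫ z, pr (w z) (w z) (x.1.1 z) ∂vol A w) = _
        rw [hx]
        refine congrArg Neg.neg (integral_congr_ae (Eventually.of_forall fun z => ?_))
        exact pr_pinv_right (hJ.sq z) (psd_herm hw z) ((isForm_dX hS').skew z)
      rcases hC0.eq_or_lt with h0 | h0
      · obtain ⟨t, ht⟩ := hne x.1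
        simpa [N, ← h0] using hb t ht
      · show _ ≤ C * sInf _
        rw [← div_le_iff₀' h0]
        exact le_csInf (hne _) fun t ht => (div_le_iff₀' h0).2 (hb t ht))
  have hpos : ∀ u : contInv J, (∀ z, Psd (J z) (u.1 z)) → 0 ≤ L₁ u := by
    intro u hu
    have h := hL₁' (-u)
    have h0 : sInf (S (-u)) ≤ 0 := by
      refine le_of_forall_pos_le_add fun ε hε => ?_
      rw [zero_add]
      refine csInf_le (hbb _) ⟨hε, fun z => ?_⟩
      have h1 := hu z
      have h2 := psd_herm hw z
      refine ⟨by simp [hw.form.skew z, u.2.1.skew z]; abel,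
        by simp [Matrix.mul_add, Matrix.add_mul, hw.inv z, u.2.2 z], fun x => ?_⟩
      have := h1.nonneg x
      have := mul_nonneg hε.le (h2.nonneg x)
      simp only [val, NegMemClass.coe_neg, Pi.neg_apply, sub_neg_eq_add, Matrix.add_mulVec,
        Matrix.smul_mulVec, dotProduct_add, dotProduct_smul, smul_eq_mul] at *
      linarith
    rw [map_neg] at h
    have h2 : N (-u) ≤ 0 := mul_nonpos_of_nonneg_of_nonpos hC0 h0
    linarith
  have hL0 : ∀ u : contInv J, (∀ z, Psd (J z) (u.1 z)) → 0 ≤ L₀ u := fun u hu =>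
    integral_nonneg fun z => pr_nonneg (hJ.sq z) (hw.form.skew z) (hw.inv z) (hw.tames z)
      (psd_herm hw z) (hu z)
  refine ⟨L₁ + L₀, fun u hu => ?_, fun u hu => add_nonneg (hpos u hu) (hL0 u hu), ?_⟩
  · show L₀ u ≤ L₁ u + L₀ u
    linarith [hpos u hu]
  · intro S' hS' u hu
    have h := hL₁ ⟨u, ⟨S', hS', hu⟩⟩
    show L₁ u + L₀ u = 0
    rw [show L₁ u = -L₀ u from h]
    ring

theorem kaehlerCurrent : KaehlerCurrent := by
  intro X _ _ _ _ _ _ _ A J w W hJ hw hW hWc hWt
  have : TopologicalSpace.MetrizableSpace X := Manifold.metrizableSpace 𝓘(ℝ, E) X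
  have := isFiniteMeasure_vol A hw
  obtain ⟨L, hdom, hpos, hexact⟩ := exists_functional A hJ hw hW hWc hWt
  obtain ⟨μ, Θ, hfin, hmeas, hpsd, hunit, hrep⟩ := exists_field A hJ hw L hpos
  refine ⟨μ, Θ, ⟨hfin, hmeas, hpsd, hunit, fun S hS => ?_⟩, ?_⟩
  · set v : contInv J := ⟨_, pinv_mem_contInv hJ (isForm_dX hS).cont⟩
    rw [← hexact S hS v rfl, (hrep v).2]
    refine integral_congr_ae ?_
    filter_upwards [hpsd] with z hz
    exact (pr_pinv_right (hJ.sq z) hz ((isForm_dX hS).skew z)).symm
  · intro Y hY u hu hup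
    set v : contInv J := ⟨u, hu, fun z => (hup z).inv⟩
    set q₁ := fun z => pr (w z) (Θ z) (u z)
    set q₂ := fun z => pr (w z) (w z) (u z)
    have h1 : Integrable q₁ μ := (hrep v).1
    have h2 : Integrable q₂ (vol A w) :=
      continuous_integrable A hw (continuous_pr hJ hw hw.form.cont hu)
    have n1 : 0 ≤ᵐ[μ] q₁ := by
      filter_upwards [hpsd] with z hz
      exact pr_nonneg (hJ.sq z) (hw.form.skew z) (hw.inv z) (hw.tames z) hz (hup z)
    have n2 : ∀ z, 0 ≤ q₂ z := fun z =>
      pr_nonneg (hJ.sq z) (hw.form.skew z) (hw.inv z) (hw.tames z) (psd_herm hw z) (hup z)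
    set ν₁ := μ.withDensity fun z => ENNReal.ofReal (q₁ z)
    set ν₂ := (vol A w).withDensity fun z => ENNReal.ofReal (q₂ z)
    have : IsFiniteMeasure ν₁ := isFiniteMeasure_withDensity_ofReal h1.2
    have : IsFiniteMeasure ν₂ := isFiniteMeasure_withDensity_ofReal h2.2
    have hν : ν₂ ≤ ν₁ := by
      refine measure_le_of_continuous fun f => ?_
      set g : X → ℝ := fun z => (f z : ℝ)
      have hg : Continuous g := NNReal.continuous_coe.comp f.continuous
      have key : ∀ (q : X → ℝ) (m : Measure X), Integrable q m → 0 ≤ᵐ[m] q →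
          ∫⁻ z, f z ∂m.withDensity (fun z => ENNReal.ofReal (q z)) =
            ENNReal.ofReal (∫ z, g z * q z ∂m) := by
        intro q m hq hq0
        rw [lintegral_withDensity_eq_lintegral_mul₀ hq.1.aemeasurable.ennreal_ofReal
          f.continuous.measurable.coe_nnreal_ennreal.aemeasurable,
          ofReal_integral_eq_lintegral_ofReal]
        · refine lintegral_congr_ae (Eventually.of_forall fun z => ?_)
          simp [g, ENNReal.ofReal_mul' (NNReal.coe_nonneg (f z)), mul_comm]
        · obtain ⟨c, hc⟩ := isCompact_univ.exists_bound_of_continuousOn hg.continuousOn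
          exact hq.bdd_mul hg.aestronglyMeasurable (c := c)
            (Eventually.of_forall fun z => hc z (mem_univ z))
        · filter_upwards [hq0] with z hz
          exact mul_nonneg (NNReal.coe_nonneg _) hz
      rw [key q₂ _ h2 (Eventually.of_forall n2), key q₁ _ h1 n1]
      refine ENNReal.ofReal_le_ofReal ?_
      set fv : contInv J := ⟨fun z => g z • u z, fun_smul_mem_contInv hg v.2⟩
      have hle := hdom fv fun z => psd_smul (NNReal.coe_nonneg _) (hup z)
      rw [(hrep fv).2] at hle
      simpa [fv, q₁, q₂, pr_smul_right] using hle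
    have hm := hν Y
    rw [withDensity_apply _ hY, withDensity_apply _ hY,
      ← ofReal_integral_eq_lintegral_ofReal h1.integrableOn (ae_restrict_of_ae n1),
      ← ofReal_integral_eq_lintegral_ofReal h2.integrableOn (Eventually.of_forall n2)] at hm
    exact (ENNReal.ofReal_le_ofReal_iff (integral_nonneg_of_ae (ae_restrict_of_ae n1))).1 hm

end Mfd

end Vale.Agent.P204.Tame
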