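import Vale.Agent.P204.Tame.DensityTest
import Vale.Agent.P204.Tame.Mollifier
import Vale.Agent.P204.Tame.Mfd.CoreDefs
import Vale.Agent.P204.Tame.Mfd.GNorm
import Vale.Agent.P204.Tame.Mfd.Kaehler

/-!
P204: low frequency bounds on the anti-invariant part of an obstruction give bounds on the mass of
small balls, by testing against the logarithmic potentials.
-/

namespace Vale.Agent.P204.Tame.Mfd

open scoped ContDiff Manifold Matrix ENNReal Topology
open MeasureTheory Metric Set Filter

/-- A geometric series with a change of regime at `n`. -/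
lemma sum_two_regimes {q a b : ℝ} (hq : q ∈ Ioc (1 : ℝ) 2) (ha : 0 ≤ a) (hb : 0 ≤ b) (n N : ℕ) :
    ∑ j ∈ Finset.range N, q ^ j * (if j ≤ n then a else b / 4 ^ j) ≤
      a * q ^ n * (q / (q - 1)) + 2 * b * (q / 4) ^ n := by
  obtain ⟨hq1, hq2⟩ := hq
  set x := q / 4 with hx
  have hx0 : 0 ≤ x := by positivity
  have hx2 : x ≤ 1 / 2 := by rw [hx]; linarith
  have hs : ∀ N : ℕ, (∑ j ∈ Finset.range N, if n < j then x ^ j else 0) +
      (if n < N then 2 * x ^ N else 2 * x ^ n) ≤ 2 * x ^ n := by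
    intro N
    induction N with
    | zero => simp
    | succ k ih =>
      rw [Finset.sum_range_succ]
      rcases lt_trichotomy n k with h | h | h
      · rw [if_pos h] at ih
        rw [if_pos h, if_pos (by omega), pow_succ]
        nlinarith [pow_nonneg hx0 k]
      · subst h
        rw [if_neg (lt_irrefl _)] at ih
        rw [if_neg (lt_irrefl _), if_pos (by omega), pow_succ]
        nlinarith [pow_nonneg hx0 n]
      · rw [if_neg (by omega)] at ih
        rw [if_neg (by omega), if_neg (by omega)]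
        linarith
  have hsplit : ∀ j, q ^ j * (if j ≤ n then a else b / 4 ^ j) =
      a * (if j ≤ n then q ^ j else 0) + b * (if n < j then x ^ j else 0) := fun j => by
    rcases le_or_gt j n with h | h
    · rw [if_pos h, if_pos h, if_neg (by omega)]; ring
    · rw [if_neg (by omega), if_neg (by omega), if_pos h, hx, div_pow]; ring
  simp only [hsplit, Finset.sum_add_distrib, ← Finset.mul_sum]
  have h1 : ∑ j ∈ Finset.range N, (if j ≤ n then q ^ j else 0) ≤ q ^ n * (q / (q - 1)) := by
    calc ∑ j ∈ Finset.range N, (if j ≤ n then q ^ j else 0)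
        ≤ ∑ j ∈ Finset.range (n + 1), q ^ j := by
          rw [← Finset.sum_filter]
          exact Finset.sum_le_sum_of_subset_of_nonneg
            (fun j hj => Finset.mem_range.2 (by have := (Finset.mem_filter.1 hj).2; omega))
            fun j _ _ => pow_nonneg (by linarith) j
      _ = (q ^ (n + 1) - 1) / (q - 1) := geom_sum_eq hq1.ne' _
      _ ≤ q ^ (n + 1) / (q - 1) := div_le_div_of_nonneg_right (by linarith) (by linarith)
      _ = _ := by rw [pow_succ]; ring
  have h2 : ∑ j ∈ Finset.range N, (if n < j then x ^ j else 0) ≤ 2 * x ^ n := by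
    have h := hs N
    have : 0 ≤ (if n < N then 2 * x ^ N else 2 * x ^ n) := by split_ifs <;> positivity
    linarith
  calc a * _ + b * _ ≤ a * (q ^ n * (q / (q - 1))) + b * (2 * x ^ n) :=
        add_le_add (mul_le_mul_of_nonneg_left h1 ha) (mul_le_mul_of_nonneg_left h2 hb)
    _ = _ := by ring

private lemma panti_idem {J u : M} (hJ : J * J = -1) : panti J (panti J u) = panti J u := by
  conv_lhs => rw [panti, anti_panti hJ]
  module

/-- A form dominating a multiple of the Hermitian form pairs at least that multiple. -/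
lemma le_pr_of_val {J w θ u : M} (hJ : J * J = -1) (hw : wᵀ = -w) (hinv : Jᵀ * w * J = w)
    (ht : ∀ v, v ≠ 0 → 0 < val w v (J *ᵥ v)) (hθ : Psd J θ) (h1 : pr w θ w = 1) (hu : uᵀ = -u)
    {m : ℝ} (hm : ∀ v, m * val w v (J *ᵥ v) ≤ val u v (J *ᵥ v)) : m ≤ pr w θ u := by
  have hp : Psd J (pinv J u - m • w) := by
    refine ⟨?_, ?_, fun v => ?_⟩
    · rw [Matrix.transpose_sub, Matrix.transpose_smul, skew_pinv hu, hw]; module
    · rw [Matrix.mul_sub, Matrix.sub_mul, inv_pinv hJ, Matrix.mul_smul, Matrix.smul_mul, hinv]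
    · have e : val (pinv J u - m • w) v (J *ᵥ v) =
          val (pinv J u) v (J *ᵥ v) - m * val w v (J *ᵥ v) := by
        simp only [val, Matrix.sub_mulVec, Matrix.smul_mulVec, dotProduct_sub, dotProduct_smul,
          smul_eq_mul]
      rw [e, val_pinv hJ hu]
      linarith [hm v]
  have h := pr_nonneg hJ hw hinv ht hθ hp
  rw [pr_sub_right, pr_smul_right, pr_pinv_right hJ hθ hu, h1] at h
  linarith

variable {X : Type} [TopologicalSpace X] [ChartedSpace E X] [IsManifold 𝓘(ℝ, E) ∞ X]

/-- The Hermitian form is comparable to the Euclidean one on compact pieces of a chart. -/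
lemma exists_val_herm_bounds {J w : X → M} (hJ : IsACX J) (hw : IsHerm J w) (c : X) {K : Set E}
    (hK : IsCompact K) (hKt : K ⊆ (chartAt E c).target) :
    ∃ B : ℝ, 1 ≤ B ∧ ∀ y ∈ K, ∀ v,
      val (rep c w y) v (repEnd c J y *ᵥ v) ≤ B * (v ⬝ᵥ v) ∧
        v ⬝ᵥ v ≤ B * val (rep c w y) v (repEnd c J y *ᵥ v) := by
  set F : E × E → ℝ := fun x => val (rep c w x.1) x.2 (repEnd c J x.1 *ᵥ x.2)
  have hF : ContinuousOn F (K ×ˢ sphere 0 1) :=
    (continuousOn_val (fun a b => (hw.form.cont.cont c a b).mono hKt)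
      (fun a b => (hJ.smooth c a b).continuousOn.mono hKt)).mono
        (prod_mono subset_rfl (subset_univ _))
  have hpos : ∀ y ∈ K, ∀ v : E, v ≠ 0 → 0 < val (rep c w y) v (repEnd c J y *ᵥ v) :=
    fun y hy v hv => tames_rep hw.tames (hKt hy) v hv
  have hc : IsCompact (K ×ˢ sphere (0 : E) 1) := hK.prod (isCompact_sphere 0 1)
  obtain ⟨B1, hB1⟩ := hc.exists_bound_of_continuousOn hF
  obtain ⟨B2, hB2⟩ := hc.exists_bound_of_continuousOn (hF.inv₀ fun x hx =>
    (hpos x.1 hx.1 x.2 (ne_zero_of_mem_unit_sphere ⟨x.2, hx.2⟩)).ne')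
  refine ⟨max 1 (max |B1| (4 * |B2|)), le_max_left _ _, fun y hy v => ?_⟩
  rcases eq_or_ne v 0 with rfl | hv
  · simp [val]
  have hn : 0 < ‖v‖ := norm_pos_iff.2 hv
  have hm : (y, ‖v‖⁻¹ • v) ∈ K ×ˢ sphere (0 : E) 1 := ⟨hy, by simp [norm_smul, hn.ne']⟩
  have h1 := (le_abs_self _).trans ((hB1 _ hm).trans (le_abs_self B1))
  have h2 := (le_abs_self _).trans ((hB2 _ hm).trans (le_abs_self B2))
  simp only [F, Pi.inv_apply] at h1 h2
  rw [val_scale] at h1 h2
  set Q := val (rep c w y) v (repEnd c J y *ᵥ v)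
  have hQ : 0 < Q := hpos y hy v hv
  rw [inv_pow, inv_mul_le_iff₀ (pow_pos hn 2)] at h1
  rw [mul_inv, inv_pow, inv_inv, mul_comm, inv_mul_le_iff₀ hQ] at h2
  have hvv := vv_bounds v
  have h3 : 4 * |B2| ≤ max 1 (max |B1| (4 * |B2|)) :=
    (le_max_right _ _).trans (le_max_right _ _)
  have h4 : |B1| ≤ max 1 (max |B1| (4 * |B2|)) := (le_max_left _ _).trans (le_max_right _ _)
  constructor
  · calc Q ≤ ‖v‖ ^ 2 * |B1| := h1
      _ ≤ (v ⬝ᵥ v) * max 1 (max |B1| (4 * |B2|)) :=
          mul_le_mul hvv.1 h4 (abs_nonneg _) ((sq_nonneg _).trans hvv.1)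
      _ = _ := mul_comm _ _
  · calc v ⬝ᵥ v ≤ 4 * (Q * |B2|) := hvv.2.trans (mul_le_mul_of_nonneg_left h2 (by norm_num))
      _ = 4 * |B2| * Q := by ring
      _ ≤ _ := mul_le_mul_of_nonneg_right h3 hQ.le

variable [T2Space X] [CompactSpace X] [MeasurableSpace X] [BorelSpace X]

omit [T2Space X] [CompactSpace X] in
/-- The pairing with a continuous form supported in a chart is integrable. -/
lemma integrable_pr_chart (A : Atlas X) {J w : X → M} (hJ : IsACX J) (hw : IsHerm J w)
    {μ : Measure X} {Θ : X → M} [IsFiniteMeasure μ]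
    (hmeas : ∀ p i j, Measurable ((chartAt E p).target.indicator fun y => rep p Θ y i j))
    (hpsd : ∀ᵐ z ∂μ, Psd (J z) (Θ z)) (hunit : ∀ᵐ z ∂μ, pr (w z) (Θ z) (w z) = 1)
    {u : X → M} (hu : IsContForm u) (p : X) (hu0 : ∀ z ∉ (chartAt E p).source, u z = 0) :
    Integrable (fun z => pr (w z) (Θ z) (u z)) μ := by
  classical
  set c := chartAt E p
  obtain ⟨C, hCb⟩ := exists_pr_bound A hJ hw hu
  set g : E → ℝ := c.target.indicator fun y => pr (rep p w y) (rep p Θ y) (rep p u y)
  have hgm : Measurable g := by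
    have hsplit : g = fun y => (∑ a, ∑ b, c.target.indicator (fun y => rep p Θ y a b) y *
        c.target.indicator (fun y => pfq (Matrix.single a b (1 : ℝ)) (rep p u y) /
          pfq (rep p w y) (rep p w y)) y) := by
      funext y
      by_cases hy : y ∈ c.target
      · simp only [g, indicator_of_mem hy, pr]
        simp [pfq, Fin.sum_univ_four, Matrix.single_apply]
        ring
      · simp [g, hy]
    rw [hsplit]
    refine Finset.measurable_sum _ fun a _ => Finset.measurable_sum _ fun b _ =>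
      (hmeas p a b).mul (measurable_indicator_of_continuousOn c.open_target
        (ContinuousOn.div ?_ (continuousOn_pfq (hw.form.cont.cont p) (hw.form.cont.cont p))
          fun y hy => pfq_rep_herm_ne_zero hJ hw hy))
    exact continuousOn_pfq (fun _ _ => continuousOn_const) (hu.cont p)
  have hq : (fun z => pr (w z) (Θ z) (u z)) =ᵐ[μ] c.source.indicator fun z => g (c z) := by
    filter_upwards [hpsd] with z hz'
    by_cases hzs : z ∈ c.source
    · rw [indicator_of_mem hzs]
      simp only [g, indicator_of_mem (c.map_source hzs)]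
      rw [pr_rep_eq' p hw (by rw [c.left_inv hzs]; exact hz'.skew) (hu.skew _) (c.map_source hzs),
        c.left_inv hzs]
    · rw [indicator_of_notMem hzs, hu0 z hzs]
      simp [pr, pfq]
  refine Integrable.congr ?_ hq.symm
  refine Integrable.of_bound (C := C) ?_ ?_
  · have hm : Measurable (c.source.piecewise c fun _ => (0 : E)) :=
      c.continuousOn.measurable_piecewise continuousOn_const c.open_source.measurableSet
    have he : (c.source.indicator fun z => g (c z)) =
        c.source.indicator (g ∘ c.source.piecewise c fun _ => (0 : E)) :=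
      indicator_congr fun z hz => by simp [hz]
    rw [he]
    exact ((hgm.comp hm).indicator c.open_source.measurableSet).aestronglyMeasurable
  · filter_upwards [hq, hpsd, hunit] with z hz h1 h2
    rw [← hz, Real.norm_eq_abs]
    simpa [h2] using hCb z _ h1

/-- Testing against an exact form: the ball mass is bounded by the anti-invariant functional. -/
lemma ball_le_of_test (A : Atlas X) {J w : X → M} (hJ : IsACX J) (hw : IsHerm J w) {μ : Measure X}
    {Θ : X → M} {Φ : (X → M) →ₗ[ℝ] ℝ} (hob : IsObstruction A J w μ Θ Φ) (c : X) {O K : Set E}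
    (hO : IsOpen O) (hOt : O ⊆ (chartAt E c).target) (hKO : K ⊆ O) (hK : IsCompact K)
    {f : E → ℝ} (hf : IsTest O f) (hfK : tsupport f ⊆ K) {B : ℝ}
    (hB : ∀ y ∈ K, ∀ v, val (rep c w y) v (repEnd c J y *ᵥ v) ≤ B * (v ⬝ᵥ v) ∧
        v ⬝ᵥ v ≤ B * val (rep c w y) v (repEnd c J y *ᵥ v)) (hB1 : 1 ≤ B)
    {p : E} {r a C₀ : ℝ} (ha : 0 ≤ a) (hC₀ : 0 ≤ C₀) (hball : closedBall p r ⊆ K)
    (hin : ∀ y ∈ closedBall p r, ∀ v, (a - C₀) * (v ⬝ᵥ v) ≤
      val (ddc (repEnd c J) f y) v (repEnd c J y *ᵥ v))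
    (hgl : ∀ y ∈ K, ∀ v, -C₀ * (v ⬝ᵥ v) ≤
      val (ddc (repEnd c J) f y) v (repEnd c J y *ᵥ v)) :
    (chartMeas c μ).real (closedBall p r) * (a / B) ≤ B * C₀ * μ.real univ +
      |Φ (pantiX J (ext c fun y => panti (repEnd c J y) (ddc (repEnd c J) f y)))| := by
  have := hob.finite
  set ch := chartAt E c
  set j := repEnd c J
  have hKt : K ⊆ ch.target := hKO.trans hOt
  have hB0 : 0 < B := by linarith
  have hj : IsACS O j :=
    ⟨hO, fun i k => (hJ.smooth c i k).mono hOt, fun y hy => repEnd_sq hJ.sq (hOt hy)⟩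
  set S : E → E := Tame.dc j f
  have hS : ∀ l, IsTest O fun y => S y l := fun l => hf.dc hj l
  have hS0 : ∀ y ∈ ch.target, y ∉ K → S y = 0 := fun y _ hy => by
    funext l
    have hy' : f =ᶠ[𝓝 y] fun _ => (0 : ℝ) :=
      notMem_tsupport_iff_eventuallyEq.1 fun h => hy (hfK h)
    simp [S, Tame.dc, Matrix.mulVec, dotProduct, pd, hy'.fderiv_eq]
  have hSc : ∀ l, ContDiffOn ℝ ∞ (fun y => S y l) ch.target := fun l => (hS l).smooth.contDiffOn
  set g : E → M := ddc j f
  have hg0 : ∀ y ∉ K, g y = 0 := fun y hy => ddc_eq_zero fun h => hy (hfK h)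
  have hgs : ∀ y, (g y)ᵀ = -g y := fun y => dOne_skew _ _
  set θ := dX (ext1 c S)
  have hS1 : IsForm1 (ext1 c S) := isForm1_ext1 hK hKt hS0 hSc
  have hθe : θ = ext c g := dX_ext1 hK hKt hS0 hSc
  have hθ : IsForm θ := isForm_dX hS1
  have hθc : IsClosedX θ := isClosedX_dX hS1
  have hint : Integrable (fun z => pr (w z) (Θ z) (θ z)) μ :=
    integrable_pr_chart A hJ hw hob.meas hob.psd hob.unit hθ.cont c fun z hz => by
      rw [hθe]
      simp [ext, hz]
  have hanti : pantiX J θ = pantiX J (ext c fun y => panti (j y) (g y)) := by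
    funext z
    by_cases hz : z ∈ ch.source
    · rw [eq_rep (pantiX J θ) hz, eq_rep (pantiX J (ext c fun y => panti (j y) (g y))) hz,
        rep_pantiX J _ (ch.map_source hz), rep_pantiX J _ (ch.map_source hz), hθe,
        rep_ext _ (ch.map_source hz), rep_ext _ (ch.map_source hz),
        panti_idem (repEnd_sq hJ.sq (ch.map_source hz))]
    · simp [hθe, pantiX, ext, ch, hz, panti]
  set Bs : Set X := ch.symm '' closedBall p r
  have hBs : MeasurableSet Bs := ((isCompact_closedBall p r).image_of_continuousOn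
    (ch.continuousOn_symm.mono (hball.trans hKt))).isClosed.measurableSet
  have hBse : ch ⁻¹' closedBall p r ∩ ch.source = Bs := by
    ext z
    constructor
    · rintro ⟨h1, h2⟩
      exact ⟨ch z, h1, ch.left_inv h2⟩
    · rintro ⟨y, hy, rfl⟩
      exact ⟨by simpa [ch.right_inv (hball.trans hKt hy)] using hy,
        ch.map_target (hball.trans hKt hy)⟩
  have hmass : chartMeas c μ (closedBall p r) = μ Bs := by
    rw [chartMeas, Measure.map_apply_of_aemeasurable (aemeasurable_chart c μ)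
      measurableSet_closedBall, Measure.restrict_apply' ch.open_source.measurableSet, hBse]
  have hlb : ∀ᵐ z ∂μ, Bs.indicator (fun _ => a / B) z - B * C₀ ≤ pr (w z) (Θ z) (θ z) := by
    filter_upwards [hob.psd, hob.unit] with z hz1 hz2
    have hneg : 0 ≤ B * C₀ := by positivity
    by_cases hzK : z ∈ ch.source ∧ ch z ∈ K
    swap
    · have hnb : z ∉ Bs := fun h => hzK (by
        rw [← hBse] at h
        exact ⟨h.2, hball h.1⟩)
      have hz0 : θ z = 0 := by
        rw [hθe]
        by_cases hs : z ∈ ch.source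
        · have : g (ch z) = 0 := hg0 _ fun h => hzK ⟨hs, h⟩
          simp [ext, ch, hs, this]
        · simp [ext, ch, hs]
      rw [indicator_of_notMem hnb, hz0]
      simp [pr, pfq]
      linarith
    obtain ⟨hs, hyK⟩ := hzK
    have hy := ch.map_source hs
    have hq : pr (w z) (Θ z) (θ z) = pr (rep c w (ch z)) (rep c Θ (ch z)) (g (ch z)) := by
      have h := pr_rep_eq' c hw (θ := Θ) (u := θ) (y := ch z) (by rw [ch.left_inv hs]; exact hz1.skew)
        (hθ.skew _) hy
      rw [ch.left_inv hs] at h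
      rw [← h, hθe, rep_ext _ hy]
    have hp : Psd (j (ch z)) (rep c Θ (ch z)) :=
      psd_congr (chg_mul_chg (mem_chart_source E _) (ch.map_target hy))
        (by rw [ch.left_inv hs]; exact hz1)
    have hu1 : pr (rep c w (ch z)) (rep c Θ (ch z)) (rep c w (ch z)) = 1 := by
      rw [pr_rep_eq' c hw (by rw [ch.left_inv hs]; exact hz1.skew) (hw.form.skew _) hy,
        ch.left_inv hs]
      exact hz2
    have hbase := fun {m : ℝ} => le_pr_of_val (m := m) (repEnd_sq hJ.sq hy)
      (skew_rep hw.form.skew c _) (inv_rep hw.inv hy) (tames_rep hw.tames hy) hp hu1 (hgs (ch z))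
    rw [hq]
    have hC : ∀ v, C₀ * (v ⬝ᵥ v) ≤ B * C₀ * val (rep c w (ch z)) v (j (ch z) *ᵥ v) := fun v => by
      calc C₀ * (v ⬝ᵥ v) ≤ C₀ * (B * val (rep c w (ch z)) v (j (ch z) *ᵥ v)) :=
            mul_le_mul_of_nonneg_left (hB _ hyK v).2 hC₀
        _ = _ := by ring
    by_cases hzb : z ∈ Bs
    · rw [indicator_of_mem hzb]
      have hyb : ch z ∈ closedBall p r := by rw [← hBse] at hzb; exact hzb.1
      refine hbase fun v => le_trans ?_ (hin _ hyb v)
      have h1 : a / B * val (rep c w (ch z)) v (j (ch z) *ᵥ v) ≤ a * (v ⬝ᵥ v) := by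
        calc a / B * val (rep c w (ch z)) v (j (ch z) *ᵥ v) ≤ a / B * (B * (v ⬝ᵥ v)) :=
              mul_le_mul_of_nonneg_left (hB _ hyK v).1 (by positivity)
          _ = _ := by field_simp
      linarith [hC v]
    · rw [indicator_of_notMem hzb]
      refine hbase fun v => le_trans ?_ (hgl _ hyK v)
      linarith [hC v]
  have hi1 : Integrable (fun z => Bs.indicator (fun _ => a / B) z) μ :=
    (integrable_const _).indicator hBs
  have hmono := integral_mono_ae (hi1.sub (integrable_const (B * C₀))) hint hlb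
  simp only [Pi.sub_apply] at hmono
  rw [integral_sub hi1 (integrable_const _), integral_indicator hBs, setIntegral_const,
    integral_const, smul_eq_mul, smul_eq_mul] at hmono
  have hv := hob.vanish θ hθ hθc
  rw [hanti] at hv
  have hmr : (chartMeas c μ).real (closedBall p r) = μ.real Bs := by
    simp [Measure.real, hmass]
  rw [hmr]
  have := neg_abs_le (Φ (pantiX J (ext c fun y => panti (j y) (g y))))
  linarith

/-- Module DensityStep. -/
theorem densityStep_of (hP : TestPotentials) (hT : STel) : DensityStep := by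
  intro X _ _ _ _ _ _ _ A J w μ Θ Φ ρ hJ hw hob hρ c O t₀ ht₀ hO hOt L hL hLow q hq hLq K hKO hK
  have := hob.finite
  set j := repEnd c J with hjdef
  have hj : IsACS O j :=
    ⟨hO, fun i k => (hJ.smooth c i k).mono hOt, fun y hy => repEnd_sq hJ.sq (hOt hy)⟩
  obtain ⟨R, hR, cc, hcc, C, hpot⟩ := hP O j hj K hKO hK
  set K1 := cthickening R K
  have hK1 : IsCompact K1 := hK.cthickening
  have hK1O : K1 ⊆ O := by
    show cthickening R K ⊆ O
    rw [hK.cthickening_eq_biUnion_closedBall hR.le]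
    exact iUnion₂_subset fun p hp => (hpot p hp).1
  obtain ⟨B, hB1, hB⟩ := exists_val_herm_bounds hJ hw c hK1 (hK1O.trans hOt)
  have hB0 : 0 < B := by linarith
  obtain ⟨CS, t₁, ht₁, hS⟩ := hT X A J ρ hJ hρ c O K1 t₀ ht₀ hO hOt hK1O hK1
  set ε := min t₀ t₁ with hε
  have hε0 : 0 < ε := lt_min ht₀ ht₁
  obtain ⟨CL, hCL⟩ := hLq ε ⟨hε0, min_le_left _ _⟩
  set D := Real.sqrt |C|
  set Q := q / (q - 1)
  have hQ0 : 0 ≤ Q := by
    have := hq.1
    exact div_nonneg (by linarith) (by linarith)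
  set T := D * (1 + R) * Q + 2 * (ε ^ 2 * D) * (1 + 2 / R)
  set P := |CS| * (|CL| * T)
  have hT0 : 0 ≤ T := by positivity
  have hP0 : 0 ≤ P := by positivity
  set α := cc / (4 * B) with hα
  have hα0 : 0 < α := by positivity
  set A1 := (B * |C| * μ.real univ + 16 * P) / α
  set A2 := μ.real univ / (cc * R) ^ 2
  refine ⟨R, hR, |A1| + |A2|, fun m p hp => ?_⟩
  obtain ⟨hV, f, hf1, hf2, hf3⟩ := hpot p hp
  set r := R / 2 ^ m with hr
  have hr0 : 0 < r := by positivity
  have hrR : r ≤ R := div_le_self hR.le (one_le_pow₀ one_le_two)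
  set G := ∑ i ∈ Finset.range (m + 1), (q / 2) ^ i
  have hq2 : 0 ≤ q / 2 := by have := hq.1; positivity
  have hG1 : 1 ≤ G := by
    rw [show (1 : ℝ) = (q / 2) ^ 0 by simp]
    exact Finset.single_le_sum (f := fun i => (q / 2) ^ i) (fun i _ => pow_nonneg hq2 i)
      (Finset.mem_range.2 (Nat.succ_pos m))
  have hfin : IsFiniteMeasure (chartMeas c μ) := isFiniteMeasure_chartMeas c μ
  rw [← ENNReal.ofReal_toReal (measure_ne_top (chartMeas c μ) (closedBall p r))]
  refine ENNReal.ofReal_le_ofReal ?_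
  show (chartMeas c μ).real (closedBall p r) ≤ _
  have hA : ∀ x y : ℝ, 0 ≤ y → x * y ≤ |x| * y := fun x y hy =>
    mul_le_mul_of_nonneg_right (le_abs_self x) hy
  rcases le_or_gt r (cc * R) with hrc | hrc
  swap
  · have h1 : (chartMeas c μ).real (closedBall p r) ≤ μ.real univ := by
      refine ENNReal.toReal_mono (measure_ne_top μ _) ?_
      rw [chartMeas, Measure.map_apply_of_aemeasurable (aemeasurable_chart c μ)
        measurableSet_closedBall]
      exact (Measure.restrict_le_self _).trans (measure_mono (subset_univ _))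
    have h2 : μ.real univ ≤ A2 * r ^ 2 := by
      show μ.real univ ≤ μ.real univ / (cc * R) ^ 2 * r ^ 2
      rw [div_mul_eq_mul_div, le_div_iff₀ (by positivity)]
      exact mul_le_mul_of_nonneg_left (pow_le_pow_left₀ (by positivity) hrc.le 2) measureReal_nonneg
    calc _ ≤ A2 * r ^ 2 := h1.trans h2
      _ ≤ |A2| * r ^ 2 * 1 := by rw [mul_one]; exact hA _ _ (sq_nonneg r)
      _ ≤ (|A1| + |A2|) * r ^ 2 * G := by
          gcongr
          linarith [abs_nonneg A1]
  set s : ℝ → E → M := fun r y => panti (j y) (ddc j (f r) y)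
  have hdy : ∀ i : ℕ, R / 2 ^ i ∈ Ioc (0 : ℝ) R := fun i =>
    ⟨by positivity, div_le_self hR.le (one_le_pow₀ one_le_two)⟩
  have hball : closedBall p R ⊆ K1 := closedBall_subset_cthickening hp R
  obtain ⟨htest, hsup, -, hin, hgl⟩ := hf1 r ⟨hr0, hrR⟩
  have hmain := ball_le_of_test A hJ hw hob c hO hOt hK1O hK1 htest (hsup.trans hball) hB hB1
    (p := p) (r := r) (a := cc / (4 * r ^ 2)) (C₀ := |C|) (by positivity) (abs_nonneg C)
    ((closedBall_subset_closedBall hrR).trans hball)
    (fun y hy v => by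
      refine le_trans ?_ (hin y (closedBall_subset_closedBall hrc hy) v)
      refine mul_le_mul_of_nonneg_right (sub_le_sub ?_ (le_abs_self C))
        ((sq_nonneg _).trans (vv_bounds v).1)
      have hn : ‖y - p‖ ≤ r := by rw [← dist_eq_norm]; exact mem_closedBall.1 hy
      calc cc / (4 * r ^ 2) = cc * r ^ 2 / (r ^ 2 + r ^ 2) ^ 2 := by field_simp; ring
        _ ≤ cc * r ^ 2 / (‖y - p‖ ^ 2 + r ^ 2) ^ 2 :=
            div_le_div_of_nonneg_left (by positivity) (by positivity) (by gcongr))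
    (fun y hy v => le_trans (mul_le_mul_of_nonneg_right (neg_le_neg (le_abs_self C))
      ((sq_nonneg _).trans (vv_bounds v).1)) (hgl y (hK1O hy) v))
  -- the functional on the anti-invariant part of the potential
  have hskew : ∀ r y, (s r y)ᵀ = -s r y := fun r y => skew_panti (dOne_skew _ _)
  set Λ : Fin 4 → Fin 4 → (E → ℝ) → ℝ := fun a b h =>
    Φ (pantiX J (ext c fun y => h y • starF (wedge2 (e a) (e b))))
  have hsubΛ : ∀ a b (h k : E → ℝ), Λ a b (h - k) = Λ a b h - Λ a b k := fun a b h k => by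
    show Φ (pantiL J (extL c fun y => (h - k) y • starF (wedge2 (e a) (e b)))) = _
    rw [show (fun y => (h - k) y • starF (wedge2 (e a) (e b))) =
      (fun y => h y • starF (wedge2 (e a) (e b))) - fun y => k y • starF (wedge2 (e a) (e b)) by
        funext y; simp [sub_smul], map_sub, map_sub, map_sub]
    rfl
  set F : ℕ → Fin 4 → Fin 4 → E → ℝ := fun i a b y => s (R / 2 ^ i) y (cplFst a b) (cplSnd a b)
  have hFt : ∀ i a b, IsTest O (F i a b) ∧ tsupport (F i a b) ⊆ K1 := fun i a b => by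
    obtain ⟨-, h2, h3, -⟩ := hf1 _ (hdy i)
    have hsub : tsupport (F i a b) ⊆ K1 := by
      refine closure_minimal (fun y hy => ?_) hK1.isClosed
      by_contra hn
      refine hy ?_
      have : ddc j (f (R / 2 ^ i)) y = 0 := ddc_eq_zero fun h => hn (hball (h2 h))
      simp [F, s, this, panti]
    exact ⟨⟨h3 _ _, hK1.of_isClosed_subset (isClosed_tsupport _) hsub, hsub.trans hK1O⟩, hsub⟩
  have hbound : ∀ (h : E → ℝ) (n : ℕ) (u d : ℝ), IsTest O h → tsupport h ⊆ K1 → 0 ≤ u → 0 ≤ d →
      Real.sqrt (∫ y, h y ^ 2) ≤ u → Real.sqrt (∫ y, ‖iteratedFDeriv ℝ 2 h y‖ ^ 2) ≤ d →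
      ∀ a b, |Λ a b h| ≤ |CS| * (|CL| * (u * q ^ n * Q + 2 * (ε ^ 2 * d) * (q / 4) ^ n)) := by
    intro h n u d hh hhK hu hd h0 h2 a b
    have hS' := hS Φ hob.bound L hL hLow ε ⟨hε0, min_le_right _ _⟩ h hh hhK a b
      (|CL| * (u * q ^ n * Q + 2 * (ε ^ 2 * d) * (q / 4) ^ n)) fun N => ?_
    · refine hS'.trans (mul_le_mul_of_nonneg_right (le_abs_self CS) ?_)
      have := hq.1
      positivity
    refine le_trans ?_ (mul_le_mul_of_nonneg_left
      (sum_two_regimes hq hu (by positivity) n N) (abs_nonneg CL))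
    rw [Finset.mul_sum]
    refine Finset.sum_le_sum fun k _ => ?_
    rw [← mul_assoc]
    refine mul_le_mul ((hCL k).trans (hA _ _ (pow_nonneg (by linarith [hq.1]) k))) ?_
      (le_min (Real.sqrt_nonneg _) ?_) (mul_nonneg (abs_nonneg _) (pow_nonneg (by linarith [hq.1]) k))
    · rcases le_or_gt k n with hk | hk
      · rw [if_pos hk]
        exact (min_le_left _ _).trans h0
      · rw [if_neg (not_le.2 hk), if_neg (by omega : ¬ k = 0)]
        refine (min_le_right _ _).trans ?_
        calc (ε / 2 ^ k) ^ 2 * Real.sqrt (∫ y, ‖iteratedFDeriv ℝ 2 h y‖ ^ 2)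
            ≤ (ε / 2 ^ k) ^ 2 * d := mul_le_mul_of_nonneg_left h2 (sq_nonneg _)
          _ = _ := by rw [div_pow, ← pow_mul, mul_comm k 2, pow_mul]; norm_num; ring
    · split_ifs <;> positivity
  have hstep : ∀ i a b, |Λ a b (F (i + 1) a b - F i a b)| ≤ P * (q / 2) ^ i := fun i a b => by
    have hi : R / 2 ^ (i + 1) ∈ Ioc (0 : ℝ) (R / 2) := by
      refine ⟨by positivity, div_le_div_of_nonneg_left hR.le two_pos ?_⟩
      calc (2:ℝ) = 2 ^ 1 := (pow_one 2).symm
        _ ≤ _ := pow_le_pow_right₀ one_le_two (Nat.le_add_left 1 i)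
    have h2r : 2 * (R / 2 ^ (i + 1)) = R / 2 ^ i := by rw [pow_succ]; field_simp
    obtain ⟨hl, hd⟩ := hf2 _ hi (cplFst a b) (cplSnd a b)
    rw [h2r] at hl hd
    obtain ⟨t1, k1⟩ := hFt (i + 1) a b
    obtain ⟨t2, k2⟩ := hFt i a b
    have hsub : tsupport (F (i + 1) a b - F i a b) ⊆ K1 :=
      (tsupport_sub _ _).trans (union_subset k1 k2)
    refine (hbound _ i (D * (R / 2 ^ (i + 1))) (D / (R / 2 ^ (i + 1)))
      ⟨t1.smooth.sub t2.smooth, hK1.of_isClosed_subset (isClosed_tsupport _) hsub,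
        hsub.trans hK1O⟩ hsub (by positivity) (by positivity) ?_ ?_ a b).trans ?_
    · rw [← Real.sqrt_sq (by positivity : 0 ≤ R / 2 ^ (i + 1)), ← Real.sqrt_mul (abs_nonneg C)]
      exact Real.sqrt_le_sqrt (hl.trans (hA _ _ (sq_nonneg _)))
    · rw [← Real.sqrt_sq (by positivity : 0 ≤ R / 2 ^ (i + 1)), ← Real.sqrt_div (abs_nonneg C)]
      exact Real.sqrt_le_sqrt (hd.trans (div_le_div_of_nonneg_right (le_abs_self C) (sq_nonneg _)))
    · rw [mul_assoc |CS| (|CL| * T)]
      refine mul_le_mul_of_nonneg_left ?_ (abs_nonneg CS)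
      rw [mul_assoc |CL| T]
      refine mul_le_mul_of_nonneg_left ?_ (abs_nonneg CL)
      have e : D * (R / 2 ^ (i + 1)) * q ^ i * Q +
          2 * (ε ^ 2 * (D / (R / 2 ^ (i + 1)))) * (q / 4) ^ i =
          (D * (R / 2) * Q + 2 * (ε ^ 2 * D) * (2 / R)) * (q / 2) ^ i := by
        rw [div_pow, div_pow, show (4:ℝ) ^ i = 2 ^ i * 2 ^ i by rw [← mul_pow]; norm_num, pow_succ]
        field_simp
      rw [e]
      refine mul_le_mul_of_nonneg_right (add_le_add ?_ ?_) (pow_nonneg hq2 i)
      · gcongr; linarith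
      · gcongr; linarith
  have hfirst : ∀ a b, |Λ a b (F 0 a b)| ≤ P := fun a b => by
    obtain ⟨hl, hd⟩ := hf3 R ⟨by linarith, le_rfl⟩ (cplFst a b) (cplSnd a b)
    obtain ⟨t1, k1⟩ := hFt 0 a b
    have e0 : F 0 a b = fun y => s R y (cplFst a b) (cplSnd a b) := by simp [F]
    refine (hbound _ 0 D D t1 k1 (Real.sqrt_nonneg _) (Real.sqrt_nonneg _) ?_ ?_ a b).trans ?_
    · rw [e0]; exact Real.sqrt_le_sqrt (hl.trans (le_abs_self C))
    · rw [e0]; exact Real.sqrt_le_sqrt (hd.trans (le_abs_self C))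
    · refine mul_le_mul_of_nonneg_left (mul_le_mul_of_nonneg_left ?_ (abs_nonneg CL)) (abs_nonneg CS)
      simp only [pow_zero, mul_one]
      refine add_le_add (mul_le_mul_of_nonneg_right ?_ hQ0) ?_
      · exact le_mul_of_one_le_right (Real.sqrt_nonneg _) (by linarith)
      · exact le_mul_of_one_le_right (by positivity) (le_add_of_nonneg_right (by positivity))
  have hΛ : ∀ a b, |Λ a b (F m a b)| ≤ 2 * P * G := fun a b => by
    have htel : Λ a b (F m a b) =
        Λ a b (F 0 a b) + ∑ i ∈ Finset.range m, Λ a b (F (i + 1) a b - F i a b) := by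
      simp only [hsubΛ]
      rw [Finset.sum_range_sub (fun i => Λ a b (F i a b))]
      ring
    rw [htel]
    refine (abs_add_le _ _).trans ?_
    have h1 : |Λ a b (F 0 a b)| ≤ P * G := (hfirst a b).trans (le_mul_of_one_le_right hP0 hG1)
    have h2 : |∑ i ∈ Finset.range m, Λ a b (F (i + 1) a b - F i a b)| ≤ P * G := by
      refine (Finset.abs_sum_le_sum_abs _ _).trans ((Finset.sum_le_sum fun i _ => hstep i a b).trans ?_)
      rw [← Finset.mul_sum]
      exact mul_le_mul_of_nonneg_left (Finset.sum_le_sum_of_subset_of_nonneg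
        (Finset.range_subset_range.2 (Nat.le_succ m)) fun i _ _ => pow_nonneg hq2 i) hP0
    linarith
  have hexp : Φ (pantiX J (ext c (s r))) = (1 / 2) * ∑ a, ∑ b, Λ a b (F m a b) := by
    show Φ (pantiL J (extL c (s r))) = _
    have he : s r = (1 / 2 : ℝ) • ∑ a, ∑ b, fun y => F m a b y • starF (wedge2 (e a) (e b)) := by
      funext y
      simp only [Pi.smul_apply, Finset.sum_apply, F, ← hr]
      exact skew_expand (hskew r y)
    rw [he]
    simp only [map_smul, map_sum, smul_eq_mul]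
    rfl
  have hΦ : |Φ (pantiX J (ext c (s r)))| ≤ 16 * P * G := by
    rw [hexp, abs_mul, abs_of_pos (by norm_num : (0:ℝ) < 1 / 2)]
    have : |∑ a, ∑ b, Λ a b (F m a b)| ≤ 32 * P * G := by
      refine (Finset.abs_sum_le_sum_abs _ _).trans ?_
      refine (Finset.sum_le_card_nsmul _ _ _ fun a _ => (Finset.abs_sum_le_sum_abs _ _).trans
        (Finset.sum_le_card_nsmul _ _ _ fun b _ => hΛ a b)).trans (le_of_eq ?_)
      simp
      ring
    linarith
  have h1 : (chartMeas c μ).real (closedBall p r) * α ≤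
      (B * |C| * μ.real univ + 16 * P) * G * r ^ 2 := by
    have h := mul_le_mul_of_nonneg_right (hmain.trans (add_le_add le_rfl hΦ)) (sq_nonneg r)
    calc (chartMeas c μ).real (closedBall p r) * α
        = (chartMeas c μ).real (closedBall p r) * (cc / (4 * r ^ 2) / B) * r ^ 2 := by
          rw [hα]; field_simp
      _ ≤ _ := h
      _ ≤ _ := by
          refine mul_le_mul_of_nonneg_right ?_ (sq_nonneg r)
          have : 0 ≤ B * |C| * μ.real univ := by positivity
          nlinarith [le_mul_of_one_le_right this hG1]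
  calc (chartMeas c μ).real (closedBall p r)
      ≤ (B * |C| * μ.real univ + 16 * P) * G * r ^ 2 / α := (le_div_iff₀ hα0).2 h1
    _ = A1 * r ^ 2 * G := by show _ = _ / α * r ^ 2 * G; ring
    _ ≤ (|A1| + |A2|) * r ^ 2 * G := by
        gcongr
        linarith [abs_nonneg A2, le_abs_self A1]

/-- The density step, unconditionally. -/
theorem densityStep : DensityStep := densityStep_of testPotentials (sTel molTelescope)

end Vale.Agent.P204.Tame.Mfd
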