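import Vale.Agent.P204.Tame.Mfd.EllipticLimitX

/-!
P204: the one-form of a two-form whose exterior derivative solves the elliptic equation, and its
bound by two derivatives.
-/

namespace Vale.Agent.P204.Tame.Mfd

open scoped ContDiff Manifold Matrix Topology
open Set Filter

variable {X : Type} [TopologicalSpace X] [ChartedSpace E X] [IsManifold 𝓘(ℝ, E) ∞ X]
variable {J w : X → M}

/-- The one-form `g (*du)` of a two-form. -/
noncomputable def betaX (J w u : X → M) (z : X) : E :=
  (pfq (w z) (w z))⁻¹ • ((w z * J z) *ᵥ dTwoX u z)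

/-- The one-form read in a chart. -/
lemma rep1_betaX (hJ : IsACX J) (hw : IsHerm J w) {u : X → M} (hu : IsForm u) {p : X} {y : E}
    (hy : y ∈ (chartAt E p).target) :
    rep1 p (betaX J w u) y = oriC w p y • (gChart J w p y *ᵥ dTwo (rep p u) y) := by
  have hne := pfq_rep_herm_ne_zero hJ hw (p := p) hy
  set z := (chartAt E p).symm y with hz
  have hzp : z ∈ (chartAt E p).source := (chartAt E p).map_target hy
  set P := chg p z z with hP
  have hd : P.det ≠ 0 := (isUnit_chg hzp (mem_chart_source E z)).ne_zero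
  have hPQ : P * chg z p z = 1 := chg_mul_chg (mem_chart_source E z) hzp
  have hg : rep p w y * repEnd p J y = Pᵀ * (w z * J z) * P := by
    simp only [rep, repEnd, ← hz, ← hP]
    calc Pᵀ * w z * P * (chg z p z * J z * P) = Pᵀ * w z * (P * chg z p z) * J z * P := by
          simp only [Matrix.mul_assoc]
      _ = _ := by rw [hPQ]; simp [Matrix.mul_assoc]
  have hpf : pfq (rep p w y) (rep p w y) = P.det * pfq (w z) (w z) :=
    pfq_congr_skew P (hw.form.skew z) (hw.form.skew z)
  have hne' : pfq (w z) (w z) ≠ 0 := right_ne_zero_of_mul (hpf ▸ hne)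
  have eu := dTwoX_chart hu hy
  rw [← hz, ← hP] at eu
  simp only [rep1, ← hz, ← hP, betaX, gChart, oriC, eu, hg, Matrix.smul_mulVec, smul_smul,
    Matrix.mulVec_smul, ← Matrix.mulVec_mulVec, hpf]
  congr 1
  field_simp

lemma contDiffOn_dTwo_apply {V : Set E} (hV : IsOpen V) {a : E → M}
    (ha : ∀ i j, ContDiffOn ℝ ∞ (fun y => a y i j) V) (r : Fin 4) :
    ContDiffOn ℝ ∞ (fun y => dTwo a y r) V := by
  have h : ∀ c i j, ContDiffOn ℝ ∞ (fun y => pd c (fun x => a x i j) y) V := fun c i j => by
    simp only [pd]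
    exact ((ha i j).fderiv_of_isOpen hV le_rfl).clm_apply contDiffOn_const
  fin_cases r <;> simp [dTwo, altd] <;>
    first
      | exact ((h _ _ _).add (h _ _ _)).add (h _ _ _)
      | exact (((h _ _ _).add (h _ _ _)).add (h _ _ _)).neg
      | exact (((h _ _ _).neg).add (h _ _ _).neg).add (h _ _ _).neg
      | exact (h _ _ _).neg.add ((h _ _ _).neg.add (h _ _ _).neg)

lemma contDiffOn_gd (hJ : IsACX J) (hw : IsHerm J w) {u : X → M} (hu : IsForm u) (p : X)
    (i : Fin 4) : ContDiffOn ℝ ∞ (fun y => (gChart J w p y *ᵥ dTwo (rep p u) y) i)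
      (chartAt E p).target := by
  simp only [Matrix.mulVec, dotProduct]
  exact ContDiffOn.sum fun k _ => ((isPosDefOn_gChart hJ hw p).smooth i k).mul
    (contDiffOn_dTwo_apply (chartAt E p).open_target (hu.smooth p) k)

variable [MeasurableSpace X] [BorelSpace X] [T2Space X] [CompactSpace X]

lemma isForm1_betaX (hJ : IsACX J) (hw : IsHerm J w) {u : X → M} (hu : IsForm u) :
    IsForm1 (betaX J w u) := by
  intro p i
  refine ((contDiffOn_oriC hJ hw p).mul (contDiffOn_gd hJ hw hu p i)).congr fun y hy => ?_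
  rw [rep1_betaX hJ hw hu hy]
  rfl

/-- The exterior derivative of the one-form read in a chart. -/
lemma dOne_rep1_betaX (hJ : IsACX J) (hw : IsHerm J w) {u : X → M} (hu : IsForm u) {p : X}
    {y : E} (hy : y ∈ (chartAt E p).target) :
    dOne (rep1 p (betaX J w u)) y =
      oriC w p y • dOne (fun x => gChart J w p x *ᵥ dTwo (rep p u) x) y := by
  have hev : ∀ r, (fun x => rep1 p (betaX J w u) x r) =ᶠ[𝓝 y]
      fun x => oriC w p y * (gChart J w p x *ᵥ dTwo (rep p u) x) r := fun r => by
    filter_upwards [eventually_oriC hJ hw hy, (chartAt E p).open_target.mem_nhds hy] with x hx hxt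
    rw [rep1_betaX hJ hw hu hxt, hx]
    rfl
  have hd : ∀ r, DifferentiableAt ℝ (fun x => (gChart J w p x *ᵥ dTwo (rep p u) x) r) y := fun r =>
    ((contDiffOn_gd hJ hw hu p r).contDiffAt
      ((chartAt E p).open_target.mem_nhds hy)).differentiableAt (by simp)
  ext r s
  simp only [dOne, pd, (hev _).fderiv_eq, fderiv_const_mul (hd _), Matrix.smul_apply, smul_eq_mul,
    smul_apply]
  ring

/-- A solution in charts gives the anti-invariant part of an exact form. -/
theorem panti_dX_betaX (hJ : IsACX J) (hw : IsHerm J w) {u f : antiF J}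
    (heq : ∀ p, ∀ y ∈ (chartAt E p).target, panti (repEnd p J y)
      (dOne (fun x => gChart J w p x *ᵥ dTwo (rep p (u : X → M)) x) y) =
        oriC w p y • rep p (f : X → M) y) :
    ∀ z, pantiX J (dX (betaX J w u)) z = (f : X → M) z := by
  intro z
  have hy := (chartAt E z).map_source (mem_chart_source E z)
  have h := heq z _ hy
  show panti (J z) (dX (betaX J w u) z) = _
  rw [dX, dOne_rep1_betaX hJ hw u.2.1 hy, ← repEnd_center (J := J) z]
  have hsmul : ∀ (c : ℝ) (j a : M), panti j (c • a) = c • panti j a := fun c j a => by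
    simp only [panti, mul_smul_comm, smul_mul_assoc]; module
  rw [hsmul, h, smul_smul, oriC_sq (pfq_rep_herm_ne_zero hJ hw hy), one_smul, rep_center]

/-- The exact form is bounded by two derivatives. -/
theorem exists_abs_dX_betaX_le (hJ : IsACX J) (hw : IsHerm J w) (p : X) {K : Set E}
    (hKc : IsCompact K) (hK : K ⊆ (chartAt E p).target) :
    ∃ C : ℝ, 0 ≤ C ∧ ∀ (u : antiF J) (S : ℝ),
      (∀ y ∈ K, ∀ i j a b, rep p (u : X → M) y i j ^ 2 +
        pd a (fun x => rep p (u : X → M) x i j) y ^ 2 +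
        pd a (fun x => pd b (fun x' => rep p (u : X → M) x' i j) x) y ^ 2 ≤ S ^ 2) →
      0 ≤ S → ∀ y ∈ K, ∀ a b, |rep p (dX (betaX J w u)) y a b| ≤ C * S := by
  have hV := (chartAt E p).open_target
  have hG := (isPosDefOn_gChart hJ hw p).smooth
  have hGd : ∀ a i k, ContinuousOn (fun y => pd a (fun x => gChart J w p x i k) y)
      (chartAt E p).target := fun a i k => by
    simp only [pd]
    exact (((hG i k).fderiv_of_isOpen hV le_rfl).clm_apply contDiffOn_const :
      ContDiffOn ℝ ∞ _ _).continuousOn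
  choose B₀ hB₀ using fun i k => hKc.exists_bound_of_continuousOn ((hG i k).continuousOn.mono hK)
  choose B₁ hB₁ using fun a i k => hKc.exists_bound_of_continuousOn ((hGd a i k).mono hK)
  set C : ℝ := 2 * (3 * (∑ i, ∑ k, |B₀ i k|) + 3 * ∑ a, ∑ i, ∑ k, |B₁ a i k|) with hC
  refine ⟨C, by positivity, fun u S hu hS y hy a b => ?_⟩
  have hyt := hK hy
  set v := rep p (u : X → M)
  have hsm : ∀ i j, ContDiffOn ℝ ∞ (fun x => v x i j) (chartAt E p).target := u.2.1.smooth p
  have hp1 : ∀ c i j, |pd c (fun x => v x i j) y| ≤ S := fun c i j =>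
    abs_le_of_sq_le_sq (by
      nlinarith [hu y hy i j c c, sq_nonneg (v y i j),
        sq_nonneg (pd c (fun x => pd c (fun x' => v x' i j) x) y)]) hS
  have hp2 : ∀ c d i j, |pd c (fun x => pd d (fun x' => v x' i j) x) y| ≤ S := fun c d i j =>
    abs_le_of_sq_le_sq (by
      nlinarith [hu y hy i j c d, sq_nonneg (v y i j),
        sq_nonneg (pd c (fun x' => v x' i j) y)]) hS
  have hdp : ∀ d i j, DifferentiableAt ℝ (fun x => pd d (fun x' => v x' i j) x) y := fun d i j => by
    simp only [pd]
    exact ((((hsm i j).fderiv_of_isOpen hV le_rfl).clm_apply contDiffOn_const :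
      ContDiffOn ℝ ∞ _ _).contDiffAt (hV.mem_nhds hyt)).differentiableAt (by simp)
  have ha0 : ∀ i j k, |altd v y i j k| ≤ 3 * S := fun i j k => by
    have := hp1 i j k; have := hp1 j k i; have := hp1 k i j
    simp only [altd]
    refine (abs_add_three _ _ _).trans ?_
    linarith
  have ha1 : ∀ c i j k, |pd c (fun x => altd v x i j k) y| ≤ 3 * S := fun c i j k => by
    have := hp2 c i j k; have := hp2 c j k i; have := hp2 c k i j
    simp only [altd]
    rw [pd_add _ (((hdp _ _ _).fun_add (hdp _ _ _))) (hdp _ _ _), pd_add _ (hdp _ _ _) (hdp _ _ _)]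
    refine (abs_add_three _ _ _).trans ?_
    linarith
  have hneg : ∀ (c : Fin 4) (F : E → ℝ), pd c (fun x => -F x) y = -pd c F y := fun c F => by
    simp [pd, fderiv_fun_neg]
  have hd0 : ∀ r, |dTwo v y r| ≤ 3 * S := fun r => by
    fin_cases r <;> simp [dTwo] <;> exact ha0 _ _ _
  have hd1 : ∀ c r, |pd c (fun x => dTwo v x r) y| ≤ 3 * S := fun c r => by
    fin_cases r <;> simp [dTwo, hneg] <;> exact ha1 _ _ _ _
  have hdd : ∀ r, DifferentiableAt ℝ (fun x => dTwo v x r) y := fun r =>
    ((contDiffOn_dTwo_apply hV hsm r).contDiffAt (hV.mem_nhds hyt)).differentiableAt (by simp)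
  have hGdd : ∀ i k, DifferentiableAt ℝ (fun x => gChart J w p x i k) y := fun i k =>
    ((hG i k).contDiffAt (hV.mem_nhds hyt)).differentiableAt (by simp)
  have hk : ∀ c i, |pd c (fun x => (gChart J w p x *ᵥ dTwo v x) i) y| ≤
      (3 * (∑ i, ∑ k, |B₀ i k|) + 3 * ∑ a, ∑ i, ∑ k, |B₁ a i k|) * S := by
    intro c i
    simp only [Matrix.mulVec, dotProduct]
    rw [pd_sum _ fun k _ => (hGdd i k).fun_mul (hdd k)]
    refine (Finset.abs_sum_le_sum_abs _ _).trans ?_
    calc ∑ k, |pd c (fun x => gChart J w p x i k * dTwo v x k) y|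
        ≤ ∑ k, (|B₁ c i k| * (3 * S) + |B₀ i k| * (3 * S)) := by
          refine Finset.sum_le_sum fun k _ => ?_
          rw [pd_mul _ (hGdd i k) (hdd k)]
          refine (abs_add_le _ _).trans (add_le_add ?_ ?_) <;> rw [abs_mul]
          · exact mul_le_mul ((hB₁ c i k y hy).trans (le_abs_self _)) (hd0 k) (abs_nonneg _)
              (abs_nonneg _)
          · exact mul_le_mul ((hB₀ i k y hy).trans (le_abs_self _)) (hd1 c k) (abs_nonneg _)
              (abs_nonneg _)
      _ = (∑ k, |B₁ c i k|) * (3 * S) + (∑ k, |B₀ i k|) * (3 * S) := by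
          rw [Finset.sum_add_distrib, Finset.sum_mul, Finset.sum_mul]
      _ ≤ (∑ a, ∑ i, ∑ k, |B₁ a i k|) * (3 * S) + (∑ i, ∑ k, |B₀ i k|) * (3 * S) := by
          refine add_le_add (mul_le_mul_of_nonneg_right ?_ (by positivity))
            (mul_le_mul_of_nonneg_right ?_ (by positivity))
          · exact (Finset.single_le_sum (f := fun i => ∑ k, |B₁ c i k|)
              (fun _ _ => Finset.sum_nonneg fun _ _ => abs_nonneg _) (Finset.mem_univ i)).trans
              (Finset.single_le_sum (f := fun a => ∑ i, ∑ k, |B₁ a i k|) (fun _ _ =>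
                Finset.sum_nonneg fun _ _ => Finset.sum_nonneg fun _ _ => abs_nonneg _)
                (Finset.mem_univ c))
          · exact Finset.single_le_sum (f := fun i => ∑ k, |B₀ i k|)
              (fun _ _ => Finset.sum_nonneg fun _ _ => abs_nonneg _) (Finset.mem_univ i)
      _ = _ := by ring
  rw [rep_dX (isForm1_betaX hJ hw u.2.1) hyt, dOne_rep1_betaX hJ hw u.2.1 hyt, Matrix.smul_apply,
    smul_eq_mul, abs_mul]
  refine (mul_le_of_le_one_left (abs_nonneg _) (abs_oriC_le p y)).trans ?_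
  simp only [dOne]
  refine (abs_sub _ _).trans ?_
  have := hk a b
  have := hk b a
  rw [hC]
  linarith

end Vale.Agent.P204.Tame.Mfd
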