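import Vale.Agent.P204.Tame.Mfd.Global
import Vale.Agent.P204.Tame.EllipticIface

/-!
The statement of the elliptic step on a closed four-manifold: anti-invariant forms are the
anti-invariant parts of closed forms, with a bound.
-/

namespace Vale.Agent.P204.Tame.Mfd

open scoped ContDiff Manifold Matrix
open MeasureTheory Set

/-- Module EllipticGlobal: every smooth anti-invariant form is the anti-invariant part of a smooth
closed form whose coefficients are bounded by four derivatives of it. -/
def EllipticSolve : Prop :=
  ∀ (X : Type) [TopologicalSpace X] [T2Space X] [CompactSpace X] [MeasurableSpace X]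
    [BorelSpace X] [ChartedSpace E X] [IsManifold 𝓘(ℝ, E) ∞ X]
    (A : Atlas X) (J w : X → M), IsACX J → IsHerm J w →
    ∃ C : ℝ, ∀ e : X → M, IsForm e → (∀ z, pantiX J e z = e z) →
      ∃ θ : X → M, IsForm θ ∧ IsClosedX θ ∧ (∀ z, pantiX J θ z = e z) ∧
        ∀ i, ∀ y ∈ chartAt E (A.c i) '' tsupport (A.φ i), ∀ a b,
          |rep (A.c i) θ y a b| ≤ C * hnorm A 4 1 e

end Vale.Agent.P204.Tame.Mfd
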