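import Vale.Agent.P204.Tame.Mfd.Norm
import Vale.Agent.P204.Tame.EllipticIface

/-!
The norm of fourth order of a form in a chart is bounded by its global norm.
-/

namespace Vale.Agent.P204.Tame.Mfd

open scoped ContDiff Manifold Matrix Topology
open MeasureTheory Set Filter Finset

variable {X : Type} [TopologicalSpace X] [ChartedSpace E X] [IsManifold 𝓘(ℝ, E) ∞ X]

/-- The Sobolev sum of a form on a compact subset of one chart. -/
theorem exists_sobS_le_hnorm (A : Atlas X) (p : X) {K : Set E} (hKc : IsCompact K)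
    (hK : K ⊆ (chartAt E p).target) (k : ℕ) :
    ∃ C : ℝ, 0 ≤ C ∧ ∀ e : X → M, IsForm e → ∀ a b,
      sobS k 1 K (fun y => rep p e y a b) ≤ C * hnorm A k 1 e := by
  classical
  set S : Set X := (chartAt E p).symm '' K
  have hS : IsCompact S := hKc.image_of_continuousOn ((chartAt E p).continuousOn_symm.mono hK)
  have hSs : S ⊆ (chartAt E p).source := by
    rintro _ ⟨y, hy, rfl⟩
    exact (chartAt E p).map_target (hK hy)
  set Z : Fin A.n → Set X := fun i => S ∩ tsupport (A.φ i)
  have hZ : ∀ i, IsCompact (Z i) := fun i => hS.inter_right (isClosed_tsupport _)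
  have hZp : ∀ i, Z i ⊆ (chartAt E p).source := fun i => inter_subset_left.trans hSs
  choose C hC hrep using fun i => exists_sobS_rep p (A.c i) (hZ i) (hZp i)
    (inter_subset_right.trans (A.φ_supp i).2) k
  refine ⟨∑ i, C i, sum_nonneg fun i _ => hC i, fun e he a b => ?_⟩
  refine (sobS_union_le (chartAt E p).open_target hKc hK (L := fun i => chartAt E p '' Z i)
    (fun i => (hZ i).image_of_continuousOn ((chartAt E p).continuousOn.mono (hZp i)))
    (fun i => by rintro _ ⟨z, hz, rfl⟩; exact (chartAt E p).map_source (hZp i hz))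
    ?_ (he.smooth p a b) zero_le_one).trans ?_
  · intro y hy
    obtain ⟨i, -, hi⟩ := exists_ne_zero_of_sum_ne_zero
      (by rw [A.sum_φ ((chartAt E p).symm y)]; exact one_ne_zero)
    exact mem_iUnion.2 ⟨i, _, ⟨⟨y, hy, rfl⟩, subset_tsupport _ hi⟩,
      (chartAt E p).right_inv (hK hy)⟩
  · rw [sum_mul]
    refine sum_le_sum fun i _ => (hrep i e he 1 (right_mem_Ioc.2 one_pos) a b).trans
      (mul_le_mul_of_nonneg_left ?_ (hC i))
    rw [hnorm_eq]
    refine le_trans ?_ (single_le_sum (f := fun i => ∑ a, ∑ b, sobS k 1 (cell A i)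
      (fun y => rep (A.c i) e y a b)) (fun j _ => sum_nonneg fun a _ => sum_nonneg fun b _ =>
      sobS_nonneg zero_le_one _ _) (Finset.mem_univ i))
    exact sum_le_sum fun a _ => sum_le_sum fun b _ => sobS_mono_set
      (chartAt E (A.c i)).open_target (isCompact_cell A i) (cell_subset A i)
      (image_mono inter_subset_right) (he.smooth _ a b) zero_le_one

/-- The norm of fourth order in a chart of a form times a locally constant factor of modulus at
most one. -/
theorem exists_h4On_le_hnorm (A : Atlas X) (p : X) {K : Set E} (hKc : IsCompact K)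
    (hK : K ⊆ (chartAt E p).target) :
    ∃ C : ℝ, 0 ≤ C ∧ ∀ (e : X → M) (s : E → ℝ), IsForm e →
      (∀ y ∈ (chartAt E p).target, (∀ᶠ x in 𝓝 y, s x = s y) ∧ |s y| ≤ 1) →
      h4On K (fun y => s y • rep p e y) ≤ C * hnorm A 4 1 e ^ 2 := by
  obtain ⟨C, hC, hb⟩ := exists_sobS_le_hnorm A p hKc hK 4
  refine ⟨5 * 4 * 4 * C ^ 2, by positivity, fun e s he hs => ?_⟩
  have hterm : ∀ l ∈ range 5, ∀ i j,
      ∫ y in K, ‖iteratedFDeriv ℝ l (fun x => (s x • rep p e x) i j) y‖ ^ 2
        ≤ C ^ 2 * hnorm A 4 1 e ^ 2 := by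
    intro l hl i j
    have hT := (chartAt E p).open_target
    refine (integral_mono_of_nonneg (Eventually.of_forall fun _ => sq_nonneg _)
      (integrableOn_iterated hT hKc hK (he.smooth p i j) l)
      (ae_restrict_of_forall_mem hKc.measurableSet fun y hy => ?_)).trans ?_
    · obtain ⟨h1, h2⟩ := hs y (hK hy)
      have heq : (fun x => (s x • rep p e x) i j) =ᶠ[𝓝 y] s y • fun x => rep p e x i j := by
        filter_upwards [h1] with x hx
        simp [hx]
      rw [(heq.iteratedFDeriv ℝ l).eq_of_nhds, iteratedFDeriv_const_smul_apply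
        (((he.smooth p i j).contDiffAt (hT.mem_nhds (hK hy))).of_le
          (by exact_mod_cast le_top)), norm_smul, Real.norm_eq_abs]
      exact pow_le_pow_left₀ (mul_nonneg (abs_nonneg _) (norm_nonneg _))
        (mul_le_of_le_one_left (norm_nonneg _) h2) 2
    · set I := ∫ y in K, ‖iteratedFDeriv ℝ l (fun x => rep p e x i j) y‖ ^ 2
      have hI : Real.sqrt I ≤ sobS 4 1 K (fun x => rep p e x i j) := by
        refine le_trans ?_ (single_le_sum (f := fun m => (1 : ℝ) ^ m * Real.sqrt
          (∫ y in K, ‖iteratedFDeriv ℝ m (fun x => rep p e x i j) y‖ ^ 2))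
          (fun m _ => mul_nonneg (pow_nonneg zero_le_one m) (Real.sqrt_nonneg _)) hl)
        simp [I]
      have hI0 : 0 ≤ I := integral_nonneg fun y => sq_nonneg _
      rw [← mul_pow, ← Real.sq_sqrt hI0]
      exact pow_le_pow_left₀ (Real.sqrt_nonneg _) (hI.trans (hb e he i j)) 2
  refine (sum_le_sum fun l hl => sum_le_sum fun i _ => sum_le_sum fun j _ =>
    hterm l hl i j).trans (le_of_eq ?_)
  simp only [sum_const, Finset.card_univ, Fintype.card_fin, card_range, nsmul_eq_mul,
    Nat.cast_ofNat]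
  ring

end Vale.Agent.P204.Tame.Mfd
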