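import Vale.Agent.P204.Tame.Mfd.Kaehler
import Vale.Agent.P204.Tame.Mfd.EllipticDefs

/-!
Without a compatible form there is a nonzero obstruction: separation of the closed forms from the
forms with positive invariant part and small anti-invariant part.
-/

namespace Vale.Agent.P204.Tame.Mfd

open scoped ContDiff Manifold Matrix Topology Pointwise
open MeasureTheory Metric Set

variable {X : Type} [TopologicalSpace X] [ChartedSpace E X] [IsManifold 𝓘(ℝ, E) ∞ X]

lemma abs_val_le {u : M} {t : ℝ} (h : ∀ a b, |u a b| ≤ t) (x y : E) :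
    |val u x y| ≤ t * ∑ a, ∑ b, |x a * y b| := by
  simp only [val, dotProduct, Matrix.mulVec, Finset.mul_sum]
  refine (Finset.abs_sum_le_sum_abs _ _).trans (Finset.sum_le_sum fun a _ => ?_)
  refine (Finset.abs_sum_le_sum_abs _ _).trans (Finset.sum_le_sum fun b _ => ?_)
  rw [show x a * (u a b * y b) = u a b * (x a * y b) by ring, abs_mul]
  exact mul_le_mul_of_nonneg_right (h a b) (abs_nonneg _)

/-- Forms with small coefficients in the charts are small against the Hermitian form. -/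
theorem exists_val_le (A : Atlas X) {J w : X → M} (hJ : IsACX J) (hw : IsHerm J w) :
    ∃ D : ℝ, 0 ≤ D ∧ ∀ u : X → M, ∀ t : ℝ, 0 ≤ t →
      (∀ i, ∀ y ∈ cell A i, ∀ a b, |rep (A.c i) u y a b| ≤ t) →
      ∀ z v, |val (u z) v (J z *ᵥ v)| ≤ D * t * val (w z) v (J z *ᵥ v) := by
  have key : ∀ i, ∃ C : ℝ, ∀ y ∈ cell A i, ∀ x : E,
      (∑ a, ∑ b, |x a * (repEnd (A.c i) J y *ᵥ x) b|) ≤
        C * val (rep (A.c i) w y) x (repEnd (A.c i) J y *ᵥ x) := by
    intro i
    set c := chartAt E (A.c i)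
    have hK := isCompact_cell A i
    have hKt := cell_subset A i
    have hJc := fun a b => ((hJ.smooth (A.c i) a b).continuousOn).mono hKt
    have hnum : ContinuousOn (fun x : E × E => ∑ a, ∑ b, |x.2 a * (repEnd (A.c i) J x.1 *ᵥ x.2) b|)
        (cell A i ×ˢ sphere (0 : E) 1) := by
      simp only [Matrix.mulVec, dotProduct]
      have hm : MapsTo Prod.fst (cell A i ×ˢ sphere (0 : E) 1) (cell A i) := fun _ hx => hx.1
      have hv : ∀ a : Fin 4, ContinuousOn (fun x : E × E => x.2 a)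
          (cell A i ×ˢ sphere (0 : E) 1) := fun a => by fun_prop
      exact continuousOn_finsetSum _ fun a _ => continuousOn_finsetSum _ fun b _ =>
        ((hv a).mul (continuousOn_finsetSum _ fun k _ =>
          ((hJc b k).comp continuousOn_fst hm).mul (hv k))).abs
    have hden : ContinuousOn (fun x : E × E => val (rep (A.c i) w x.1) x.2
        (repEnd (A.c i) J x.1 *ᵥ x.2)) (cell A i ×ˢ sphere 0 1) :=
      (continuousOn_val (fun a b => (hw.form.cont.cont _ a b).mono hKt) hJc).mono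
        (prod_mono subset_rfl (subset_univ _))
    have hpos : ∀ x ∈ cell A i ×ˢ sphere (0 : E) 1, 0 < val (rep (A.c i) w x.1) x.2
        (repEnd (A.c i) J x.1 *ᵥ x.2) := fun x hx =>
      tames_rep hw.tames (hKt hx.1) _ (ne_zero_of_mem_unit_sphere ⟨x.2, hx.2⟩)
    obtain ⟨C, hC⟩ := (hK.prod (isCompact_sphere 0 1)).exists_bound_of_continuousOn
      (hnum.div hden fun x hx => (hpos x hx).ne')
    refine ⟨C, fun y hy x => ?_⟩
    rcases eq_or_ne x 0 with rfl | hx
    · simp [val]
    have hn : 0 < ‖x‖ := norm_pos_iff.2 hx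
    have hmem : (y, ‖x‖⁻¹ • x) ∈ cell A i ×ˢ sphere (0 : E) 1 :=
      ⟨hy, by simp [norm_smul, hn.ne']⟩
    have h := (le_abs_self _).trans (hC _ hmem)
    simp only [Pi.div_apply] at h
    rw [div_le_iff₀ (hpos _ hmem)] at h
    dsimp only at h
    rw [val_scale] at h
    simp only [Matrix.mulVec_smul, Pi.smul_apply, smul_eq_mul, abs_mul,
      abs_of_pos (inv_pos.2 hn)] at h
    refine le_of_mul_le_mul_left (le_trans (le_of_eq ?_) (h.trans (le_of_eq ?_)))
      (pow_pos (inv_pos.2 hn) 2)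
    · simp only [Finset.mul_sum, abs_mul]
      exact Finset.sum_congr rfl fun a _ => Finset.sum_congr rfl fun b _ => by ring
    · ring
  choose C hC using key
  refine ⟨∑ i, |C i|, Finset.sum_nonneg fun i _ => abs_nonneg _, fun u t ht hu z v => ?_⟩
  obtain ⟨i, hi⟩ : ∃ i, z ∈ tsupport (A.φ i) := by
    by_contra h
    push Not at h
    have := A.sum_φ z
    simp [fun i => image_eq_zero_of_notMem_tsupport (h i)] at this
  set c := chartAt E (A.c i)
  have hs : z ∈ c.source := (A.φ_supp i).2 hi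
  set x := chg z (A.c i) z *ᵥ v
  have hQP := chg_mul_chg (p := A.c i) (q := z) hs (mem_chart_source E z)
  have huv : ∀ f : X → M, val (f z) v (J z *ᵥ v) = val (rep (A.c i) f (c z)) x
      (repEnd (A.c i) J (c z) *ᵥ x) := fun f => by
    conv_lhs => rw [eq_rep f hs, eq_repEnd J hs]
    exact val_congr_end hQP v
  have hw0 : 0 ≤ val (rep (A.c i) w (c z)) x (repEnd (A.c i) J (c z) *ᵥ x) := by
    rw [← huv w]; exact (psd_herm hw z).nonneg v
  rw [huv u, huv w]
  refine (abs_val_le (hu i _ (mem_image_of_mem _ hi)) _ _).trans ?_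
  rw [mul_comm (∑ i, |C i|) t, mul_assoc]
  refine mul_le_mul_of_nonneg_left ((hC i _ (mem_image_of_mem _ hi) x).trans ?_) ht
  exact mul_le_mul_of_nonneg_right ((le_abs_self _).trans
    (Finset.single_le_sum (f := fun i => |C i|) (fun i _ => abs_nonneg _) (Finset.mem_univ i))) hw0

lemma isClosedX_zero : IsClosedX (0 : X → M) := fun p y _ i j k => by simp [rep, pd]

lemma IsClosedX.add {u v : X → M} (hu : IsForm u) (hv : IsForm v) (hcu : IsClosedX u)
    (hcv : IsClosedX v) : IsClosedX (u + v) := by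
  intro p y hy i j k
  have hd : ∀ {f : X → M}, IsForm f → ∀ a b, DifferentiableAt ℝ (fun x => rep p f x a b) y :=
    fun hf a b => ((hf.smooth p a b).contDiffAt
      ((chartAt E p).open_target.mem_nhds hy)).differentiableAt (by simp)
  simp only [rep_add, Matrix.add_apply, pd, fderiv_fun_add (hd hu _ _) (hd hv _ _), add_apply]
  have h1 := hcu p y hy i j k
  have h2 := hcv p y hy i j k
  simp only [pd] at h1 h2
  linarith

lemma IsClosedX.smul {u : X → M} (r : ℝ) (hu : IsForm u) (hcu : IsClosedX u) :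
    IsClosedX (r • u) := by
  intro p y hy i j k
  have hd : ∀ a b, DifferentiableAt ℝ (fun x => rep p u x a b) y := fun a b =>
    ((hu.smooth p a b).contDiffAt
      ((chartAt E p).open_target.mem_nhds hy)).differentiableAt (by simp)
  simp only [rep_smul, Matrix.smul_apply, smul_eq_mul, pd, fderiv_const_mul (hd _ _), smul_apply]
  have h1 := hcu p y hy i j k
  simp only [pd] at h1
  rw [← mul_add, ← mul_add, h1, mul_zero]

lemma IsClosedX.sub {u v : X → M} (hu : IsForm u) (hv : IsForm v) (hcu : IsClosedX u)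
    (hcv : IsClosedX v) : IsClosedX (u - v) := by
  have h := hcu.add hu (hv.smul (-1)) (hcv.smul (-1) hv)
  rwa [neg_one_smul, ← sub_eq_add_neg] at h

lemma panti_idem_sep {J u : M} (hJ : J * J = -1) : panti J (panti J u) = panti J u := by
  conv_lhs => rw [panti, anti_panti hJ]
  module

/-- Without a compatible form a closed form with large invariant part has large anti-invariant
part. -/
theorem exists_gap [T2Space X] [CompactSpace X] [MeasurableSpace X] [BorelSpace X]
    (hE : EllipticSolve) (A : Atlas X) {J w : X → M} (hJ : IsACX J) (hw : IsHerm J w)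
    (hno : ¬ ∃ θ, IsForm θ ∧ IsClosedX θ ∧ (∀ z, (J z)ᵀ * θ z * J z = θ z) ∧ TamesX θ J) :
    ∃ δ > 0, ∀ θ, IsForm θ → IsClosedX θ →
      (∀ z v, val (w z) v (J z *ᵥ v) ≤ val (pinv (J z) (θ z)) v (J z *ᵥ v)) →
      δ ≤ hnorm A 4 1 (pantiX J θ) := by
  obtain ⟨C, hC⟩ := hE X A J w hJ hw
  obtain ⟨D, hD, hDu⟩ := exists_val_le A hJ hw
  have hden : 0 < D * max C 0 + 1 := by positivity
  refine ⟨1 / (D * max C 0 + 1), by positivity, fun θ hθ hcl hpos => ?_⟩
  by_contra hlt
  push Not at hlt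
  set e := pantiX J θ
  have he : IsForm e := isForm_pantiX hJ hθ
  obtain ⟨η, hη, hηc, hηe, hηb⟩ := hC e he fun z => panti_idem_sep (hJ.sq z)
  set t := max C 0 * hnorm A 4 1 e with ht
  have hn0 : 0 ≤ hnorm A 4 1 e := hnorm_nonneg A 4 zero_le_one e
  have ht0 : 0 ≤ t := mul_nonneg (le_max_right _ _) hn0
  have hηv := hDu η t ht0 fun i y hy a b => (hηb i y hy a b).trans
    (mul_le_mul_of_nonneg_right (le_max_left _ _) hn0)
  have hsmall : D * t < 1 := by
    have h1 : D * max C 0 * hnorm A 4 1 e ≤ D * max C 0 * (1 / (D * max C 0 + 1)) :=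
      mul_le_mul_of_nonneg_left hlt.le (by positivity)
    have h2 : D * max C 0 * (1 / (D * max C 0 + 1)) < 1 := by
      rw [mul_one_div, div_lt_one hden]; linarith
    rw [ht, ← mul_assoc]
    linarith
  refine hno ⟨θ - η, hθ.sub hη, hcl.sub hθ hη hηc, fun z => ?_, fun z v hv => ?_⟩
  · have h0 : panti (J z) (θ z - η z) = 0 := by
      have h1 : panti (J z) (η z) = panti (J z) (θ z) := hηe z
      simp only [panti, Matrix.mul_sub, Matrix.sub_mul] at h1 ⊢
      rw [show θ z - η z - ((J z)ᵀ * θ z * J z - (J z)ᵀ * η z * J z) =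
        (θ z - (J z)ᵀ * θ z * J z) - (η z - (J z)ᵀ * η z * J z) by abel, smul_sub, ← h1, sub_self]
    have h2 := pinv_add_panti_eq (J z) (θ z - η z)
    rw [h0, add_zero] at h2
    show (J z)ᵀ * (θ z - η z) * J z = θ z - η z
    rw [← h2]
    exact inv_pinv (hJ.sq z)
  · show 0 < val (θ z - η z) v (J z *ᵥ v)
    have h1 : θ z - η z = pinv (J z) (θ z) - pinv (J z) (η z) := by
      have h3 : panti (J z) (η z) = panti (J z) (θ z) := hηe z
      conv_lhs => rw [← pinv_add_panti_eq (J z) (θ z), ← pinv_add_panti_eq (J z) (η z), h3]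
      abel
    have h2 : val (pinv (J z) (η z)) v (J z *ᵥ v) =
        (val (η z) v (J z *ᵥ v) + val (η z) (J z *ᵥ v) (J z *ᵥ (J z *ᵥ v))) / 2 := by
      rw [← val_congr (J z) (η z) v (J z *ᵥ v)]
      simp only [pinv, val, Matrix.smul_mulVec, Matrix.add_mulVec, dotProduct_smul, dotProduct_add,
        smul_eq_mul]
      ring
    have hwJ : val (w z) (J z *ᵥ v) (J z *ᵥ (J z *ᵥ v)) = val (w z) v (J z *ᵥ v) := by
      rw [← val_congr (J z) (w z) v (J z *ᵥ v), hw.inv z]
    have b1 := abs_le.1 (hηv z v)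
    have b2 := abs_le.1 (hηv z (J z *ᵥ v))
    rw [hwJ] at b2
    have hwp := hw.tames z v hv
    have h3 : val (pinv (J z) (η z)) v (J z *ᵥ v) < val (w z) v (J z *ᵥ v) := by
      rw [h2]
      nlinarith [mul_lt_mul_of_pos_right hsmall hwp]
    rw [h1]
    have := hpos z v
    simp only [val, Matrix.sub_mulVec, dotProduct_sub] at *
    linarith

/-- Forms as a subspace. -/
def formSub (X : Type) [TopologicalSpace X] [ChartedSpace E X] [IsManifold 𝓘(ℝ, E) ∞ X] :
    Submodule ℝ (X → M) where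
  carrier := {u | IsForm u}
  zero_mem' := isForm_zero
  add_mem' := IsForm.add
  smul_mem' := fun r _ hu => hu.smul r

/-- Closed forms as a subspace. -/
def closedSub (X : Type) [TopologicalSpace X] [ChartedSpace E X] [IsManifold 𝓘(ℝ, E) ∞ X] :
    Submodule ℝ (X → M) where
  carrier := {u | IsForm u ∧ IsClosedX u}
  zero_mem' := ⟨isForm_zero, isClosedX_zero⟩
  add_mem' := fun hu hv => ⟨hu.1.add hv.1, hu.2.add hu.1 hv.1 hv.2⟩
  smul_mem' := fun r _ hu => ⟨hu.1.smul r, hu.2.smul r hu.1⟩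

/-- The invariant and anti-invariant parts of closed forms. -/
noncomputable def splitL {J : X → M} (hJ : IsACX J) :
    closedSub X →ₗ[ℝ] contInv J × formSub X where
  toFun θ := (⟨pinvX J θ.1, pinv_mem_contInv hJ θ.2.1.cont⟩,
    ⟨pantiX J θ.1, isForm_pantiX hJ θ.2.1⟩)
  map_add' a b := by
    refine Prod.ext (Subtype.ext (funext fun z => ?_)) (Subtype.ext (funext fun z => ?_)) <;>
      simp only [pinvX, pantiX, pinv, panti, Submodule.coe_add, Prod.fst_add, Prod.snd_add,
        Pi.add_apply, Matrix.mul_add, Matrix.add_mul] <;> module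
  map_smul' r a := by
    refine Prod.ext (Subtype.ext (funext fun z => ?_)) (Subtype.ext (funext fun z => ?_)) <;>
      simp only [pinvX, pantiX, pinv, panti, SetLike.val_smul, Prod.smul_fst, Prod.smul_snd,
        RingHom.id_apply, Pi.smul_apply, Matrix.mul_smul, Matrix.smul_mul] <;> module

theorem separation_of (hE : EllipticSolve) : Separation := by
  intro X _ _ _ _ _ _ _ A J w hJ hw hno
  rcases isEmpty_or_nonempty X with hX | hX
  · exact absurd ⟨0, isForm_zero, isClosedX_zero, fun z => isEmptyElim z, fun z => isEmptyElim z⟩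
      hno
  obtain ⟨z₀⟩ := hX
  obtain ⟨δ, hδ, hgap⟩ := exists_gap hE A hJ hw hno
  set v₀ : E := e 0
  have hv₀ : v₀ ≠ 0 := fun h => by simpa [v₀, e] using congrFun h 0
  have hw₀ : 0 < val (w z₀) v₀ (J z₀ *ᵥ v₀) := hw.tames z₀ v₀ hv₀
  let S : contInv J → Set ℝ := fun u =>
    {t | ∀ z v, 0 ≤ t * val (w z) v (J z *ᵥ v) + val (u.1 z) v (J z *ᵥ v)}
  have hne : ∀ u, (S u).Nonempty := fun u => by
    obtain ⟨c, -, hc⟩ := exists_le_herm A hJ hw u.2
    refine ⟨c, fun z v => ?_⟩
    have := (hc z).1.nonneg v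
    simp only [val, Matrix.add_mulVec, Matrix.smul_mulVec, dotProduct_add, dotProduct_smul,
      smul_eq_mul] at this ⊢
    exact this
  have hbb : ∀ u, BddBelow (S u) := fun u => by
    refine ⟨-val (u.1 z₀) v₀ (J z₀ *ᵥ v₀) / val (w z₀) v₀ (J z₀ *ᵥ v₀), fun t ht => ?_⟩
    rw [div_le_iff₀ hw₀]
    linarith [ht z₀ v₀]
  let N : contInv J × formSub X → ℝ := fun x => sInf (S x.1) + hnorm A 4 1 x.2.1 / δ
  have hN_hom : ∀ c : ℝ, 0 < c → ∀ x, N (c • x) = c * N x := by
    intro c hc x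
    have hS : S (c • x.1) = c • S x.1 := by
      ext t
      simp only [mem_smul_set, smul_eq_mul, S, mem_ofPred_eq]
      constructor
      · intro h
        refine ⟨t / c, fun z v => ?_, by field_simp⟩
        have h1 := h z v
        simp only [val, SetLike.val_smul, Pi.smul_apply, Matrix.smul_mulVec, dotProduct_smul,
          smul_eq_mul] at h1 ⊢
        refine le_of_mul_le_mul_left (le_of_eq_of_le (mul_zero c) (h1.trans (le_of_eq ?_))) hc
        field_simp
      · rintro ⟨s, h, rfl⟩ z v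
        have h1 := mul_nonneg hc.le (h z v)
        simp only [val, SetLike.val_smul, Pi.smul_apply, Matrix.smul_mulVec, dotProduct_smul,
          smul_eq_mul] at h1 ⊢
        linarith
    simp only [N, Prod.smul_fst, Prod.smul_snd, hS, Real.sInf_smul_of_nonneg hc.le, smul_eq_mul,
      SetLike.val_smul, hnorm_smul A 4 1 c x.2.2, abs_of_pos hc]
    ring
  have hN_add : ∀ x y, N (x + y) ≤ N x + N y := by
    intro x y
    have h1 : sInf (S (x.1 + y.1)) ≤ sInf (S x.1) + sInf (S y.1) := by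
      rw [← sub_le_iff_le_add]
      refine le_csInf (hne x.1) fun s hs => ?_
      rw [sub_le_comm]
      refine le_csInf (hne y.1) fun t ht => ?_
      rw [sub_le_iff_le_add']
      refine csInf_le (hbb _) fun z v => ?_
      have := hs z v
      have := ht z v
      simp only [val, AddMemClass.coe_add, Pi.add_apply, Matrix.add_mulVec, dotProduct_add] at *
      linarith
    have h2 := div_le_div_of_nonneg_right (hnorm_add_le A 4 zero_le_one x.2.2 y.2.2) hδ.le
    rw [add_div] at h2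
    show sInf (S (x.1 + y.1)) + hnorm A 4 1 (x.2.1 + y.2.1) / δ ≤
      sInf (S x.1) + hnorm A 4 1 x.2.1 / δ + (sInf (S y.1) + hnorm A 4 1 y.2.1 / δ)
    linarith
  have hdom : ∀ x : LinearMap.range (splitL (X := X) hJ), (0 : ℝ) ≤ N x.1 := by
    rintro ⟨_, θ, rfl⟩
    have hh : 0 ≤ hnorm A 4 1 (pantiX J θ.1) / δ :=
      div_nonneg (hnorm_nonneg A 4 zero_le_one _) hδ.le
    show 0 ≤ sInf (S (splitL hJ θ).1) + hnorm A 4 1 (pantiX J θ.1) / δ
    rw [← neg_le_iff_add_nonneg]
    refine le_csInf (hne _) fun t ht => ?_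
    rcases le_or_gt 0 t with h | h
    · linarith
    have hs : 0 < (-t)⁻¹ := inv_pos.2 (neg_pos.2 h)
    have hg := hgap ((-t)⁻¹ • θ.1) (θ.2.1.smul _) (θ.2.2.smul _ θ.2.1) fun z v => by
      have h1 := mul_nonneg hs.le (show (0 : ℝ) ≤ t * val (w z) v (J z *ᵥ v) +
        val (pinv (J z) (θ.1 z)) v (J z *ᵥ v) from ht z v)
      have h2 : (-t)⁻¹ * (t * val (w z) v (J z *ᵥ v)) = -val (w z) v (J z *ᵥ v) := by
        rw [← mul_assoc, inv_neg, neg_mul, inv_mul_cancel₀ h.ne, neg_one_mul]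
      rw [mul_add, h2] at h1
      have h3 : pinv (J z) (((-t)⁻¹ • θ.1) z) = (-t)⁻¹ • pinv (J z) (θ.1 z) := by
        simp only [pinv, Pi.smul_apply, Matrix.mul_smul, Matrix.smul_mul]
        module
      rw [h3]
      simp only [val, Matrix.smul_mulVec, dotProduct_smul, smul_eq_mul] at h1 ⊢
      linarith
    have h4 : pantiX J ((-t)⁻¹ • θ.1) = (-t)⁻¹ • pantiX J θ.1 := by
      funext z
      simp only [pantiX, panti, Pi.smul_apply, Matrix.mul_smul, Matrix.smul_mul]
      module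
    rw [h4, hnorm_smul A 4 1 _ (isForm_pantiX hJ θ.2.1), abs_of_pos hs,
      le_inv_mul_iff₀ (neg_pos.2 h)] at hg
    have : -t ≤ hnorm A 4 1 (pantiX J θ.1) / δ := by rw [le_div_iff₀ hδ]; exact hg
    linarith
  obtain ⟨g, hg0, hgN⟩ := exists_extension_of_le_sublinear
    ⟨LinearMap.range (splitL (X := X) hJ), 0⟩ N hN_hom hN_add fun x => hdom x
  set L : contInv J →ₗ[ℝ] ℝ := -(g.comp (LinearMap.inl ℝ (contInv J) (formSub X))) with hL
  set Φ₀ : formSub X →ₗ[ℝ] ℝ := -(g.comp (LinearMap.inr ℝ (contInv J) (formSub X))) with hΦ₀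
  have hn0 : hnorm A 4 1 (0 : X → M) = 0 := by
    have h := hnorm_smul A 4 1 (0 : ℝ) (isForm_zero (X := X))
    simpa using h
  have hP0 : sInf (S 0) = 0 := by
    refine le_antisymm (csInf_le (hbb _) fun z v => by simp [val]) (le_csInf (hne _) fun t ht => ?_)
    have h1 := ht z₀ v₀
    simp only [val, ZeroMemClass.coe_zero, Pi.zero_apply, Matrix.zero_mulVec, dotProduct_zero,
      add_zero] at h1
    exact (mul_nonneg_iff_of_pos_right (by simpa [val] using hw₀)).1 h1
  have hLle : ∀ u, -L u ≤ sInf (S u) := fun u => by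
    have := hgN (u, 0)
    simp only [N, ZeroMemClass.coe_zero, hn0, zero_div, add_zero] at this
    simpa [hL] using this
  have hLpos : ∀ u : contInv J, (∀ z, Psd (J z) (u.1 z)) → 0 ≤ L u := fun u hu => by
    have h1 : sInf (S u) ≤ 0 := csInf_le (hbb _) fun z v => by
      simpa using (hu z).nonneg v
    linarith [hLle u]
  set wI : contInv J := ⟨w, hw.mem_contInv⟩
  have hLw : 0 < L wI := by
    have h1 : sInf (S wI) ≤ -1 := csInf_le (hbb _) fun z v => le_of_eq (by
      show (0 : ℝ) = -1 * val (w z) v (J z *ᵥ v) + val (w z) v (J z *ᵥ v)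
      ring)
    linarith [hLle wI]
  obtain ⟨μ, Θ, hfin, hmeas, hpsd, hunit, hrep⟩ := exists_field A hJ hw L hLpos
  obtain ⟨Φ, hΦ⟩ := LinearMap.exists_extend Φ₀
  have hΦe : ∀ u (hu : IsForm u), Φ u = Φ₀ ⟨u, hu⟩ := fun u hu =>
    LinearMap.congr_fun hΦ (⟨u, hu⟩ : formSub X)
  refine ⟨μ, Θ, Φ, ⟨hfin, hmeas, hpsd, hunit, ⟨δ⁻¹, fun u hu => ?_⟩, fun θ hθ hθc => ?_⟩, ?_⟩
  · rw [hΦe u hu, inv_mul_eq_div, abs_le]
    have h1 := hgN (0, ⟨u, hu⟩)
    have h2 := hgN (0, -⟨u, hu⟩)
    simp only [N, hP0, zero_add] at h1 h2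
    have h3 : hnorm A 4 1 (-u) = hnorm A 4 1 u := by
      rw [← neg_one_smul ℝ u, hnorm_smul A 4 1 _ hu, abs_neg, abs_one, one_mul]
    simp only [NegMemClass.coe_neg, h3] at h2
    have e1 : Φ₀ ⟨u, hu⟩ = -g (0, ⟨u, hu⟩) := by simp [hΦ₀]
    have e2 : g (0, -⟨u, hu⟩) = -g (0, ⟨u, hu⟩) := by
      rw [← map_neg, Prod.neg_mk, neg_zero]
    rw [e1]
    constructor <;> linarith
  · have h0 : g (splitL hJ ⟨θ, hθ, hθc⟩) = 0 :=
      hg0 ⟨_, LinearMap.mem_range_self (splitL (X := X) hJ) ⟨θ, hθ, hθc⟩⟩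
    set v : contInv J := ⟨pinvX J θ, pinv_mem_contInv hJ hθ.cont⟩
    have hi : ∫ z, pr (w z) (Θ z) (θ z) ∂μ = L v := by
      rw [(hrep v).2]
      refine integral_congr_ae ?_
      filter_upwards [hpsd] with z hz
      exact (pr_pinv_right (hJ.sq z) hz (hθ.skew z)).symm
    rw [hi, hΦe _ (isForm_pantiX hJ hθ)]
    have e1 : g (splitL hJ ⟨θ, hθ, hθc⟩) =
        g (v, 0) + g (0, ⟨pantiX J θ, isForm_pantiX hJ hθ⟩) := by
      rw [← map_add, Prod.mk_add_mk, add_zero, zero_add]
      rfl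
    simp [hL, hΦ₀]
    linarith
  · intro hμ
    have := (hrep wI).2
    rw [hμ, integral_zero_measure] at this
    linarith

end Vale.Agent.P204.Tame.Mfd
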