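import Vale.Agent.P204.Tame.EllipticKernel
import Vale.Agent.P204.Tame.EllipticEstimate
import Vale.Agent.P204.Tame.EllipticRellich
import Vale.Agent.P204.Tame.Mfd.EllipticBeta
import Vale.Agent.P204.Tame.Mfd.EllipticNorm
import Vale.Agent.P204.Tame.Mfd.EllipticDefs
import Vale.Agent.P204.Tame.Mfd.Separation

/-!
P204: on a closed four-manifold every smooth anti-invariant two-form is the anti-invariant part
of a smooth closed two-form, with a bound by four derivatives.
-/

namespace Vale.Agent.P204.Tame.Mfd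

open scoped ContDiff Manifold Matrix Topology
open MeasureTheory Set Filter

variable {X : Type} [TopologicalSpace X] [ChartedSpace E X] [IsManifold 𝓘(ℝ, E) ∞ X]
  [MeasurableSpace X] [BorelSpace X] [T2Space X] [CompactSpace X]
  (A : Atlas X) {J w : X → M} (hJ : IsACX J) (hw : IsHerm J w)

/-- A form of zero mean square vanishes. -/
lemma antiF_eq_zero {x : antiF J} (hx : bilP A hJ hw x x = 0) : x = 0 := by
  apply Subtype.ext
  funext z
  set c := chartAt E z
  have hz := c.map_source (mem_chart_source E z)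
  obtain ⟨K, hKc, hzK, hKt⟩ := exists_compact_between (isCompact_singleton (x := c z))
    c.open_target (singleton_subset_iff.2 hz)
  obtain ⟨C, -, hb⟩ := exists_sq_le A hJ hw z hKc hKt
  have hcont := continuousOn_sq_rep x.2.1 z
  have h0 := eqOn_zero_of_setIntegral isOpen_interior interior_subset
    ((hcont.mono hKt).integrableOn_compact hKc) (hcont.mono (interior_subset.trans hKt))
    (fun y => Finset.sum_nonneg fun _ _ => Finset.sum_nonneg fun _ _ => sq_nonneg _)
    (by simpa [hx] using hb x) _ (hzK rfl)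
  ext i j
  have h1 := (Finset.sum_eq_zero_iff_of_nonneg fun r _ => Finset.sum_nonneg
    fun s _ => sq_nonneg (rep z (x : X → M) (c z) r s)).1 h0 i (Finset.mem_univ i)
  have h2 := (Finset.sum_eq_zero_iff_of_nonneg fun s _ =>
    sq_nonneg (rep z (x : X → M) (c z) i s)).1 h1 j (Finset.mem_univ j)
  rw [pow_eq_zero_iff two_ne_zero, rep_center] at h2
  simpa using h2

/-- A form without energy has vanishing exterior derivative. -/
lemma dTwo_eq_zero_of_bilB {x : antiF J} (hx : bilB A hJ hw x x = 0) {p : X} {y : E}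
    (hy : y ∈ (chartAt E p).target) : dTwo (rep p (x : X → M)) y = 0 := by
  obtain ⟨K, hKc, hyK, hKt⟩ := exists_compact_between (isCompact_singleton (x := y))
    (chartAt E p).open_target (singleton_subset_iff.2 hy)
  obtain ⟨C, -, hb⟩ := exists_dTwo_sq_le A hJ hw p hKc hKt
  have hcont := continuousOn_dTwo_sq x.2.1 p
  have h0 := eqOn_zero_of_setIntegral isOpen_interior interior_subset
    ((hcont.mono hKt).integrableOn_compact hKc) (hcont.mono (interior_subset.trans hKt))
    (fun v => Finset.sum_nonneg fun _ _ => mul_self_nonneg _)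
    (by simpa [hx] using hb x) y (hyK rfl)
  exact dotProduct_self_eq_zero.1 h0

/-- The weak equation holds classically in every chart. -/
lemma local_equation (hR : RegularityLocal) {u f : antiF J}
    (h : ∀ k, bilB A hJ hw u k = bilP A hJ hw f k) (p : X) :
    ∀ y ∈ (chartAt E p).target,
      panti (repEnd p J y) (dOne (fun x => gChart J w p x *ᵥ dTwo (rep p (u : X → M)) x) y) =
        oriC w p y • rep p (f : X → M) y := by
  obtain ⟨u', hu', hlim, heq⟩ := (hR _ _ _ (hJ.isACS p) (isPosDefOn_gChart hJ hw p)).1 _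
    (isAntiOn_source hJ hw f p) (fun _ => rep p (u : X → M)) (fun _ => antiF.isAntiOn u p)
    (fun K _ _ δ hδ => ⟨0, fun n _ m _ => by
      have h0 : h1On K (rep p (u : X → M) - rep p (u : X → M)) = 0 := by simp [h1On, pd]
      rw [h0]
      exact hδ⟩)
    fun k hk ht => tendsto_local_eqn A hJ hw f (v := fun _ => u)
      (fun k' => by rw [h k']; exact tendsto_const_nhds) p hk ht
  have hsame : ∀ y ∈ (chartAt E p).target, rep p (u : X → M) y = u' y := by
    intro y hy
    obtain ⟨K, hKc, hyK, hKt⟩ := exists_compact_between (isCompact_singleton (x := y))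
      (chartAt E p).open_target (singleton_subset_iff.2 hy)
    have hcont := continuousOn_jet1Sq (chartAt E p).open_target
      (u := rep p (u : X → M) - u') fun r s => (u.2.1.smooth p r s).sub (hu'.smooth r s)
    have h0 := eqOn_zero_of_setIntegral isOpen_interior interior_subset
      ((hcont.mono hKt).integrableOn_compact hKc) (hcont.mono (interior_subset.trans hKt))
      (fun v => jet1Sq_nonneg _ _)
      (tendsto_nhds_unique tendsto_const_nhds (hlim K hKt hKc)).le y (hyK rfl)
    ext r s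
    have h1 := le_jet1Sq (rep p (u : X → M) - u') y r s
    rw [h0] at h1
    have h2 : (rep p (u : X → M) y r s - u' y r s) ^ 2 ≤ 0 :=
      (le_add_of_nonneg_right (Finset.sum_nonneg fun _ _ => sq_nonneg _)).trans h1
    nlinarith [sq_nonneg (rep p (u : X → M) y r s - u' y r s)]
  intro y hy
  rw [← heq y hy]
  congr 1
  have hev : ∀ᶠ x in 𝓝 y, dTwo (rep p (u : X → M)) x = dTwo u' x := by
    filter_upwards [(chartAt E p).open_target.mem_nhds hy] with x hx
    have he : rep p (u : X → M) =ᶠ[𝓝 x] u' := by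
      filter_upwards [(chartAt E p).open_target.mem_nhds hx] with v hv using hsame v hv
    have h' : ∀ i j k, altd (rep p (u : X → M)) x i j k = altd u' x i j k := cyc_congr he
    simp only [dTwo, h']
  have hk : ∀ k, (fun x => (gChart J w p x *ᵥ dTwo (rep p (u : X → M)) x) k) =ᶠ[𝓝 y]
      fun x => (gChart J w p x *ᵥ dTwo u' x) k := fun k => by
    filter_upwards [hev] with x hx
    rw [hx]
  ext i j
  simp only [dOne, pd, (hk _).fderiv_eq]

omit [MeasurableSpace X] [BorelSpace X] [T2Space X] [CompactSpace X] in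
lemma setIntegral_sq_le_hnorm (e : antiF J) (i : Fin A.n) (a b : Fin 4) :
    ∫ y in cell A i, rep (A.c i) (e : X → M) y a b ^ 2 ≤ hnorm A 4 1 (e : X → M) ^ 2 := by
  have h0 : Real.sqrt (∫ y in cell A i, rep (A.c i) (e : X → M) y a b ^ 2) ≤
      hnorm A 4 1 (e : X → M) := by
    rw [hnorm_eq]
    refine le_trans ?_ (Finset.single_le_sum (f := fun i => ∑ a, ∑ b, sobS 4 1 (cell A i)
      (fun y => rep (A.c i) (e : X → M) y a b))
      (fun j _ => Finset.sum_nonneg fun r _ => Finset.sum_nonneg fun s _ =>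
        sobS_nonneg zero_le_one _ _) (Finset.mem_univ i))
    refine le_trans ?_ (Finset.single_le_sum (f := fun a => ∑ b, sobS 4 1 (cell A i)
      (fun y => rep (A.c i) (e : X → M) y a b))
      (fun r _ => Finset.sum_nonneg fun s _ => sobS_nonneg zero_le_one _ _) (Finset.mem_univ a))
    refine le_trans ?_ (Finset.single_le_sum (f := fun b => sobS 4 1 (cell A i)
      (fun y => rep (A.c i) (e : X → M) y a b))
      (fun s _ => sobS_nonneg zero_le_one _ _) (Finset.mem_univ b))
    refine le_trans (le_of_eq ?_) (Finset.single_le_sum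
      (fun l _ => mul_nonneg (pow_nonneg zero_le_one _) (Real.sqrt_nonneg _))
      (Finset.mem_range.2 (show 0 < 4 + 1 by norm_num)))
    simp [norm_iteratedFDeriv_zero]
  exact Real.sqrt_le_iff.1 h0 |>.2

/-- Anti-invariant forms are anti-invariant parts of closed forms, with a bound. -/
theorem ellipticSolve_of (hG : GardingLocal) (hR : RegularityLocal) (hRe : RellichTest) :
    EllipticSolve := by
  intro X _ _ _ _ _ _ _ A J w hJ hw
  have hB := semiForm_bilB A hJ hw
  have hP := semiForm_bilP A hJ hw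
  have hcpt := exists_cauchy_antiF A hJ hw hG hRe
  obtain ⟨C₁, hsplit⟩ := exists_split hB hP (exists_limit_antiF A hJ hw hG hR) hcpt
  obtain ⟨C₂, hC₂, hker⟩ := exists_kernel_bound hB hP (fun x _ hx => antiF_eq_zero A hJ hw hx)
    hcpt (ν := fun x : antiF J => hnorm A 4 1 (x : X → M))
    (fun x y => by
      rw [Submodule.coe_add]
      exact hnorm_add_le A 4 zero_le_one x.2.1 y.2.1)
    (fun r x => by
      rw [Submodule.coe_smul]
      exact hnorm_smul A 4 1 r x.2.1)
  set C₀ : ℝ := |C₁| * (A.n * 16)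
  set Cf : ℝ := 1 + C₂ * Real.sqrt C₀
  have key : ∀ i, ∃ C : ℝ, ∀ e χ u : antiF J, bilB A hJ hw χ χ = 0 →
      (∀ k, bilB A hJ hw u k = bilP A hJ hw (e - χ) k) →
      bilP A hJ hw χ χ + bilB A hJ hw u u + bilP A hJ hw u u ≤ C₀ * hnorm A 4 1 (e : X → M) ^ 2 →
      hnorm A 4 1 ((e - χ : antiF J) : X → M) ≤ Cf * hnorm A 4 1 (e : X → M) →
      ∀ y ∈ cell A i, ∀ a b, |rep (A.c i) (χ : X → M) y a b| +
        |rep (A.c i) (dX (betaX J w (u : X → M))) y a b| ≤ C * hnorm A 4 1 (e : X → M) := by
    intro i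
    set p := A.c i
    set K := cell A i
    obtain ⟨Cr, K', hK', hK'c, hest⟩ := (hR _ _ _ (hJ.isACS p) (isPosDefOn_gChart hJ hw p)).2 K
      (cell_subset A i) (isCompact_cell A i)
    obtain ⟨Ch, hCh, hh1⟩ := exists_h1On_le A hJ hw hG p hK'c hK'
    obtain ⟨Cn, hCn, hh4⟩ := exists_h4On_le_hnorm A p hK'c hK'
    obtain ⟨Cb, hCb, hbeta⟩ :=
      exists_abs_dX_betaX_le hJ hw p (isCompact_cell A i) (cell_subset A i)
    set S₁ := Real.sqrt (|Cr| * (Ch * C₀ + Cn * Cf ^ 2))
    refine ⟨S₁ + Cb * S₁, fun e χ u hχ hu hbd hf y hy a b => ?_⟩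
    set H := hnorm A 4 1 (e : X → M)
    have hH : 0 ≤ H := hnorm_nonneg A 4 zero_le_one _
    have hC₀ : 0 ≤ C₀ := mul_nonneg (abs_nonneg C₁) (by positivity)
    have hT : (S₁ * H) ^ 2 = |Cr| * (Ch * C₀ + Cn * Cf ^ 2) * H ^ 2 := by
      rw [mul_pow, Real.sq_sqrt (by positivity)]
    have n1 := hB.nonneg u
    have n2 := hP.nonneg u
    have n3 := hP.nonneg χ
    have hgen : ∀ (x : antiF J) (src : E → M), IsAntiOn (chartAt E p).target (repEnd p J) src →
        (∀ v ∈ (chartAt E p).target, panti (repEnd p J v)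
          (dOne (fun z => gChart J w p z *ᵥ dTwo (rep p (x : X → M)) z) v) = src v) →
        bilB A hJ hw x x + bilP A hJ hw x x ≤ C₀ * H ^ 2 → h4On K' src ≤ Cn * Cf ^ 2 * H ^ 2 →
        ∀ y ∈ K, ∀ r s c d, (rep p (x : X → M) y r s) ^ 2 +
          (pd c (fun v => rep p (x : X → M) v r s) y) ^ 2 +
          (pd c (fun v => pd d (fun v' => rep p (x : X → M) v' r s) v) y) ^ 2 ≤ (S₁ * H) ^ 2 := by
      intro x src hsrc heq hx hsb y hy r s c d
      refine (hest _ _ (antiF.isAntiOn x p) hsrc heq y hy r s c d).trans ?_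
      rw [hT, mul_assoc]
      have h1 : h1On K' (rep p (x : X → M)) ≤ Ch * (C₀ * H ^ 2) :=
        (hh1 x).trans (mul_le_mul_of_nonneg_left hx hCh)
      have h10 : 0 ≤ h1On K' (rep p (x : X → M)) + h4On K' src :=
        add_nonneg (integral_nonneg fun v => jet1Sq_nonneg _ v) (h4On_nonneg _ _)
      calc Cr * _ ≤ |Cr| * _ := mul_le_mul_of_nonneg_right (le_abs_self Cr) h10
        _ ≤ _ := mul_le_mul_of_nonneg_left (by linarith) (abs_nonneg Cr)
    have hzero : ∀ v ∈ (chartAt E p).target, panti (repEnd p J v)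
        (dOne (fun z => gChart J w p z *ᵥ dTwo (rep p (χ : X → M)) z) v) = (fun _ => (0 : M)) v := by
      intro v hv
      have hk : ∀ k, (fun z => (gChart J w p z *ᵥ dTwo (rep p (χ : X → M)) z) k) =ᶠ[𝓝 v]
          fun _ => (0 : ℝ) := fun k => by
        filter_upwards [(chartAt E p).open_target.mem_nhds hv] with z hz
        simp [dTwo_eq_zero_of_bilB A hJ hw hχ hz]
      have h0 : dOne (fun z => gChart J w p z *ᵥ dTwo (rep p (χ : X → M)) z) v = 0 := by
        ext r s
        simp [dOne, pd, (hk _).fderiv_eq]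
      simp [h0, panti]
    have h4z : h4On K' (fun _ => (0 : M)) ≤ Cn * Cf ^ 2 * H ^ 2 := by
      have : h4On K' (fun _ => (0 : M)) = 0 := by simp [h4On]
      rw [this]
      positivity
    have hz0 : IsAntiOn (chartAt E p).target (repEnd p J) (fun _ => (0 : M)) :=
      ⟨fun _ _ => contDiffOn_const, fun v _ => by show (0 : M)ᵀ = -(0 : M); simp,
        fun v _ => by show _ = _; simp⟩
    have hχb := hgen χ _ hz0
      hzero (by rw [hχ]; linarith) h4z y hy a b 0 0
    have h4f : h4On K' (fun v => oriC w p v • rep p ((e - χ : antiF J) : X → M) v) ≤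
        Cn * Cf ^ 2 * H ^ 2 := by
      refine (hh4 _ _ (e - χ).2.1 fun v hv =>
        ⟨eventually_oriC hJ hw hv, abs_oriC_le p v⟩).trans ?_
      rw [mul_assoc, ← mul_pow]
      exact mul_le_mul_of_nonneg_left (pow_le_pow_left₀ (hnorm_nonneg A 4 zero_le_one _) hf 2) hCn
    have hub := hgen u _ (isAntiOn_source hJ hw (e - χ) p) (local_equation A hJ hw hR hu p)
      (by linarith) h4f
    have hS : 0 ≤ S₁ * H := mul_nonneg (Real.sqrt_nonneg _) hH
    have h2 := hbeta u (S₁ * H) hub hS y hy a b
    have h1 : |rep p (χ : X → M) y a b| ≤ S₁ * H := by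
      refine abs_le_of_sq_le_sq ?_ hS
      nlinarith [hχb, sq_nonneg (pd 0 (fun v => rep p (χ : X → M) v a b) y),
        sq_nonneg (pd 0 (fun v => pd 0 (fun v' => rep p (χ : X → M) v' a b) v) y)]
    nlinarith [h1, h2]
  choose C hC using key
  refine ⟨∑ i, |C i|, fun e he hanti => ?_⟩
  have hmem : e ∈ antiF J := ⟨he, fun z => by
    conv_lhs => rw [← hanti z]
    conv_rhs => rw [← hanti z]
    exact anti_panti (hJ.sq z)⟩
  set e' : antiF J := ⟨e, hmem⟩
  set H := hnorm A 4 1 e
  have hH : 0 ≤ H := hnorm_nonneg A 4 zero_le_one _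
  obtain ⟨χ, u, hχ, hu, hbd⟩ := hsplit e'
  have hPe : bilP A hJ hw e' e' ≤ A.n * 16 * H ^ 2 := by
    obtain ⟨_, _, hcells⟩ := exists_le_cells A hJ hw
    refine (hcells e').2.trans ?_
    refine (Finset.sum_le_sum (g := fun _ => 16 * H ^ 2) fun i _ => ?_).trans (le_of_eq (by
      rw [Finset.sum_const, Finset.card_univ, Fintype.card_fin, nsmul_eq_mul]; ring))
    have hci : ∀ a b, IntegrableOn (fun y => rep (A.c i) e y a b ^ 2) (cell A i) := fun a b =>
      (((he.smooth (A.c i) a b).continuousOn.pow 2).mono (cell_subset A i)).integrableOn_compact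
        (isCompact_cell A i)
    rw [integral_finsetSum _ fun a _ => integrable_finsetSum _ fun b _ => hci a b]
    refine (Finset.sum_le_sum (g := fun _ => 4 * H ^ 2) fun a _ => ?_).trans
      (le_of_eq (by simp; ring))
    rw [integral_finsetSum _ fun b _ => hci a b]
    exact (Finset.sum_le_sum (g := fun _ => H ^ 2) fun b _ =>
      setIntegral_sq_le_hnorm A e' i a b).trans (le_of_eq (by simp))
  have hbd' : bilP A hJ hw χ χ + bilB A hJ hw u u + bilP A hJ hw u u ≤ C₀ * H ^ 2 := by
    refine hbd.trans ((mul_le_mul_of_nonneg_right (le_abs_self C₁) (hP.nonneg e')).trans ?_)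
    rw [mul_assoc |C₁|]
    exact mul_le_mul_of_nonneg_left hPe (abs_nonneg C₁)
  have hf : hnorm A 4 1 ((e' - χ : antiF J) : X → M) ≤ Cf * H := by
    have h1 : hnorm A 4 1 ((e' - χ : antiF J) : X → M) ≤ H + hnorm A 4 1 (χ : X → M) := by
      rw [Submodule.coe_sub, sub_eq_add_neg, ← neg_one_smul ℝ (χ : X → M)]
      refine (hnorm_add_le A 4 zero_le_one he (χ.2.1.smul _)).trans (le_of_eq ?_)
      rw [hnorm_smul A 4 1 _ χ.2.1]
      simp [H]
    have hn1 := hB.nonneg u
    have hn2 := hP.nonneg u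
    have h2 : Real.sqrt (bilP A hJ hw χ χ) ≤ Real.sqrt C₀ * H := by
      rw [← Real.sqrt_sq hH, ← Real.sqrt_mul (mul_nonneg (abs_nonneg C₁) (by positivity))]
      exact Real.sqrt_le_sqrt (by linarith)
    have h3 := (hker χ hχ).trans (mul_le_mul_of_nonneg_left h2 hC₂)
    calc _ ≤ H + C₂ * (Real.sqrt C₀ * H) := h1.trans (add_le_add le_rfl h3)
      _ = _ := by ring
  have hβ := isForm1_betaX hJ hw u.2.1
  have hχc : IsClosedX (χ : X → M) := by
    intro p y hy i j k
    show altd (rep p (χ : X → M)) y i j k = 0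
    rw [altd_eq_dot (Eventually.of_forall fun v => skew_rep χ.2.1.skew p v),
      dTwo_eq_zero_of_bilB A hJ hw hχ hy]
    simp
  refine ⟨(χ : X → M) + dX (betaX J w (u : X → M)), χ.2.1.add (isForm_dX hβ),
    IsClosedX.add χ.2.1 (isForm_dX hβ) hχc (isClosedX_dX hβ), fun z => ?_, fun i y hy a b => ?_⟩
  · have h1 := panti_dX_betaX hJ hw (u := u) (f := e' - χ)
      (local_equation A hJ hw hR hu) z
    have h2 : pantiX J (χ : X → M) z = (χ : X → M) z := by
      rw [pantiX, panti, χ.2.2 z]
      module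
    simp only [pantiX, Pi.add_apply] at h1 h2 ⊢
    have h3 : ∀ a b : M, panti (J z) (a + b) = panti (J z) a + panti (J z) b := fun a b => by
      simp only [panti, Matrix.mul_add, Matrix.add_mul]; module
    rw [h3, h1, h2, Submodule.coe_sub, Pi.sub_apply]
    exact add_sub_cancel _ _
  · rw [rep_add, Matrix.add_apply]
    refine (abs_add_le _ _).trans ((hC i e' χ u hχ hu hbd' hf y hy a b).trans ?_)
    exact mul_le_mul_of_nonneg_right ((le_abs_self _).trans (Finset.single_le_sum
      (fun j _ => abs_nonneg (C j)) (Finset.mem_univ i))) hH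

/-- The elliptic step, with its analytic inputs supplied. -/
theorem ellipticSolve : EllipticSolve :=
  ellipticSolve_of gardingLocal (regularityLocal linearFacts) rellichTest

end Vale.Agent.P204.Tame.Mfd
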