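import Vale.Agent.P204.Tame.Mfd.Bridge
import Vale.Agent.P204.Tame.Mfd.Charts
import Vale.Agent.P204.Tame.Mfd.Global

/-!
P204: the intrinsic theorem from the global steps.
-/

namespace Vale.Agent.P204.Tame.Mfd

open scoped ContDiff Manifold Matrix Topology
open Bundle Set

variable {X : Type} [TopologicalSpace X] [ChartedSpace E X] [IsManifold 𝓘(ℝ, E) ∞ X]

lemma isACX_matEnd {J : (x : X) → TangentSpace 𝓘(ℝ, E) x →L[ℝ] TangentSpace 𝓘(ℝ, E) x}
    (hJ : SmoothEnd J) (hsq : ∀ x v, J x (J x v) = -v) : IsACX (matEnd J) where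
  smooth p i j := contDiffOn_repEnd hJ p i j
  sq z := by
    apply Matrix.ext_of_mulVec_single
    intro i
    rw [← Matrix.mulVec_mulVec, ← matEnd_apply, ← matEnd_apply, Matrix.neg_mulVec,
      Matrix.one_mulVec]
    exact hsq z _

lemma isForm_matForm {W : (x : X) → TangentSpace 𝓘(ℝ, E) x →L[ℝ] TangentSpace 𝓘(ℝ, E) x →L[ℝ] ℝ}
    (hW : IsSymplecticForm W) : IsForm (matForm W) where
  smooth p i j := contDiffOn_rep_form hW.smooth p i j
  skew z := by
    ext a b
    have h : ∀ u, formCLM W z u u = 0 := fun u => hW.alternating z u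
    have hab := h (e a + e b)
    simp only [map_add, add_apply, h (e a), h (e b)] at hab
    simp only [Matrix.transpose_apply, Matrix.neg_apply, matForm]
    linarith

lemma isClosedX_matForm
    {W : (x : X) → TangentSpace 𝓘(ℝ, E) x →L[ℝ] TangentSpace 𝓘(ℝ, E) x →L[ℝ] ℝ}
    (hW : IsSymplecticForm W) : IsClosedX (matForm W) := by
  intro p y hy i j k
  have h := (closed_iff W (isForm_matForm hW).smooth hy (e i) (e j) (e k)).symm.trans
    (hW.closed p y hy (e i) (e j) (e k))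
  simpa [e, Pi.single_apply, Finset.sum_ite_eq'] using h

/-- The compatible form of matrices gives an intrinsic compatible form. -/
lemma exists_intrinsic {J : (x : X) → TangentSpace 𝓘(ℝ, E) x →L[ℝ] TangentSpace 𝓘(ℝ, E) x}
    {θ : X → M} (hθ : IsForm θ) (hcl : IsClosedX θ)
    (hinv : ∀ z, (matEnd J z)ᵀ * θ z * matEnd J z = θ z) (ht : TamesX θ (matEnd J)) :
    ∃ Ω : (x : X) → TangentSpace 𝓘(ℝ, E) x →L[ℝ] TangentSpace 𝓘(ℝ, E) x →L[ℝ] ℝ,
      IsSymplecticForm Ω ∧ (∀ x v, v ≠ 0 → 0 < Ω x v (J x v)) ∧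
      ∀ x u v, Ω x (J x u) (J x v) = Ω x u v := by
  set Ω : (x : X) → TangentSpace 𝓘(ℝ, E) x →L[ℝ] TangentSpace 𝓘(ℝ, E) x →L[ℝ] ℝ :=
    fun x => clmForm (θ x)
  have hmat : matForm Ω = θ := funext fun z => by
    ext a b
    show clmForm (θ z) (e a) (e b) = _
    rw [clmForm_apply, val_basis]
  have htame : ∀ x (v : E), v ≠ 0 → 0 < Ω x v (J x v : E) := fun x v hv => by
    show 0 < clmForm (θ x) v (endCLM J x v)
    rw [clmForm_apply, matEnd_apply]
    exact ht x v hv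
  refine ⟨Ω, ⟨contMDiff_clmForm hθ.smooth, fun x v => ?_, fun p y hy a b c => ?_,
    fun x v hv => ⟨_, (htame x v hv).ne'⟩⟩, htame, fun x u v => ?_⟩
  · refine (clmForm_apply (θ x) v v).trans ?_
    simp only [val, dotProduct, Matrix.mulVec, Fin.sum_univ_four, skew_diag (hθ.skew x)]
    have s := skew_apply (hθ.skew x)
    rw [s 0 1, s 0 2, s 0 3, s 1 2, s 1 3, s 2 3]
    ring
  · refine (closed_iff Ω (by rw [hmat]; exact hθ.smooth) hy a b c).trans ?_
    refine Finset.sum_eq_zero fun i _ => Finset.sum_eq_zero fun j _ =>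
      Finset.sum_eq_zero fun k _ => ?_
    rw [hmat, hcl p y hy i j k, mul_zero]
  · refine ((clmForm_apply (θ x) (endCLM J x u) (endCLM J x v)).trans ?_).trans
      (clmForm_apply (θ x) u v).symm
    have key : ∀ a b : E, val (θ x) (endCLM J x a) (endCLM J x b) = val (θ x) a b := fun a b => by
      rw [matEnd_apply, matEnd_apply, ← val_congr, hinv]
    exact key u v

/-- The theorem from the five global steps. -/
theorem tamedImpliesCompatible_of (hK : KaehlerCurrent) (hP : RemovePoles) (hS : Separation)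
    (hR : ObstructionRegular) (hN : NoObstruction) : TamedImpliesCompatible := by
  intro X _ _ _ _ _ _ J W hJ hsq hW hWt
  borelize X
  obtain ⟨A⟩ := nonempty_atlas (X := X)
  have hJX := isACX_matEnd hJ hsq
  obtain ⟨w, hw⟩ := exists_isHerm hJX
  have ht : TamesX (matForm W) (matEnd J) := fun z v hv => by
    rw [← matEnd_apply, ← matForm_apply]
    exact hWt z v hv
  by_contra hne
  have hno : ¬ ∃ θ, IsForm θ ∧ IsClosedX θ ∧
      (∀ z, (matEnd J z)ᵀ * θ z * matEnd J z = θ z) ∧ TamesX θ (matEnd J) :=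
    fun ⟨θ, h1, h2, h3, h4⟩ => hne (exists_intrinsic h1 h2 h3 h4)
  obtain ⟨μ, Θ, hcur, hdom⟩ := hK X A (matEnd J) w (matForm W) hJX hw (isForm_matForm hW)
    (isClosedX_matForm hW) ht
  obtain ⟨μ₀, Θ₀, hcur₀, hdom₀, hq₀, hd₀, hν⟩ := hP X A _ w μ Θ hJX hw hcur hdom
  obtain ⟨ν, Θ', Φ, hobs, hν0⟩ := hS X A _ w hJX hw hno
  obtain ⟨hqν, hΦ⟩ := hR X A _ w ν Θ' Φ hJX hw hobs
  exact hν0 (hN X A _ w μ₀ Θ₀ ν Θ' Φ hJX hw hcur₀ hdom₀ hq₀ hd₀ hobs (hν ν hobs.finite hqν) hΦ)

end Vale.Agent.P204.Tame.Mfd
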