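import Vale.Agent.P204.Tame.Core

/-!
P204, manifold layer: fields on a four-manifold in coordinates.

A field (two-form or endomorphism) is a function `X → M`; its value at `z` is written in the
coordinates of the preferred chart at `z`. Everything is read in the chart at `p` through `rep`,
`repEnd`, `rep1`.
-/

namespace Vale.Agent.P204.Tame.Mfd

open scoped ContDiff Manifold Matrix ENNReal
open MeasureTheory

variable {X : Type*} [TopologicalSpace X] [ChartedSpace E X] [IsManifold 𝓘(ℝ, E) ∞ X]

/-- The change of coordinates of tangent vectors at `z`, from the chart at `p` to the one at `q`. -/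
noncomputable def chg (p q z : X) : M :=
  LinearMap.toMatrix' (tangentCoordChange 𝓘(ℝ, E) p q z).toLinearMap

/-- A two-form read in the chart at `p`. -/
noncomputable def rep (p : X) (u : X → M) (y : E) : M :=
  (chg p ((chartAt E p).symm y) ((chartAt E p).symm y))ᵀ * u ((chartAt E p).symm y) *
    chg p ((chartAt E p).symm y) ((chartAt E p).symm y)

/-- An endomorphism of the tangent spaces read in the chart at `p`. -/
noncomputable def repEnd (p : X) (J : X → M) (y : E) : M :=
  chg ((chartAt E p).symm y) p ((chartAt E p).symm y) * J ((chartAt E p).symm y) *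
    chg p ((chartAt E p).symm y) ((chartAt E p).symm y)

/-- A one-form read in the chart at `p`. -/
noncomputable def rep1 (p : X) (S : X → E) (y : E) : E :=
  (chg p ((chartAt E p).symm y) ((chartAt E p).symm y))ᵀ *ᵥ S ((chartAt E p).symm y)

/-- A smooth two-form. -/
structure IsForm (u : X → M) : Prop where
  smooth : ∀ p i j, ContDiffOn ℝ ∞ (fun y => rep p u y i j) (chartAt E p).target
  skew : ∀ z, (u z)ᵀ = -u z

/-- A continuous two-form. -/
structure IsContForm (u : X → M) : Prop where
  cont : ∀ p i j, ContinuousOn (fun y => rep p u y i j) (chartAt E p).target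
  skew : ∀ z, (u z)ᵀ = -u z

/-- A smooth one-form. -/
def IsForm1 (S : X → E) : Prop :=
  ∀ p i, ContDiffOn ℝ ∞ (fun y => rep1 p S y i) (chartAt E p).target

/-- A smooth almost complex structure. -/
structure IsACX (J : X → M) : Prop where
  smooth : ∀ p i j, ContDiffOn ℝ ∞ (fun y => repEnd p J y i j) (chartAt E p).target
  sq : ∀ z, J z * J z = -1

/-- A two-form is closed. -/
def IsClosedX (u : X → M) : Prop :=
  ∀ p, ∀ y ∈ (chartAt E p).target, ∀ i j k,
    pd i (fun x => rep p u x j k) y + pd j (fun x => rep p u x k i) y
      + pd k (fun x => rep p u x i j) y = 0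

/-- The exterior derivative of a one-form. -/
noncomputable def dX (S : X → E) (z : X) : M := dOne (rep1 z S) (chartAt E z z)

/-- A two-form tames `J`. -/
def TamesX (u J : X → M) : Prop := ∀ z v, v ≠ 0 → 0 < val (u z) v (J z *ᵥ v)

/-- A smooth Hermitian form: invariant and positive on complex lines. -/
structure IsHerm (J w : X → M) : Prop where
  form : IsForm w
  inv : ∀ z, (J z)ᵀ * w z * J z = w z
  tames : TamesX w J

/-- The scalar pairing of two forms relative to the Hermitian form, independent of charts. -/
noncomputable def pr (w a b : M) : ℝ := pfq a b / pfq w w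

/-- A two-form given in the chart at `p`, extended by zero. -/
noncomputable def ext (p : X) (a : E → M) (z : X) : M :=
  open scoped Classical in
  if z ∈ (chartAt E p).source then (chg z p z)ᵀ * a (chartAt E p z) * chg z p z else 0

/-- A one-form given in the chart at `p`, extended by zero. -/
noncomputable def ext1 (p : X) (a : E → E) (z : X) : E :=
  open scoped Classical in
  if z ∈ (chartAt E p).source then (chg z p z)ᵀ *ᵥ a (chartAt E p z) else 0

/-- The derivative of a map `f : X → X` at `z` in the preferred coordinates. -/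
noncomputable def dMap (f : X → X) (z : X) : M :=
  fun a j => pd j (fun y => chartAt E (f z) (f ((chartAt E z).symm y)) a) (chartAt E z z)

/-- Pullback of a two-form. -/
noncomputable def pullX (f : X → X) (u : X → M) (z : X) : M :=
  (dMap f z)ᵀ * u (f z) * dMap f z

/-- A finite atlas with a smooth partition of unity and plateau functions. -/
structure Atlas (X : Type*) [TopologicalSpace X] [ChartedSpace E X] where
  n : ℕ
  c : Fin n → X
  φ : Fin n → X → ℝ
  ζ : Fin n → X → ℝ
  φ_smooth : ∀ i, ContMDiff 𝓘(ℝ, E) 𝓘(ℝ) ∞ (φ i)
  ζ_smooth : ∀ i, ContMDiff 𝓘(ℝ, E) 𝓘(ℝ) ∞ (ζ i)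
  φ_nonneg : ∀ i z, 0 ≤ φ i z
  sum_φ : ∀ z, ∑ i, φ i z = 1
  φ_supp : ∀ i, IsCompact (tsupport (φ i)) ∧ tsupport (φ i) ⊆ (chartAt E (c i)).source
  ζ_supp : ∀ i, IsCompact (tsupport (ζ i)) ∧ tsupport (ζ i) ⊆ (chartAt E (c i)).source
  ζ_one : ∀ i, ∀ z ∈ tsupport (φ i), ζ i z = 1

/-- The volume of the Hermitian form, with chart density `|pfq w w|`. -/
noncomputable def vol [MeasurableSpace X] (A : Atlas X) (w : X → M) : Measure X :=
  ∑ i, ((volume.restrict (chartAt E (A.c i)).target).withDensity fun y =>
    ENNReal.ofReal (A.φ i ((chartAt E (A.c i)).symm y) *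
      |pfq (rep (A.c i) w y) (rep (A.c i) w y)|)).map (chartAt E (A.c i)).symm

/-- A positive invariant closed current: a measure and a field of semipositive forms, normalised
by `pr w Θ w = 1`. -/
structure IsCurrent [MeasurableSpace X] (J w : X → M) (μ : Measure X) (Θ : X → M) : Prop where
  finite : IsFiniteMeasure μ
  meas : ∀ p i j, Measurable ((chartAt E p).target.indicator fun y => rep p Θ y i j)
  psd : ∀ᵐ z ∂μ, Psd (J z) (Θ z)
  unit : ∀ᵐ z ∂μ, pr (w z) (Θ z) (w z) = 1
  closed : ∀ S, IsForm1 S → ∫ z, pr (w z) (Θ z) (dX S z) ∂μ = 0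

/-- The measure of the current read in the chart at `p`. -/
noncomputable def locMeas [MeasurableSpace X] (p : X) (J w : X → M) (μ : Measure X) (Θ : X → M) :
    Measure E :=
  ((μ.restrict (chartAt E p).source).map (chartAt E p)).withDensity fun y =>
    ENNReal.ofReal (trc (repEnd p J y) (rep p Θ y) / |pfq (rep p w y) (rep p w y)|)

/-- The field of the current read in the chart at `p`, with unit trace. -/
noncomputable def locField (p : X) (J Θ : X → M) (y : E) : M :=
  (trc (repEnd p J y) (rep p Θ y))⁻¹ • rep p Θ y

/-- One chart bump: move by `ζ • v` in the chart at `p`. -/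
noncomputable def bump (p : X) (ζ : X → ℝ) (v : E) (z : X) : X :=
  open scoped Classical in
  if z ∈ (chartAt E p).source then (chartAt E p).symm (chartAt E p z + ζ z • v) else z

/-- The composition of the bumps of an atlas, the first chart applied first. -/
noncomputable def tau (A : Atlas X) (v : Fin A.n → E) (z : X) : X :=
  (List.finRange A.n).foldl (fun x i => bump (A.c i) (A.ζ i) (v i) x) z

/-- The smoother: the average of pullbacks along `tau`. -/
noncomputable def smear (A : Atlas X) (ρ : (Fin A.n → E) → ℝ) (s : ℝ) (u : X → M) (z : X) : M :=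
  fun i j => ∫ v, ρ v * pullX (tau A (s • v)) u z i j

end Vale.Agent.P204.Tame.Mfd
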