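import Vale.Agent.P204.Tame.Normal
import Vale.Agent.P204.Tame.Mfd.Defs

/-!
P204, manifold layer: transition maps, the cocycle and the change of chart of fields.
-/

namespace Vale.Agent.P204.Tame.Mfd

open scoped ContDiff Manifold Matrix Topology
open Set

variable {X : Type*} [TopologicalSpace X] [ChartedSpace E X]

/-- The transition map from the chart at `p` to the chart at `q`. -/
noncomputable def trn (p q : X) (y : E) : E := chartAt E q ((chartAt E p).symm y)

/-- The domain of the transition map. -/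
def trnDom (p q : X) : Set E :=
  (chartAt E p).target ∩ (chartAt E p).symm ⁻¹' (chartAt E q).source

lemma isOpen_trnDom (p q : X) : IsOpen (trnDom p q) :=
  (chartAt E p).isOpen_inter_preimage_symm (chartAt E q).open_source

lemma trn_mem {p q : X} {y : E} (h : y ∈ trnDom p q) : trn p q y ∈ (chartAt E q).target :=
  (chartAt E q).map_source h.2

lemma symm_trn {p q : X} {y : E} (h : y ∈ trnDom p q) :
    (chartAt E q).symm (trn p q y) = (chartAt E p).symm y :=
  (chartAt E q).left_inv h.2

variable [IsManifold 𝓘(ℝ, E) ∞ X]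

lemma contDiffOn_trn (p q : X) : ContDiffOn ℝ ∞ (trn p q) (trnDom p q) := by
  have h := contDiffOn_ext_coord_change (I := 𝓘(ℝ, E)) (n := ∞) q p
  simp only [mfld_simps] at h
  exact h.mono fun y hy => ⟨hy.1, hy.2⟩

lemma chg_mulVec (p q z : X) (v : E) :
    chg p q z *ᵥ v = tangentCoordChange 𝓘(ℝ, E) p q z v :=
  LinearMap.toMatrix'_mulVec _ v

lemma chg_self {p z : X} (h : z ∈ (chartAt E p).source) : chg p p z = 1 := by
  apply Matrix.ext_of_mulVec_single
  intro i
  rw [chg_mulVec, Matrix.one_mulVec]
  exact tangentCoordChange_self (I := 𝓘(ℝ, E)) (by simpa [extChartAt_source] using h)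

lemma chg_comp {p q r z : X} (hp : z ∈ (chartAt E p).source) (hq : z ∈ (chartAt E q).source)
    (hr : z ∈ (chartAt E r).source) : chg q r z * chg p q z = chg p r z := by
  apply Matrix.ext_of_mulVec_single
  intro i
  rw [← Matrix.mulVec_mulVec, chg_mulVec, chg_mulVec, chg_mulVec]
  exact tangentCoordChange_comp (I := 𝓘(ℝ, E))
    (by simpa [extChartAt_source] using ⟨⟨hp, hq⟩, hr⟩)

lemma chg_mul_chg {p q z : X} (hp : z ∈ (chartAt E p).source) (hq : z ∈ (chartAt E q).source) :
    chg q p z * chg p q z = 1 := by rw [chg_comp hp hq hp, chg_self hp]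

lemma isUnit_chg {p q z : X} (hp : z ∈ (chartAt E p).source) (hq : z ∈ (chartAt E q).source) :
    IsUnit (chg p q z).det := by
  refine IsUnit.of_mul_eq_one_right (chg q p z).det ?_
  rw [← Matrix.det_mul, chg_mul_chg hp hq, Matrix.det_one]

/-- The change of coordinates is the derivative of the transition map. -/
lemma hasFDerivAt_trn {p q : X} {y : E} (h : y ∈ trnDom p q) :
    HasFDerivAt (trn p q) (tangentCoordChange 𝓘(ℝ, E) p q ((chartAt E p).symm y)) y := by
  have h' := hasFDerivWithinAt_tangentCoordChange (I := 𝓘(ℝ, E)) (x := p) (y := q)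
    (z := (chartAt E p).symm y)
    (by simpa [extChartAt_source] using ⟨(chartAt E p).map_target h.1, h.2⟩)
  simp only [mfld_simps, hasFDerivWithinAt_univ] at h'
  rw [(chartAt E p).right_inv h.1] at h'
  exact h'

lemma chg_eq_pd {p q : X} {y : E} (h : y ∈ trnDom p q) (a j : Fin 4) :
    chg p q ((chartAt E p).symm y) a j = pd j (fun x => trn p q x a) y := by
  unfold pd
  rw [(hasFDerivAt_pi'.1 (hasFDerivAt_trn h) a).fderiv]
  simp [chg, LinearMap.toMatrix'_apply, e]

lemma contDiffOn_chg (p q : X) (a j : Fin 4) :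
    ContDiffOn ℝ ∞ (fun y => chg p q ((chartAt E p).symm y) a j) (trnDom p q) := by
  refine ContDiffOn.congr ?_ fun y hy => chg_eq_pd hy a j
  have h1 : ContDiffOn ℝ ∞ (fun x => trn p q x a) (trnDom p q) :=
    contDiffOn_pi.1 (contDiffOn_trn p q) a
  exact (h1.fderiv_of_isOpen (isOpen_trnDom p q) le_rfl).clm_apply contDiffOn_const

lemma rep_center {u : X → M} (z : X) : rep z u (chartAt E z z) = u z := by
  have h := (chartAt E z).left_inv (mem_chart_source E z)
  simp [rep, h, chg_self (mem_chart_source E z)]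

lemma rep1_center {S : X → E} (z : X) : rep1 z S (chartAt E z z) = S z := by
  have h := (chartAt E z).left_inv (mem_chart_source E z)
  simp [rep1, h, chg_self (mem_chart_source E z)]

lemma repEnd_center {J : X → M} (z : X) : repEnd z J (chartAt E z z) = J z := by
  have h := (chartAt E z).left_inv (mem_chart_source E z)
  simp [repEnd, h, chg_self (mem_chart_source E z)]

/-- Change of chart of a two-form. -/
lemma rep_trn (u : X → M) {p q : X} {y : E} (h : y ∈ trnDom p q) :
    rep p u y = (chg p q ((chartAt E p).symm y))ᵀ * rep q u (trn p q y) *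
      chg p q ((chartAt E p).symm y) := by
  set z := (chartAt E p).symm y with hz
  have hp : z ∈ (chartAt E p).source := (chartAt E p).map_target h.1
  have hc := chg_comp hp h.2 (mem_chart_source E z)
  simp only [rep, symm_trn h]
  rw [← hc, Matrix.transpose_mul]
  simp only [Matrix.mul_assoc]
  rfl

/-- Change of chart of an endomorphism. -/
lemma repEnd_trn (J : X → M) {p q : X} {y : E} (h : y ∈ trnDom p q) :
    repEnd p J y = chg q p ((chartAt E p).symm y) * repEnd q J (trn p q y) *
      chg p q ((chartAt E p).symm y) := by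
  set z := (chartAt E p).symm y with hz
  have hp : z ∈ (chartAt E p).source := (chartAt E p).map_target h.1
  have hc := chg_comp hp h.2 (mem_chart_source E z)
  have hc' := chg_comp (mem_chart_source E z) h.2 hp
  simp only [repEnd, symm_trn h]
  rw [← hc, ← hc']
  simp only [Matrix.mul_assoc]
  rfl

/-- Change of chart of a one-form. -/
lemma rep1_trn (S : X → E) {p q : X} {y : E} (h : y ∈ trnDom p q) :
    rep1 p S y = (chg p q ((chartAt E p).symm y))ᵀ *ᵥ rep1 q S (trn p q y) := by
  set z := (chartAt E p).symm y with hz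
  have hp : z ∈ (chartAt E p).source := (chartAt E p).map_target h.1
  have hc := chg_comp hp h.2 (mem_chart_source E z)
  simp only [rep1, symm_trn h]
  rw [← hc, Matrix.transpose_mul, Matrix.mulVec_mulVec]

/-- A form given in a chart is read back there. -/
lemma rep_ext {p : X} (a : E → M) {y : E} (hy : y ∈ (chartAt E p).target) :
    rep p (ext p a) y = a y := by
  set z := (chartAt E p).symm y with hz
  have hp : z ∈ (chartAt E p).source := (chartAt E p).map_target hy
  have hu : chg z p z * chg p z z = 1 := chg_mul_chg hp (mem_chart_source E z)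
  simp only [rep, ext, ← hz, if_pos hp]
  rw [show chartAt E p z = y from (chartAt E p).right_inv hy]
  calc (chg p z z)ᵀ * ((chg z p z)ᵀ * a y * chg z p z) * chg p z z
      = (chg z p z * chg p z z)ᵀ * a y * (chg z p z * chg p z z) := by
        rw [Matrix.transpose_mul]; simp only [Matrix.mul_assoc]
    _ = a y := by rw [hu]; simp

lemma repEnd_sq {J : X → M} (hJ : ∀ z, J z * J z = -1) {p : X} {y : E}
    (hy : y ∈ (chartAt E p).target) : repEnd p J y * repEnd p J y = -1 := by
  set z := (chartAt E p).symm y with hz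
  have hp : z ∈ (chartAt E p).source := (chartAt E p).map_target hy
  have h1 := chg_mul_chg (p := z) (q := p) (mem_chart_source E z) hp
  have h2 := chg_mul_chg (p := p) (q := z) hp (mem_chart_source E z)
  simp only [repEnd, ← hz]
  calc chg z p z * J z * chg p z z * (chg z p z * J z * chg p z z)
      = chg z p z * J z * (chg p z z * chg z p z) * J z * chg p z z := by
        simp only [Matrix.mul_assoc]
    _ = chg z p z * (J z * J z) * chg p z z := by rw [h1]; simp [Matrix.mul_assoc]
    _ = -1 := by rw [hJ]; simp [h2]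

lemma IsACX.isACS {J : X → M} (hJ : IsACX J) (p : X) :
    IsACS (chartAt E p).target (repEnd p J) where
  isOpen := (chartAt E p).open_target
  smooth := hJ.smooth p
  sq := fun _ hy => repEnd_sq hJ.sq hy

/-- Smoothness of a form may be checked in any covering family of charts. -/
lemma contDiffOn_rep_of {u : X → M} {ι : Type*} (c : ι → X)
    (hcov : ∀ z, ∃ i, z ∈ (chartAt E (c i)).source)
    (h : ∀ i a b, ContDiffOn ℝ ∞ (fun y => rep (c i) u y a b) (chartAt E (c i)).target)
    (p : X) (a b : Fin 4) :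
    ContDiffOn ℝ ∞ (fun y => rep p u y a b) (chartAt E p).target := by
  intro y hy
  obtain ⟨i, hi⟩ := hcov ((chartAt E p).symm y)
  have hy' : y ∈ trnDom p (c i) := ⟨hy, hi⟩
  have key : ContDiffOn ℝ ∞ (fun y => rep p u y a b) (trnDom p (c i)) := by
    refine ContDiffOn.congr ?_ fun x hx => congrFun (congrFun (rep_trn u hx) a) b
    simp only [Matrix.mul_apply, Matrix.transpose_apply]
    refine ContDiffOn.sum fun k _ => ContDiffOn.mul (ContDiffOn.sum fun l _ => ?_)
      (contDiffOn_chg _ _ _ _)
    exact (contDiffOn_chg _ _ _ _).mul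
      ((h i l k).comp (contDiffOn_trn p (c i)) fun x hx => trn_mem hx)
  exact ((key y hy').contDiffAt ((isOpen_trnDom p (c i)).mem_nhds hy')).contDiffWithinAt

/-! ### Pointwise linear algebra under a change of coordinates -/

lemma skew_congr {u : M} (P : M) (hu : uᵀ = -u) : (Pᵀ * u * P)ᵀ = -(Pᵀ * u * P) := by
  simp [Matrix.transpose_mul, hu, Matrix.mul_assoc]

lemma congr_inv {J u P Q : M} (hPQ : P * Q = 1) :
    (Q * J * P)ᵀ * (Pᵀ * u * P) * (Q * J * P) = Pᵀ * (Jᵀ * u * J) * P := by
  have h' : Qᵀ * Pᵀ = 1 := by rw [← Matrix.transpose_mul, hPQ, Matrix.transpose_one]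
  calc (Q * J * P)ᵀ * (Pᵀ * u * P) * (Q * J * P)
      = Pᵀ * Jᵀ * (Qᵀ * Pᵀ) * u * (P * Q) * J * P := by
        simp only [Matrix.transpose_mul, Matrix.mul_assoc]
    _ = Pᵀ * (Jᵀ * u * J) * P := by rw [h', hPQ]; simp [Matrix.mul_assoc]

lemma pinv_congr {J u P Q : M} (hPQ : P * Q = 1) :
    pinv (Q * J * P) (Pᵀ * u * P) = Pᵀ * pinv J u * P := by
  rw [pinv, pinv, congr_inv hPQ]; simp [Matrix.mul_add, Matrix.add_mul]

lemma panti_congr {J u P Q : M} (hPQ : P * Q = 1) :
    panti (Q * J * P) (Pᵀ * u * P) = Pᵀ * panti J u * P := by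
  rw [panti, panti, congr_inv hPQ]; simp [Matrix.mul_sub, Matrix.sub_mul]

lemma val_congr_end {J u P Q : M} (hPQ : P * Q = 1) (v : E) :
    val (Pᵀ * u * P) v ((Q * J * P) *ᵥ v) = val u (P *ᵥ v) (J *ᵥ (P *ᵥ v)) := by
  rw [val_congr, Matrix.mulVec_mulVec]
  simp only [← Matrix.mul_assoc, hPQ, Matrix.one_mul, Matrix.mulVec_mulVec]

lemma psd_congr {J u P Q : M} (hPQ : P * Q = 1) (h : Psd J u) :
    Psd (Q * J * P) (Pᵀ * u * P) where
  skew := skew_congr P h.skew
  inv := by rw [congr_inv hPQ, h.inv]
  nonneg := fun v => by rw [val_congr_end hPQ]; exact h.nonneg _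

lemma pr_congr {w a b : M} {P : M} (hP : IsUnit P.det) (hw : wᵀ = -w) (ha : aᵀ = -a)
    (hb : bᵀ = -b) : pr (Pᵀ * w * P) (Pᵀ * a * P) (Pᵀ * b * P) = pr w a b := by
  rw [pr, pr, pfq_congr_skew P ha hb, pfq_congr_skew P hw hw,
    mul_div_mul_left _ _ hP.ne_zero]

end Vale.Agent.P204.Tame.Mfd
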