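import Vale.Agent.P204.Defs

/-!
P204: the statement of the tamed to compatible theorem for closed four-manifolds, in Mathlib terms.
-/

namespace Vale.Agent.P204

open scoped ContDiff Manifold
open Bundle

variable {X : Type} [TopologicalSpace X] [ChartedSpace E X]

/-- A smooth field of endomorphisms of the tangent spaces. -/
def SmoothEnd [IsManifold 𝓘(ℝ, E) ∞ X]
    (J : (x : X) → TangentSpace 𝓘(ℝ, E) x →L[ℝ] TangentSpace 𝓘(ℝ, E) x) : Prop :=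
  ContMDiff 𝓘(ℝ, E) (𝓘(ℝ, E).prod 𝓘(ℝ, E →L[ℝ] E)) ∞
    fun x : X ↦ TotalSpace.mk' (E →L[ℝ] E) x (J x)

/-- A symplectic form: smooth, alternating, closed in every chart, nondegenerate. -/
structure IsSymplecticForm [IsManifold 𝓘(ℝ, E) ∞ X]
    (W : (x : X) → TangentSpace 𝓘(ℝ, E) x →L[ℝ] TangentSpace 𝓘(ℝ, E) x →L[ℝ] ℝ) : Prop where
  smooth : ContMDiff 𝓘(ℝ, E) (𝓘(ℝ, E).prod 𝓘(ℝ, E →L[ℝ] E →L[ℝ] ℝ)) ∞
    fun x : X ↦ TotalSpace.mk' (E →L[ℝ] E →L[ℝ] ℝ) x (W x)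
  alternating : ∀ x v, W x v v = 0
  closed : ∀ p : X, ∀ y ∈ (chartAt E p).target, ∀ a b c : E,
    let s := (chartAt E p).symm
    let pull := fun u v : E ↦ fun y : E ↦
      W (s y) (mfderiv 𝓘(ℝ, E) 𝓘(ℝ, E) s y u) (mfderiv 𝓘(ℝ, E) 𝓘(ℝ, E) s y v)
    fderiv ℝ (pull b c) y a + fderiv ℝ (pull c a) y b + fderiv ℝ (pull a b) y c = 0
  nondegenerate : ∀ x v, v ≠ 0 → ∃ w, W x v w ≠ 0

/-- Donaldson's question: on a closed connected four-manifold, a tamed almost complex structure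
has a compatible symplectic form. -/
def TamedImpliesCompatible : Prop :=
  ∀ (X : Type) [TopologicalSpace X] [T2Space X] [CompactSpace X] [ConnectedSpace X]
    [ChartedSpace E X] [IsManifold 𝓘(ℝ, E) ∞ X]
    (J : (x : X) → TangentSpace 𝓘(ℝ, E) x →L[ℝ] TangentSpace 𝓘(ℝ, E) x)
    (W : (x : X) → TangentSpace 𝓘(ℝ, E) x →L[ℝ] TangentSpace 𝓘(ℝ, E) x →L[ℝ] ℝ),
    SmoothEnd J → (∀ x v, J x (J x v) = -v) →
    IsSymplecticForm W → (∀ x v, v ≠ 0 → 0 < W x v (J x v)) →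
    ∃ Ω : (x : X) → TangentSpace 𝓘(ℝ, E) x →L[ℝ] TangentSpace 𝓘(ℝ, E) x →L[ℝ] ℝ,
      IsSymplecticForm Ω ∧ (∀ x v, v ≠ 0 → 0 < Ω x v (J x v)) ∧
      ∀ x u v, Ω x (J x u) (J x v) = Ω x u v

end Vale.Agent.P204
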