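import Vale.Agent.P204.Tame.Mfd.Alg
import Vale.Agent.P204.Tame.Mfd.Statement

/-!
P204, manifold layer: intrinsic endomorphism fields and two-forms against fields of matrices
in coordinates.
-/

namespace Vale.Agent.P204.Tame.Mfd

open scoped ContDiff Manifold Matrix Topology
open Bundle Set

variable {X : Type} [TopologicalSpace X] [ChartedSpace E X]

/-- An endomorphism of a tangent space as a map of coordinate space. -/
noncomputable def endCLM (J : (x : X) → TangentSpace 𝓘(ℝ, E) x →L[ℝ] TangentSpace 𝓘(ℝ, E) x)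
    (z : X) : E →L[ℝ] E := J z

/-- A bilinear form on a tangent space as one on coordinate space. -/
noncomputable def formCLM
    (W : (x : X) → TangentSpace 𝓘(ℝ, E) x →L[ℝ] TangentSpace 𝓘(ℝ, E) x →L[ℝ] ℝ) (z : X) :
    E →L[ℝ] E →L[ℝ] ℝ := W z

/-- The matrix of an endomorphism in the preferred coordinates. -/
noncomputable def matEnd (J : (x : X) → TangentSpace 𝓘(ℝ, E) x →L[ℝ] TangentSpace 𝓘(ℝ, E) x)
    (z : X) : M :=
  fun a b => endCLM J z (e b) a

/-- The matrix of a bilinear form in the preferred coordinates. -/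
noncomputable def matForm
    (W : (x : X) → TangentSpace 𝓘(ℝ, E) x →L[ℝ] TangentSpace 𝓘(ℝ, E) x →L[ℝ] ℝ) (z : X) : M :=
  fun a b => formCLM W z (e a) (e b)

/-- The bilinear form of a matrix. -/
noncomputable def clmForm (u : M) : E →L[ℝ] E →L[ℝ] ℝ :=
  ∑ a, ∑ b, u a b • (ContinuousLinearMap.proj (R := ℝ) (φ := fun _ : Fin 4 => ℝ) a).smulRight
    (ContinuousLinearMap.proj (R := ℝ) (φ := fun _ : Fin 4 => ℝ) b)

lemma clmForm_apply (u : M) (v w : E) : clmForm u v w = val u v w := by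
  simp [clmForm, val, dotProduct, Matrix.mulVec, Finset.mul_sum]
  exact Finset.sum_congr rfl fun a _ => Finset.sum_congr rfl fun b _ => by ring

lemma val_basis (u : M) (a b : Fin 4) : val u (e a) (e b) = u a b := by
  simp [val, e]

lemma bilin_eq_val (B : E →L[ℝ] E →L[ℝ] ℝ) (v w : E) :
    B v w = val (fun a b => B (e a) (e b)) v w := by
  have hv : ∀ x : E, x = ∑ a, x a • e a := fun x => by
    funext k; simp [e, Finset.sum_apply, Pi.single_apply]
  conv_lhs => rw [hv v, hv w]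
  simp [val, dotProduct, Matrix.mulVec, Finset.mul_sum]
  rw [Finset.sum_comm]
  exact Finset.sum_congr rfl fun a _ => Finset.sum_congr rfl fun b _ => by ring

lemma matForm_apply (W : (x : X) → TangentSpace 𝓘(ℝ, E) x →L[ℝ] TangentSpace 𝓘(ℝ, E) x →L[ℝ] ℝ)
    (z : X) (v w : E) : formCLM W z v w = val (matForm W z) v w :=
  bilin_eq_val _ v w

lemma matEnd_apply (J : (x : X) → TangentSpace 𝓘(ℝ, E) x →L[ℝ] TangentSpace 𝓘(ℝ, E) x)
    (z : X) (v : E) : endCLM J z v = matEnd J z *ᵥ v := by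
  have hv : v = ∑ a, v a • e a := by funext k; simp [e, Finset.sum_apply, Pi.single_apply]
  conv_lhs => rw [hv]
  funext k
  simp [matEnd, Matrix.mulVec, dotProduct, Finset.sum_apply, mul_comm]

variable [IsManifold 𝓘(ℝ, E) ∞ X]

lemma symmL_eq_chg {p z : X} (hz : z ∈ (chartAt E p).source) (v : E) :
    (trivializationAt E (TangentSpace 𝓘(ℝ, E)) p).symmL ℝ z v = (chg p z z *ᵥ v : E) := by
  rw [TangentBundle.symmL_trivializationAt_eq_core hz, chg_mulVec]
  rfl

lemma continuousLinearMapAt_eq_chg {p z : X} (hz : z ∈ (chartAt E p).source) (v : E) :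
    (trivializationAt E (TangentSpace 𝓘(ℝ, E)) p).continuousLinearMapAt ℝ z v =
      (chg z p z *ᵥ v : E) := by
  rw [TangentBundle.continuousLinearMapAt_trivializationAt_eq_core hz, chg_mulVec]
  rfl

lemma mem_base {p z : X} (hz : z ∈ (chartAt E p).source) :
    z ∈ (trivializationAt E (TangentSpace 𝓘(ℝ, E)) p).baseSet := by
  simpa using hz

/-- An endomorphism field in the coordinates of a chart. -/
lemma inCoordinates_end (J : (x : X) → TangentSpace 𝓘(ℝ, E) x →L[ℝ] TangentSpace 𝓘(ℝ, E) x)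
    {p z : X} (hz : z ∈ (chartAt E p).source) (v : E) :
    ContinuousLinearMap.inCoordinates E (TangentSpace 𝓘(ℝ, E)) E (TangentSpace 𝓘(ℝ, E))
      p z p z (J z) v = repEnd p (matEnd J) (chartAt E p z) *ᵥ v := by
  rw [ContinuousLinearMap.inCoordinates_eq (mem_base hz) (mem_base hz)]
  simp only [ContinuousLinearMap.comp_apply, ContinuousLinearEquiv.coe_coe]
  have h1 : ∀ x, (trivializationAt E (TangentSpace 𝓘(ℝ, E)) p).continuousLinearEquivAt ℝ z
      (mem_base hz) x = (trivializationAt E (TangentSpace 𝓘(ℝ, E)) p).continuousLinearMapAt ℝ z x :=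
    fun x => by simp [Trivialization.coe_continuousLinearEquivAt_eq _ (mem_base hz)]
  have h2 : ∀ x, ((trivializationAt E (TangentSpace 𝓘(ℝ, E)) p).continuousLinearEquivAt ℝ z
      (mem_base hz)).symm x = (trivializationAt E (TangentSpace 𝓘(ℝ, E)) p).symmL ℝ z x :=
    fun x => (Trivialization.symmL_apply (R := ℝ) _ (mem_base hz) x).symm
  rw [h2, h1, symmL_eq_chg hz]
  erw [continuousLinearMapAt_eq_chg hz]
  show chg z p z *ᵥ endCLM J z (chg p z z *ᵥ v) = _
  rw [matEnd_apply]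
  simp only [repEnd, (chartAt E p).left_inv hz, Matrix.mulVec_mulVec, Matrix.mul_assoc]

/-- A bilinear form field in the coordinates of a chart. -/
lemma inCoordinates_form
    (W : (x : X) → TangentSpace 𝓘(ℝ, E) x →L[ℝ] TangentSpace 𝓘(ℝ, E) x →L[ℝ] ℝ)
    {p z : X} (hz : z ∈ (chartAt E p).source) :
    ContinuousLinearMap.inCoordinates E (TangentSpace 𝓘(ℝ, E)) (E →L[ℝ] ℝ)
      (fun x : X => TangentSpace 𝓘(ℝ, E) x →L[ℝ] ℝ) p z p z (W z) =
      clmForm (rep p (matForm W) (chartAt E p z)) := by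
  ext v w
  rw [inCoordinates_apply_eq₂ (mem_base hz) (mem_base hz) (mem_univ _), clmForm_apply]
  rw [← Trivialization.symmL_apply (R := ℝ) _ (mem_base hz),
    ← Trivialization.symmL_apply (R := ℝ) _ (mem_base hz),
    symmL_eq_chg hz, symmL_eq_chg hz]
  simp only [Trivial.fiberBundle_trivializationAt', Trivial.linearMapAt_trivialization,
    LinearMap.id_coe, id_eq]
  show formCLM W z (chg p z z *ᵥ v) (chg p z z *ᵥ w) = _
  rw [matForm_apply]
  simp only [rep, (chartAt E p).left_inv hz, val_congr]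

/-- Smoothness of an intrinsic endomorphism field gives smoothness in every chart. -/
lemma contDiffOn_repEnd {J : (x : X) → TangentSpace 𝓘(ℝ, E) x →L[ℝ] TangentSpace 𝓘(ℝ, E) x}
    (hJ : SmoothEnd J) (p : X) (a b : Fin 4) :
    ContDiffOn ℝ ∞ (fun y => repEnd p (matEnd J) y a b) (chartAt E p).target := by
  intro y hy
  have hz := (chartAt E p).map_target hy
  set t := trivializationAt (E →L[ℝ] E)
    (fun x : X => TangentSpace 𝓘(ℝ, E) x →L[ℝ] TangentSpace 𝓘(ℝ, E) x) p
  have h := (t.contMDiffAt_section_iff (IB := 𝓘(ℝ, E)) (n := ∞)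
    (x₀ := (chartAt E p).symm y) (by simp [t, hz])).1 (hJ _)
  have h2 : ContMDiffAt 𝓘(ℝ, E) 𝓘(ℝ, E →L[ℝ] E) ∞
      ((fun x => (t ⟨x, J x⟩).2) ∘ (chartAt E p).symm) y :=
    h.comp y (contMDiffOn_chart_symm.contMDiffAt ((chartAt E p).open_target.mem_nhds hy))
  have h3 : ContDiffAt ℝ ∞ (fun x => ((t ⟨(chartAt E p).symm x, J ((chartAt E p).symm x)⟩).2) (e b) a)
      y := contDiffAt_pi.1 ((contMDiffAt_iff_contDiffAt.1 h2).clm_apply contDiffAt_const) a
  refine (h3.congr_of_eventuallyEq ?_).contDiffWithinAt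
  filter_upwards [(chartAt E p).open_target.mem_nhds hy] with x hx
  show repEnd p (matEnd J) x a b = ((t ⟨(chartAt E p).symm x, _⟩).2) (e b) a
  rw [hom_trivializationAt_apply, inCoordinates_end J ((chartAt E p).map_target hx),
    (chartAt E p).right_inv hx]
  simp [e]

set_option synthInstance.maxHeartbeats 400000 in
/-- Smoothness of an intrinsic form gives smoothness in every chart. -/
lemma contDiffOn_rep_form
    {W : (x : X) → TangentSpace 𝓘(ℝ, E) x →L[ℝ] TangentSpace 𝓘(ℝ, E) x →L[ℝ] ℝ}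
    (hW : ContMDiff 𝓘(ℝ, E) (𝓘(ℝ, E).prod 𝓘(ℝ, E →L[ℝ] E →L[ℝ] ℝ)) ∞
      fun x : X ↦ TotalSpace.mk' (E →L[ℝ] E →L[ℝ] ℝ) x (W x)) (p : X) (a b : Fin 4) :
    ContDiffOn ℝ ∞ (fun y => rep p (matForm W) y a b) (chartAt E p).target := by
  intro y hy
  have hz := (chartAt E p).map_target hy
  set t := trivializationAt (E →L[ℝ] E →L[ℝ] ℝ)
    (fun x : X => TangentSpace 𝓘(ℝ, E) x →L[ℝ] TangentSpace 𝓘(ℝ, E) x →L[ℝ] ℝ) p
  have h := (t.contMDiffAt_section_iff (IB := 𝓘(ℝ, E)) (n := ∞)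
    (x₀ := (chartAt E p).symm y) (by simp [t, hz])).1 (hW _)
  have h2 : ContMDiffAt 𝓘(ℝ, E) 𝓘(ℝ, E →L[ℝ] E →L[ℝ] ℝ) ∞
      ((fun x => (t ⟨x, W x⟩).2) ∘ (chartAt E p).symm) y :=
    h.comp y (contMDiffOn_chart_symm.contMDiffAt ((chartAt E p).open_target.mem_nhds hy))
  have h3 : ContDiffAt ℝ ∞
      (fun x => ((t ⟨(chartAt E p).symm x, W ((chartAt E p).symm x)⟩).2) (e a) (e b)) y :=
    ((contMDiffAt_iff_contDiffAt.1 h2).clm_apply contDiffAt_const).clm_apply contDiffAt_const
  refine (h3.congr_of_eventuallyEq ?_).contDiffWithinAt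
  filter_upwards [(chartAt E p).open_target.mem_nhds hy] with x hx
  show rep p (matForm W) x a b = ((t ⟨(chartAt E p).symm x, _⟩).2) (e a) (e b)
  rw [hom_trivializationAt_apply, inCoordinates_form W ((chartAt E p).map_target hx),
    (chartAt E p).right_inv hx, clmForm_apply, val_basis]

set_option synthInstance.maxHeartbeats 400000 in
/-- Forms smooth in every chart give smooth intrinsic forms. -/
lemma contMDiff_clmForm {u : X → M}
    (hu : ∀ p a b, ContDiffOn ℝ ∞ (fun y => rep p u y a b) (chartAt E p).target) :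
    ContMDiff 𝓘(ℝ, E) (𝓘(ℝ, E).prod 𝓘(ℝ, E →L[ℝ] E →L[ℝ] ℝ)) ∞
      fun x : X ↦ TotalSpace.mk' (E →L[ℝ] E →L[ℝ] ℝ)
        (E := fun x : X => TangentSpace 𝓘(ℝ, E) x →L[ℝ] TangentSpace 𝓘(ℝ, E) x →L[ℝ] ℝ) x
        (clmForm (u x)) := by
  intro p
  set W : (x : X) → TangentSpace 𝓘(ℝ, E) x →L[ℝ] TangentSpace 𝓘(ℝ, E) x →L[ℝ] ℝ :=
    fun x => clmForm (u x) with hW
  have hmat : matForm W = u := funext fun z => by
    ext a b
    show clmForm (u z) (e a) (e b) = _
    rw [clmForm_apply, val_basis]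
  have hz := mem_chart_source E p
  set t := trivializationAt (E →L[ℝ] E →L[ℝ] ℝ)
    (fun x : X => TangentSpace 𝓘(ℝ, E) x →L[ℝ] TangentSpace 𝓘(ℝ, E) x →L[ℝ] ℝ) p
  refine (t.contMDiffAt_section_iff (IB := 𝓘(ℝ, E)) (n := ∞) (s := W)
    (by simp [t, hz])).2 ?_
  have hF : ContDiffOn ℝ ∞ (fun y => clmForm (rep p u y)) (chartAt E p).target := by
    refine contDiffOn_clm_apply.2 fun v => contDiffOn_clm_apply.2 fun w => ?_
    simp only [clmForm_apply, val, dotProduct, Matrix.mulVec]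
    have := hu p
    fun_prop
  have h1 : ContMDiffAt 𝓘(ℝ, E) 𝓘(ℝ, E →L[ℝ] E →L[ℝ] ℝ) ∞
      ((fun y => clmForm (rep p u y)) ∘ chartAt E p) p :=
    (hF.contDiffAt ((chartAt E p).open_target.mem_nhds ((chartAt E p).map_source hz))).contMDiffAt
      |>.comp p (contMDiffOn_chart.contMDiffAt ((chartAt E p).open_source.mem_nhds hz))
  refine h1.congr_of_eventuallyEq ?_
  filter_upwards [(chartAt E p).open_source.mem_nhds hz] with x hx
  rw [hom_trivializationAt_apply]
  show _ = clmForm (rep p u (chartAt E p x))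
  rw [← hmat]
  exact inCoordinates_form W hx

/-- The derivative of an inverse chart. -/
lemma mfderiv_symm {p : X} {y : E} (hy : y ∈ (chartAt E p).target) (v : E) :
    mfderiv 𝓘(ℝ, E) 𝓘(ℝ, E) (chartAt E p).symm y v =
      (chg p ((chartAt E p).symm y) ((chartAt E p).symm y) *ᵥ v : E) := by
  have key : ∀ z, z ∈ (chartAt E p).source →
      mfderiv 𝓘(ℝ, E) 𝓘(ℝ, E) (chartAt E p).symm (chartAt E p z) v = (chg p z z *ᵥ v : E) := by
    intro z hz
    rw [← symmL_eq_chg hz, TangentBundle.symmL_trivializationAt hz]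
    simp
    rfl
  obtain ⟨z, hz, rfl⟩ : ∃ z ∈ (chartAt E p).source, chartAt E p z = y :=
    ⟨_, (chartAt E p).map_target hy, (chartAt E p).right_inv hy⟩
  rw [(chartAt E p).left_inv hz]
  exact key z hz

/-- Closedness of the intrinsic form and of its matrix field agree. -/
lemma closed_iff (W : (x : X) → TangentSpace 𝓘(ℝ, E) x →L[ℝ] TangentSpace 𝓘(ℝ, E) x →L[ℝ] ℝ)
    (hs : ∀ p a b, ContDiffOn ℝ ∞ (fun y => rep p (matForm W) y a b) (chartAt E p).target)
    {p : X} {y : E} (hy : y ∈ (chartAt E p).target) (a b c : E) :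
    let s := (chartAt E p).symm
    let pull := fun u v : E ↦ fun y : E ↦
      W (s y) (mfderiv 𝓘(ℝ, E) 𝓘(ℝ, E) s y u) (mfderiv 𝓘(ℝ, E) 𝓘(ℝ, E) s y v)
    fderiv ℝ (pull b c) y a + fderiv ℝ (pull c a) y b + fderiv ℝ (pull a b) y c =
      ∑ i, ∑ j, ∑ k, a i * b j * c k * (pd i (fun x => rep p (matForm W) x j k) y +
        pd j (fun x => rep p (matForm W) x k i) y + pd k (fun x => rep p (matForm W) x i j) y) := by
  intro s pull
  set R := fun x => rep p (matForm W) x
  have hd : ∀ i j, DifferentiableAt ℝ (fun x => R x i j) y := fun i j =>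
    ((hs p i j).contDiffAt ((chartAt E p).open_target.mem_nhds hy)).differentiableAt (by simp)
  have hsum : ∀ x : E, x = ∑ i, x i • e i := fun x => by
    funext k; simp [e, Finset.sum_apply, Pi.single_apply]
  have key : ∀ u v w : E, fderiv ℝ (pull u v) y w =
      ∑ i, ∑ j, ∑ k, w i * u j * v k * pd i (fun x => R x j k) y := by
    intro u v w
    have he : pull u v =ᶠ[𝓝 y] fun x => ∑ j, ∑ k, u j * v k * R x j k := by
      filter_upwards [(chartAt E p).open_target.mem_nhds hy] with x hx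
      show formCLM W (s x) (mfderiv 𝓘(ℝ, E) 𝓘(ℝ, E) s x u)
        (mfderiv 𝓘(ℝ, E) 𝓘(ℝ, E) s x v) = _
      erw [mfderiv_symm hx, mfderiv_symm hx, matForm_apply W (s x), ← val_congr]
      simp only [val, dotProduct, Matrix.mulVec, Finset.mul_sum, R, rep, s]
      exact Finset.sum_congr rfl fun j _ => Finset.sum_congr rfl fun k _ => by ring
    rw [he.fderiv_eq, fderiv_fun_sum fun j _ => DifferentiableAt.fun_sum fun k _ =>
      (hd j k).const_mul _, sum_apply, Finset.sum_comm (γ := Fin 4)]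
    refine Finset.sum_congr rfl fun j _ => ?_
    rw [fderiv_fun_sum fun k _ => (hd j k).const_mul _, sum_apply, Finset.sum_comm (γ := Fin 4)]
    refine Finset.sum_congr rfl fun k _ => ?_
    rw [fderiv_const_mul (hd j k), smul_apply, smul_eq_mul]
    conv_lhs => rw [hsum w]
    simp only [map_sum, map_smul, smul_eq_mul, Finset.mul_sum, pd]
    exact Finset.sum_congr rfl fun i _ => by ring
  simp only [key, mul_add, Finset.sum_add_distrib]
  have hcyc : ∀ F : Fin 4 → Fin 4 → Fin 4 → ℝ,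
      ∑ i, ∑ j, ∑ k, F i j k = ∑ i, ∑ j, ∑ k, F k i j := fun F => by
    rw [Finset.sum_comm]
    exact Finset.sum_congr rfl fun j _ => Finset.sum_comm
  refine congrArg₂ (· + ·) (congrArg₂ (· + ·) rfl ?_) ?_
  · rw [hcyc, hcyc]
    exact Finset.sum_congr rfl fun i _ => Finset.sum_congr rfl fun j _ =>
      Finset.sum_congr rfl fun k _ => by simp only [R]; ring
  · rw [hcyc]
    exact Finset.sum_congr rfl fun i _ => Finset.sum_congr rfl fun j _ =>
      Finset.sum_congr rfl fun k _ => by simp only [R]; ring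

end Vale.Agent.P204.Tame.Mfd
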