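import Vale.Agent.P204.Tame.Loc.TDef
import Vale.Agent.P204.Tame.Loc.Alg
import Vale.Agent.P204.Tame.Mfd.Current

/-!
A positive field on the manifold read in a chart as a positive field of unit trace, and the
pairing with forms supported in the chart.
-/

namespace Vale.Agent.P204.Tame.Mfd

open scoped ContDiff Manifold Topology ENNReal Matrix
open MeasureTheory Set

variable {X : Type} [TopologicalSpace X] [ChartedSpace E X] [IsManifold 𝓘(ℝ, E) ∞ X]
  [MeasurableSpace X] [BorelSpace X] [T2Space X] [CompactSpace X]

theorem isPosField_chart {J w : X → M} (hJ : IsACX J) (hw : IsHerm J w) {μ : Measure X}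
    {Θ : X → M} (hfinite : IsFiniteMeasure μ)
    (hmeas : ∀ p i j, Measurable ((chartAt E p).target.indicator fun y => rep p Θ y i j))
    (hpsd : ∀ᵐ z ∂μ, Psd (J z) (Θ z)) (hunit : ∀ᵐ z ∂μ, pr (w z) (Θ z) (w z) = 1)
    (p : X) {K : Set E} (hK : K ⊆ (chartAt E p).target) (hKc : IsCompact K) :
    IsPosField K (repEnd p J) (locMeas p J w μ Θ)
      (fun y i j => (chartAt E p).target.indicator (fun x => locField p J Θ x i j) y) := by
  classical
  have := hfinite
  have hfin := isFiniteMeasure_chartMeas p μ
  obtain ⟨A⟩ := nonempty_atlas (X := X)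
  set t := (chartAt E p).target
  set c := chartAt E p
  have hJc : ∀ a b, ContinuousOn (fun y => repEnd p J y a b) t := fun a b =>
    (hJ.smooth p a b).continuousOn
  have hkm : ∀ a b, Measurable (t.indicator fun y => kmat (repEnd p J y) a b) := fun a b => by
    refine measurable_indicator_of_continuousOn c.open_target ?_
    simp only [kmat, hmat, Matrix.mul_apply, Matrix.add_apply, Matrix.transpose_apply]
    fun_prop
  have htr : Measurable (t.indicator fun y => trc (repEnd p J y) (rep p Θ y)) := by
    have : (t.indicator fun y => trc (repEnd p J y) (rep p Θ y)) = fun y => -∑ a, ∑ b,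
        t.indicator (fun y => kmat (repEnd p J y) a b) y *
          t.indicator (fun y => rep p Θ y a b) y := by
      funext y
      by_cases hy : y ∈ t <;> simp [trc, hy]
    rw [this]
    exact (Finset.measurable_sum _ fun a _ => Finset.measurable_sum _ fun b _ =>
      (hkm a b).mul (hmeas p a b)).neg
  have hpw : Measurable (t.indicator fun y => |pfq (rep p w y) (rep p w y)|) := by
    refine measurable_indicator_of_continuousOn c.open_target ?_
    have := hw.form.cont.cont p
    simp only [pfq]
    fun_prop
  set D : E → ℝ := fun y => t.indicator (fun y => trc (repEnd p J y) (rep p Θ y)) y /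
    t.indicator (fun y => |pfq (rep p w y) (rep p w y)|) y with hD
  have hDm : Measurable D := htr.div hpw
  have hbase := ae_chart_current hJ hw hpsd hunit p
  have hloc : locMeas p J w μ Θ = (chartMeas p μ).withDensity fun y => ENNReal.ofReal (D y) := by
    refine withDensity_congr_ae ?_
    filter_upwards [hbase] with y hy
    simp [D, t, hy.1]
  have hae : ∀ {P : E → Prop}, (∀ᵐ y ∂chartMeas p μ, P y) →
      ∀ᵐ y ∂(locMeas p J w μ Θ).restrict t, P y := fun hP => by
    rw [hloc]
    exact ae_restrict_of_ae ((withDensity_absolutelyContinuous _ _).ae_le hP)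
  have hres : ∀ {P : E → Prop}, (∀ᵐ y ∂(locMeas p J w μ Θ).restrict t, P y) →
      ∀ᵐ y ∂(locMeas p J w μ Θ).restrict K, P y := fun hP =>
    ae_restrict_of_ae_restrict_of_subset hK hP
  refine ⟨?_, ?_, ?_, ?_⟩
  · 
    obtain ⟨χ, hχ1, hχ2, hχ3, hχ4⟩ := exists_cutoff
      (hKc.image_of_continuousOn (c.continuousOn_symm.mono hK)) c.open_source
      (by rintro _ ⟨y, hy, rfl⟩; exact c.map_target (hK hy))
    set a : E → M := fun y => χ (c.symm y) • dualF (-kmat (repEnd p J y))
    have hu : IsContForm (ext p a) := by
      refine isContForm_ext p (hχ2.image_of_continuousOn (c.continuousOn.mono hχ3)) ?_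
        (fun y hy hn => ?_) (fun i j => (continuousOn_read hχ1.continuous p).mul
          (continuousOn_kmat hJc i j)) (fun y hy => by simp [a, skew_dualF])
      · rintro _ ⟨z, hz, rfl⟩
        exact c.map_source (hχ3 hz)
      · have : χ (c.symm y) = 0 :=
          image_eq_zero_of_notMem_tsupport fun h' => hn ⟨_, h', c.right_inv hy⟩
        simp [a, this]
    obtain ⟨C, hC⟩ := exists_pr_bound A hJ hw hu
    have hb : ∀ᵐ y ∂chartMeas p μ, y ∈ K → D y ≤ C := by
      filter_upwards [ae_chartMeas p (hpsd.and hunit)] with y ⟨hy, h1, h2⟩ hyK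
      have h3 := hC (c.symm y) (Θ (c.symm y)) h1
      rw [h2, mul_one] at h3
      refine le_trans ?_ h3
      have hval : pr (rep p w y) (rep p Θ y) (rep p (ext p a) y) =
          pr (w (c.symm y)) (Θ (c.symm y)) (ext p a (c.symm y)) := by
        rw [rep, rep, rep]
        exact pr_congr (isUnit_chg (c.map_target hy) (mem_chart_source E _)) (hw.form.skew _)
          h1.skew (hu.skew _)
      rw [← hval, rep_ext _ hy]
      have hsk : (rep p Θ y)ᵀ = -rep p Θ y := skew_congr _ h1.skew
      simp only [a, hχ4 _ ⟨y, hyK, rfl⟩, one_smul, pr]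
      rw [pfq_comm (rep p Θ y), ← trc_eq_pfq _ hsk, abs_div]
      simp only [D, t, indicator_of_mem hy]
      gcongr
      exact le_abs_self _
    have hKm : MeasurableSet K := hKc.measurableSet
    calc locMeas p J w μ Θ K = ∫⁻ y in K, ENNReal.ofReal (D y) ∂chartMeas p μ := by
          rw [hloc, withDensity_apply _ hKm]
      _ ≤ ∫⁻ y in K, ENNReal.ofReal C ∂chartMeas p μ := by
          refine setLIntegral_mono_ae measurable_const.aemeasurable ?_
          filter_upwards [hb] with y hy hyK
          exact ENNReal.ofReal_le_ofReal (hy hyK)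
      _ < ⊤ := by
          rw [setLIntegral_const]
          exact ENNReal.mul_lt_top ENNReal.ofReal_lt_top (measure_lt_top _ _)
  · intro i j
    have : (fun y => t.indicator (fun x => locField p J Θ x i j) y) = fun y =>
        (t.indicator (fun y => trc (repEnd p J y) (rep p Θ y)) y)⁻¹ *
          t.indicator (fun y => rep p Θ y i j) y := by
      funext y
      by_cases hy : y ∈ t <;> simp [locField, hy]
    rw [this]
    exact htr.inv.mul (hmeas p i j)
  · refine hres (hae (hbase.mono fun y hy => ?_))
    have e : (fun i j => t.indicator (fun x => locField p J Θ x i j) y) = locField p J Θ y := by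
      funext i j; exact indicator_of_mem hy.1 _
    rw [e]
    exact psd_smul (inv_nonneg.2 hy.2.2.2.le) hy.2.1
  · refine hres (hae (hbase.mono fun y hy => ?_))
    have e : (fun i j => t.indicator (fun x => locField p J Θ x i j) y) = locField p J Θ y := by
      funext i j; exact indicator_of_mem hy.1 _
    rw [e, locField]
    simp only [trc, Matrix.smul_apply, smul_eq_mul]
    have htpos := hy.2.2.2
    simp only [trc] at htpos
    rw [← mul_inv_cancel₀ htpos.ne', mul_comm]
    simp only [Finset.mul_sum, mul_neg, neg_inj]
    exact Finset.sum_congr rfl fun a _ => Finset.sum_congr rfl fun b _ => by ring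

/-- The pairing with a form supported in the chart, read in the chart. -/
theorem integral_pr_ext {J w : X → M} (hL : LinearFacts) (hJ : IsACX J) (hw : IsHerm J w)
    {μ : Measure X} {Θ : X → M} (hfinite : IsFiniteMeasure μ)
    (hmeas : ∀ p i j, Measurable ((chartAt E p).target.indicator fun y => rep p Θ y i j))
    (hpsd : ∀ᵐ z ∂μ, Psd (J z) (Θ z)) (hunit : ∀ᵐ z ∂μ, pr (w z) (Θ z) (w z) = 1)
    (p : X) {K : Set E} (hK : K ⊆ (chartAt E p).target) (hKc : IsCompact K) {g : E → M}
    (hg : ∀ i j, Measurable fun y => g y i j) (hgs : ∀ y, (g y)ᵀ = -g y)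
    (hg0 : ∀ y, y ∉ K → g y = 0) :
    ∫ z, pr (w z) (Θ z) (ext p g z) ∂μ = ∫ y in K, wd (repEnd p J y)
      (fun i j => (chartAt E p).target.indicator (fun x => locField p J Θ x i j) y) (g y)
      ∂locMeas p J w μ Θ := by
  classical
  have := hfinite
  have hfin := isFiniteMeasure_chartMeas p μ
  obtain ⟨A⟩ := nonempty_atlas (X := X)
  set t := (chartAt E p).target
  set c := chartAt E p
  have hJc : ∀ a b, ContinuousOn (fun y => repEnd p J y a b) t := fun a b =>
    (hJ.smooth p a b).continuousOn
  have hkm : ∀ a b, Measurable (t.indicator fun y => kmat (repEnd p J y) a b) := fun a b => by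
    refine measurable_indicator_of_continuousOn c.open_target ?_
    simp only [kmat, hmat, Matrix.mul_apply, Matrix.add_apply, Matrix.transpose_apply]
    fun_prop
  have htr : Measurable (t.indicator fun y => trc (repEnd p J y) (rep p Θ y)) := by
    have : (t.indicator fun y => trc (repEnd p J y) (rep p Θ y)) = fun y => -∑ a, ∑ b,
        t.indicator (fun y => kmat (repEnd p J y) a b) y *
          t.indicator (fun y => rep p Θ y a b) y := by
      funext y
      by_cases hy : y ∈ t <;> simp [trc, hy]
    rw [this]
    exact (Finset.measurable_sum _ fun a _ => Finset.measurable_sum _ fun b _ =>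
      (hkm a b).mul (hmeas p a b)).neg
  have hpw : Measurable (t.indicator fun y => |pfq (rep p w y) (rep p w y)|) := by
    refine measurable_indicator_of_continuousOn c.open_target ?_
    have := hw.form.cont.cont p
    simp only [pfq]
    fun_prop
  set D : E → ℝ := fun y => t.indicator (fun y => trc (repEnd p J y) (rep p Θ y)) y /
    t.indicator (fun y => |pfq (rep p w y) (rep p w y)|) y with hD
  have hDm : Measurable D := htr.div hpw
  have hbase := ae_chart_current hJ hw hpsd hunit p
  have hloc : locMeas p J w μ Θ = (chartMeas p μ).withDensity fun y => ENNReal.ofReal (D y) := by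
    refine withDensity_congr_ae ?_
    filter_upwards [hbase] with y hy
    simp [D, t, hy.1]
  have htm : MeasurableSet t := c.open_target.measurableSet
  set G : E → ℝ := fun y => t.indicator (fun y => pfq (rep p Θ y) (g y)) y /
    t.indicator (fun y => pfq (rep p w y) (rep p w y)) y with hG
  have hGm : Measurable G := by
    have h1 : Measurable fun y => t.indicator (fun y => pfq (rep p Θ y) (g y)) y := by
      have : (fun y => t.indicator (fun y => pfq (rep p Θ y) (g y)) y) = fun y =>
          pfq (Matrix.of fun i j => t.indicator (fun y => rep p Θ y i j) y) (g y) := by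
        funext y
        by_cases hy : y ∈ t
        · simp only [indicator_of_mem hy]; rfl
        · simp [hy, pfq]
      rw [this]
      have hh : ∀ a b d e, Measurable fun y =>
          t.indicator (fun y => rep p Θ y a b) y * g y d e :=
        fun a b d e => (hmeas p a b).mul (hg d e)
      have hh' : ∀ a b d e, Measurable fun y =>
          g y a b * t.indicator (fun y => rep p Θ y d e) y :=
        fun a b d e => (hg a b).mul (hmeas p d e)
      simp only [pfq, Matrix.of_apply]
      exact (((((hh 0 1 2 3).sub (hh 0 2 1 3)).add (hh 0 3 1 2)).add (hh' 0 1 2 3)).sub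
        (hh' 0 2 1 3)).add (hh' 0 3 1 2)
    refine h1.div (measurable_indicator_of_continuousOn c.open_target ?_)
    have := hw.form.cont.cont p
    simp only [pfq]
    fun_prop
  have e1 : ∫ z, pr (w z) (Θ z) (ext p g z) ∂μ = ∫ y, G y ∂chartMeas p μ := by
    rw [integral_chartMeas p μ hGm]
    refine integral_congr_ae ?_
    filter_upwards [hpsd] with z hz
    by_cases hzs : z ∈ c.source
    · have hy := c.map_source hzs
      rw [indicator_of_mem hzs]
      have hsk : (rep p Θ (c z))ᵀ = -rep p Θ (c z) := by
        refine skew_congr _ ?_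
        rw [c.left_inv hzs]
        exact hz.skew
      have hdet := isUnit_chg (p := z) (q := p) (mem_chart_source E z) hzs
      simp only [ext, c, if_pos hzs]
      rw [eq_rep w hzs, eq_rep Θ hzs, pr_congr hdet (skew_rep hw.form.skew _ _) hsk (hgs _)]
      simp only [G, t, c, indicator_of_mem hy, pr]
    · rw [indicator_of_notMem hzs]
      simp [ext, c, hzs, pr, pfq]
  rw [e1, ← integral_indicator hKc.measurableSet, hloc,
    integral_withDensity_eq_integral_toReal_smul hDm.ennreal_ofReal
      (Filter.Eventually.of_forall fun y => ENNReal.ofReal_lt_top)]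
  refine integral_congr_ae ?_
  filter_upwards [hbase] with y ⟨hy, hp, hu, htpos⟩
  by_cases hyK : y ∈ K
  · rw [indicator_of_mem hyK]
    have e2 : (fun i j => t.indicator (fun x => locField p J Θ x i j) y) = locField p J Θ y := by
      funext i j; exact indicator_of_mem hy _
    have hne : pfq (rep p w y) (rep p w y) ≠ 0 := pfq_rep_herm_ne_zero hJ hw hy
    have hJy := repEnd_sq hJ.sq hy
    have hwp : Psd (repEnd p J y) (rep p w y) := by
      refine psd_congr (chg_mul_chg (mem_chart_source E _) (c.map_target hy))
        ⟨hw.form.skew _, hw.inv _, fun v => ?_⟩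
      rcases eq_or_ne v 0 with rfl | hv
      · simp [val]
      · exact (hw.tames _ v hv).le
    have h0 := hL.2.1 _ _ _ hJy hwp hwp
    rw [e2]
    simp only [D, G, t, indicator_of_mem hy, smul_eq_mul, locField, wd, pfq_smul_left]
    rw [ENNReal.toReal_ofReal (div_nonneg htpos.le (abs_nonneg _))]
    have hsgn : sgnJ (repEnd p J y) * |pfq (rep p w y) (rep p w y)| =
        pfq (rep p w y) (rep p w y) := by
      rw [wd] at h0
      have hn := (hL.2.2.1 _ hJy).2
      rcases lt_or_gt_of_ne hne with h1 | h1
      · have : sgnJ (repEnd p J y) = -1 := by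
          rcases Real.sign_apply_eq (pfq (wmat (repEnd p J y)) (wmat (repEnd p J y))) with h | h | h
          · exact h
          · exfalso; rw [sgnJ, h, zero_mul] at hn; exact lt_irrefl _ hn
          · exfalso; rw [sgnJ, h, one_mul] at h0; linarith
        rw [this, abs_of_neg h1]; ring
      · have : sgnJ (repEnd p J y) = 1 := by
          rcases Real.sign_apply_eq (pfq (wmat (repEnd p J y)) (wmat (repEnd p J y))) with h | h | h
          · exfalso; rw [sgnJ, h] at h0; linarith
          · exfalso; rw [sgnJ, h, zero_mul] at hn; exact lt_irrefl _ hn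
          · exact h
        rw [this, abs_of_pos h1]; ring
    have ha : |pfq (rep p w y) (rep p w y)| ≠ 0 := abs_ne_zero.2 hne
    have hs2 := sgnJ_sq (J := repEnd p J y) fun h => by
      have hn := (hL.2.2.1 _ hJy).2
      rw [h, mul_zero] at hn
      exact lt_irrefl _ hn
    rw [show pfq (rep p Θ y) (g y) / pfq (rep p w y) (rep p w y)
      = pfq (rep p Θ y) (g y) / (sgnJ (repEnd p J y) * |pfq (rep p w y) (rep p w y)|) by rw [hsgn]]
    have hs0 : sgnJ (repEnd p J y) ≠ 0 := fun h => by rw [h, zero_mul] at hs2; exact zero_ne_one hs2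
    field_simp
    linear_combination (-(pfq (rep p Θ y) (g y))) * hs2
  · rw [indicator_of_notMem hyK]
    simp [G, hg0 y hyK, pfq]

end Vale.Agent.P204.Tame.Mfd
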