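import Vale.Agent.P204.Tame.Mfd.Herm

/-!
P204: on a compact manifold a continuous invariant form is dominated by the Hermitian form.
-/

namespace Vale.Agent.P204.Tame.Mfd

open scoped ContDiff Manifold Matrix
open Set Metric

variable {X : Type*} [TopologicalSpace X] [ChartedSpace E X] [IsManifold 𝓘(ℝ, E) ∞ X]

lemma val_scale (u J : M) (r : ℝ) (v : E) :
    val u (r • v) (J *ᵥ (r • v)) = r ^ 2 * val u v (J *ᵥ v) := by
  simp [val, Matrix.mulVec_smul, dotProduct_smul, smul_dotProduct]
  ring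

lemma psd_smul {J u : M} {r : ℝ} (hr : 0 ≤ r) (h : Psd J u) : Psd J (r • u) where
  skew := by simp [h.skew]
  inv := by simp [h.inv]
  nonneg v := by
    simp only [val, Matrix.smul_mulVec, dotProduct_smul, smul_eq_mul]
    exact mul_nonneg hr (h.nonneg v)

lemma psd_herm {J w : X → M} (h : IsHerm J w) (z : X) : Psd (J z) (w z) where
  skew := h.form.skew z
  inv := h.inv z
  nonneg v := by
    rcases eq_or_ne v 0 with rfl | hv
    · simp [val]
    · exact (h.tames z v hv).le

lemma pfq_herm_ne_zero {J w : X → M} (hJ : IsACX J) (h : IsHerm J w) (z : X) :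
    pfq (w z) (w z) ≠ 0 :=
  pfq_self_ne_zero (hJ.sq z) (h.form.skew z) (h.inv z) (h.tames z)

lemma pfq_rep_herm_ne_zero {J w : X → M} (hJ : IsACX J) (h : IsHerm J w) {p : X} {y : E}
    (hy : y ∈ (chartAt E p).target) : pfq (rep p w y) (rep p w y) ≠ 0 :=
  pfq_self_ne_zero (repEnd_sq hJ.sq hy) (skew_rep h.form.skew p y) (inv_rep h.inv hy)
    (tames_rep h.tames hy)

lemma continuousOn_val {s : Set E} {a b : E → M} (ha : ∀ i j, ContinuousOn (fun y => a y i j) s)
    (hb : ∀ i j, ContinuousOn (fun y => b y i j) s) :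
    ContinuousOn (fun x : E × E => val (a x.1) x.2 (b x.1 *ᵥ x.2)) (s ×ˢ univ) := by
  simp only [val, Matrix.mulVec, dotProduct]
  have hv : ∀ i : Fin 4, ContinuousOn (fun x : E × E => x.2 i) (s ×ˢ univ) := fun i => by fun_prop
  have hm : MapsTo Prod.fst (s ×ˢ (univ : Set E)) s := fun _ hx => hx.1
  exact continuousOn_finsetSum _ fun i _ => (hv i).mul (continuousOn_finsetSum _ fun j _ =>
    ((ha i j).comp continuousOn_fst hm).mul (continuousOn_finsetSum _ fun k _ =>
      ((hb j k).comp continuousOn_fst hm).mul (hv k)))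

/-- A continuous invariant form lies between two multiples of the Hermitian form. -/
lemma exists_le_herm (A : Atlas X) {J w u : X → M} (hJ : IsACX J) (hw : IsHerm J w)
    (hu : u ∈ contInv J) :
    ∃ C : ℝ, 0 ≤ C ∧ ∀ z, Psd (J z) (C • w z + u z) ∧ Psd (J z) (C • w z - u z) := by
  have key : ∀ i, ∃ C : ℝ, ∀ z ∈ tsupport (A.φ i), ∀ v,
      |val (u z) v (J z *ᵥ v)| ≤ C * val (w z) v (J z *ᵥ v) := by
    intro i
    set c := chartAt E (A.c i)
    have hK : IsCompact (c '' tsupport (A.φ i)) :=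
      (A.φ_supp i).1.image_of_continuousOn (c.continuousOn.mono (A.φ_supp i).2)
    have hKt : c '' tsupport (A.φ i) ⊆ c.target := by
      rintro _ ⟨z, hz, rfl⟩
      exact c.map_source ((A.φ_supp i).2 hz)
    have hJc := fun a b => ((hJ.smooth (A.c i) a b).continuousOn).mono hKt
    have hnum : ContinuousOn (fun x : E × E => val (rep (A.c i) u x.1) x.2
        (repEnd (A.c i) J x.1 *ᵥ x.2)) ((c '' tsupport (A.φ i)) ×ˢ sphere 0 1) :=
      (continuousOn_val (fun a b => (hu.1.cont _ a b).mono hKt) hJc).mono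
        (prod_mono subset_rfl (subset_univ _))
    have hden : ContinuousOn (fun x : E × E => val (rep (A.c i) w x.1) x.2
        (repEnd (A.c i) J x.1 *ᵥ x.2)) ((c '' tsupport (A.φ i)) ×ˢ sphere 0 1) :=
      (continuousOn_val (fun a b => (hw.form.cont.cont _ a b).mono hKt) hJc).mono
        (prod_mono subset_rfl (subset_univ _))
    have hpos : ∀ x ∈ (c '' tsupport (A.φ i)) ×ˢ sphere (0 : E) 1, 0 < val (rep (A.c i) w x.1) x.2
        (repEnd (A.c i) J x.1 *ᵥ x.2) := fun x hx =>
      tames_rep hw.tames (hKt hx.1) _ (ne_zero_of_mem_unit_sphere ⟨x.2, hx.2⟩)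
    obtain ⟨C, hC⟩ := (hK.prod (isCompact_sphere 0 1)).exists_bound_of_continuousOn
      (hnum.div hden fun x hx => (hpos x hx).ne')
    refine ⟨C, fun z hz v => ?_⟩
    have hs : z ∈ c.source := (A.φ_supp i).2 hz
    set P := chg z (A.c i) z with hP
    have hQP : P * chg (A.c i) z z = 1 :=
      chg_mul_chg (p := A.c i) (q := z) hs (mem_chart_source E z)
    have huv : ∀ f : X → M, val (f z) v (J z *ᵥ v) = val (rep (A.c i) f (c z)) (P *ᵥ v)
        (repEnd (A.c i) J (c z) *ᵥ (P *ᵥ v)) := fun f => by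
      conv_lhs => rw [eq_rep f hs, eq_repEnd J hs]
      exact val_congr_end hQP v
    rw [huv u, huv w]
    set x := P *ᵥ v
    rcases eq_or_ne x 0 with hx | hx
    · simp [hx, val]
    have hn : 0 < ‖x‖ := norm_pos_iff.2 hx
    have hmem : (c z, ‖x‖⁻¹ • x) ∈ (c '' tsupport (A.φ i)) ×ˢ sphere (0 : E) 1 :=
      ⟨mem_image_of_mem _ hz, by simp [norm_smul, hn.ne']⟩
    have h := hC _ hmem
    simp only [Pi.div_apply, Real.norm_eq_abs, abs_div, abs_of_pos (hpos _ hmem)] at h
    rw [div_le_iff₀ (hpos _ hmem)] at h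
    dsimp only at h
    rw [val_scale, val_scale, abs_mul, abs_of_nonneg (sq_nonneg _)] at h
    refine le_of_mul_le_mul_left (h.trans (le_of_eq ?_)) (pow_pos (inv_pos.2 hn) 2)
    ring
  choose C hC using key
  refine ⟨∑ i, |C i|, Finset.sum_nonneg fun i _ => abs_nonneg _, fun z => ?_⟩
  obtain ⟨i, hi⟩ : ∃ i, z ∈ tsupport (A.φ i) := by
    by_contra h
    push Not at h
    have := A.sum_φ z
    simp [fun i => image_eq_zero_of_notMem_tsupport (h i)] at this
  have hle : ∀ v, |val (u z) v (J z *ᵥ v)| ≤ (∑ i, |C i|) * val (w z) v (J z *ᵥ v) := fun v =>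
    (hC i z hi v).trans (mul_le_mul_of_nonneg_right ((le_abs_self _).trans
      (Finset.single_le_sum (f := fun i => |C i|) (fun i _ => abs_nonneg _) (Finset.mem_univ i)))
      ((psd_herm hw z).nonneg v))
  constructor
  all_goals
    refine ⟨by simp [hw.form.skew z, hu.1.skew z]; abel,
      by simp [Matrix.mul_add, Matrix.add_mul, Matrix.mul_sub, Matrix.sub_mul, hw.inv z, hu.2 z],
      fun v => ?_⟩
    have := abs_le.1 (hle v)
    simp only [val, Matrix.add_mulVec, Matrix.sub_mulVec, Matrix.smul_mulVec, dotProduct_add,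
      dotProduct_sub, dotProduct_smul, smul_eq_mul] at this ⊢
    linarith

end Vale.Agent.P204.Tame.Mfd
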