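import Vale.Agent.P204.Tame.Mfd.SmearFacts

/-!
The mollifier convolved with itself.
-/

namespace Vale.Agent.P204.Tame.Mfd

open scoped ContDiff Topology Matrix
open MeasureTheory Metric Set Filter

lemma integral_mol_scale {ρ : E → ℝ} (hρ : IsMol ρ) {ε : ℝ} (hε : 0 < ε) :
    ∫ x : E, ρ (ε⁻¹ • x) = ε ^ 4 := by
  rw [Measure.integral_comp_smul volume ρ ε⁻¹, Module.finrank_fin_fun, hρ.mass, smul_eq_mul,
    mul_one, inv_pow, inv_inv, abs_of_pos (pow_pos hε 4)]

lemma mol_eq_zero {ρ : E → ℝ} (hρ : IsMol ρ) {ε : ℝ} (hε : 0 < ε) {v : E} (hv : ε < ‖v‖) :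
    ρ (ε⁻¹ • v) = 0 := by
  by_contra h
  have := hρ.supp (subset_tsupport _ h)
  rw [mem_closedBall_zero_iff, norm_smul, norm_inv, Real.norm_of_nonneg hε.le,
    inv_mul_le_iff₀ hε, mul_one] at this
  exact absurd this (not_le.2 hv)

/-- The kernel of the double convolution centred at a point. -/
noncomputable def molSq (ρ : E → ℝ) (ε : ℝ) (y : E) : E → ℝ :=
  convAt ρ ε fun x => (ε ^ 4)⁻¹ * ρ (ε⁻¹ • (x - y))

lemma molSq_props {ρ : E → ℝ} (hρ : IsMol ρ) {ε : ℝ} (hε : 0 < ε) (y : E) :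
    Continuous (molSq ρ ε y) ∧ (∀ z, 0 ≤ molSq ρ ε y z) ∧
      (∀ z, z ∉ closedBall y (2 * ε) → molSq ρ ε y z = 0) ∧ ∫ z, molSq ρ ε y z = 1 ∧
      ∀ B : ℝ, (∀ x, ρ x ≤ B) → ∀ z, molSq ρ ε y z ≤ B * (ε ^ 4)⁻¹ := by
  have hε4 : 0 ≤ (ε ^ 4)⁻¹ := inv_nonneg.2 (pow_nonneg hε.le 4)
  have hρc := hρ.smooth.continuous
  set F : E × E → ℝ := fun z => ρ (ε⁻¹ • z.2) * ((ε ^ 4)⁻¹ * ρ (ε⁻¹ • (z.1 + z.2 - y))) with hF
  have hFc : Continuous F := by simp only [hF]; fun_prop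
  have hF0 : ∀ z, 0 ≤ F z := fun z => mul_nonneg (hρ.nonneg _) (mul_nonneg hε4 (hρ.nonneg _))
  have hsupp : ∀ z : E × E, F z ≠ 0 → z.1 ∈ closedBall y (2 * ε) ∧ z.2 ∈ closedBall 0 ε := by
    intro z hz
    simp only [hF, mul_ne_zero_iff] at hz
    have h1 : ‖z.2‖ ≤ ε := not_lt.1 fun h => hz.1 (mol_eq_zero hρ hε h)
    have h2 : ‖z.1 + z.2 - y‖ ≤ ε := not_lt.1 fun h => hz.2.2 (mol_eq_zero hρ hε h)
    refine ⟨?_, mem_closedBall_zero_iff.2 h1⟩
    rw [mem_closedBall, dist_eq_norm]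
    calc ‖z.1 - y‖ = ‖(z.1 + z.2 - y) - z.2‖ := by congr 1; abel
      _ ≤ ‖z.1 + z.2 - y‖ + ‖z.2‖ := norm_sub_le _ _
      _ ≤ 2 * ε := by linarith
  have hFcs : HasCompactSupport F :=
    HasCompactSupport.intro ((isCompact_closedBall y (2 * ε)).prod (isCompact_closedBall 0 ε))
      fun z hz => by
        by_contra h
        exact hz (hsupp z h)
  have e : ∀ z, molSq ρ ε y z = (ε ^ 4)⁻¹ * ∫ v, F (z, v) := fun z => rfl
  refine ⟨?_, fun z => ?_, fun z hz => ?_, ?_, fun B hB z => ?_⟩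
  · rw [funext e]
    refine continuous_const.mul ?_
    have : (fun z => ∫ v, F (z, v)) = fun z => ∫ v in closedBall (0 : E) ε, F (z, v) := by
      funext z
      rw [setIntegral_eq_integral_of_forall_compl_eq_zero fun v hv => ?_]
      by_contra h
      exact hv (hsupp _ h).2
    rw [this]
    exact continuous_parametric_integral_of_continuous (by exact hFc) (isCompact_closedBall 0 ε)
  · rw [e]
    exact mul_nonneg hε4 (integral_nonneg fun v => hF0 _)
  · rw [e, integral_eq_zero_of_ae (Eventually.of_forall fun v => ?_), mul_zero]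
    by_contra h
    exact hz (hsupp _ h).1
  · rw [funext e, integral_const_mul, integral_integral_swap
      (f := fun z v => F (z, v)) (hFc.integrable_of_hasCompactSupport hFcs)]
    have hin : ∀ v : E, ∫ z, F (z, v) = ρ (ε⁻¹ • v) := fun v => by
      simp only [hF, integral_const_mul]
      rw [integral_add_right_eq_self (fun z : E => ρ (ε⁻¹ • (z - y))) v,
        integral_sub_right_eq_self (fun z : E => ρ (ε⁻¹ • z)) y, integral_mol_scale hρ hε,
        inv_mul_cancel₀ (pow_ne_zero _ hε.ne'), mul_one]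
    simp only [hin]
    rw [integral_mol_scale hρ hε, inv_mul_cancel₀ (pow_ne_zero _ hε.ne')]
  · rw [e]
    refine (mul_le_mul_of_nonneg_left ?_ hε4).trans_eq
      (by field_simp : (ε ^ 4)⁻¹ * (ε ^ 4 * ((ε ^ 4)⁻¹ * B)) = B * (ε ^ 4)⁻¹)
    refine le_trans ?_ (le_of_eq (show ∫ v : E, ρ (ε⁻¹ • v) * ((ε ^ 4)⁻¹ * B) =
      ε ^ 4 * ((ε ^ 4)⁻¹ * B) by rw [integral_mul_const, integral_mol_scale hρ hε]))
    refine integral_mono_of_nonneg (Eventually.of_forall fun v => hF0 _) ?_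
      (Eventually.of_forall fun v => mul_le_mul_of_nonneg_left
        (mul_le_mul_of_nonneg_left (hB _) hε4) (hρ.nonneg _))
    refine ((by fun_prop : Continuous fun v : E => ρ (ε⁻¹ • v)).integrable_of_hasCompactSupport
      (HasCompactSupport.intro (isCompact_closedBall 0 ε) fun v hv => ?_)).mul_const _
    exact mol_eq_zero hρ hε (by simpa using hv)

end Vale.Agent.P204.Tame.Mfd
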