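import Vale.Agent.P204.Tame.Loc.Conclude
import Vale.Agent.P204.Tame.Mfd.ConcludeTrans
import Vale.Agent.P204.Tame.Mfd.ChartField
import Vale.Agent.P204.Tame.Mfd.Vol

/-!
A current dominating the Hermitian form pairs strictly positively with localised complex lines, up
to scaled ball masses.
-/

namespace Vale.Agent.P204.Tame.Mfd

open scoped ContDiff Manifold Topology ENNReal Matrix
open MeasureTheory Metric Set Filter

lemma pr_add_conc (w θ a b : M) : pr w θ (a + b) = pr w θ a + pr w θ b := by
  rw [pr, pr, pr, pfq_comm θ, pfq_comm θ, pfq_comm θ, pfq_add_left, add_div]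

lemma pr_smul_conc (w θ : M) (r : ℝ) (a : M) : pr w θ (r • a) = r * pr w θ a := by
  rw [pr, pr, pfq_comm θ, pfq_comm θ, pfq_smul_left, mul_div_assoc]

lemma pr_zero_conc (w θ : M) : pr w θ 0 = 0 := by simp [pr, pfq]

lemma pr_sum_conc {ι : Type*} (s : Finset ι) (w θ : M) (a : ι → M) :
    pr w θ (∑ i ∈ s, a i) = ∑ i ∈ s, pr w θ (a i) := by
  classical
  induction s using Finset.induction with
  | empty => simp [pr_zero_conc]
  | insert i s hi ih => rw [Finset.sum_insert hi, Finset.sum_insert hi, pr_add_conc, ih]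

/-- A matrix field of class `C^1` on a convex compact set is Lipschitz. -/
lemma exists_lip_field {U K : Set E} (hU : IsOpen U) (hKU : K ⊆ U) (hK : IsCompact K)
    (hconv : Convex ℝ K) {F : E → M} (hF : ∀ i j, ContDiffOn ℝ ∞ (fun y => F y i j) U) :
    ∃ L : ℝ, 0 ≤ L ∧ ∀ x ∈ K, ∀ y ∈ K, ∑ i, ∑ j, |F x i j - F y i j| ≤ L * ‖x - y‖ := by
  choose B hB using fun ij : Fin 4 × Fin 4 => hK.exists_bound_of_continuousOn
    (((hF ij.1 ij.2).continuousOn_fderiv_of_isOpen hU (by simp)).mono hKU)
  set L₁ := ∑ ij, max (B ij) 0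
  refine ⟨16 * L₁, mul_nonneg (by norm_num) (Finset.sum_nonneg fun _ _ => le_max_right _ _),
    fun x hx y hy => ?_⟩
  have h : ∀ i j, |F x i j - F y i j| ≤ L₁ * ‖x - y‖ := fun i j =>
    (hconv.norm_image_sub_le_of_norm_fderiv_le (𝕜 := ℝ)
      (fun z hz => ((hF i j).contDiffAt (hU.mem_nhds (hKU hz))).differentiableAt (by simp))
      (fun z hz => (hB (i, j) z hz).trans ((le_max_left _ _).trans
        (Finset.single_le_sum (f := fun ij => max (B ij) 0) (fun _ _ => le_max_right _ _)
          (Finset.mem_univ (i, j))))) hy hx)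
  calc ∑ i, ∑ j, |F x i j - F y i j| ≤ ∑ _i : Fin 4, ∑ _j : Fin 4, L₁ * ‖x - y‖ :=
        Finset.sum_le_sum fun i _ => Finset.sum_le_sum fun j _ => h i j
    _ = _ := by simp; ring

variable {X : Type} [TopologicalSpace X] [ChartedSpace E X] [IsManifold 𝓘(ℝ, E) ∞ X]
  [MeasurableSpace X] [BorelSpace X] [T2Space X] [CompactSpace X]

/-- The pairing of a current with a continuous form is integrable. -/
theorem integrable_pr_conc {J w : X → M} (hJ : IsACX J) (hw : IsHerm J w) {μ : Measure X}
    {Θ : X → M} (hfin : IsFiniteMeasure μ)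
    (hmeas : ∀ p i j, Measurable ((chartAt E p).target.indicator fun y => rep p Θ y i j))
    (hpsd : ∀ᵐ z ∂μ, Psd (J z) (Θ z)) (hunit : ∀ᵐ z ∂μ, pr (w z) (Θ z) (w z) = 1)
    {u : X → M} (hu : IsContForm u) :
    Integrable (fun z => pr (w z) (Θ z) (u z)) μ := by
  classical
  obtain ⟨A⟩ := nonempty_atlas (X := X)
  obtain ⟨C, hC⟩ := exists_pr_bound A hJ hw hu
  have := hfin
  refine Integrable.of_bound (C := C) ?_ ?_
  · set g : Fin A.n → E → ℝ := fun i => (chartAt E (A.c i)).target.indicator fun y =>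
      pr (rep (A.c i) w y) (rep (A.c i) Θ y) (rep (A.c i) u y) with hg
    have hgm : ∀ i, Measurable (g i) := by
      intro i
      set p := A.c i
      set c := chartAt E p
      have hsplit : g i = fun y => (∑ a, ∑ b, c.target.indicator (fun y => rep p Θ y a b) y *
          c.target.indicator (fun y => pfq (Matrix.single a b (1 : ℝ)) (rep p u y) /
            pfq (rep p w y) (rep p w y)) y) := by
        funext y
        by_cases hy : y ∈ c.target
        · simp only [hg, p, c, indicator_of_mem hy, pr]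
          simp [pfq, Fin.sum_univ_four, Matrix.single_apply]
          ring
        · simp [hg, p, c, hy]
      rw [hsplit]
      exact Finset.measurable_sum _ fun a _ => Finset.measurable_sum _ fun b _ =>
        (hmeas p a b).mul (measurable_indicator_of_continuousOn c.open_target
          (ContinuousOn.div (continuousOn_pfq (fun _ _ => continuousOn_const) (hu.cont p))
            (continuousOn_pfq (hw.form.cont.cont p) (hw.form.cont.cont p))
            fun y hy => pfq_rep_herm_ne_zero hJ hw hy))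
    set G : X → ℝ := fun z => ∑ i, A.φ i z *
      (chartAt E (A.c i)).source.indicator (fun z => g i (chartAt E (A.c i) z)) z
    have hGm : Measurable G := by
      refine Finset.measurable_sum _ fun i _ => (A.φ_smooth i).continuous.measurable.mul ?_
      set c := chartAt E (A.c i)
      have hm : Measurable (c.source.piecewise c fun _ => (0 : E)) :=
        c.continuousOn.measurable_piecewise continuousOn_const c.open_source.measurableSet
      have he : (c.source.indicator fun z => g i (c z)) =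
          c.source.indicator (g i ∘ c.source.piecewise c fun _ => (0 : E)) :=
        indicator_congr fun z hz => by simp [hz]
      rw [he]
      exact ((hgm i).comp hm).indicator c.open_source.measurableSet
    refine hGm.aestronglyMeasurable.congr ?_
    filter_upwards [hpsd] with z hz
    have hterm : ∀ i, A.φ i z *
        (chartAt E (A.c i)).source.indicator (fun z => g i (chartAt E (A.c i) z)) z =
          A.φ i z * pr (w z) (Θ z) (u z) := by
      intro i
      by_cases hi : A.φ i z = 0
      · simp [hi]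
      have hs : z ∈ (chartAt E (A.c i)).source := (A.φ_supp i).2 (subset_tsupport _ hi)
      have hy := (chartAt E (A.c i)).map_source hs
      rw [indicator_of_mem hs, hg]
      simp only [indicator_of_mem hy]
      rw [pr_rep_eq' (A.c i) hw (by rw [(chartAt E (A.c i)).left_inv hs]; exact hz.skew)
        (hu.skew _) hy, (chartAt E (A.c i)).left_inv hs]
    simp only [G, hterm, ← Finset.sum_mul, A.sum_φ, one_mul]
  · filter_upwards [hpsd, hunit] with z h1 h2
    simpa [h2] using hC z _ h1

set_option maxHeartbeats 1000000 in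
/-- Near a point, the pairing of a dominating current with a localised complex line is bounded
below by a positive constant minus a scaled ball mass. -/
theorem exists_core_lower (hL : LinearFacts) (A : Atlas X) {J w : X → M} (hJ : IsACX J)
    (hw : IsHerm J w) {μ₀ : Measure X} {Θ₀ : X → M} (hcur : IsCurrent J w μ₀ Θ₀)
    (hdom : Dominates A J w μ₀ Θ₀) {ρ : E → ℝ} (hρ : IsMol ρ) (c : X) {O₀ : Set E}
    (hO₀ : IsOpen O₀) (hO₀t : O₀ ⊆ (chartAt E c).target) {y₀ : E} (hy₀ : y₀ ∈ O₀) :
    ∃ r > 0, closedBall y₀ (6 * r) ⊆ O₀ ∧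
      (∀ x ∈ closedBall y₀ (6 * r), sgnJ (repEnd c J x) = sgnJ (repEnd c J y₀)) ∧
      ∃ a > 0, ∃ C : ℝ, 0 ≤ C ∧ ∀ ε ∈ Ioc (0 : ℝ) r, ∀ y ∈ closedBall y₀ r, ∀ v : E,
        a * (v ⬝ᵥ v) - C * (ε ^ 2)⁻¹ * (chartMeas c μ₀).real (closedBall y (2 * ε)) * (v ⬝ᵥ v) ≤
          ∫ z, pr (w z) (Θ₀ z)
            (ext c (fun x => molSq ρ ε y x • lineForm (repEnd c J y) v) z) ∂μ₀ := by
  classical
  set ch := chartAt E c
  set t := ch.target
  set Jc := repEnd c J
  set wc := rep c w
  have hJs : ∀ i j, ContDiffOn ℝ ∞ (fun y => Jc y i j) t := hJ.smooth c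
  have hwc : ∀ i j, ContinuousOn (fun y => wc y i j) t := hw.form.cont.cont c
  have hJc : ∀ i j, ContinuousOn (fun y => Jc y i j) t := fun i j => (hJs i j).continuousOn
  have hsq : ∀ y ∈ t, Jc y * Jc y = -1 := fun y hy => repEnd_sq hJ.sq hy
  have hy₀t : y₀ ∈ t := hO₀t hy₀
  -- the sign is locally constant
  have hsgn : ∀ᶠ x in 𝓝 y₀, sgnJ (Jc x) = sgnJ (Jc y₀) := by
    have hcJ : ContinuousOn Jc t := continuousOn_pi.2 fun i => continuousOn_pi.2 fun j => hJc i j
    have hc : ContinuousAt (fun x => sgnJ (Jc x)) y₀ :=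
      ((continuousOn_sgnJ (S := {J : M | J * J = -1}) fun _ h => h).comp hcJ hsq).continuousAt
        (ch.open_target.mem_nhds hy₀t)
    filter_upwards [hc.preimage_mem_nhds (ball_mem_nhds (sgnJ (Jc y₀)) zero_lt_one),
      ch.open_target.mem_nhds hy₀t] with x hx hxt
    have hv : ∀ x ∈ t, sgnJ (Jc x) = 1 ∨ sgnJ (Jc x) = -1 := fun x hx => by
      have hn := (hL.2.2.1 _ (hsq x hx)).2
      rcases Real.sign_apply_eq (pfq (wmat (Jc x)) (wmat (Jc x))) with h | h | h
      · exact Or.inr h
      · exfalso; rw [sgnJ, h, zero_mul] at hn; exact lt_irrefl _ hn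
      · exact Or.inl h
    simp only [mem_preimage, Metric.mem_ball, Real.dist_eq] at hx
    rcases hv x hxt with h1 | h1 <;> rcases hv y₀ hy₀t with h2 | h2 <;> rw [h1, h2] at hx ⊢ <;>
      norm_num at hx
  -- the Hermitian form is positive on nearly complex lines
  obtain ⟨a₀, ha₀, hlow⟩ : ∃ a₀ > 0, ∀ᶠ q : E × E in 𝓝 (y₀, y₀), ∀ v,
      a₀ * (v ⬝ᵥ v) ≤ val (wc q.1) v (Jc q.2 *ᵥ v) := by
    set G : (E × E) × E → ℝ := fun p => val (wc p.1.1) p.2 (Jc p.1.2 *ᵥ p.2)
    have hGc : ContinuousOn G ((t ×ˢ t) ×ˢ univ) := by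
      simp only [G, val, Matrix.mulVec, dotProduct]
      have hv : ∀ i : Fin 4, ContinuousOn (fun x : (E × E) × E => x.2 i) ((t ×ˢ t) ×ˢ univ) :=
        fun i => by fun_prop
      exact continuousOn_finsetSum _ fun i _ => (hv i).mul (continuousOn_finsetSum _ fun j _ =>
        ((hwc i j).comp (continuousOn_fst.fst) fun x hx => hx.1.1).mul
          (continuousOn_finsetSum _ fun k _ =>
            ((hJc j k).comp (continuousOn_fst.snd) fun x hx => hx.1.2).mul (hv k)))
    have hpos : ∀ v ∈ sphere (0 : E) 1, 0 < G ((y₀, y₀), v) := fun v hv =>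
      tames_rep hw.tames hy₀t _ (ne_zero_of_mem_unit_sphere ⟨v, hv⟩)
    obtain ⟨v₁, hv₁, hmin⟩ := (isCompact_sphere (0 : E) 1).exists_isMinOn
      (NormedSpace.sphere_nonempty.2 zero_le_one)
      (hGc.comp (Continuous.prodMk_right (y₀, y₀)).continuousOn
        fun v _ => ⟨⟨hy₀t, hy₀t⟩, mem_univ _⟩)
    refine ⟨G ((y₀, y₀), v₁) / 8, by linarith [hpos v₁ hv₁], ?_⟩
    have hev := (isCompact_sphere (0 : E) 1).eventually_forall_of_forall_eventually
      (x₀ := (y₀, y₀)) (P := fun q v => G ((y₀, y₀), v₁) / 2 < G (q, v)) fun v hv => by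
        have h1 : G ((y₀, y₀), v₁) / 2 < G ((y₀, y₀), v) :=
          lt_of_lt_of_le (half_lt_self (hpos v₁ hv₁)) (hmin hv)
        exact ((hGc.continuousAt (((ch.open_target.prod ch.open_target).prod
          isOpen_univ).mem_nhds ⟨⟨hy₀t, hy₀t⟩, mem_univ _⟩)).eventually_const_lt h1)
    filter_upwards [hev] with q hq v
    rcases eq_or_ne v 0 with rfl | hv
    · simp [val]
    have hn : 0 < ‖v‖ := norm_pos_iff.2 hv
    have h := (hq (‖v‖⁻¹ • v) (by simp [norm_smul, hn.ne'])).le
    simp only [G] at h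
    rw [val_scale, inv_pow, le_inv_mul_iff₀ (pow_pos hn 2)] at h
    have hvv : v ⬝ᵥ v ≤ 4 * ‖v‖ ^ 2 := by
      calc v ⬝ᵥ v = ∑ i, v i * v i := rfl
        _ ≤ ∑ _i : Fin 4, ‖v‖ * ‖v‖ := Finset.sum_le_sum fun i _ => by
            rw [← abs_mul_abs_self (v i)]
            exact mul_self_le_mul_self (abs_nonneg _) (norm_le_pi_norm v i)
        _ = _ := by simp; ring
    have := mul_le_mul_of_nonneg_left hvv (by linarith [hpos v₁ hv₁] : 0 ≤ G ((y₀, y₀), v₁) / 8)
    simp only [G] at this
    linarith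
  obtain ⟨r₁, hr₁, hball⟩ := Metric.eventually_nhds_iff_ball.1 hlow
  obtain ⟨r₂, hr₂, hball₂⟩ := Metric.eventually_nhds_iff_ball.1 (hsgn.and (hO₀.mem_nhds hy₀))
  set r := min r₁ r₂ / 8 with hr
  have hr0 : 0 < r := div_pos (lt_min hr₁ hr₂) (by norm_num)
  have h6₁ : closedBall y₀ (6 * r) ⊆ ball y₀ r₁ :=
    closedBall_subset_ball (by have := min_le_left r₁ r₂; linarith [lt_min hr₁ hr₂, hr])
  have h6₂ : closedBall y₀ (6 * r) ⊆ ball y₀ r₂ :=
    closedBall_subset_ball (by have := min_le_right r₁ r₂; linarith [lt_min hr₁ hr₂, hr])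
  have h6O : closedBall y₀ (6 * r) ⊆ O₀ := fun x hx => (hball₂ x (h6₂ hx)).2
  set K := closedBall y₀ (6 * r)
  have hKt : K ⊆ t := h6O.trans hO₀t
  have hKc : IsCompact K := isCompact_closedBall _ _
  obtain ⟨L, hL0, hlip⟩ := exists_lip_field ch.open_target hKt hKc (convex_closedBall _ _) hJs
  obtain ⟨B, hB, hbw⟩ := exists_wmat_bounds hKc (fun i j => (hJc i j).mono hKt)
    fun y hy => hsq y (hKt hy)
  obtain ⟨cl, hcl, hlin⟩ := hL.2.2.2 (Jc '' K) (hKc.image_of_continuousOn
      (continuousOn_pi.2 fun i => continuousOn_pi.2 fun j => (hJc i j).mono hKt))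
    (by rintro _ ⟨y, hy, rfl⟩; exact hsq y (hKt hy))
  have hρcs : HasCompactSupport ρ :=
    (isCompact_closedBall (0 : E) 1).of_isClosed_subset (isClosed_tsupport _) hρ.supp
  obtain ⟨Bρ, hBρ⟩ := hρcs.exists_bound_of_continuous hρ.smooth.continuous
  have hBρ0 : 0 ≤ max Bρ 0 := le_max_right _ _
  set κ := cl⁻¹ * (4 * L ^ 2) * (64 * B) / a₀ with hκ
  have hκ0 : 0 ≤ κ := by positivity
  refine ⟨r, hr0, h6O, fun x hx => (hball₂ x (h6₂ hx)).1, a₀, ha₀, κ * max Bρ 0, by positivity,
    fun ε hε y hy v => ?_⟩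
  have hyK : y ∈ K := closedBall_subset_closedBall (by linarith) hy
  set vv := v ⬝ᵥ v with hvv
  have hvv0 : 0 ≤ vv := dot_self_nonneg v
  set b := lineForm (Jc y) v with hb
  have hJy := hsq y (hKt hyK)
  have hbp : Psd (Jc y) b := psd_lineForm hL hJy v
  have hbn : nrm1 b ≤ 64 * B * vv := (nrm1_lineForm_le _ v).trans
    (mul_le_mul_of_nonneg_right (mul_le_mul_of_nonneg_left (hbw y hyK).2.1 (by norm_num)) hvv0)
  set ψ := molSq ρ ε y with hψ
  obtain ⟨hψc, hψ0, hψs, hψ1, hψB⟩ := molSq_props hρ hε.1 y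
  have hψ2 : closedBall y (2 * ε) ⊆ K := closedBall_subset_closedBall'
    (by rw [mem_closedBall] at hy; linarith [hε.2])
  set s := κ * ε ^ 2 * vv with hs
  have hs0 : 0 ≤ s := by positivity
  set g : E → M := fun x => ψ x • b with hg
  set gu : E → M := fun x => ψ x • (pinv (Jc x) b + s • wc x) with hgu
  have hcb : ∀ i j, ContinuousOn (fun x => gu x i j) t := fun i j => by
    simp only [hgu, pinv, Matrix.smul_apply, Matrix.add_apply, Matrix.mul_apply,
      Matrix.transpose_apply, smul_eq_mul]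
    exact hψc.continuousOn.mul (((continuousOn_const.add (continuousOn_finsetSum _ fun p _ =>
      (continuousOn_finsetSum _ fun q _ => (hJc q i).mul continuousOn_const).mul (hJc p j))).const_smul
        (1 / 2 : ℝ)).add ((hwc i j).const_smul s))
  have hbskew := hbp.skew
  have hgu0 : ∀ x ∈ t, x ∉ closedBall y (2 * ε) → gu x = 0 := fun x _ hx => by
    simp [hgu, hψ, hψs x hx]
  have hgus : ∀ x ∈ t, (gu x)ᵀ = -gu x := fun x hx => by
    have h2 : (wc x)ᵀ = -wc x := skew_rep hw.form.skew c x
    simp only [hgu, Matrix.transpose_smul, Matrix.transpose_add, pinv_skew _ hbskew, h2, smul_neg]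
    module
  have hu : IsContForm (ext c gu) :=
    isContForm_ext c (isCompact_closedBall _ _) (hψ2.trans hKt) hgu0 hcb hgus
  have hg' : IsContForm (ext c g) :=
    isContForm_ext c (isCompact_closedBall _ _) (hψ2.trans hKt)
      (fun x _ hx => by simp [hg, hψ, hψs x hx])
      (fun i j => by
        simp only [hg, Matrix.smul_apply, smul_eq_mul]
        exact hψc.continuousOn.mul continuousOn_const)
      (fun x _ => by simp [hg, hbskew])
  have hpsd : ∀ x ∈ t, Psd (Jc x) (gu x) := by
    intro x hx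
    by_cases hxs : x ∈ closedBall y (2 * ε)
    · refine psd_smul (hψ0 x) ⟨?_, ?_, fun p => ?_⟩
      · have h2 : (wc x)ᵀ = -wc x := skew_rep hw.form.skew c x
        simp only [Matrix.transpose_add, Matrix.transpose_smul, pinv_skew _ hbskew, h2, smul_neg]
        abel
      · simp only [mul_add, add_mul, mul_smul_comm, smul_mul_assoc, pinv_is_inv (hsq x hx),
          inv_rep hw.inv hx, Jc, wc]
      · rw [val_add_smul_conc, val_pinv_skew (hsq x hx) hbskew]
        have hxK := hψ2 hxs
        have h1 := ((hlin (Jc x) ⟨x, hxK, rfl⟩).2.2 (Jc y) ⟨y, hyK, rfl⟩ b hbp p)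
        have hd : ∑ i, ∑ j, |Jc x i j - Jc y i j| ≤ L * (2 * ε) :=
          (hlip x hxK y hyK).trans (mul_le_mul_of_nonneg_left
            (by rwa [← dist_eq_norm, ← mem_closedBall]) hL0)
        have h2 : cl⁻¹ * (∑ i, ∑ j, |Jc x i j - Jc y i j|) ^ 2 * (∑ i, ∑ j, |b i j|) * (p ⬝ᵥ p)
            ≤ cl⁻¹ * (L * (2 * ε)) ^ 2 * (64 * B * vv) * (p ⬝ᵥ p) := by
          refine mul_le_mul_of_nonneg_right (mul_le_mul (mul_le_mul_of_nonneg_left ?_
            (inv_nonneg.2 hcl.le)) hbn (nrm1_nonneg b) (by positivity)) (dot_self_nonneg p)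
          exact pow_le_pow_left₀ (Finset.sum_nonneg fun i _ => Finset.sum_nonneg fun j _ =>
            abs_nonneg _) hd 2
        have h3 : a₀ * (p ⬝ᵥ p) ≤ val (wc x) p (Jc x *ᵥ p) :=
          hball (x, x) (by
            rw [← ball_prod_same]; exact ⟨h6₁ hxK, h6₁ hxK⟩) p
        have h4 := mul_le_mul_of_nonneg_left h3 hs0
        have h5 : cl⁻¹ * (L * (2 * ε)) ^ 2 * (64 * B * vv) * (p ⬝ᵥ p) = s * (a₀ * (p ⬝ᵥ p)) := by
          simp only [hs, hκ]
          field_simp
          ring
        linarith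
    · rw [hgu0 x hx hxs]
      exact psd_zero_conc _
  have hpsdX : ∀ z, Psd (J z) (ext c gu z) := by
    intro z
    by_cases hz : z ∈ ch.source
    · simp only [ext, ch, if_pos hz]
      conv => arg 1; rw [eq_repEnd J hz]
      exact psd_congr (chg_mul_chg (p := c) (q := z) hz (mem_chart_source E z))
        (hpsd _ (ch.map_source hz))
    · simp only [ext, ch, if_neg hz]
      exact psd_zero_conc _
  -- domination
  have hD := hdom univ MeasurableSet.univ _ hu hpsdX
  rw [setIntegral_univ, setIntegral_univ] at hD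
  have hlow : a₀ * vv ≤ ∫ z, pr (w z) (w z) (ext c gu z) ∂vol A w := by
    rw [integral_vol_chart A hw c (continuous_pr hJ hw hw.form.cont hu)
      (fun z hz => by simp [ext, hz, pr_zero_conc])]
    have hst : ∫ x in t, ψ x = 1 := by
      rw [setIntegral_eq_integral_of_forall_compl_eq_zero fun x hx =>
        hψs x fun h => hx (hKt (hψ2 h)), hψ1]
    calc a₀ * vv = ∫ x in t, ψ x * (a₀ * vv) := by rw [integral_mul_const, hst, one_mul]
      _ ≤ _ := by
        refine setIntegral_mono_on ?_ ?_ ch.open_target.measurableSet fun x hx => ?_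
        · exact ((hψc.mul continuous_const).integrable_of_hasCompactSupport
            (HasCompactSupport.intro (isCompact_closedBall y (2 * ε)) fun x hx => by
              simp [hψs x hx])).integrableOn
        · refine IntegrableOn.of_forall_sdiff_eq_zero
            (s := closedBall y (2 * ε)) ?_ ch.open_target.measurableSet fun x hx => ?_
          · refine ContinuousOn.integrableOn_compact (isCompact_closedBall _ _) ?_
            exact (((continuousOn_pfq (hw.form.cont.cont c) (hw.form.cont.cont c)).abs.mul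
              ((continuous_pr hJ hw hw.form.cont hu).comp_continuousOn ch.continuousOn_symm))).mono
              (hψ2.trans hKt)
          · rw [← pr_rep_eq c hw hw.form.skew hu.skew hx.1, rep_ext _ hx.1,
              hgu0 x hx.1 hx.2]
            simp [pr_zero_conc]
        rw [← pr_rep_eq c hw hw.form.skew hu.skew hx, rep_ext _ hx]
        by_cases hxs : x ∈ closedBall y (2 * ε)
        swap
        · rw [show ψ x = 0 from hψs x hxs, hgu0 x hx hxs, pr_zero_conc]
          simp
        have hxK := hψ2 hxs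
        have hwp : Psd (Jc x) (wc x) :=
          ⟨skew_rep hw.form.skew c x, inv_rep hw.inv hx, fun p => by
            rcases eq_or_ne p 0 with rfl | hp
            · simp [val]
            · exact (tames_rep hw.tames hx p hp).le⟩
        have hne : pfq (wc x) (wc x) ≠ 0 := pfq_rep_herm_ne_zero hJ hw hx
        have h0 := hL.2.1 _ _ _ (hsq x hx) hwp hwp
        have hn := (hL.2.2.1 _ (hsq x hx)).2
        have hsg : |pfq (wc x) (wc x)| / pfq (wc x) (wc x) = sgnJ (Jc x) := by
          rw [wd] at h0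
          rcases Real.sign_apply_eq (pfq (wmat (Jc x)) (wmat (Jc x))) with h | h | h
          · have hs' : sgnJ (Jc x) = -1 := h
            rw [hs'] at h0 ⊢
            have : pfq (wc x) (wc x) < 0 := lt_of_le_of_ne (by linarith) hne
            rw [abs_of_neg this, neg_div, div_self hne]
          · exfalso; rw [sgnJ, h, zero_mul] at hn; exact lt_irrefl _ hn
          · have hs' : sgnJ (Jc x) = 1 := h
            rw [hs'] at h0 ⊢
            rw [abs_of_nonneg (by linarith), div_self hne]
        have key : |pfq (wc x) (wc x)| * pr (wc x) (wc x) (gu x) = wd (Jc x) (wc x) (gu x) := by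
          rw [pr, wd, ← hsg]; ring
        show ψ x * (a₀ * vv) ≤ |pfq (wc x) (wc x)| * pr (wc x) (wc x) (gu x)
        rw [key, hgu]
        simp only
        rw [wd_smul_conc, wd_add_conc, wd_smul_conc]
        refine mul_le_mul_of_nonneg_left ?_ (hψ0 x)
        have e1 : wd (Jc x) (wc x) (pinv (Jc x) b) = val (wc x) v (Jc y *ᵥ v) := by
          rw [wd, ← pfq_eq_pinv hL (hsq x hx) hwp hbskew, hb, lineForm,
            (hball₂ x (h6₂ hxK)).1, ← (hball₂ y (h6₂ hyK)).1, pfq_comm, pfq_smul_left, pfq_comm,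
            pfq_starF_wedge hwp.skew, ← mul_assoc, sgnJ_sq, one_mul]
          intro h
          have hn' := (hL.2.2.1 _ hJy).2
          rw [h, mul_zero] at hn'
          exact lt_irrefl _ hn'
        have e2 : 0 ≤ wd (Jc x) (wc x) (wc x) := h0
        have h3 : a₀ * vv ≤ val (wc x) v (Jc y *ᵥ v) :=
          hball (x, y) (by rw [← ball_prod_same]; exact ⟨h6₁ hxK, h6₁ hyK⟩) v
        rw [e1]
        linarith [mul_nonneg hs0 e2]
  -- the error
  set S : X → ℝ := ch.source.indicator fun z => ψ (ch z) with hS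
  have hsplit : ∀ᵐ z ∂μ₀, pr (w z) (Θ₀ z) (ext c gu z) =
      pr (w z) (Θ₀ z) (ext c g z) + s * S z := by
    filter_upwards [hcur.psd, hcur.unit] with z h1 h2
    by_cases hz : z ∈ ch.source
    · have hPQ : chg z c z * chg c z z = 1 :=
        chg_mul_chg (p := c) (q := z) hz (mem_chart_source E z)
      simp only [ext, ch, if_pos hz, hg, hgu, hS, indicator_of_mem hz]
      rw [Matrix.mul_smul, Matrix.smul_mul, Matrix.mul_smul, Matrix.smul_mul, Matrix.mul_add,
        Matrix.add_mul, Matrix.mul_smul, Matrix.smul_mul, ← pinv_congr hPQ, ← eq_repEnd J hz,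
        ← eq_rep w hz, pr_smul_conc, pr_smul_conc, pr_add_conc, pr_smul_conc,
        pr_pinv_right (hJ.sq z) h1 (skew_congr _ hbskew), h2]
      ring
    · simp [ext, ch, hz, pr_zero_conc, hS]
  have hfin := hcur.finite
  have hSm : Integrable S μ₀ := by
    have hm : Measurable S := by
      have hp : Measurable (ch.source.piecewise ch fun _ => (0 : E)) :=
        ch.continuousOn.measurable_piecewise continuousOn_const ch.open_source.measurableSet
      have he : S = ch.source.indicator (ψ ∘ ch.source.piecewise ch fun _ => (0 : E)) :=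
        indicator_congr fun z hz => by simp [hz]
      rw [he]
      exact (hψc.measurable.comp hp).indicator ch.open_source.measurableSet
    refine Integrable.of_bound hm.aestronglyMeasurable (max Bρ 0 * (ε ^ 4)⁻¹)
      (Eventually.of_forall fun z => ?_)
    have h0 : 0 ≤ S z := indicator_nonneg (fun z _ => hψ0 _) z
    rw [Real.norm_of_nonneg h0]
    refine (indicator_le_self' (fun z _ => hψ0 _) z).trans (hψB _ (fun x => ?_) _)
    exact (le_abs_self _).trans ((hBρ x).trans (le_max_left _ _))
  have hSle : ∫ z, S z ∂μ₀ ≤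
      max Bρ 0 * (ε ^ 4)⁻¹ * (chartMeas c μ₀).real (closedBall y (2 * ε)) := by
    have := isFiniteMeasure_chartMeas c μ₀
    rw [hS, ← integral_chartMeas c μ₀ hψc.measurable,
      ← setIntegral_eq_integral_of_forall_compl_eq_zero fun x hx => hψs x hx]
    refine le_trans (integral_mono_of_nonneg (Eventually.of_forall hψ0) (integrable_const _)
      (Eventually.of_forall fun x => hψB (max Bρ 0)
        (fun x => (le_abs_self _).trans ((hBρ x).trans (le_max_left _ _))) x)) (le_of_eq ?_)
    simp [mul_comm]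
  have hint := integrable_pr_conc hJ hw hcur.finite hcur.meas hcur.psd hcur.unit hg'
  rw [integral_congr_ae hsplit, integral_add hint (hSm.const_mul s), integral_const_mul] at hD
  have h6 := mul_le_mul_of_nonneg_left hSle hs0
  have e : s * (max Bρ 0 * (ε ^ 4)⁻¹ * (chartMeas c μ₀).real (closedBall y (2 * ε))) =
      κ * max Bρ 0 * (ε ^ 2)⁻¹ * (chartMeas c μ₀).real (closedBall y (2 * ε)) * vv := by
    simp only [hs]
    have := hε.1.ne'
    field_simp
  linarith

end Vale.Agent.P204.Tame.Mfd
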