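import Vale.Agent.P204.Tame.Mfd.GlueBase

/-!
A functional given by chart fields and vanishing on exact forms is given by a weakly closed field.
-/

namespace Vale.Agent.P204.Tame.Mfd

open scoped ContDiff Manifold Matrix ENNReal
open MeasureTheory Metric Set Filter

variable {X : Type} [TopologicalSpace X] [ChartedSpace E X] [IsManifold 𝓘(ℝ, E) ∞ X]

omit [IsManifold 𝓘(ℝ, E) ∞ X] in
lemma skew_cut (B : Atlas X) (i : Fin B.n) {g : E → M} (hg : ∀ x, (g x)ᵀ = -g x) (x : E) :
    (B.φ i ((chartAt E (B.c i)).symm x) • g x)ᵀ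
      = -(B.φ i ((chartAt E (B.c i)).symm x) • g x) := by
  rw [Matrix.transpose_smul, hg x, smul_neg]

/-- The value of an additive functional on a glued field. -/
lemma apply_glue (B : Atlas X) (R : Regions B) (Q : (X → M) → ℝ)
    (hadd : ∀ u v, IsL2X u → IsL2X v → Q (u + v) = Q u + Q v) (g : Fin B.n → E → M)
    (h : ∀ i, IsL2X (ext (B.c i)
      ((R.O i).indicator fun y => B.φ i ((chartAt E (B.c i)).symm y) • g i y))) :
    Q (glue B R g) = ∑ i, Q (ext (B.c i)
      ((R.O i).indicator fun y => B.φ i ((chartAt E (B.c i)).symm y) • g i y)) := by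
  classical
  have h0 : Q 0 = 0 := by
    have := hadd 0 0 isL2X_zero isL2X_zero
    rw [add_zero] at this
    linarith
  have hs : ∀ s : Finset (Fin B.n), Q (∑ i ∈ s, ext (B.c i)
        ((R.O i).indicator fun y => B.φ i ((chartAt E (B.c i)).symm y) • g i y))
      = ∑ i ∈ s, Q (ext (B.c i)
        ((R.O i).indicator fun y => B.φ i ((chartAt E (B.c i)).symm y) • g i y)) := by
    intro s
    induction s using Finset.induction with
    | empty => simpa using h0
    | insert k s hk ih =>
      rw [Finset.sum_insert hk, Finset.sum_insert hk, ← ih,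
        hadd _ _ (h k) (isL2X_sum s fun l _ => h l)]
  exact hs Finset.univ

theorem glueHolds : GlueHolds := by
  intro X _ _ _ _ _ _ _ J w B hJ hw R Q hadd f hf hfs hQ hdS
  have hcut : ∀ (g : Fin B.n → E → M), (∀ i, IsL2Field (volume.restrict (R.O i)) (g i)) →
      (∀ i x, (g i x)ᵀ = -g i x) → ∀ i, IsL2X (ext (B.c i)
        ((R.O i).indicator fun y => B.φ i ((chartAt E (B.c i)).symm y) • g i y)) :=
    fun g hg hgs i => isL2X_ext (B.c i) (R.measurableSet i) (R.compact i).1 (R.closure_target i)
      (isL2Field_cut B R i (hg i)) (skew_cut B i (hgs i))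
  have hval : ∀ (g : Fin B.n → E → M), (∀ i, IsL2Field (volume.restrict (R.O i)) (g i)) →
      (∀ i x, (g i x)ᵀ = -g i x) → Q (glue B R g) = ∑ i, ∫ x in R.O i,
        wd (repEnd (B.c i) J x) (f i x) (B.φ i ((chartAt E (B.c i)).symm x) • g i x) := by
    intro g hg hgs
    rw [apply_glue B R Q hadd g (hcut g hg hgs)]
    exact Finset.sum_congr rfl fun i _ => hQ i _ (isL2Field_cut B R i (hg i)) (skew_cut B i (hgs i))
  have hwd : ∀ (j a b : M) (r : ℝ), wd j a (r • b) = r * wd j a b ∧ wd j (r • a) b = r * wd j a b :=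
    fun j a b r => by
      constructor <;> simp only [wd, pfq, Matrix.smul_apply, smul_eq_mul] <;> ring
  refine ⟨isL2X_sum _ fun i _ => hcut f hf hfs i, fun S hS => ?_, ?_⟩
  · have hu := isForm_dX hS
    have hi := fun i => integral_vol_ext B hJ hw hu (B.c i) (R.measurableSet i) (R.compact i).1
      (R.closure_target i) (isL2Field_cut B R i (hf i)) (skew_cut B i (hfs i))
    have hsplit : (fun z => pr (w z) (glue B R f z) (dX S z)) = fun z => ∑ i, pr (w z)
        (ext (B.c i) ((R.O i).indicator
          fun y => B.φ i ((chartAt E (B.c i)).symm y) • f i y) z) (dX S z) := by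
      funext z
      simp only [glue, Finset.sum_apply, pr, pfq_sum_left, Finset.sum_div]
    rw [hsplit, integral_finsetSum _ fun i _ => (hi i).1]
    refine Eq.trans ?_ (hdS S hS)
    conv_rhs => rw [← glue_self B R (dX S)]
    rw [hval _ (fun i => (isL2X_of_isForm hu).onRegion R i) fun i x => skew_rep hu.skew _ x]
    refine Finset.sum_congr rfl fun i _ => (hi i).2.trans ?_
    refine setIntegral_congr_fun (R.measurableSet i) fun x _ => ?_
    simp only [(hwd _ _ _ _).1, (hwd _ _ _ _).2]
  · rw [hval f hf hfs]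
    refine Finset.sum_congr rfl fun i _ => setIntegral_congr_fun (R.measurableSet i) fun x _ => ?_
    exact (hwd _ _ _ _).1

end Vale.Agent.P204.Tame.Mfd
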