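import Vale.Agent.P204.Tame.Mfd.SmearUseLin
import Vale.Agent.P204.Tame.Mfd.Vol

/-!
The smoother applied to weakly closed fields, and the properties of the smoother used later.
-/

namespace Vale.Agent.P204.Tame.Mfd

open scoped ContDiff Manifold Matrix Topology ENNReal
open MeasureTheory Metric Set Filter

variable {X : Type} [TopologicalSpace X] [ChartedSpace E X] [IsManifold 𝓘(ℝ, E) ∞ X]
  [MeasurableSpace X] [BorelSpace X] [T2Space X]

/-- A weakly closed field read in a chart is weakly closed. -/
theorem weakClosed_chart (A : Atlas X) {J w : X → M} (hJ : IsACX J) (hw : IsHerm J w)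
    {u : X → M} (hu : IsL2X u) (hwk : IsWeakClosed A w u) (p : X) {K' : Set E}
    (hK't : K' ⊆ (chartAt E p).target) (hK'c : IsCompact K') {φ : E → ℝ}
    (hφ : IsTest (interior K') φ) (i j k : Fin 4) :
    ∫ x, K'.indicator (rep p u) x j k * pd i φ x + K'.indicator (rep p u) x k i * pd j φ x +
      K'.indicator (rep p u) x i j * pd k φ x = 0 := by
  set t := (chartAt E p).target
  set c := chartAt E p
  set U := K'.indicator (rep p u) with hU
  have hU2 : IsL2Field volume U := hu.indicator p hK't hK'c
  have hφt : tsupport φ ⊆ t := (hφ.supp.trans interior_subset).trans hK't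
  set η := triple i j k
  set σ : E → ℝ := fun y => Real.sign (pfq (rep p w y) (rep p w y))
  set a : E → E := fun y l => σ y * φ y * η l
  have hwc : ContinuousOn (fun y => pfq (rep p w y) (rep p w y)) t :=
    continuousOn_pfq (hw.form.cont.cont p) (hw.form.cont.cont p)
  have hσ : ∀ y ∈ t, ∀ᶠ x in 𝓝 y, σ x = σ y := fun y hy => by
    have hc := hwc.continuousAt (c.open_target.mem_nhds hy)
    rcases lt_or_gt_of_ne (pfq_rep_herm_ne_zero hJ hw hy) with h0 | h0
    · filter_upwards [hc.eventually (gt_mem_nhds h0)] with x hx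
      simp [σ, Real.sign_of_neg hx, Real.sign_of_neg h0]
    · filter_upwards [hc.eventually (lt_mem_nhds h0)] with x hx
      simp [σ, Real.sign_of_pos hx, Real.sign_of_pos h0]
  set g : E → E := fun y l => pd l φ y
  have hg0 : ∀ y ∉ tsupport φ, ∀ l, g y l = 0 := fun y hy l => by
    simp [g, pd, (notMem_tsupport_iff_eventuallyEq.1 hy).fderiv_eq]
  have hK0 : ∀ y ∈ t, y ∉ tsupport φ → a y = 0 := fun y _ hy => by
    funext l; simp [a, image_eq_zero_of_notMem_tsupport hy]
  have hac : ∀ l, ContDiffOn ℝ ∞ (fun y => a y l) t := fun l y hy => by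
    refine (ContDiffAt.congr_of_eventuallyEq
      ((contDiffAt_const (c := σ y)).mul hφ.smooth.contDiffAt |>.mul
        (contDiffAt_const (c := η l))) ?_).contDiffWithinAt
    filter_upwards [hσ y hy] with x hx
    simp [a, hx]
  have hS : IsForm1 (ext1 p a) := isForm1_ext1 hφ.compact hφt hK0 hac
  have hdX : dX (ext1 p a) = ext p (dOne a) := dX_ext1 hφ.compact hφt hK0 hac
  have hdO : ∀ y ∈ t, dOne a y =
      σ y • Matrix.of fun r s => g y r * η s - g y s * η r := fun y hy => by
    have hd : ∀ l m, pd m (fun x => a x l) y = σ y * (g y m * η l) := fun l m => by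
      have he : (fun x => a x l) =ᶠ[𝓝 y] fun x => σ y * η l * φ x := by
        filter_upwards [hσ y hy] with x hx
        simp [a, hx]
        ring
      simp only [pd, g, he.fderiv_eq]
      rw [fderiv_const_mul (hφ.smooth.differentiable (by simp) y)]
      simp
      ring
    ext r s
    simp [dOne, hd]
    ring
  set F : E → ℝ := fun y => U y j k * g y i + U y k i * g y j + U y i j * g y k with hF
  set P : E → ℝ := t.indicator fun y => |pfq (rep p w y) (rep p w y)| with hP
  set G : E → ℝ := fun y => F y / P y with hG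
  show ∫ y, F y = 0
  have hPm : Measurable P := measurable_indicator_of_continuousOn c.open_target hwc.abs
  have hgc : ∀ l, Measurable fun y => g y l := fun l =>
    ((hφ.smooth.continuous_fderiv (by simp)).clm_apply continuous_const).measurable
  have hFm : AEMeasurable F volume :=
    (((hU2 j k).1.aemeasurable.mul (hgc i).aemeasurable).add
      ((hU2 k i).1.aemeasurable.mul (hgc j).aemeasurable)).add
      ((hU2 i j).1.aemeasurable.mul (hgc k).aemeasurable)
  have hGm : AEStronglyMeasurable G (chartMeas p (vol A w)) := by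
    rw [chartMeas_vol A hw p]
    exact (hFm.div hPm.aemeasurable).aestronglyMeasurable.mono_ac
      ((withDensity_absolutelyContinuous _ _).trans
        (Measure.absolutelyContinuous_of_le Measure.restrict_le_self))
  have hG0 : ∫ y, G y ∂chartMeas p (vol A w) = 0 := by
    rw [chartMeas, integral_map (aemeasurable_chart p _) hGm,
      ← integral_indicator c.open_source.measurableSet]
    refine Eq.trans (integral_congr_ae (Eventually.of_forall fun z => ?_)) (hwk _ hS)
    rw [hdX]
    by_cases hzs : z ∈ c.source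
    · have hy := c.map_source hzs
      rw [indicator_of_mem hzs]
      have hsk : (rep p u (c z))ᵀ = -rep p u (c z) := skew_rep hu.skew p _
      have hd2 : (dOne a (c z))ᵀ = -dOne a (c z) := by
        ext r s; simp [dOne]
      have hdet := isUnit_chg (p := z) (q := p) (mem_chart_source E z) hzs
      have hUr : ∀ r s l, U (c z) r s * g (c z) l = rep p u (c z) r s * g (c z) l := by
        intro r s l
        by_cases hk : c z ∈ tsupport φ
        · rw [hU, indicator_of_mem (interior_subset (hφ.supp hk))]
        · rw [hg0 _ hk, mul_zero, mul_zero]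
      simp only [ext, c, if_pos hzs]
      rw [eq_rep w hzs, eq_rep u hzs, pr_congr hdet (skew_rep hw.form.skew _ _) hsk hd2, pr,
        hdO _ hy, pfq_comm, pfq_smul_left, pfq_comm, pfq_triple hsk]
      have hne := pfq_rep_herm_ne_zero hJ hw (p := p) hy
      simp only [hG, hF, hP]
      rw [indicator_of_mem hy, hUr, hUr, hUr]
      simp only [σ, c] at hne ⊢
      rcases lt_or_gt_of_ne hne with h0 | h0
      · rw [Real.sign_of_neg h0, abs_of_neg h0]; field_simp
      · rw [Real.sign_of_pos h0, abs_of_pos h0]; field_simp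
    · simp [ext, c, hzs, pr, pfq]
  rw [chartMeas_vol A hw p, integral_withDensity_eq_integral_toReal_smul₀
    (((hwc.abs).aemeasurable c.open_target.measurableSet).ennreal_ofReal)
    (Eventually.of_forall fun y => ENNReal.ofReal_lt_top)] at hG0
  refine Eq.trans ?_ hG0
  rw [← setIntegral_eq_integral_of_forall_compl_eq_zero (s := t) (f := F) fun y hy => by
    simp [hF, hg0 y fun h => hy (hφt h)]]
  refine setIntegral_congr_fun c.open_target.measurableSet fun y hy => ?_
  rw [ENNReal.toReal_ofReal (abs_nonneg _), smul_eq_mul, hG]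
  simp only [hP, indicator_of_mem hy]
  rw [mul_div_cancel₀ _ (abs_ne_zero.2 (pfq_rep_herm_ne_zero hJ hw hy))]

theorem smX_closed [CompactSpace X] (B : Atlas X) {ρ : E → ℝ} (hC : ClosedSmear)
    (h : SmearFacts B ρ) (A : Atlas X) {J w : X → M} (hJ : IsACX J) (hw : IsHerm J w) :
    ∃ ε₀ > 0, ∀ ε ∈ Ioc (0 : ℝ) ε₀, ∀ u, IsL2X u → IsWeakClosed A w u →
      IsClosedX (smX B ρ ε u) := by
  have hr : ∀ z : X, ∃ r > 0, closedBall (chartAt E z z) r ⊆ (chartAt E z).target := fun z =>
    nhds_basis_closedBall.mem_iff.1 ((chartAt E z).open_target.mem_nhds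
      ((chartAt E z).map_source (mem_chart_source E z)))
  choose r hr0 hrt using hr
  choose K' hK't hK'c hKK' ε₁ hε₁ hchart using fun z : X =>
    h.chart z (closedBall (chartAt E z z) (r z)) (hrt z) (isCompact_closedBall _ _)
  choose ε₂ hε₂ hclosed using fun z : X =>
    hC _ _ (readTau B z) (h.smoother z) (wgtA B.n ρ) h.weight
      (closedBall (chartAt E z z) (r z)) (hrt z) (isCompact_closedBall _ _) (K' z) (hK't z)
      (hK'c z) (hKK' z)
  obtain ⟨t, -, hcov⟩ := isCompact_univ.elim_nhds_subcover
    (fun z : X => (chartAt E z).source ∩ chartAt E z ⁻¹' ball (chartAt E z z) (r z))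
    fun z _ => ((chartAt E z).isOpen_inter_preimage isOpen_ball).mem_nhds
      ⟨mem_chart_source E z, mem_ball_self (hr0 z)⟩
  obtain ⟨ε₃, hε₃, hform⟩ := h.form
  obtain ⟨ε₀, hε₀, hle3, hle⟩ := exists_pos_le t (f := fun z => min (ε₁ z) (ε₂ z))
    (fun z _ => lt_min (hε₁ z) (hε₂ z)) hε₃
  refine ⟨ε₀, hε₀, fun ε hε u hu hwk q y hy i j k => ?_⟩
  set v := smX B ρ ε u
  have hv : IsForm v := hform ε ⟨hε.1, hε.2.trans hle3⟩ u hu
  obtain ⟨z, hzt, hzs, hzb⟩ := mem_iUnion₂.1 (hcov (mem_univ ((chartAt E q).symm y)))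
  set c := chartAt E z
  set Bl := ball (c z) (r z)
  have hBlK : Bl ⊆ interior (closedBall (c z) (r z)) := ball_subset_interior_closedBall
  have hBlt : Bl ⊆ c.target := ball_subset_closedBall.trans (hrt z)
  have hsm : ∀ x ∈ Bl, ∀ i j k, cyc (rep z v) x i j k = 0 := by
    intro x hx i j k
    have he : rep z v =ᶠ[𝓝 x] smL (readTau B z) (wgtA B.n ρ) ε ((K' z).indicator (rep z u)) := by
      filter_upwards [isOpen_ball.mem_nhds hx] with x' hx'
      exact hchart z ε ⟨hε.1, hε.2.trans ((hle z hzt).trans (min_le_left _ _))⟩ u hu x'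
        (ball_subset_closedBall hx')
    rw [cyc_congr he]
    refine hclosed z ε ⟨hε.1, hε.2.trans ((hle z hzt).trans (min_le_right _ _))⟩ _
      (hu.indicator z (hK't z) (hK'c z)) (fun x => ?_)
      (fun φ hφ a b d => weakClosed_chart A hJ hw hu hwk z (hK't z) (hK'c z) hφ a b d)
      x (hBlK hx) i j k
    by_cases hxK : x ∈ K' z
    · rw [indicator_of_mem hxK]; exact skew_rep hu.skew z x
    · simp [indicator_of_notMem hxK]
  set W := trnDom q z ∩ trn q z ⁻¹' Bl
  have hW : IsOpen W :=
    (contDiffOn_trn q z).continuousOn.isOpen_inter_preimage (isOpen_trnDom q z) isOpen_ball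
  have hyW : y ∈ W := ⟨⟨hy, hzs⟩, hzb⟩
  show cyc (rep q v) y i j k = 0
  have he : rep q v =ᶠ[𝓝 y] fun x => (jac (trn q z) x)ᵀ * rep z v (trn q z x) * jac (trn q z) x := by
    filter_upwards [hW.mem_nhds hyW] with x hx
    rw [rep_trn v hx.1, chg_eq_jac hx.1]
    rfl
  rw [cyc_congr he]
  exact cyc_pullback hW isOpen_ball ((contDiffOn_trn q z).mono inter_subset_left)
    (fun x hx => hx.2) (fun a b => (hv.smooth z a b).mono hBlt)
    (fun x _ => skew_rep hv.skew z x) hsm hyW i j k

theorem smearUse : SmearUseHolds := by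
  intro X _ _ _ _ _ _ _ B ρ hF _ hC _ h
  exact
    { chart_field := fun p O hO hOc hOt a ha hs => isL2X_ext p hO hOc hOt ha hs
      linear := smX_linear B hF h
      smear_ext := fun p O hO hOc hOt K hKt hK hOK => smX_ext B h p hO hOc hOt hKt hK hOK
      closed := fun A J w hJ hw => smX_closed B hC h A hJ hw }

end Vale.Agent.P204.Tame.Mfd
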