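import Vale.Agent.P204.Tame.Mfd.Reps
import Vale.Agent.P204.Tame.Mfd.SmearUse
import Vale.Agent.P204.Tame.Mfd.GNorm
import Vale.Agent.P204.Tame.Loc.PhiPart

/-!
The anti-invariant functional on smoothed chart fields is given by a chart field of size
`gPhi`, whose invariant part is smaller by one power of the scale.
-/

namespace Vale.Agent.P204.Tame.Mfd

open scoped ContDiff Manifold Matrix ENNReal
open MeasureTheory Metric Set Filter

/-- The skew part of a field. -/
noncomputable def skewPart (a : E → M) (x : E) : M := (1 / 2 : ℝ) • (a x - (a x)ᵀ)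

lemma skew_skewPart (a : E → M) (x : E) : (skewPart a x)ᵀ = -skewPart a x := by
  simp [skewPart, ← smul_neg]

lemma skewPart_of_skew {a : E → M} (h : ∀ x, (a x)ᵀ = -a x) : skewPart a = a := by
  funext x
  simp only [skewPart, h x, sub_neg_eq_add]
  module

lemma isL2Field_skewPart {m : Measure E} {a : E → M} (ha : IsL2Field m a) :
    IsL2Field m (skewPart a) := fun i j => by
  simp only [skewPart, Matrix.smul_apply, Matrix.sub_apply, Matrix.transpose_apply, smul_eq_mul]
  exact ((ha i j).sub (ha j i)).const_mul _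

lemma panti_twice {J : M} (hJ : J * J = -1) (u : M) : panti J (panti J u) = panti J u := by
  rw [pinv_neg' J (panti J u), pinv_panti hJ, sub_zero]

variable {X : Type} [TopologicalSpace X] [ChartedSpace E X] [IsManifold 𝓘(ℝ, E) ∞ X]

lemma pantiX_ext (J : X → M) (p : X) (b : E → M) :
    pantiX J (ext p b) = ext p (fun y => panti (repEnd p J y) (b y)) := by
  funext z
  simp only [pantiX, ext]
  split_ifs with hz
  · conv_lhs => rw [eq_repEnd J hz]
    exact panti_congr (chg_mul_chg hz (mem_chart_source E z))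
  · simp [panti]

variable [T2Space X] [CompactSpace X] [MeasurableSpace X] [BorelSpace X]

theorem exists_phiRep (A : Atlas X) {J w : X → M} (hJ : IsACX J) (hw : IsHerm J w)
    {Φ : (X → M) →ₗ[ℝ] ℝ} (hΦ : ∃ B : ℝ, ∀ u, IsForm u → |Φ u| ≤ B * hnorm A 4 1 u)
    (B : Atlas X) {ρ : E → ℝ} (hρ : IsMol ρ) (R : Regions B) (i : Fin B.n) :
    ∃ C : ℝ, 0 ≤ C ∧ ∃ ε₀ > 0, ∀ ε ∈ Ioc (0 : ℝ) ε₀, ∃ s : E → M,
      IsL2Field (volume.restrict (R.O i)) s ∧ (∀ x, (s x)ᵀ = -s x) ∧
      (∀ a : E → M, IsL2Field (volume.restrict (R.O i)) a → (∀ x, (a x)ᵀ = -a x) →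
        Φ (pantiX J (smX B ρ ε (ext (B.c i) ((R.O i).indicator a)))) =
          ∫ x in R.O i, wd (repEnd (B.c i) J x) (s x) (a x)) ∧
      ∀ k l, Real.sqrt (∫ x in R.O i, s x k l ^ 2) ≤ C * gPhi A J Φ ε ∧
        Real.sqrt (∫ x in R.O i, pinv (repEnd (B.c i) J x) (s x) k l ^ 2)
          ≤ C * ε * gPhi A J Φ ε := by
  classical
  set p := B.c i
  set O := R.O i
  set K := R.K i
  set Jc : E → M := repEnd p J
  have hO : MeasurableSet O := R.measurableSet i
  have hOc : IsCompact (closure O) := (R.compact i).1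
  have hOt : closure O ⊆ (chartAt E p).target := R.closure_target i
  haveI : IsFiniteMeasure (volume.restrict O) := ⟨by simpa using R.volume_lt_top i⟩
  obtain ⟨K₁, hK₁c, hOK₁, hK₁K⟩ := exists_compact_between hOc isOpen_interior (R.inside i)
  have hKt : K ⊆ (chartAt E p).target := R.target i
  have hK₁t : K₁ ⊆ (chartAt E p).target := (hK₁K.trans interior_subset).trans hKt
  have hU := smearUse_of smearUse B hρ
  have hF := smearFacts_of B hρ
  obtain ⟨ε₁, hε₁, hlin⟩ := hU.linear
  obtain ⟨ε₂, hε₂, hext⟩ := hU.smear_ext p O hO hOc hOt K hKt (R.compact i).2 (R.inside i)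
  obtain ⟨ε₃, hε₃, hext₁⟩ := hU.smear_ext p O hO hOc hOt K₁ hK₁t hK₁c hOK₁
  obtain ⟨C₁, hC₁, ε₄, hε₄, hsob⟩ := exists_smL_sob smootherSobolev smootherGain (hF.smoother p)
    hF.weight hK₁t hK₁c
  obtain ⟨C₂, hC₂, ε₅, hε₅, hgain⟩ := exists_smL_gain smootherFibre smootherSobolev smootherGain
    (hF.smoother p) hF.weight (hJ.isACS p) hK₁t hK₁c
  obtain ⟨C₃, hC₃, hN⟩ := exists_hnorm_ext A p hK₁c hK₁t 8
  have hJc : ∀ a b, ContDiffOn ℝ ∞ (fun y => Jc y a b) (chartAt E p).target := hJ.smooth p
  set Bd : Fin 4 → Fin 4 → M := fun k l => starF (unit2 k l - (unit2 k l)ᵀ)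
  set T : Fin 4 → Fin 4 → E → M := fun k l x => pinv (Jc x) (sgnJ (Jc x) • Bd k l)
  obtain ⟨BJ, hBJ⟩ := hOc.exists_bound_of_continuousOn (continuous_nrm1.comp_continuousOn
    (continuousOn_pi.2 fun a => continuousOn_pi.2 fun b => ((hJc a b).continuousOn).mono hOt))
  set CT : ℝ := ∑ k, ∑ l, nrm1 (Bd k l) * (1 + |BJ| * |BJ|)
  have hCT0 : 0 ≤ CT := Finset.sum_nonneg fun k _ => Finset.sum_nonneg fun l _ =>
    mul_nonneg (nrm1_nonneg _) (by positivity)
  set C₀ := 144 * C₁ * C₃ + 144 * C₂ * C₃
  have hC₀ : 0 ≤ C₀ := by positivity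
  refine ⟨2 * C₀ + 16 * C₀ * CT, by positivity,
    min (min (min ε₁ ε₂) (min ε₃ ε₄)) (min ε₅ 1),
    lt_min (lt_min (lt_min hε₁ hε₂) (lt_min hε₃ hε₄)) (lt_min hε₅ one_pos), fun ε hε => ?_⟩
  simp only [mem_Ioc, le_min_iff] at hε
  obtain ⟨hε0, ⟨⟨h1, h2⟩, h3, h4⟩, h5, h6⟩ := hε
  have hεI : ε ∈ Ioc (0 : ℝ) 1 := ⟨hε0, h6⟩
  set g := gPhi A J Φ ε
  have hg : 0 ≤ g := gPhi_nonneg A J Φ hε0.le
  set L : (E → M) → ℝ := fun a =>
    Φ (pantiX J (smX B ρ ε (ext p (O.indicator (skewPart a))))) with hL
  have hX : ∀ a, IsL2Field (volume.restrict O) a → IsL2X (ext p (O.indicator (skewPart a))) :=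
    fun a ha => hU.chart_field p O hO hOc hOt _ (isL2Field_skewPart ha) (skew_skewPart a)
  have hind : ∀ (a : E → M) (ha : ∀ x, (a x)ᵀ = -a x) x, (O.indicator a x)ᵀ = -O.indicator a x :=
    fun a ha x => by by_cases hx : x ∈ O <;> simp [hx, ha x]
  have hadd : ∀ a b, IsL2Field (volume.restrict O) a → IsL2Field (volume.restrict O) b →
      L (a + b) = L a + L b := fun a b ha hb => by
    have e : ext p (O.indicator (skewPart (a + b))) =
        ext p (O.indicator (skewPart a)) + ext p (O.indicator (skewPart b)) := by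
      have e1 : skewPart (a + b) = skewPart a + skewPart b := by
        funext x; simp only [skewPart, Pi.add_apply, Matrix.transpose_add]; module
      rw [e1, Set.indicator_add']
      exact (extL p).map_add _ _
    simp only [hL, e, (hlin ε ⟨hε0, h1⟩ _ _ (hX a ha) (hX b hb) 0).1]
    exact (congrArg Φ ((pantiL J).map_add _ _)).trans (map_add Φ _ _)
  have hsmul : ∀ (r : ℝ) a, IsL2Field (volume.restrict O) a → L (r • a) = r * L a := fun r a ha => by
    have e : ext p (O.indicator (skewPart (r • a))) = r • ext p (O.indicator (skewPart a)) := by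
      have e1 : skewPart (r • a) = r • skewPart a := by
        funext x; simp only [skewPart, Pi.smul_apply, Matrix.transpose_smul]; module
      rw [e1, show O.indicator (r • skewPart a) = r • O.indicator (skewPart a) from
        Set.indicator_const_smul O r (skewPart a)]
      exact (extL p).map_smul _ _
    simp only [hL, e, (hlin ε ⟨hε0, h1⟩ _ _ (hX a ha) (hX a ha) r).2]
    exact (congrArg Φ ((pantiL J).map_smul _ _)).trans (map_smul Φ _ _)
  have hnorm_a : ∀ (a : E → M) c d, ∫ x, O.indicator a x c d ^ 2 = ∫ x in O, a x c d ^ 2 := by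
    intro a c d
    rw [← integral_indicator hO]
    refine integral_congr_ae (Eventually.of_forall fun x => ?_)
    by_cases hx : x ∈ O <;> simp [hx]
  -- the smoothed chart field and its two bounds
  have main : ∀ a, IsL2Field (volume.restrict O) a → (∀ x, (a x)ᵀ = -a x) →
      |Φ (pantiX J (smX B ρ ε (ext p (O.indicator a))))| ≤
        C₀ * g * ∑ c, ∑ d, Real.sqrt (∫ x in O, a x c d ^ 2) ∧
      ((∀ x ∈ O, pinv (Jc x) (a x) = a x) → |Φ (pantiX J (smX B ρ ε (ext p (O.indicator a))))| ≤
        C₀ * ε * g * ∑ c, ∑ d, Real.sqrt (∫ x in O, a x c d ^ 2)) := by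
    intro a ha has
    have hai := ha.indicator hO
    set S := ∑ c, ∑ d, Real.sqrt (∫ x in O, a x c d ^ 2) with hS
    have hS0 : 0 ≤ S := Finset.sum_nonneg fun _ _ => Finset.sum_nonneg fun _ _ => Real.sqrt_nonneg _
    set G := smL (readTau B p) (wgtA B.n ρ) ε (O.indicator a) with hG
    set b := K₁.indicator G with hb
    obtain ⟨he₁, hsm₁, hsp₁⟩ := hext₁ ε ⟨hε0, h3⟩ a ha has
    obtain ⟨he, -, -⟩ := hext ε ⟨hε0, h2⟩ a ha has
    have hbs : ∀ y, (b y)ᵀ = -b y := fun y => by
      by_cases hy : y ∈ K₁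
      · simp only [hb, indicator_of_mem hy]
        exact smL_skew _ _ _ (hind a has) y
      · simp [hb, indicator_of_notMem hy]
    have hbG : ∀ y ∈ interior K, b y = G y := fun y hy => by
      have h7 := congrArg (fun u => rep p u y) (he₁.symm.trans he)
      simp only [rep_ext _ (hKt (interior_subset hy))] at h7
      rw [hb, h7, indicator_of_mem (interior_subset hy)]
    have hb0 : ∀ y ∉ K₁, b y = 0 := fun y hy => indicator_of_notMem hy _
    have hD : ∀ {F : E → ℝ} {f : E → ℝ}, tsupport F ⊆ K₁ → (∀ y ∈ interior K, F y = f y) →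
        ∀ l, Real.sqrt (∫ y, ‖iteratedFDeriv ℝ l F y‖ ^ 2)
          = Real.sqrt (∫ y in K₁, ‖iteratedFDeriv ℝ l f y‖ ^ 2) := by
      intro F f hs hf l
      congr 1
      rw [← setIntegral_eq_integral_of_forall_compl_eq_zero (s := K₁) fun y hy => by
        have : iteratedFDeriv ℝ l F y = 0 :=
          image_eq_zero_of_notMem_tsupport fun h => hy (hs (tsupport_iteratedFDeriv_subset l h))
        simp [this]]
      refine setIntegral_congr_fun hK₁c.measurableSet fun y hy => ?_
      rw [(Filter.EventuallyEq.iteratedFDeriv ℝ (Filter.eventuallyEq_of_mem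
        (isOpen_interior.mem_nhds (hK₁K hy)) hf) l).eq_of_nhds]
    have hsum : ∀ {F : Fin 4 → Fin 4 → ℕ → ℝ} {c : ℝ}, 0 ≤ c → (∀ k l, ∀ j ≤ 8, F k l j ≤ c) →
        ∑ k, ∑ l, ∑ j ∈ Finset.range 9, F k l j ≤ 144 * c := by
      intro F c hc h
      calc ∑ k, ∑ l, ∑ j ∈ Finset.range 9, F k l j
          ≤ ∑ _k : Fin 4, ∑ _l : Fin 4, ∑ _j ∈ Finset.range 9, c :=
            Finset.sum_le_sum fun k _ => Finset.sum_le_sum fun l _ => Finset.sum_le_sum
              fun j hj => h k l j (Nat.lt_succ_iff.1 (Finset.mem_range.1 hj))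
        _ = 144 * c := by simp; ring
    rw [he₁, ← hG, ← hb]
    obtain ⟨hform, hnb⟩ := hN b hsm₁ hbs hsp₁
    constructor
    · refine (abs_le_gPhi A hJ hΦ hform hεI).trans ?_
      refine (mul_le_mul_of_nonneg_left ((hnb ε hεI).trans (mul_le_mul_of_nonneg_left
        (hsum (c := C₁ * S) (mul_nonneg hC₁ hS0) fun k l j hj => ?_) hC₃)) hg).trans ?_
      · rw [hD (hsp₁ k l) fun y hy => congrFun (congrFun (hbG y hy) k) l]
        refine (((hsob ε ⟨hε0, h4⟩ _ hai k l).2 j hj)).trans_eq ?_
        simp only [hnorm_a, hS]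
      · calc g * (C₃ * (144 * (C₁ * S))) = 144 * C₁ * C₃ * g * S := by ring
          _ ≤ C₀ * g * S := mul_le_mul_of_nonneg_right (mul_le_mul_of_nonneg_right
              (le_add_of_nonneg_right (by positivity)) hg) hS0
    · intro hinv
      set b' : E → M := fun y => panti (Jc y) (b y) with hb'
      have hb's : ∀ y, (b' y)ᵀ = -b' y := fun y => panti_skew _ (hbs y)
      have hsp' : ∀ k l, tsupport (fun y => b' y k l) ⊆ K₁ := fun k l =>
        closure_minimal (fun y hy => by_contra fun h => hy (by simp [hb', hb0 y h, panti]))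
          hK₁c.isClosed
      have hsm' : ∀ k l, ContDiff ℝ ∞ fun y => b' y k l := fun k l => by
        refine contDiff_of_tsupport (chartAt E p).open_target ?_ ((hsp' k l).trans hK₁t)
        simp only [hb', panti_expand]
        exact ContDiffOn.sum fun c _ => ContDiffOn.sum fun d _ =>
          (contDiffOn_const.mul (contDiffOn_const.sub ((hJc c k).mul (hJc d l)))).mul
            (hsm₁ c d).contDiffOn
      obtain ⟨hform', hnb'⟩ := hN b' hsm' hb's hsp'
      have e : pantiX J (ext p b) = ext p b' := pantiX_ext J p b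
      have e2 : pantiX J (ext p b') = ext p b' := by
        rw [← e]
        funext z
        exact panti_twice (hJ.sq z) _
      rw [e, ← e2]
      refine (abs_le_gPhi A hJ hΦ hform' hεI).trans ?_
      have hainv : ∀ x ∈ (chartAt E p).target, pinv (Jc x) (O.indicator a x) = O.indicator a x :=
        fun x _ => by by_cases hx : x ∈ O <;> simp [hx, pinv]; simpa [pinv] using hinv x hx
      refine (mul_le_mul_of_nonneg_left ((hnb' ε hεI).trans (mul_le_mul_of_nonneg_left
        (hsum (c := C₂ * ε * S) (by positivity) fun k l j hj => ?_) hC₃)) hg).trans ?_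
      · rw [hD (hsp' k l) (f := fun x => panti (Jc x) (G x) k l)
          fun y hy => by simp only [hb', hbG y hy]]
        refine ((hgain ε ⟨hε0, h5⟩ _ hai hainv k l j hj)).trans_eq ?_
        simp only [hnorm_a, hS]
      · calc g * (C₃ * (144 * (C₂ * ε * S))) = 144 * C₂ * C₃ * ε * g * S := by ring
          _ ≤ C₀ * ε * g * S := mul_le_mul_of_nonneg_right (mul_le_mul_of_nonneg_right
              (mul_le_mul_of_nonneg_right (le_add_of_nonneg_left (by positivity)) hε0.le) hg) hS0
  -- representation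
  have hsk2 : ∀ a, IsL2Field (volume.restrict O) a →
      ∑ c, ∑ d, Real.sqrt (∫ x in O, skewPart a x c d ^ 2)
        ≤ ∑ c, ∑ d, Real.sqrt (∫ x in O, a x c d ^ 2) := by
    intro a ha
    have h : ∀ c d, Real.sqrt (∫ x in O, skewPart a x c d ^ 2) ≤
        1 / 2 * Real.sqrt (∫ x in O, a x c d ^ 2) + 1 / 2 * Real.sqrt (∫ x in O, a x d c ^ 2) := by
      intro c d
      have hi := fun u v => (ha u v).integrable_sq
      set u := Real.sqrt (∫ x in O, a x c d ^ 2)
      set v := Real.sqrt (∫ x in O, a x d c ^ 2)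
      have hu : u ^ 2 = ∫ x in O, a x c d ^ 2 := Real.sq_sqrt (integral_nonneg fun _ => sq_nonneg _)
      have hv : v ^ 2 = ∫ x in O, a x d c ^ 2 := Real.sq_sqrt (integral_nonneg fun _ => sq_nonneg _)
      have hm := abs_le.1 (abs_integral_mul_le (ha c d) (ha d c))
      rw [Real.sqrt_le_left (by positivity)]
      have e : ∫ x in O, skewPart a x c d ^ 2
          = 1 / 4 * (u ^ 2 + v ^ 2 - 2 * ∫ x in O, a x c d * a x d c) := by
        have hp : Integrable (fun x => 2 * (a x c d * a x d c)) (volume.restrict O) :=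
          ((ha c d).integrable_mul (ha d c)).const_mul 2
        have hq : Integrable (fun x => a x c d ^ 2 + a x d c ^ 2) (volume.restrict O) :=
          (hi c d).add (hi d c)
        rw [hu, hv, ← integral_add (hi c d) (hi d c), ← integral_const_mul 2,
          ← integral_sub hq hp, ← integral_const_mul]
        refine integral_congr_ae (Eventually.of_forall fun x => ?_)
        simp only [skewPart, Matrix.smul_apply, Matrix.sub_apply, Matrix.transpose_apply,
          smul_eq_mul]
        ring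
      rw [e]
      nlinarith [hm.1]
    calc ∑ c, ∑ d, Real.sqrt (∫ x in O, skewPart a x c d ^ 2)
        ≤ ∑ c, ∑ d, (1 / 2 * Real.sqrt (∫ x in O, a x c d ^ 2)
            + 1 / 2 * Real.sqrt (∫ x in O, a x d c ^ 2)) :=
          Finset.sum_le_sum fun c _ => Finset.sum_le_sum fun d _ => h c d
      _ = _ := by
          simp only [Finset.sum_add_distrib]
          rw [Finset.sum_comm (f := fun c d => 1 / 2 * Real.sqrt (∫ x in O, a x d c ^ 2)),
            ← Finset.sum_add_distrib]
          refine Finset.sum_congr rfl fun c _ => ?_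
          rw [← Finset.sum_add_distrib]
          exact Finset.sum_congr rfl fun d _ => by ring
  have hJm : ∀ a b, Measurable fun y => (closure O).indicator Jc y a b := fun a b => by
    simp only [indicator_field_apply]
    rw [← Set.piecewise_eq_indicator]
    exact (((hJc a b).continuousOn).mono hOt).measurable_piecewise continuousOn_const
      hOc.measurableSet
  set J' := (closure O).indicator Jc with hJ'
  have hJO : ∀ x ∈ O, J' x = Jc x := fun x hx => indicator_of_mem (subset_closure hx) _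
  have hsq : ∀ x ∈ O, Jc x * Jc x = -1 := fun x hx => repEnd_sq hJ.sq (hOt (subset_closure hx))
  have hne : ∀ x ∈ O, pfq (wmat (Jc x)) (wmat (Jc x)) ≠ 0 := fun x hx h => by
    have := (linearFacts.2.2.1 _ (hsq x hx)).2
    rw [h, mul_zero] at this
    exact lt_irrefl _ this
  obtain ⟨s, hs2, hss, hsrep, hsb, -⟩ := exists_field_rep (m := volume.restrict O) (J := J')
    (measurable_sgnJ hJm) ((ae_restrict_mem hO).mono fun x hx => by rw [hJO x hx]; exact hne x hx)
    L hadd hsmul (C := C₀ * g) (fun a ha => ((main _ (isL2Field_skewPart ha) (skew_skewPart a)).1).trans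
      (mul_le_mul_of_nonneg_left (hsk2 a ha) (mul_nonneg hC₀ hg)))
  have hrep : ∀ a, IsL2Field (volume.restrict O) a → (∀ x, (a x)ᵀ = -a x) →
      Φ (pantiX J (smX B ρ ε (ext p (O.indicator a)))) = ∫ x in O, wd (Jc x) (s x) (a x) :=
    fun a ha has => by
      have := hsrep a ha has
      simp only [hL, skewPart_of_skew has] at this
      rw [this]
      refine setIntegral_congr_fun hO fun x hx => ?_
      simp only [hJO x hx]
  refine ⟨s, hs2, hss, hrep, fun k l => ⟨(hsb k l).trans ?_, ?_⟩⟩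
  · rw [max_eq_left (mul_nonneg hC₀ hg), ← mul_assoc]
    exact mul_le_mul_of_nonneg_right (le_add_of_nonneg_right (by positivity)) hg
  set f : E → ℝ := fun x => pinv (J' x) (s x) k l with hf
  set a : E → M := fun x => f x • pinv (J' x) (sgnJ (J' x) • Bd k l) with ha
  have hBds : (Bd k l)ᵀ = -Bd k l := starF_skew _
  have hjb : ∀ x ∈ O, ∀ u v, |J' x u v| ≤ |BJ| := fun x hx u v => by
    rw [hJO x hx]
    exact (abs_le_nrm1 _ u v).trans ((le_abs_self _).trans
      ((hBJ x (subset_closure hx)).trans (le_abs_self _)))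
  have hpm : ∀ (F : E → M), (∀ u v, AEStronglyMeasurable (fun x => F x u v) (volume.restrict O)) →
      ∀ u v, AEStronglyMeasurable (fun x => pinv (J' x) (F x) u v) (volume.restrict O) := by
    intro F hF u v
    simp only [pinv, Matrix.smul_apply, Matrix.add_apply, Matrix.mul_apply, Matrix.transpose_apply,
      smul_eq_mul]
    exact ((hF u v).add (Finset.aestronglyMeasurable_fun_sum _ fun q _ =>
      (Finset.aestronglyMeasurable_fun_sum _ fun r _ =>
        (hJm r u).aestronglyMeasurable.mul (hF r q)).mul (hJm q v).aestronglyMeasurable)).const_mul _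
  have hpb : ∀ (F : M) x, x ∈ O → ∀ u v, |pinv (J' x) F u v| ≤
      (1 + |BJ| * |BJ|) * nrm1 F := by
    intro F x hx u v
    simp only [pinv, Matrix.smul_apply, Matrix.add_apply, Matrix.mul_apply, Matrix.transpose_apply,
      smul_eq_mul, abs_mul, Finset.sum_mul]
    have hsb : |∑ q, ∑ r, J' x r u * F r q * J' x q v| ≤ |BJ| * |BJ| * nrm1 F := by
      refine (Finset.abs_sum_le_sum_abs _ _).trans ((Finset.sum_le_sum fun q _ =>
        Finset.abs_sum_le_sum_abs _ _).trans ?_)
      rw [nrm1, Finset.sum_comm (f := fun i j => |F i j|), Finset.mul_sum]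
      refine Finset.sum_le_sum fun q _ => ?_
      rw [Finset.mul_sum]
      refine Finset.sum_le_sum fun r _ => ?_
      rw [abs_mul, abs_mul, mul_right_comm]
      exact mul_le_mul_of_nonneg_right
        (mul_le_mul (hjb x hx r u) (hjb x hx q v) (abs_nonneg _) (abs_nonneg _)) (abs_nonneg _)
    have := abs_le_nrm1 F u v
    have := abs_add_le (F u v) (∑ q, ∑ r, J' x r u * F r q * J' x q v)
    have := nrm1_nonneg F
    rw [show |(1 : ℝ) / 2| = 1 / 2 by norm_num]
    nlinarith [mul_nonneg (mul_nonneg (abs_nonneg BJ) (abs_nonneg BJ)) (nrm1_nonneg F)]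
  have hfL : MemLp f 2 (volume.restrict O) := by
    have hsum : MemLp (fun x => ∑ i, ∑ j, |s x i j|) 2 (volume.restrict O) :=
      memLp_finsetSum _ fun i _ => memLp_finsetSum _ fun j _ => (hs2 i j).norm
    refine (hsum.const_mul (1 + |BJ| * |BJ|)).of_le (hpm s (fun u v => (hs2 u v).1) k l) ?_
    filter_upwards [ae_restrict_mem hO] with x hx
    exact (hpb (s x) x hx k l).trans (le_abs_self _)
  have hTb : ∀ x ∈ O, ∀ u v, |pinv (J' x) (sgnJ (J' x) • Bd k l) u v| ≤ CT := by
    intro x hx u v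
    refine (hpb _ x hx u v).trans ?_
    rw [nrm1_smul_unit, mul_comm]
    refine le_trans (mul_le_mul_of_nonneg_right (mul_le_of_le_one_left (nrm1_nonneg _)
      (abs_sgnJ_le_one _)) (by positivity)) ?_
    exact (Finset.single_le_sum (f := fun l => nrm1 (Bd k l) * (1 + |BJ| * |BJ|))
      (fun l _ => mul_nonneg (nrm1_nonneg _) (by positivity)) (Finset.mem_univ l)).trans
      (Finset.single_le_sum (f := fun k => ∑ l, nrm1 (Bd k l) * (1 + |BJ| * |BJ|))
        (fun k _ => Finset.sum_nonneg fun l _ => mul_nonneg (nrm1_nonneg _) (by positivity))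
        (Finset.mem_univ k))
  have has : ∀ x, (a x)ᵀ = -a x := fun x => by
    simp only [ha, Matrix.transpose_smul]
    rw [pinv_skew _ (by rw [Matrix.transpose_smul, hBds, smul_neg]), smul_neg]
  have hab : ∀ u v, ∀ᵐ x ∂volume.restrict O, |a x u v| ≤ CT * |f x| := fun u v => by
    filter_upwards [ae_restrict_mem hO] with x hx
    simp only [ha, Matrix.smul_apply, smul_eq_mul, abs_mul]
    rw [mul_comm CT]
    exact mul_le_mul_of_nonneg_left (hTb x hx u v) (abs_nonneg _)
  have haL : IsL2Field (volume.restrict O) a := fun u v => by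
    refine (hfL.const_mul CT).of_le ?_ ((hab u v).mono fun x hx => ?_)
    · simp only [ha, Matrix.smul_apply, smul_eq_mul]
      refine hfL.1.mul (hpm _ (fun u v => ?_) u v)
      simp only [Matrix.smul_apply, smul_eq_mul]
      exact ((measurable_sgnJ hJm).mul_const _).aestronglyMeasurable
    · rw [Real.norm_eq_abs, Real.norm_eq_abs, abs_mul, abs_of_nonneg hCT0]; exact hx
  have hsqrt : ∀ u v, Real.sqrt (∫ x in O, a x u v ^ 2) ≤
      CT * Real.sqrt (∫ x in O, f x ^ 2) := fun u v => by
    rw [← Real.sqrt_sq hCT0, ← Real.sqrt_mul (sq_nonneg _)]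
    refine Real.sqrt_le_sqrt ?_
    rw [← integral_const_mul]
    refine integral_mono_ae (haL u v).integrable_sq (hfL.integrable_sq.const_mul _) ?_
    filter_upwards [hab u v] with x hx
    nlinarith [sq_abs (a x u v), sq_abs (f x), abs_nonneg (a x u v)]
  have hkey := (main a haL has).2 fun x hx => by
    simp only [ha, hJO x hx, pinv_smul]
    congr 1
    congr 1
    exact pinv_of_inv (pinv_is_inv (hsq x hx) _)
  rw [hrep a haL has] at hkey
  have hval : ∫ x in O, wd (Jc x) (s x) (a x) = ∫ x in O, f x ^ 2 := by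
    refine setIntegral_congr_fun hO fun x hx => ?_
    have hJx := hsq x hx
    have hps := pinv_skew (Jc x) (hss x)
    simp only [ha, hf, hJO x hx, wd]
    rw [pfq_comm, pfq_smul_left, pinv_smul, pfq_smul_left,
      pfq_pinv_left hJx hBds (hss x) |> fun h => (show pfq (pinv (Jc x) (Bd k l)) (s x)
        = pfq (Bd k l) (pinv (Jc x) (s x)) from by
          rw [pfq_comm (pinv (Jc x) (Bd k l)), pfq_comm (Bd k l)]
          rw [← pfq_pinv_left hJx (hss x) (pinv_skew (Jc x) hBds) (pinv_is_inv hJx _),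
            pfq_comm, pfq_pinv_left hJx hBds hps (pinv_is_inv hJx _), pfq_comm]),
      pfq_starF_of_skew hps]
    rw [Fintype.sum_eq_single k, Fintype.sum_eq_single l]
    · simp only [unit2, Matrix.of_apply, and_self, if_true]
      calc sgnJ (Jc x) * (pinv (Jc x) (s x) k l * (sgnJ (Jc x) * (1 * pinv (Jc x) (s x) k l)))
          = sgnJ (Jc x) * sgnJ (Jc x) * pinv (Jc x) (s x) k l ^ 2 := by ring
        _ = _ := by rw [sgnJ_sq (hne x hx), one_mul]
    · intro q hq; simp [unit2, hq]
    · intro q hq; simp [unit2, hq]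
  rw [hval] at hkey
  have hfe : ∫ x in O, pinv (Jc x) (s x) k l ^ 2 = ∫ x in O, f x ^ 2 :=
    setIntegral_congr_fun hO fun x hx => by simp only [hf, hJO x hx]
  rw [hfe]
  set Y := Real.sqrt (∫ x in O, f x ^ 2)
  have hY : Y ^ 2 = ∫ x in O, f x ^ 2 := Real.sq_sqrt (integral_nonneg fun _ => sq_nonneg _)
  have hfin : Y ^ 2 ≤ C₀ * ε * g * (16 * CT * Y) := by
    rw [hY]
    refine (le_abs_self _).trans (hkey.trans (mul_le_mul_of_nonneg_left ?_ (by positivity)))
    calc ∑ c, ∑ d, Real.sqrt (∫ x in O, a x c d ^ 2)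
        ≤ ∑ _c : Fin 4, ∑ _d : Fin 4, CT * Y :=
          Finset.sum_le_sum fun c _ => Finset.sum_le_sum fun d _ => hsqrt c d
      _ = _ := by simp; ring
  rcases (Real.sqrt_nonneg (∫ x in O, f x ^ 2)).eq_or_lt with h0 | h0
  · rw [show Y = 0 from h0.symm]; positivity
  · refine le_of_mul_le_mul_right ?_ h0
    calc Y * Y = Y ^ 2 := by ring
      _ ≤ C₀ * ε * g * (16 * CT * Y) := hfin
      _ = 16 * C₀ * CT * ε * g * Y := by ring
      _ ≤ _ := mul_le_mul_of_nonneg_right (mul_le_mul_of_nonneg_right (mul_le_mul_of_nonneg_right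
          (le_add_of_nonneg_left (by positivity)) hε0.le) hg) h0.le

end Vale.Agent.P204.Tame.Mfd
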