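import Vale.Agent.P204.Tame.Mfd.GlueBase
import Vale.Agent.P204.Tame.Mfd.ChartField
import Vale.Agent.P204.Tame.Mfd.SmearFacts
import Vale.Agent.P204.Tame.Loc.TPart
import Vale.Agent.P204.Tame.Loc.ClosedSmear
import Vale.Agent.P204.Tame.Linear
import Vale.Agent.P204.Tame.Smoother

/-!
The pairing of a positive field with smoothed chart fields is given by a chart field.
-/

namespace Vale.Agent.P204.Tame.Mfd

open scoped ContDiff Manifold Matrix ENNReal
open MeasureTheory Metric Set Filter

variable {X : Type} [TopologicalSpace X] [ChartedSpace E X] [IsManifold 𝓘(ℝ, E) ∞ X]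
  [MeasurableSpace X] [BorelSpace X] [T2Space X] [CompactSpace X]

/-- The smoother facts, all proved. -/
lemma smearFacts_of (B : Atlas X) {ρ : E → ℝ} (hρ : IsMol ρ) : SmearFacts B ρ :=
  smearFactsHold X B ρ smootherFibre smootherSobolev hρ

/-- The use facts from the module statement. -/
lemma smearUse_of (h : SmearUseHolds) (B : Atlas X) {ρ : E → ℝ} (hρ : IsMol ρ) : SmearUse B ρ :=
  h X B ρ smootherFibre smootherSobolev (closedSmear smootherSobolev smootherFibre) hρ
    (smearFacts_of B hρ)

/-- The measure of a positive field read in a chart is bounded by the measure read there. -/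
theorem exists_locMeas_le {J w : X → M} (hJ : IsACX J) (hw : IsHerm J w) {μ : Measure X}
    {Θ : X → M} (hpsd : ∀ᵐ z ∂μ, Psd (J z) (Θ z)) (hunit : ∀ᵐ z ∂μ, pr (w z) (Θ z) (w z) = 1)
    (p : X) {K : Set E} (hK : K ⊆ (chartAt E p).target) (hKc : IsCompact K) :
    ∃ C : ℝ, 0 ≤ C ∧
      (locMeas p J w μ Θ).restrict K ≤ ENNReal.ofReal C • (chartMeas p μ).restrict K := by
  classical
  obtain ⟨A⟩ := nonempty_atlas (X := X)
  set c := chartAt E p
  have hJc : ∀ a b, ContinuousOn (fun y => repEnd p J y a b) c.target := fun a b =>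
    (hJ.smooth p a b).continuousOn
  obtain ⟨χ, hχ1, hχ2, hχ3, hχ4⟩ := exists_cutoff
    (hKc.image_of_continuousOn (c.continuousOn_symm.mono hK)) c.open_source
    (by rintro _ ⟨y, hy, rfl⟩; exact c.map_target (hK hy))
  set a : E → M := fun y => χ (c.symm y) • dualF (-kmat (repEnd p J y))
  have hu : IsContForm (ext p a) := by
    refine isContForm_ext p (hχ2.image_of_continuousOn (c.continuousOn.mono hχ3)) ?_
      (fun y hy hn => ?_) (fun i j => (continuousOn_read hχ1.continuous p).mul
        (continuousOn_kmat hJc i j)) (fun y hy => by simp [a, skew_dualF])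
    · rintro _ ⟨z, hz, rfl⟩
      exact c.map_source (hχ3 hz)
    · have : χ (c.symm y) = 0 :=
        image_eq_zero_of_notMem_tsupport fun h' => hn ⟨_, h', c.right_inv hy⟩
      simp [a, this]
  obtain ⟨C, hC⟩ := exists_pr_bound A hJ hw hu
  refine ⟨max C 0, le_max_right _ _, Measure.le_iff.2 fun s hs => ?_⟩
  rw [Measure.smul_apply, Measure.restrict_apply hs, Measure.restrict_apply hs, locMeas,
    withDensity_apply _ (hs.inter hKc.measurableSet), ← chartMeas, smul_eq_mul]
  rw [← setLIntegral_const]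
  refine setLIntegral_mono_ae measurable_const.aemeasurable ?_
  filter_upwards [ae_chartMeas p (hpsd.and hunit)] with y ⟨hy, h1, h2⟩ hys
  refine ENNReal.ofReal_le_ofReal (le_trans ?_ (le_max_left _ _))
  have h3 := hC (c.symm y) (Θ (c.symm y)) h1
  rw [h2, mul_one] at h3
  refine le_trans ?_ h3
  rw [← pr_rep_eq' p hw h1.skew (hu.skew _) hy, rep_ext _ hy]
  simp only [a, hχ4 _ ⟨y, hys.2, rfl⟩, one_smul, pr]
  have hsk : (rep p Θ y)ᵀ = -rep p Θ y := skew_congr _ h1.skew
  rw [pfq_comm (rep p Θ y), ← trc_eq_pfq _ hsk, abs_div]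
  gcongr
  exact le_abs_self _

theorem pairRep_of (hSU : SmearUseHolds) : PairRep := by
  intro X _ _ _ _ _ _ _ J w μ Θ B ρ hJ hw hfin hmeas hpsd hunit hρ R i
  have := hfin
  set p := B.c i
  set K := R.K i
  set O := R.O i
  have hKt : K ⊆ (chartAt E p).target := R.target i
  have hKc : IsCompact K := (R.compact i).2
  have hOK : O ⊆ K := subset_closure.trans ((R.inside i).trans interior_subset)
  have hF := smearFacts_of B hρ
  obtain ⟨ε₁, hε₁, hext⟩ := (smearUse_of hSU B hρ).smear_ext p O (R.measurableSet i) (R.compact i).1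
    (R.closure_target i) K hKt hKc (R.inside i)
  obtain ⟨C, hC, ε₂, hε₂, ht⟩ := exists_tPart linearFacts smootherFibre smootherSobolev
    (hF.smoother p) hF.weight (hJ.isACS p) hKt hKc hOK (R.measurableSet i)
  obtain ⟨D, hD, hle⟩ := exists_locMeas_le hJ hw hpsd hunit p hKt hKc
  refine ⟨max C (C * D), le_max_of_le_left hC, min ε₁ ε₂, lt_min hε₁ hε₂, fun ε hε => ?_⟩
  have hP := isPosField_chart hJ hw hfin hmeas hpsd hunit p hKt hKc
  obtain ⟨t, ht2, hts, htrep, htb⟩ := ht ε ⟨hε.1, hε.2.trans (min_le_right _ _)⟩ _ _ hP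
  refine ⟨t, ht2, hts, fun a ha has => ?_, ?_⟩
  · obtain ⟨he, hsm, -⟩ := hext ε ⟨hε.1, hε.2.trans (min_le_left _ _)⟩ a ha has
    rw [he, integral_pr_ext linearFacts hJ hw hfin hmeas hpsd hunit p hKt hKc
      (fun a b => (hsm a b).continuous.measurable) (fun y => ?_)
      (fun y hy => indicator_of_notMem hy _), ← htrep a ha has]
    · unfold tFun
      refine setIntegral_congr_fun hKc.measurableSet fun y hy => ?_
      simp only [indicator_of_mem hy]
    · by_cases hy : y ∈ K
      · rw [indicator_of_mem hy]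
        exact smL_skew _ _ _ (fun x => by by_cases hx : x ∈ O <;> simp [hx, has x]) y
      · simp [indicator_of_notMem hy]
  · have hfc : IsFiniteMeasure (chartMeas p μ) := isFiniteMeasure_chartMeas p μ
    have hk : ∀ x, C * kball (locMeas p J w μ Θ) K C ε x ≤
        max C (C * D) * kball (chartMeas p μ) K (max C (C * D)) ε x := fun x => by
      have h1 : kball (locMeas p J w μ Θ) K C ε x ≤ D * kball (chartMeas p μ) K C ε x := by
        rw [kball, kball, mul_left_comm D]
        refine mul_le_mul_of_nonneg_left ?_ (mul_nonneg hC (inv_pos.2 (pow_pos hε.1 4)).le)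
        have h2 := hle (closedBall x (C * ε))
        rw [Measure.smul_apply, smul_eq_mul] at h2
        have h3 := ENNReal.toReal_mono (ENNReal.mul_ne_top ENNReal.ofReal_ne_top
          (measure_ne_top _ _)) h2
        rwa [ENNReal.toReal_mul, ENNReal.toReal_ofReal hD] at h3
      refine (mul_le_mul_of_nonneg_left h1 hC).trans ?_
      rw [← mul_assoc]
      exact mul_le_mul (le_max_right _ _) (kball_mono _ (measure_lt_top _ _) hC (le_max_left _ _) hε.1 x)
        (kball_nonneg _ _ hC hε.1 x) (le_max_of_le_left hC)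
    filter_upwards [htb] with x ⟨h1, h2, h3⟩
    refine ⟨h1.trans (hk x), h2.trans (le_of_eq_of_le (mul_right_comm C ε _)
      ((mul_le_mul_of_nonneg_right (hk x) hε.1.le).trans (le_of_eq (by ring)))), fun v => ?_⟩
    refine le_trans (neg_le_neg ?_) (h3 v)
    calc C * ε ^ 2 * kball (locMeas p J w μ Θ) K C ε x * (v ⬝ᵥ v)
        = C * kball (locMeas p J w μ Θ) K C ε x * ε ^ 2 * (v ⬝ᵥ v) := by ring
      _ ≤ max C (C * D) * kball (chartMeas p μ) K (max C (C * D)) ε x * ε ^ 2 * (v ⬝ᵥ v) :=
          mul_le_mul_of_nonneg_right (mul_le_mul_of_nonneg_right (hk x) (sq_nonneg _))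
            (dot_self_nonneg v)
      _ = _ := by ring

end Vale.Agent.P204.Tame.Mfd
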