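import Vale.Agent.P204.Tame.Mfd.SmearFacts

/-!
Where the smoother acts by translations, the averaged pullback is a mollification.
-/

namespace Vale.Agent.P204.Tame.Mfd

open scoped ContDiff Manifold Matrix Topology
open MeasureTheory Metric Set Filter

/-- The product weight integrates a function of one factor against that factor. -/
lemma integral_wgtA_proj {k : ℕ} {ρ : E → ℝ} (hρ : IsMol ρ) (i₀ : Fin k) (h : E → ℝ) :
    ∫ v, wgtA k ρ v * h (unflat v i₀) = ∫ x, ρ x * h x := by
  classical
  rw [← integral_flat]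
  simp only [wgtA, unflat_flat]
  have e : (fun w : Fin k → E => (∏ i, ρ (w i)) * h (w i₀)) =
      fun w => ∏ i, (if i = i₀ then fun x => ρ x * h x else ρ) (w i) := by
    funext w
    rw [← Finset.mul_prod_erase _ _ (Finset.mem_univ i₀),
      ← Finset.mul_prod_erase (s := Finset.univ) _ (Finset.mem_univ i₀)]
    simp only [if_true]
    rw [Finset.prod_congr rfl fun i hi => show (if i = i₀ then fun x => ρ x * h x else ρ) (w i)
      = ρ (w i) by rw [if_neg (Finset.ne_of_mem_erase hi)]]
    ring
  rw [e, integral_fintype_prod_volume_eq_prod]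
  rw [← Finset.mul_prod_erase _ _ (Finset.mem_univ i₀)]
  simp only [if_true]
  rw [Finset.prod_eq_one fun i hi => by rw [if_neg (Finset.ne_of_mem_erase hi), hρ.mass], mul_one]

variable {X : Type} [TopologicalSpace X] [ChartedSpace E X] [IsManifold 𝓘(ℝ, E) ∞ X]

/-- The smoother near points where it translates. -/
theorem exists_smL_translate (B : Atlas X) {ρ : E → ℝ} (hρ : IsMol ρ) (i₀ : Fin B.n) {p : X}
    {K : Set E}
    (hT : ∃ δ > 0, ∀ v ∈ closedBall (0 : Fin (B.n * 4) → ℝ) δ, ∀ y ∈ K,
      readTau B p v y = y + unflat v i₀) :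
    ∃ ε₀ > 0, ∀ ε ∈ Ioc (0 : ℝ) ε₀, ∀ a : E → M, ∀ y ∈ interior K, ∀ i j,
      smL (readTau B p) (wgtA B.n ρ) ε a y i j = convAt ρ ε (fun x => a x i j) y := by
  classical
  obtain ⟨δ, hδ, hT⟩ := hT
  refine ⟨δ, hδ, fun ε hε a y hy i j => ?_⟩
  have hw := isWeight_wgtA B.n hρ
  have hker : ∀ c d, kerOp (readTau B p) (wgtA B.n ρ) (pullCoef (readTau B p) i j c d) ε
      (fun x => a x c d) y = if c = i ∧ d = j then convAt ρ ε (fun x => a x i j) y else 0 := by
    intro c d
    have hI : ∀ v, wgtA B.n ρ (ε⁻¹ • v) * pullCoef (readTau B p) i j c d v y *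
        a (readTau B p v y) c d = if c = i ∧ d = j then
          wgtA B.n ρ (ε⁻¹ • v) * a (y + unflat v i₀) i j else 0 := by
      intro v
      rcases eq_or_ne (wgtA B.n ρ (ε⁻¹ • v)) 0 with h | h
      · simp [h]
      have hv : v ∈ closedBall (0 : Fin (B.n * 4) → ℝ) δ :=
        mem_closedBall_zero_iff.2 ((norm_le_of_weight hw hε.1 h).trans hε.2)
      have hpd : ∀ r s : Fin 4, pd s (fun x => readTau B p v x r) y = if r = s then 1 else 0 := by
        intro r s
        have hev : (fun x => readTau B p v x r) =ᶠ[𝓝 y] fun x => x r + unflat v i₀ r := by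
          filter_upwards [mem_interior_iff_mem_nhds.1 hy] with x hx
          rw [hT v hv x hx]
          rfl
        rw [pd, hev.fderiv_eq, fderiv_add_const,
          show (fun x : E => x r) = ⇑(ContinuousLinearMap.proj (R := ℝ) r : E →L[ℝ] ℝ) from rfl,
          ContinuousLinearMap.fderiv]
        simp [e, Pi.single_apply]
      have hq : pullCoef (readTau B p) i j c d v y = if c = i ∧ d = j then 1 else 0 := by
        simp only [pullCoef, jacV, hpd]
        by_cases h1 : c = i <;> by_cases h2 : d = j <;> simp [h1, h2]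
      rw [hq, hT v hv y (interior_subset hy)]
      split_ifs with h1
      · rw [h1.1, h1.2, mul_one]
      · simp
    rw [kerOp]
    simp only [hI]
    split_ifs with h1
    · have hf : (fun v : Fin (B.n * 4) → ℝ => wgtA B.n ρ (ε⁻¹ • v) * a (y + unflat v i₀) i j) =
          fun v => (fun u => wgtA B.n ρ u * a (y + ε • unflat u i₀) i j) (ε⁻¹ • v) := by
        funext v
        simp only [unflat_smul, Pi.smul_apply, smul_smul, mul_inv_cancel₀ hε.1.ne', one_smul]
      have hg : (fun v : E => ρ (ε⁻¹ • v) * a (y + v) i j) =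
          fun v => (fun u => ρ u * a (y + ε • u) i j) (ε⁻¹ • v) := by
        funext v
        simp only [smul_smul, mul_inv_cancel₀ hε.1.ne', one_smul]
      rw [hf, convAt, hg,
        Measure.integral_comp_inv_smul_of_nonneg volume
          (fun u => wgtA B.n ρ u * a (y + ε • unflat u i₀) i j) hε.1.le,
        Measure.integral_comp_inv_smul_of_nonneg volume
          (fun u => ρ u * a (y + ε • u) i j) hε.1.le, Module.finrank_pi,
        Module.finrank_pi, Fintype.card_fin, Fintype.card_fin, smul_eq_mul, smul_eq_mul,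
        integral_wgtA_proj hρ i₀ (fun x => a (y + ε • x) i j),
        inv_mul_cancel_left₀ (pow_ne_zero _ hε.1.ne'), inv_mul_cancel_left₀ (pow_ne_zero _ hε.1.ne')]
    · simp
  simp only [smL, Matrix.of_apply, hker]
  rw [Fintype.sum_eq_single i, Fintype.sum_eq_single j]
  · simp
  · intro d hd; simp [hd]
  · intro c hc; simp [hc]

end Vale.Agent.P204.Tame.Mfd
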