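import Vale.Agent.P204.Tame.Mfd.ConcludeCore
import Vale.Agent.P204.Tame.Mfd.Translation
import Vale.Agent.P204.Tame.Mfd.Reps
import Vale.Agent.P204.Tame.Mfd.Glue
import Vale.Agent.P204.Tame.Mfd.PhiRep
import Vale.Agent.P204.Tame.Mfd.SmearUse
import Vale.Agent.P204.Tame.Mfd.Norm

/-!
The chart pieces of the smoothed representing field: almost nonnegative pairing, small
anti-invariant part, and strict positivity near a point where the smoother is a translation.
-/

namespace Vale.Agent.P204.Tame.Mfd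

open scoped ContDiff Manifold Topology ENNReal Matrix
open MeasureTheory Metric Set Filter

variable {X : Type} [TopologicalSpace X] [ChartedSpace E X] [IsManifold 𝓘(ℝ, E) ∞ X]
  [MeasurableSpace X] [BorelSpace X] [T2Space X] [CompactSpace X]

/-- The mean over `K` of the scaled masses of balls. -/
noncomputable def ballMean (ν m : Measure E) (K : Set E) (C ε : ℝ) : ℝ :=
  ∫ y in K, (ε ^ 2)⁻¹ * ν.real (closedBall y (C * ε)) ∂m

/-- A chart piece of the representing field cut by the partition. -/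
noncomputable def cutField (B : Atlas X) (R : Regions B) (i : Fin B.n) (t : E → M) : E → M :=
  (R.O i).indicator fun y => B.φ i ((chartAt E (B.c i)).symm y) • t y

omit [IsManifold 𝓘(ℝ, E) ∞ X] [MeasurableSpace X] [BorelSpace X] [T2Space X] [CompactSpace X] in
lemma skew_cutField (B : Atlas X) (R : Regions B) (i : Fin B.n) {t : E → M}
    (ht : ∀ x, (t x)ᵀ = -t x) (x : E) : (cutField B R i t x)ᵀ = -cutField B R i t x := by
  by_cases hx : x ∈ R.O i <;> simp [cutField, hx, ht x]

lemma measurable_ball_mass (ν : Measure E) [SFinite ν] (c r : ℝ) :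
    Measurable fun y => c * ν.real (closedBall y r) :=
  ((measurable_measure_closedBall ν r).ennreal_toReal).const_mul c

lemma integrable_ball_mass (ν : Measure E) [IsFiniteMeasure ν] (m : Measure E) [IsFiniteMeasure m]
    {c : ℝ} (hc : 0 ≤ c) (r : ℝ) : Integrable (fun y => c * ν.real (closedBall y r)) m :=
  Integrable.of_bound (measurable_ball_mass ν c r).aestronglyMeasurable (c * ν.real univ)
    (Eventually.of_forall fun y => by
      rw [Real.norm_eq_abs, abs_of_nonneg (mul_nonneg hc measureReal_nonneg)]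
      exact mul_le_mul_of_nonneg_left (measureReal_mono (subset_univ _)) hc)

/-- Estimates for one chart piece. -/
theorem exists_piece_est (A : Atlas X) {J w : X → M} (hJ : IsACX J) (hw : IsHerm J w)
    (μ₀ : Measure X) [IsFiniteMeasure μ₀] {μ : Measure X} {Θ : X → M}
    {Φ : (X → M) →ₗ[ℝ] ℝ} (hobs : IsObstruction A J w μ Θ Φ)
    (hΦ : ∃ C : ℝ, ∀ u, IsForm u → (∀ z, pantiX J u z = u z) → |Φ u| ≤ C * hnorm A 0 1 u)
    (B : Atlas X) {ρ : E → ℝ} (hρ : IsMol ρ) (R : Regions B) (i : Fin B.n) {C₀ : ℝ}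
    (hC₀ : 0 ≤ C₀) :
    ∃ E' P : ℝ, 2 ≤ E' ∧ 0 ≤ P ∧ ∃ ε₀ > 0, ∀ ε ∈ Ioc (0 : ℝ) ε₀, ∀ t : E → M,
      IsL2Field (volume.restrict (R.O i)) t → (∀ x, (t x)ᵀ = -t x) →
      (∀ x ∈ R.O i, nrm1 (t x) ≤ C₀ * kball (chartMeas (B.c i) μ₀) (R.K i) C₀ ε x ∧
        nrm1 (panti (repEnd (B.c i) J x) (t x)) ≤
          C₀ * ε * kball (chartMeas (B.c i) μ₀) (R.K i) C₀ ε x ∧
        ∀ v, -(C₀ * ε ^ 2 * kball (chartMeas (B.c i) μ₀) (R.K i) C₀ ε x * (v ⬝ᵥ v)) ≤
          val (t x) v (repEnd (B.c i) J x *ᵥ v)) →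
      let g := (R.K i).indicator (smL (readTau B (B.c i)) (wgtA B.n ρ) ε (cutField B R i t))
      let h : E → ℝ := fun y => wd (repEnd (B.c i) J y)
        (fun a b => (chartAt E (B.c i)).target.indicator
          (fun x => locField (B.c i) J Θ x a b) y)
        (smL (readTau B (B.c i)) (wgtA B.n ρ) ε (cutField B R i t) y)
      smX B ρ ε (ext (B.c i) (cutField B R i t)) = ext (B.c i) g ∧ IsForm (ext (B.c i) g) ∧
      IntegrableOn h (R.K i) (locMeas (B.c i) J w μ Θ) ∧
      ∫ z, pr (w z) (Θ z) (ext (B.c i) g z) ∂μ = ∫ y in R.K i, h y ∂locMeas (B.c i) J w μ Θ ∧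
      (∀ᵐ y ∂(locMeas (B.c i) J w μ Θ).restrict (R.K i),
        -(P * ((ε ^ 2)⁻¹ * (chartMeas (B.c i) μ₀).real (closedBall y (E' * ε)))) ≤ h y) ∧
      |Φ (pantiX J (ext (B.c i) g))| ≤
        P * Real.sqrt (P * ballMean (chartMeas (B.c i) μ₀) (chartMeas (B.c i) μ₀) (R.K i) E' ε) := by
  classical
  set p := B.c i
  set K := R.K i
  set O := R.O i
  set σ := readTau B p
  set ν := chartMeas p μ₀
  have hνf : IsFiniteMeasure ν := isFiniteMeasure_chartMeas p μ₀
  have hKt : K ⊆ (chartAt E p).target := R.target i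
  have hKc : IsCompact K := (R.compact i).2
  have hOK : O ⊆ K := subset_closure.trans ((R.inside i).trans interior_subset)
  have hJa := hJ.isACS p
  have hF := smearFacts_of B hρ
  have hP := isPosField_chart hJ hw hobs.finite hobs.meas hobs.psd hobs.unit p hKt hKc
  obtain ⟨D, hD, e₁, he₁, hpiece⟩ := exists_piece_bound linearFacts smootherFibre smootherSobolev
    smootherGain (hF.smoother p) hF.weight hJa hKt hKc hOK (R.measurableSet i)
  obtain ⟨e₂, he₂, hext⟩ := (smearUse_of smearUse B hρ).smear_ext p O (R.measurableSet i)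
    (R.compact i).1 (R.closure_target i) K hKt hKc (R.inside i)
  obtain ⟨Ct, -, e₃, he₃, htb⟩ := exists_tFun_bound linearFacts smootherFibre smootherSobolev
    (hF.smoother p) hF.weight hJa hKt hKc hOK (R.measurableSet i)
  obtain ⟨CE, hCE, hhn⟩ := exists_hnorm_ext A p hKc hKt 0
  obtain ⟨CΦ, hCΦ⟩ := hΦ
  set E' := 2 * C₀ + D + 2 with hE'
  set P₁ := D * C₀ * (C₀ * (2 * D) ^ 4) with hP₁
  set P₂ := D * C₀ ^ 2 * (C₀ ^ 2 * (2 * C₀) ^ 4) with hP₂
  set P₃ := max CΦ 0 * (CE * 16) with hP₃
  refine ⟨E', P₁ + P₂ + P₃, by linarith, by positivity, min (min e₁ e₂) e₃,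
    lt_min (lt_min he₁ he₂) he₃, fun ε hε t ht hts htb' => ?_⟩
  obtain ⟨hle1, hle2, hle3⟩ : ε ≤ e₁ ∧ ε ≤ e₂ ∧ ε ≤ e₃ :=
    ⟨hε.2.trans ((min_le_left _ _).trans (min_le_left _ _)),
      hε.2.trans ((min_le_left _ _).trans (min_le_right _ _)), hε.2.trans (min_le_right _ _)⟩
  intro g h
  set f : E → M := fun y => B.φ i ((chartAt E p).symm y) • t y with hf
  have hcut : cutField B R i t = O.indicator f := rfl
  have hf2 : IsL2Field (volume.restrict O) f := isL2Field_cut B R i ht
  have hfs : ∀ x, (f x)ᵀ = -f x := skew_cut B i hts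
  obtain ⟨heq, hsm, hsupp⟩ := hext ε ⟨hε.1, hle2⟩ f hf2 hfs
  set k : E → ℝ := fun x => C₀ * kball ν K C₀ ε x with hk
  have hKν : ν K < ⊤ := measure_lt_top _ _
  have hO' : volume O < ⊤ := R.volume_lt_top i
  have hk2 : MemLp k 2 (volume.restrict O) := (memLp_kball ν hKν hO' C₀ ε).const_mul C₀
  have hk0 : ∀ x, 0 ≤ k x := fun x => mul_nonneg hC₀ (kball_nonneg ν K hC₀ hε.1 x)
  have hfb : ∀ x ∈ O, nrm1 (f x) ≤ k x ∧ nrm1 (panti (repEnd p J x) (f x)) ≤ ε * k x ∧
      ∀ v, -(ε ^ 2 * k x * (v ⬝ᵥ v)) ≤ val (f x) v (repEnd p J x *ᵥ v) := by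
    intro x hx
    obtain ⟨h1, h2, h3⟩ := htb' x hx
    set r := B.φ i ((chartAt E p).symm x)
    have hr0 : 0 ≤ r := B.φ_nonneg i _
    have hr1 : r ≤ 1 := φ_le_one B i _
    refine ⟨?_, ?_, fun v => ?_⟩
    · rw [hf, nrm1_smul_unit, abs_of_nonneg hr0]
      exact (mul_le_of_le_one_left (nrm1_nonneg _) hr1).trans h1
    · have e : panti (repEnd p J x) (f x) = r • panti (repEnd p J x) (t x) := by
        simp only [hf, panti, Matrix.mul_smul, Matrix.smul_mul, ← smul_sub, r]
        rw [smul_comm]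
      rw [e, nrm1_smul_unit, abs_of_nonneg hr0]
      exact ((mul_le_of_le_one_left (nrm1_nonneg _) hr1).trans h2).trans_eq (by rw [hk]; ring)
    · have e : val (f x) v (repEnd p J x *ᵥ v) = r * val (t x) v (repEnd p J x *ᵥ v) := by
        simp [hf, val, Matrix.smul_mulVec, dotProduct_smul, r]
      rw [e]
      have h4 : 0 ≤ ε ^ 2 * k x * (v ⬝ᵥ v) := by
        have := hk0 x
        have := dot_self_nonneg v
        positivity
      have h5 := mul_le_mul_of_nonneg_left (h3 v) hr0
      have h6 : r * (ε ^ 2 * k x * (v ⬝ᵥ v)) ≤ ε ^ 2 * k x * (v ⬝ᵥ v) :=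
        mul_le_of_le_one_left h4 hr1
      simp only [hk] at h6 ⊢
      linarith
  obtain ⟨hlow, hsmall⟩ := hpiece ε ⟨hε.1, hle1⟩ f k hf2 hfs hk0 hk2 hfb
  have hgs : ∀ y, (g y)ᵀ = -g y := fun y => by
    by_cases hy : y ∈ K
    · simp only [g, indicator_of_mem hy]
      exact smL_skew _ _ _ (skew_cutField B R i hts) y
    · simp [g, indicator_of_notMem hy]
  have hint : IntegrableOn h K (locMeas p J w μ Θ) := ((htb ε ⟨hε.1, hle3⟩ _ _ hP).1 f hf2).1
  have hν2 : ∀ y, ν.real (closedBall y ((C₀ + D) * ε)) ≤ ν.real (closedBall y (E' * ε)) :=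
    fun y => measureReal_mono (closedBall_subset_closedBall
      (mul_le_mul_of_nonneg_right (by linarith) hε.1.le))
  refine ⟨heq, (hhn g hsm hgs hsupp).1, hint, ?_, ?_, ?_⟩
  · rw [integral_pr_ext linearFacts hJ hw hobs.finite hobs.meas hobs.psd hobs.unit p hKt hKc
      (g := g) (fun a b => (hsm a b).continuous.measurable) hgs
      (fun y hy => indicator_of_notMem hy _)]
    refine setIntegral_congr_fun hKc.measurableSet fun y hy => ?_
    show wd _ _ (g y) = h y
    rw [show g y = smL σ (wgtA B.n ρ) ε (cutField B R i t) y from indicator_of_mem hy _]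
  · filter_upwards [hP.psd, hP.unit, ae_restrict_mem hKc.measurableSet] with y h1 h2 hy
    refine le_trans (neg_le_neg ?_) (hlow y hy _ h1 h2)
    have hb := integral_ball_kball_le ν (O := O) hKν hC₀ hD hε.1 y
    have hkk : O.indicator k = fun x => C₀ * O.indicator (kball ν K C₀ ε) x := by
      funext x
      by_cases hx : x ∈ O <;> simp [hk, hx]
    rw [hkk, integral_const_mul]
    have hm : (ν.restrict K).real (closedBall y ((C₀ + D) * ε)) ≤
        ν.real (closedBall y (E' * ε)) := by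
      refine le_trans ?_ (hν2 y)
      rw [measureReal_restrict_apply measurableSet_closedBall]
      exact measureReal_mono inter_subset_left
    have hb2 := mul_le_mul_of_nonneg_left
      (hb.trans (mul_le_mul_of_nonneg_left hm (by positivity))) hC₀
    have hne := hε.1.ne'
    calc D * ε ^ 2 * ((ε ^ 4)⁻¹ * (C₀ * ∫ x in closedBall y (D * ε), O.indicator (kball ν K C₀ ε) x))
        ≤ D * ε ^ 2 * ((ε ^ 4)⁻¹ *
            (C₀ * (C₀ * (2 * D) ^ 4 * ν.real (closedBall y (E' * ε))))) := by
          refine mul_le_mul_of_nonneg_left (mul_le_mul_of_nonneg_left hb2 ?_) ?_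
          · exact inv_nonneg.2 (pow_nonneg hε.1.le 4)
          · positivity
      _ = P₁ * ((ε ^ 2)⁻¹ * ν.real (closedBall y (E' * ε))) := by
          rw [hP₁]; field_simp
      _ ≤ _ := mul_le_mul_of_nonneg_right (by
          have : 0 ≤ P₂ := by positivity
          have : 0 ≤ P₃ := by positivity
          linarith) (mul_nonneg (inv_nonneg.2 (sq_nonneg ε)) measureReal_nonneg)
  · set hfld : E → M := fun y => panti (repEnd p J y) (g y) with hh
    have hg0 : ∀ y, y ∉ K → g y = 0 := fun y hy => indicator_of_notMem hy _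
    have hh0 : ∀ y, y ∉ K → hfld y = 0 := fun y hy => by simp [hh, hg0 y hy, panti]
    have hh1 : ∀ a b, ContDiff ℝ ∞ (fun y => hfld y a b) ∧ tsupport (fun y => hfld y a b) ⊆ K := by
      intro a b
      have hon : ContDiffOn ℝ ∞ (fun y => hfld y a b) (chartAt E p).target := by
        simp only [hh, panti_expand]
        exact ContDiffOn.sum fun c _ => ContDiffOn.sum fun d _ => (contDiffOn_const.mul
          (contDiffOn_const.sub ((hJ.smooth p c a).mul (hJ.smooth p d b)))).mul (hsm c d).contDiffOn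
      have e : (chartAt E p).target.indicator (fun y => hfld y a b) = fun y => hfld y a b := by
        funext y
        by_cases hy : y ∈ (chartAt E p).target
        · simp [hy]
        · simp [hy, hh0 y fun hK' => hy (hKt hK')]
      have := contDiff_indicator (chartAt E p).open_target hKc hKt hon
        (fun y _ hy => by simp [hh0 y hy])
      rwa [e] at this
    have hhs : ∀ y, (hfld y)ᵀ = -hfld y := fun y => panti_skew _ (hgs y)
    obtain ⟨hform, hnorm'⟩ := hhn hfld (fun a b => (hh1 a b).1) hhs fun a b => (hh1 a b).2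
    have hpe : pantiX J (ext p g) = ext p hfld := pantiX_ext J p g
    have hanti : ∀ z, pantiX J (ext p hfld) z = ext p hfld z := fun z => by
      rw [← hpe]
      exact panti_twice (hJ.sq z) _
    rw [hpe]
    refine (hCΦ _ hform hanti).trans ?_
    have hS : ∀ a b, Real.sqrt (∫ y, ‖iteratedFDeriv ℝ 0 (fun x => hfld x a b) y‖ ^ 2) ≤
        Real.sqrt ((P₁ + P₂ + P₃) * ballMean ν ν K E' ε) := by
      intro a b
      refine Real.sqrt_le_sqrt ?_
      simp only [norm_iteratedFDeriv_zero, Real.norm_eq_abs, sq_abs]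
      rw [← setIntegral_eq_integral_of_forall_compl_eq_zero (s := K) fun y hy => by
        simp [hh0 y hy]]
      have e : ∫ y in K, hfld y a b ^ 2 = ∫ y in K, panti (repEnd p J y)
          (smL σ (wgtA B.n ρ) ε (O.indicator f) y) a b ^ 2 :=
        setIntegral_congr_fun hKc.measurableSet fun y hy => by
          simp only [hh, g, indicator_of_mem hy]; rfl
      rw [e]
      refine (hsmall a b).trans ?_
      have h1 := integral_sq_kball_le ballSquare ν hKν O hC₀ hε.1
      have h2 : ∫ y in K, (ε ^ 2)⁻¹ * (ν.restrict K).real (closedBall y (2 * C₀ * ε)) ∂ν ≤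
          ballMean ν ν K E' ε := by
        refine integral_mono (integrable_ball_mass _ _ (inv_nonneg.2 (sq_nonneg ε)) _)
          (integrable_ball_mass _ _ (inv_nonneg.2 (sq_nonneg ε)) _) fun y => ?_
        refine mul_le_mul_of_nonneg_left ?_ (inv_nonneg.2 (sq_nonneg ε))
        rw [measureReal_restrict_apply measurableSet_closedBall]
        exact measureReal_mono (inter_subset_left.trans (closedBall_subset_closedBall
          (mul_le_mul_of_nonneg_right (by linarith) hε.1.le)))
      have h3 : 0 ≤ ballMean ν ν K E' ε :=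
        integral_nonneg fun y => mul_nonneg (inv_nonneg.2 (sq_nonneg ε)) measureReal_nonneg
      calc D * ε ^ 2 * ∫ x in O, k x ^ 2
          = D * C₀ ^ 2 * (ε ^ 2 * ∫ x in O, kball ν K C₀ ε x ^ 2) := by
            simp only [hk, mul_pow]; rw [integral_const_mul]; ring
        _ ≤ D * C₀ ^ 2 * (C₀ ^ 2 * (2 * C₀) ^ 4 * ballMean ν ν K E' ε) :=
            mul_le_mul_of_nonneg_left (h1.trans (mul_le_mul_of_nonneg_left h2 (by positivity)))
              (by positivity)
        _ = P₂ * ballMean ν ν K E' ε := by rw [hP₂]; ring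
        _ ≤ _ := mul_le_mul_of_nonneg_right (by
            have : 0 ≤ P₁ := by positivity
            have : 0 ≤ P₃ := by positivity
            linarith) h3
    have hsum : hnorm A 0 1 (ext p hfld) ≤
        CE * 16 * Real.sqrt ((P₁ + P₂ + P₃) * ballMean ν ν K E' ε) := by
      refine (hnorm' 1 ⟨one_pos, le_rfl⟩).trans ?_
      simp only [zero_add, Finset.sum_range_one, pow_zero, one_mul]
      rw [mul_assoc CE]
      refine mul_le_mul_of_nonneg_left ?_ hCE
      calc ∑ a, ∑ b, Real.sqrt (∫ y, ‖iteratedFDeriv ℝ 0 (fun x => hfld x a b) y‖ ^ 2)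
          ≤ ∑ _a : Fin 4, ∑ _b : Fin 4, Real.sqrt ((P₁ + P₂ + P₃) * ballMean ν ν K E' ε) :=
            Finset.sum_le_sum fun a _ => Finset.sum_le_sum fun b _ => hS a b
        _ = _ := by simp; ring
    calc CΦ * hnorm A 0 1 (ext p hfld) ≤ max CΦ 0 * hnorm A 0 1 (ext p hfld) :=
          mul_le_mul_of_nonneg_right (le_max_left _ _) (hnorm_nonneg A 0 zero_le_one _)
      _ ≤ max CΦ 0 * (CE * 16 * Real.sqrt ((P₁ + P₂ + P₃) * ballMean ν ν K E' ε)) :=
          mul_le_mul_of_nonneg_left hsum (le_max_right _ _)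
      _ = P₃ * Real.sqrt ((P₁ + P₂ + P₃) * ballMean ν ν K E' ε) := by rw [hP₃]; ring
      _ ≤ _ := mul_le_mul_of_nonneg_right (by
          have : 0 ≤ P₁ := by positivity
          have : 0 ≤ P₂ := by positivity
          linarith) (Real.sqrt_nonneg _)

/-- Strict positivity of the chart piece near a point where the smoother translates. -/
theorem exists_core_piece (A : Atlas X) {J w : X → M} (hJ : IsACX J) (hw : IsHerm J w)
    {μ₀ : Measure X} {Θ₀ : X → M} (hcur : IsCurrent J w μ₀ Θ₀) (hdom : Dominates A J w μ₀ Θ₀)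
    (B : Atlas X) {ρ : E → ℝ} (hρ : IsMol ρ) (R : Regions B) (i₀ : Fin B.n) {O₀ : Set E}
    (hO₀ : IsOpen O₀) (hO₀t : O₀ ⊆ (chartAt E (B.c i₀)).target)
    (hφ : ∀ y ∈ O₀, B.φ i₀ ((chartAt E (B.c i₀)).symm y) = 1)
    (hT : ∀ K ⊆ O₀, IsCompact K → ∃ δ > 0, ∀ v ∈ closedBall (0 : Fin (B.n * 4) → ℝ) δ, ∀ y ∈ K,
      readTau B (B.c i₀) v y = y + unflat v i₀)
    {y₀ : E} (hy₀ : y₀ ∈ O₀) :
    ∃ r > 0, closedBall y₀ r ⊆ R.K i₀ ∧ ∃ a > 0, ∃ C : ℝ, 0 ≤ C ∧ ∃ ε₀ > 0,
      ∀ ε ∈ Ioc (0 : ℝ) ε₀, ∀ t : E → M,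
      IsL2Field (volume.restrict (R.O i₀)) t → (∀ x, (t x)ᵀ = -t x) →
      (∀ b : E → M, IsL2Field (volume.restrict (R.O i₀)) b → (∀ x, (b x)ᵀ = -b x) →
        ∫ z, pr (w z) (Θ₀ z) (smX B ρ ε (ext (B.c i₀) ((R.O i₀).indicator b)) z) ∂μ₀ =
          ∫ x in R.O i₀, wd (repEnd (B.c i₀) J x) (t x) (b x)) →
      ∀ y ∈ closedBall y₀ r, ∀ v,
        (a - C * ((ε ^ 2)⁻¹ * (chartMeas (B.c i₀) μ₀).real (closedBall y (2 * ε)))) * (v ⬝ᵥ v) ≤
          val (smL (readTau B (B.c i₀)) (wgtA B.n ρ) ε (cutField B R i₀ t) y) v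
            (repEnd (B.c i₀) J y *ᵥ v) := by
  classical
  set p := B.c i₀
  set O := R.O i₀
  set K := R.K i₀
  set σ := readTau B p
  have hF := smearFacts_of B hρ
  have hKc : IsCompact K := (R.compact i₀).2
  have hKt : K ⊆ (chartAt E p).target := R.target i₀
  have hOK : O ⊆ K := subset_closure.trans ((R.inside i₀).trans interior_subset)
  obtain ⟨r, hr, h6, hsgn, a, ha, C, hC, hlow⟩ :=
    exists_core_lower linearFacts A hJ hw hcur hdom hρ p hO₀ hO₀t hy₀
  have hO₀O : O₀ ⊆ O := by
    intro x hx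
    refine R.cell i₀ ⟨(chartAt E p).symm x, subset_tsupport _ ?_,
      (chartAt E p).right_inv (hO₀t hx)⟩
    simp [p, hφ x hx]
  have h4 : closedBall y₀ (4 * r) ⊆ O₀ :=
    (closedBall_subset_closedBall (by linarith)).trans h6
  obtain ⟨e₁, he₁, htr⟩ := exists_smL_translate B hρ i₀ (p := p) (K := closedBall y₀ (4 * r))
    (hT _ h4 (isCompact_closedBall _ _))
  obtain ⟨e₂, he₂, hext⟩ := (smearUse_of smearUse B hρ).smear_ext p O (R.measurableSet i₀)
    (R.compact i₀).1 (R.closure_target i₀) K hKt hKc (R.inside i₀)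
  obtain ⟨Cs, hCs, e₃, he₃, hfacts⟩ := exists_smL_facts smootherFibre (hF.smoother p) hF.weight
    hKt hKc
  refine ⟨r, hr, ((closedBall_subset_closedBall (by linarith)).trans h6).trans (hO₀O.trans hOK),
    a, ha, C, hC, min (min e₁ e₂) (min e₃ (r / (Cs + 1))),
    lt_min (lt_min he₁ he₂) (lt_min he₃ (div_pos hr (by linarith))),
    fun ε hε t ht hts hrep y hy v => ?_⟩
  obtain ⟨hle1, hle2, hle3, hle4⟩ : ε ≤ e₁ ∧ ε ≤ e₂ ∧ ε ≤ e₃ ∧ ε ≤ r / (Cs + 1) :=
    ⟨hε.2.trans ((min_le_left _ _).trans (min_le_left _ _)),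
      hε.2.trans ((min_le_left _ _).trans (min_le_right _ _)),
      hε.2.trans ((min_le_right _ _).trans (min_le_left _ _)),
      hε.2.trans ((min_le_right _ _).trans (min_le_right _ _))⟩
  have hCe : (Cs + 1) * ε ≤ r := by
    rw [mul_comm]; exact (le_div_iff₀ (by linarith)).1 hle4
  have hεr : ε ≤ r := le_trans (le_mul_of_one_le_left hε.1.le (by linarith)) hCe
  rw [mem_closedBall] at hy
  have hyB : closedBall y ε ⊆ O₀ := (closedBall_subset_closedBall' (by linarith)).trans h4
  have hint4 : ∀ z ∈ closedBall y₀ (3 * r), z ∈ interior (closedBall y₀ (4 * r)) := fun z hz =>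
    interior_maximal ball_subset_closedBall isOpen_ball
      (closedBall_subset_ball (by linarith) hz)
  set J' := repEnd p J
  set b := lineForm (J' y) v with hb
  set q : E → ℝ := fun x => (ε ^ 4)⁻¹ * ρ (ε⁻¹ • (x - y)) with hq
  set af : E → M := fun x => q x • b with haf
  have hqc : Continuous q := by
    have := hρ.smooth.continuous
    simp only [hq]; fun_prop
  have hq0 : ∀ x, x ∉ closedBall y ε → q x = 0 := fun x hx => by
    rw [mem_closedBall, dist_eq_norm, not_le] at hx
    simp [hq, mol_eq_zero hρ hε.1 hx]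
  have hqcs : HasCompactSupport q := HasCompactSupport.intro (isCompact_closedBall y ε) hq0
  have hbs : bᵀ = -b := by
    rw [hb, lineForm, Matrix.transpose_smul, starF_skew, smul_neg]
  have haf2 : IsL2Field (volume.restrict O) af := fun c d => by
    have : MemLp (fun x => q x * b c d) 2 volume :=
      (hqc.mul continuous_const).memLp_of_hasCompactSupport hqcs.mul_right
    exact this.mono_measure Measure.restrict_le_self
  have hafs : ∀ x, (af x)ᵀ = -af x := fun x => by simp [haf, hbs]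
  have hafO : O.indicator af = af := indicator_eq_self.2 fun x hx => by
    by_contra hn
    exact hx (by simp [haf, hq0 x fun h => hn (hO₀O (hyB h))])
  obtain ⟨heq, -, -⟩ := hext ε ⟨hε.1, hle2⟩ af haf2 hafs
  -- the smoothed test field
  have hG : K.indicator (smL σ (wgtA B.n ρ) ε (O.indicator af)) =
      fun z => molSq ρ ε y z • b := by
    rw [hafO]
    funext z
    obtain ⟨-, -, hψs, -, -⟩ := molSq_props hρ hε.1 y
    by_cases hz3 : z ∈ closedBall y₀ (3 * r)
    · have hzK : z ∈ K := hOK (hO₀O (h4 (closedBall_subset_closedBall (by linarith) hz3)))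
      rw [indicator_of_mem hzK]
      ext c d
      rw [htr ε ⟨hε.1, hle1⟩ af z (hint4 z hz3) c d, Matrix.smul_apply, smul_eq_mul, molSq,
        convAt, convAt, mul_assoc, ← integral_mul_const]
      simp only [haf, hq, Matrix.smul_apply, smul_eq_mul]
      congr 1
      exact integral_congr_ae (Eventually.of_forall fun u => by ring)
    · rw [mem_closedBall, not_le] at hz3
      have hd : 2 * r < dist z y := by linarith [dist_triangle z y y₀]
      have hψz : molSq ρ ε y z = 0 := hψs z (by rw [mem_closedBall, not_le]; linarith)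
      rw [hψz, zero_smul]
      by_cases hzK : z ∈ K
      swap
      · exact indicator_of_notMem hzK _
      rw [indicator_of_mem hzK]
      have hz0 := (hfacts ε ⟨hε.1, hle3⟩ z hzK).1 af (hafO ▸ haf2.indicator (R.measurableSet i₀))
      have h0 : ∫ x in closedBall z (Cs * ε), nrm1 (af x) = 0 := by
        refine setIntegral_eq_zero_of_forall_eq_zero fun x hx => ?_
        rw [mem_closedBall] at hx
        have : q x = 0 := hq0 x fun h => by
          rw [mem_closedBall] at h
          linarith [dist_triangle_right z y x, dist_comm x z, dist_comm y x]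
        simp [haf, this, nrm1]
      rw [h0, mul_zero] at hz0
      ext c d
      exact abs_nonpos_iff.1 ((abs_le_nrm1 _ c d).trans hz0)
  -- the pairing
  have hl := hlow ε ⟨hε.1, hεr⟩ y (mem_closedBall.2 hy) v
  rw [← hG, ← heq, hrep af haf2 hafs] at hl
  refine le_trans (le_of_eq ?_) (hl.trans (le_of_eq ?_))
  · ring
  -- the value
  set F : E → M := cutField B R i₀ t with hFd
  have hFl : IsL2Field volume F := (isL2Field_cut B R i₀ ht).indicator (R.measurableSet i₀)
  have hFI : ∀ c d, Integrable fun x => q x * F x c d := fun c d =>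
    (hqc.memLp_of_hasCompactSupport (p := 2) hqcs).integrable_mul (hFl c d)
  have he : ∀ c d, smL σ (wgtA B.n ρ) ε F y c d = ∫ x, q x * F x c d := by
    intro c d
    rw [htr ε ⟨hε.1, hle1⟩ F y (hint4 y (mem_closedBall.2 (by linarith))) c d, convAt,
      ← integral_add_left_eq_self (fun x => q x * F x c d) y, ← integral_const_mul]
    refine integral_congr_ae (Eventually.of_forall fun u => ?_)
    simp only [hq, add_sub_cancel_left]
    ring
  have hval : ∀ M' : M, val M' v (J' y *ᵥ v) = ∑ c, ∑ d, (v c * (J' y *ᵥ v) d) * M' c d :=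
    fun M' => by
      simp only [val, dotProduct, Matrix.mulVec, Finset.mul_sum, Finset.sum_mul]
      exact Finset.sum_congr rfl fun i _ => Finset.sum_congr rfl fun j _ =>
        Finset.sum_congr rfl fun k _ => by ring
  rw [hval]
  simp only [he, ← integral_const_mul]
  rw [← Finset.sum_congr rfl fun c _ => integral_finsetSum (μ := volume) _ fun d _ =>
      (hFI c d).const_mul (v c * (J' y *ᵥ v) d),
    ← integral_finsetSum _ fun c _ => integrable_finsetSum _ fun d _ =>
      (hFI c d).const_mul (v c * (J' y *ᵥ v) d), ← integral_indicator (R.measurableSet i₀)]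
  refine integral_congr_ae (Eventually.of_forall fun x => ?_)
  simp only
  have e0 : ∑ c, ∑ d, v c * (J' y *ᵥ v) d * (q x * F x c d) =
      q x * val (F x) v (J' y *ᵥ v) := by
    rw [hval, Finset.mul_sum]
    refine Finset.sum_congr rfl fun c _ => ?_
    rw [Finset.mul_sum]
    exact Finset.sum_congr rfl fun d _ => by ring
  rw [e0]
  by_cases hx : x ∈ closedBall y ε
  · have hxO : x ∈ O := hO₀O (hyB hx)
    have hFx : F x = t x := by
      simp only [hFd, cutField]
      rw [indicator_of_mem hxO, hφ x (hyB hx), one_smul]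
    have hxy : ∀ z ∈ closedBall y ε, sgnJ (J' z) = sgnJ (J' y₀) := fun z hz =>
      hsgn z ((closedBall_subset_closedBall' (by linarith)) hz)
    have hwd : wd (J' x) (t x) b = wd (J' y) (t x) b := by
      rw [wd, wd, hxy x hx, hxy y (mem_closedBall_self hε.1.le)]
    have hJy := repEnd_sq hJ.sq (p := p) (hO₀t (hyB (mem_closedBall_self hε.1.le)))
    have hn : pfq (wmat (J' y)) (wmat (J' y)) ≠ 0 := fun h => by
      have hh := (linearFacts.2.2.1 _ hJy).2
      rw [h, mul_zero] at hh
      exact lt_irrefl _ hh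
    rw [indicator_of_mem hxO, hFx, haf]
    simp only
    rw [wd_smul_conc, hwd, hb, wd_lineForm hn (hts x)]
  · simp [hq0 x hx, haf, Set.indicator, wd, pfq]

end Vale.Agent.P204.Tame.Mfd
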