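import Vale.Agent.P204.Tame.Mfd.CoreDefs
import Vale.Agent.P204.Tame.Loc.TPoint
import Vale.Agent.P204.Tame.Mfd.Current
import Vale.Agent.P204.Tame.Linear
import Vale.Agent.P204.Tame.MeasureLocal

/-!
The pointwise lower bound for the square of a nearly semipositive field plus a second field, and
the mean square of scaled ball masses under a gauge.
-/

namespace Vale.Agent.P204.Tame.Mfd

open scoped ContDiff Manifold Matrix ENNReal
open MeasureTheory Metric Set Filter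

/-- A nearly semipositive form becomes semipositive after adding a multiple of the Hermitian form. -/
lemma psd_pinv_add {J t : M} (hJ : J * J = -1) (ht : tᵀ = -t) {β Bh BJ : ℝ} (hβ : 0 ≤ β)
    (hh : nrm1 (hmat J) ≤ Bh) (hj : nrm1 J ≤ BJ)
    (hpos : ∀ v, -(β * (v ⬝ᵥ v)) ≤ val t v (J *ᵥ v)) :
    Psd J (pinv J t + (16 * Bh ^ 2 * BJ ^ 2 * β) • wmat J) := by
  set δ := 16 * Bh ^ 2 * BJ ^ 2 * β with hδ
  refine ⟨by rw [Matrix.transpose_add, pinv_skew _ ht, Matrix.transpose_smul,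
      (linearFacts.2.2.1 J hJ).1.skew, smul_neg]; abel,
    by rw [Matrix.mul_add, Matrix.add_mul, pinv_is_inv hJ, Matrix.mul_smul, Matrix.smul_mul,
      (linearFacts.2.2.1 J hJ).1.inv], fun v => ?_⟩
  have e : val (pinv J t + δ • wmat J) v (J *ᵥ v)
      = val t v (J *ᵥ v) + δ * val (wmat J) v (J *ᵥ v) := by
    rw [← val_pinv_skew hJ ht v]
    simp only [val, Matrix.add_mulVec, Matrix.smul_mulVec, dotProduct_add, dotProduct_smul,
      smul_eq_mul]
  rw [e]
  have h2 : v ⬝ᵥ v ≤ 16 * Bh ^ 2 * BJ ^ 2 * val (wmat J) v (J *ᵥ v) :=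
    (val_wmat_ge hJ v).trans (mul_le_mul_of_nonneg_right (mul_le_mul (mul_le_mul_of_nonneg_left
      (pow_le_pow_left₀ (nrm1_nonneg _) hh 2) (by norm_num))
      (pow_le_pow_left₀ (nrm1_nonneg _) hj 2) (sq_nonneg _) (by positivity))
      ((linearFacts.2.2.1 J hJ).1.nonneg v))
  have h3 := mul_le_mul_of_nonneg_left h2 hβ
  have h4 : δ * val (wmat J) v (J *ᵥ v)
      = β * (16 * Bh ^ 2 * BJ ^ 2 * val (wmat J) v (J *ᵥ v)) := by rw [hδ]; ring
  linarith [hpos v]

/-- The invariant part is bounded by the form. -/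
lemma nrm1_pinv_le {J : M} {B : ℝ} (hB : nrm1 J ≤ B) (t : M) :
    nrm1 (pinv J t) ≤ (1 + 16 * B ^ 2) * nrm1 t := by
  have hB0 : 0 ≤ B := (nrm1_nonneg _).trans hB
  have hb : ∀ a b, |pinv J t a b| ≤ 1 / 2 * (|t a b| + B ^ 2 * nrm1 t) := fun a b => by
    have hs' : |∑ q, ∑ p, J p a * t p q * J q b| ≤ B ^ 2 * nrm1 t := by
      refine (Finset.abs_sum_le_sum_abs _ _).trans ((Finset.sum_le_sum fun q _ =>
        Finset.abs_sum_le_sum_abs _ _).trans ?_)
      rw [nrm1, Finset.sum_comm (f := fun i j => |t i j|), Finset.mul_sum]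
      refine Finset.sum_le_sum fun q _ => ?_
      rw [Finset.mul_sum]
      refine Finset.sum_le_sum fun p _ => ?_
      rw [abs_mul, abs_mul, mul_right_comm, sq]
      exact mul_le_mul_of_nonneg_right (mul_le_mul ((abs_le_nrm1 _ p a).trans hB)
        ((abs_le_nrm1 _ q b).trans hB) (abs_nonneg _) hB0) (abs_nonneg _)
    simp only [pinv, Matrix.smul_apply, Matrix.add_apply, Matrix.mul_apply,
      Matrix.transpose_apply, smul_eq_mul, Finset.sum_mul, abs_mul]
    rw [show |(1 : ℝ) / 2| = 1 / 2 by norm_num]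
    exact mul_le_mul_of_nonneg_left ((abs_add_le _ _).trans (add_le_add_right hs' _))
      (by norm_num)
  refine (Finset.sum_le_sum fun a _ => Finset.sum_le_sum fun b _ => hb a b).trans ?_
  calc ∑ a, ∑ b, 1 / 2 * (|t a b| + B ^ 2 * nrm1 t)
      = 1 / 2 * (nrm1 t + 16 * B ^ 2 * nrm1 t) := by
        simp only [mul_add, Finset.sum_add_distrib, ← Finset.mul_sum, Finset.sum_const,
          Finset.card_univ, Fintype.card_fin, nsmul_eq_mul, nrm1]
        push_cast; ring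
    _ ≤ _ := by nlinarith [nrm1_nonneg t, mul_nonneg (sq_nonneg B) (nrm1_nonneg t)]

/-- The square splits into anti-invariant and invariant squares. -/
lemma wd_split {J t s : M} (hJ : J * J = -1) (ht : tᵀ = -t) (hs : sᵀ = -s) :
    wd J (t + s) (t + s) = wd J (panti J (t + s)) (panti J (t + s)) +
      (wd J (pinv J t) (pinv J t) + 2 * wd J (pinv J t) (pinv J s) +
        wd J (pinv J s) (pinv J s)) := by
  have hF : (t + s)ᵀ = -(t + s) := by rw [Matrix.transpose_add, ht, hs]; abel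
  have h0 : pfq (pinv J (t + s)) (panti J (t + s)) = 0 :=
    linearFacts.1 J _ _ hJ (pinv_skew _ hF) (panti_skew _ hF) (pinv_is_inv hJ _)
      (panti_is_anti hJ _)
  have e1 : wd J (t + s) (t + s) = wd J (panti J (t + s)) (panti J (t + s)) +
      wd J (pinv J (t + s)) (pinv J (t + s)) := by
    conv_lhs => rw [← pinv_add_panti J (t + s)]
    simp only [wd]
    have : pfq (pinv J (t + s) + panti J (t + s)) (pinv J (t + s) + panti J (t + s))
        = pfq (panti J (t + s)) (panti J (t + s)) +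
          pfq (pinv J (t + s)) (pinv J (t + s)) +
          2 * pfq (pinv J (t + s)) (panti J (t + s)) := by
      simp only [pfq, Matrix.add_apply]; ring
    rw [this, h0]; ring
  rw [e1, pinv_add]
  simp only [wd, pfq, Matrix.add_apply]
  ring

/-- The anti-invariant part of a sum is controlled by its square up to the small quantities. -/
theorem exists_anti_sq_le {J : E → M} {K : Set E} (hK : IsCompact K)
    (hJc : ∀ i j, ContinuousOn (fun y => J y i j) K) (hsq : ∀ y ∈ K, J y * J y = -1)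
    {C₀ : ℝ} (hC₀ : 0 ≤ C₀) :
    ∃ c > 0, ∃ C : ℝ, 0 ≤ C ∧ ∀ ε ∈ Ioc (0 : ℝ) 1, ∀ x ∈ K, ∀ t s : M, tᵀ = -t → sᵀ = -s →
      ∀ k : ℝ, 0 ≤ k → nrm1 t ≤ C₀ * k →
        (∀ v, -(C₀ * ε ^ 2 * k * (v ⬝ᵥ v)) ≤ val t v (J x *ᵥ v)) →
        c * ∑ a, ∑ b, panti (J x) (t + s) a b ^ 2 ≤ wd (J x) (t + s) (t + s) +
          C * (ε ^ 2 * k ^ 2 + k * nrm1 (pinv (J x) s) + nrm1 (pinv (J x) s) ^ 2) := by
  obtain ⟨hcw, hch⟩ := continuousOn_wmat hJc
  have hcJ : ContinuousOn J K := continuousOn_pi.2 fun i => continuousOn_pi.2 fun j => hJc i j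
  obtain ⟨Bw, hBw⟩ := hK.exists_bound_of_continuousOn (continuous_nrm1.comp_continuousOn hcw)
  obtain ⟨Bh, hBh⟩ := hK.exists_bound_of_continuousOn (continuous_nrm1.comp_continuousOn hch)
  obtain ⟨BJ, hBJ⟩ := hK.exists_bound_of_continuousOn (continuous_nrm1.comp_continuousOn hcJ)
  obtain ⟨c, hc, hlin⟩ := linearFacts.2.2.2 (J '' K) (hK.image_of_continuousOn hcJ)
    (by rintro _ ⟨y, hy, rfl⟩; exact hsq y hy)
  set bw := max Bw 0 with hbw
  set Λ := 16 * (max Bh 0) ^ 2 * (max BJ 0) ^ 2 * C₀ with hΛ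
  have hΛ0 : 0 ≤ Λ := by positivity
  set P := (1 + 16 * (max BJ 0) ^ 2) * C₀ with hP
  have hP0 : 0 ≤ P := by positivity
  refine ⟨c, hc, 12 * Λ * P * bw + 6 * Λ ^ 2 * bw ^ 2 + 12 * P + 6, by positivity,
    fun ε hε x hx t s ht hs k hk htk hpos => ?_⟩
  have hJ := hsq x hx
  set J' := J x with hJ'
  have hbnd : ∀ {B : ℝ} {r : ℝ}, ‖r‖ ≤ B → r ≤ max B 0 := fun h =>
    ((le_abs_self _).trans h).trans (le_max_left _ _)
  have hnw : nrm1 (wmat J') ≤ bw := hbnd (hBw x hx)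
  have hnh : nrm1 (hmat J') ≤ max Bh 0 := hbnd (hBh x hx)
  have hnJ : nrm1 J' ≤ max BJ 0 := hbnd (hBJ x hx)
  set δ := Λ * ε ^ 2 * k with hδ
  have hδ0 : 0 ≤ δ := by positivity
  have hψ : Psd J' (pinv J' t + δ • wmat J') := by
    have h := psd_pinv_add hJ ht (mul_nonneg (mul_nonneg hC₀ (sq_nonneg ε)) hk) hnh hnJ hpos
    convert h using 3
    rw [hδ, hΛ]; ring
  have hti : nrm1 (pinv J' t) ≤ P * k :=
    (nrm1_pinv_le hnJ t).trans ((mul_le_mul_of_nonneg_left htk (by positivity)).trans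
      (le_of_eq (by rw [hP]; ring)))
  set si := pinv J' s with hsi
  set σ := nrm1 si with hσ
  have hσ0 : 0 ≤ σ := nrm1_nonneg _
  have hF : (t + s)ᵀ = -(t + s) := by rw [Matrix.transpose_add, ht, hs]; abel
  have hanti := (hlin J' ⟨x, hx, rfl⟩).1 (panti J' (t + s)) (panti_skew _ hF) (panti_is_anti hJ _)
  have hsplit := wd_split hJ ht hs
  have hwt := wd_self_ge linearFacts hJ δ hψ
  have h1 := abs_le.1 (abs_wd_le J' (pinv J' t) (wmat J'))
  have h2 := abs_le.1 (abs_wd_le J' (wmat J') (wmat J'))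
  have h3 := abs_le.1 (abs_wd_le J' (pinv J' t) si)
  have h4 := abs_le.1 (abs_wd_le J' si si)
  have n0 := nrm1_nonneg (pinv J' t)
  have w0 := nrm1_nonneg (wmat J')
  have b1 : 2 * δ * (6 * nrm1 (pinv J' t) * nrm1 (wmat J'))
      ≤ 12 * Λ * P * bw * (ε ^ 2 * k ^ 2) := by
    calc 2 * δ * (6 * nrm1 (pinv J' t) * nrm1 (wmat J'))
        ≤ 2 * δ * (6 * (P * k) * bw) := mul_le_mul_of_nonneg_left (mul_le_mul
          (mul_le_mul_of_nonneg_left hti (by norm_num)) hnw w0 (by positivity)) (by positivity)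
      _ = _ := by rw [hδ]; ring
  have b2 : δ ^ 2 * (6 * nrm1 (wmat J') * nrm1 (wmat J'))
      ≤ 6 * Λ ^ 2 * bw ^ 2 * (ε ^ 2 * k ^ 2) := by
    have hε2 : ε ^ 2 ≤ 1 := pow_le_one₀ hε.1.le hε.2
    calc δ ^ 2 * (6 * nrm1 (wmat J') * nrm1 (wmat J')) ≤ δ ^ 2 * (6 * bw * bw) :=
          mul_le_mul_of_nonneg_left (mul_le_mul (mul_le_mul_of_nonneg_left hnw (by norm_num)) hnw w0
            (by positivity)) (sq_nonneg _)
      _ = 6 * Λ ^ 2 * bw ^ 2 * (ε ^ 2 * k ^ 2) * ε ^ 2 := by rw [hδ]; ring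
      _ ≤ _ := mul_le_of_le_one_right (by positivity) hε2
  have b3 : 2 * (6 * nrm1 (pinv J' t) * σ) ≤ 12 * P * (k * σ) := by
    have := mul_le_mul_of_nonneg_right hti hσ0
    nlinarith
  have g1 := mul_le_mul_of_nonneg_left h1.2 (mul_nonneg zero_le_two hδ0)
  have g2 := mul_le_mul_of_nonneg_left h2.2 (sq_nonneg δ)
  have z1 : 0 ≤ ε ^ 2 * k ^ 2 := by positivity
  have z2 : 0 ≤ k * σ := mul_nonneg hk hσ0
  have z3 : 0 ≤ σ ^ 2 := sq_nonneg σ
  have e1 : 0 ≤ 12 * Λ * P * bw := by positivity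
  have e2 : 0 ≤ 6 * Λ ^ 2 * bw ^ 2 := by positivity
  have q1 := add_le_add b1 b2
  have q2 : 6 * σ * σ = 6 * σ ^ 2 := by ring
  have q3 : 0 ≤ (12 * Λ * P * bw + 6 * Λ ^ 2 * bw ^ 2 + 12 * P + 6) * (ε ^ 2 * k ^ 2)
      - (12 * Λ * P * bw + 6 * Λ ^ 2 * bw ^ 2) * (ε ^ 2 * k ^ 2) := by
    rw [← sub_mul]
    exact mul_nonneg (by linarith) z1
  have q4 : 12 * P * (k * σ) ≤ (12 * Λ * P * bw + 6 * Λ ^ 2 * bw ^ 2 + 12 * P + 6) * (k * σ) :=
    mul_le_mul_of_nonneg_right (by linarith) z2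
  have q5 : 6 * σ ^ 2 ≤ (12 * Λ * P * bw + 6 * Λ ^ 2 * bw ^ 2 + 12 * P + 6) * σ ^ 2 :=
    mul_le_mul_of_nonneg_right (by linarith [mul_nonneg hP0 (by norm_num : (0:ℝ) ≤ 12)]) z3
  linarith [h3.1, h4.1]

variable {X : Type} [TopologicalSpace X] [ChartedSpace E X] [IsManifold 𝓘(ℝ, E) ∞ X]

/-- Scaled ball masses under a gauge. -/
theorem exists_kball_sq [MeasurableSpace X] [BorelSpace X] {μ : Measure X} [IsFiniteMeasure μ]
    {g : ℝ → ℝ} (hga : AntitoneOn g (Ioc 0 1)) (hg1 : ∀ r ∈ Ioc (0 : ℝ) 1, 1 ≤ g r)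
    (hG : Growth μ g) (p : X) {K O : Set E} (hKt : K ⊆ (chartAt E p).target) (hK : IsCompact K)
    (hO : MeasurableSet O) (hOv : volume O < ⊤) {C : ℝ} (hC : 0 ≤ C) :
    ∃ C' : ℝ, 0 ≤ C' ∧ ∃ ε₀ > 0, ∀ ε ∈ Ioc (0 : ℝ) ε₀,
      ε ^ 2 * ∫ x in O, kball (chartMeas p μ) K C ε x ^ 2 ≤ C' * g ε ^ 2 := by
  obtain ⟨A, r₀, hr₀, hA⟩ := hG p K hKt hK
  haveI : IsFiniteMeasure (chartMeas p μ) := isFiniteMeasure_chartMeas p μ
  set ν := (chartMeas p μ).restrict K with hν
  set D := max C 1 with hD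
  have hD1 : 1 ≤ D := le_max_right _ _
  have hD0 : 0 < D := one_pos.trans_le hD1
  refine ⟨D ^ 2 * (2 * D) ^ 4 * ν.real univ * (max A 0 * (2 * D) ^ 2), by positivity,
    min (r₀ / (2 * D)) (1 / (2 * D)), lt_min (by positivity) (by positivity), fun ε hε => ?_⟩
  simp only [mem_Ioc, le_min_iff] at hε
  obtain ⟨hε0, hεr, hε1⟩ := hε
  rw [le_div_iff₀ (by positivity)] at hεr hε1
  have hr : 2 * (D * ε) ∈ Ioc (0 : ℝ) r₀ := ⟨by positivity, by linarith⟩
  have hr1 : 2 * (D * ε) ∈ Ioc (0 : ℝ) 1 := ⟨by positivity, by linarith⟩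
  have hεle : ε ≤ 2 * (D * ε) := by nlinarith
  have hgle : g (2 * (D * ε)) ≤ g ε := hga ⟨hε0, hεle.trans hr1.2⟩ hr1 hεle
  have hg0 : 0 ≤ g (2 * (D * ε)) := zero_le_one.trans (hg1 _ hr1)
  set B : ℝ := max A 0 * (2 * D) ^ 2 * ε ^ 2 * g ε ^ 2 with hB
  have hB0 : 0 ≤ B := by positivity
  have hball : ∀ y ∈ K, ν (closedBall y (2 * (D * ε))) ≤ ENNReal.ofReal B := by
    intro y hy
    refine (Measure.restrict_apply_le _ _).trans ((hA y hy _ hr).trans (ENNReal.ofReal_le_ofReal ?_))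
    calc A * (2 * (D * ε) * g (2 * (D * ε))) ^ 2
        ≤ max A 0 * (2 * (D * ε) * g ε) ^ 2 := mul_le_mul (le_max_left _ _)
          (pow_le_pow_left₀ (by positivity) (mul_le_mul_of_nonneg_left hgle (by positivity)) 2)
          (sq_nonneg _) (le_max_right _ _)
      _ = B := by rw [hB]; ring
  have hswap := ballSquare ν (D * ε)
  have hint : ∫⁻ y, ν (closedBall y (2 * (D * ε))) ∂ν ≤ ENNReal.ofReal B * ν univ := by
    rw [← lintegral_const]
    refine lintegral_mono_ae ?_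
    filter_upwards [ae_restrict_mem hK.measurableSet] with y hy using hball y hy
  have hvol : (volume (closedBall (0 : E) (D * ε))).toReal = (2 * (D * ε)) ^ 4 := by
    rw [Real.volume_pi_closedBall (0 : E) (by positivity), Fintype.card_fin,
      ENNReal.toReal_ofReal (by positivity)]
  have hm : Measurable fun x => ν (closedBall x (D * ε)) := measurable_measure_closedBall ν _
  have hsq : ∫ x, ν.real (closedBall x (D * ε)) ^ 2
      ≤ (2 * (D * ε)) ^ 4 * (B * ν.real univ) := by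
    have he : ∫ x, ν.real (closedBall x (D * ε)) ^ 2
        = (∫⁻ x, ν (closedBall x (D * ε)) ^ 2).toReal := by
      rw [← integral_toReal (hm.pow_const 2).aemeasurable
        (Eventually.of_forall fun x => ENNReal.pow_lt_top (measure_lt_top _ _))]
      exact integral_congr_ae (Eventually.of_forall fun x => by
        simp only [Measure.real, ENNReal.toReal_pow])
    rw [he]
    have hne : volume (closedBall (0 : E) (D * ε)) * (ENNReal.ofReal B * ν univ) ≠ ⊤ :=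
      ENNReal.mul_ne_top measure_closedBall_lt_top.ne
        (ENNReal.mul_ne_top ENNReal.ofReal_ne_top (measure_ne_top _ _))
    refine (ENNReal.toReal_mono hne (hswap.trans (mul_le_mul_right hint _))).trans (le_of_eq ?_)
    rw [ENNReal.toReal_mul, ENNReal.toReal_mul, hvol, ENNReal.toReal_ofReal hB0, Measure.real]
  have hint2 : Integrable fun x => ν.real (closedBall x (D * ε)) ^ 2 := by
    have hfin : ∫⁻ x, ν (closedBall x (D * ε)) ^ 2 ≠ ⊤ :=
      ne_top_of_le_ne_top (ENNReal.mul_ne_top measure_closedBall_lt_top.ne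
        (ENNReal.mul_ne_top ENNReal.ofReal_ne_top (measure_ne_top _ _)))
        (hswap.trans (mul_le_mul_right hint _))
    refine (integrable_toReal_of_lintegral_ne_top (hm.pow_const 2).aemeasurable hfin).congr
      (Eventually.of_forall fun x => by simp only [Measure.real, ENNReal.toReal_pow])
  have hk : ∀ x, kball (chartMeas p μ) K C ε x ^ 2
      ≤ D ^ 2 * ((ε ^ 4)⁻¹) ^ 2 * ν.real (closedBall x (D * ε)) ^ 2 := fun x => by
    refine le_trans (pow_le_pow_left₀ (kball_nonneg _ _ hC hε0 x)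
      (kball_mono _ (measure_lt_top _ _) hC (le_max_left C 1) hε0 x) 2) (le_of_eq ?_)
    rw [kball, ← hν, ← hD]; ring
  calc ε ^ 2 * ∫ x in O, kball (chartMeas p μ) K C ε x ^ 2
      ≤ ε ^ 2 * ∫ x, D ^ 2 * ((ε ^ 4)⁻¹) ^ 2 * ν.real (closedBall x (D * ε)) ^ 2 := by
        refine mul_le_mul_of_nonneg_left ?_ (sq_nonneg _)
        refine (integral_mono ((memLp_kball _ (measure_lt_top _ _) hOv C ε).integrable_sq)
          ((hint2.const_mul _).restrict) hk).trans ?_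
        exact setIntegral_le_integral (hint2.const_mul _) (Eventually.of_forall fun x => by positivity)
    _ ≤ ε ^ 2 * (D ^ 2 * ((ε ^ 4)⁻¹) ^ 2 * ((2 * (D * ε)) ^ 4 * (B * ν.real univ))) := by
        rw [integral_const_mul]
        exact mul_le_mul_of_nonneg_left (mul_le_mul_of_nonneg_left hsq (by positivity)) (sq_nonneg _)
    _ = _ := by
        rw [hB]
        field_simp

end Vale.Agent.P204.Tame.Mfd
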