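import Vale.Agent.P204.Tame.Mfd.PhiRep
import Vale.Agent.P204.Tame.Mfd.Glue
import Vale.Agent.P204.Tame.Mfd.Translation
import Vale.Agent.P204.Tame.Mfd.DensityStep
import Vale.Agent.P204.Tame.Mfd.CoreEst

/-!
Tools for the low frequency bound: integrability on chart regions, the smoothed field of a test
function in a translation region, and the vanishing quadratic identity of an obstruction.
-/

namespace Vale.Agent.P204.Tame.Mfd

open scoped ContDiff Manifold Matrix Topology ENNReal
open MeasureTheory Metric Set Filter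

variable {X : Type} [TopologicalSpace X] [ChartedSpace E X] [IsManifold 𝓘(ℝ, E) ∞ X]

/-- A complex structure read on a region, as a measurable field agreeing with it there. -/
lemma aestronglyMeasurable_repEnd {J : X → M} (hJ : IsACX J) (p : X) {O : Set E}
    (hO : MeasurableSet O) (hOt : O ⊆ (chartAt E p).target) (i j : Fin 4) :
    AEStronglyMeasurable (fun x => repEnd p J x i j) (volume.restrict O) :=
  ((hJ.smooth p i j).continuousOn.mono hOt).aestronglyMeasurable hO

lemma aestronglyMeasurable_sgnJ_repEnd {J : X → M} (hJ : IsACX J) (p : X) {O : Set E}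
    (hO : MeasurableSet O) (hOt : O ⊆ (chartAt E p).target) :
    AEStronglyMeasurable (fun x => sgnJ (repEnd p J x)) (volume.restrict O) := by
  classical
  have hm : ∀ i j, Measurable fun x => O.indicator (repEnd p J) x i j := fun i j => by
    simp only [indicator_field_apply]
    rw [← Set.piecewise_eq_indicator]
    exact ((hJ.smooth p i j).continuousOn.mono hOt).measurable_piecewise continuousOn_const hO
  refine (measurable_sgnJ hm).aestronglyMeasurable.congr ?_
  filter_upwards [ae_restrict_mem hO] with x hx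
  rw [indicator_of_mem hx]

/-- The invariant part of a square integrable field on a region with compact closure. -/
lemma isL2Field_pinv {J : X → M} (hJ : IsACX J) (p : X) {O : Set E} (hO : MeasurableSet O)
    (hOc : IsCompact (closure O)) (hOt : closure O ⊆ (chartAt E p).target) {a : E → M}
    (ha : IsL2Field (volume.restrict O) a) :
    IsL2Field (volume.restrict O) fun x => pinv (repEnd p J x) (a x) := by
  have hOt' : O ⊆ (chartAt E p).target := subset_closure.trans hOt
  obtain ⟨B, hB⟩ := hOc.exists_bound_of_continuousOn (continuous_nrm1.comp_continuousOn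
    (continuousOn_pi.2 fun i => continuousOn_pi.2 fun j =>
      (hJ.smooth p i j).continuousOn.mono hOt))
  intro u v
  have hJm := aestronglyMeasurable_repEnd hJ p hO hOt'
  refine ((isL2Field_nrm1 ha).const_mul (1 + 16 * B ^ 2)).of_le ?_ ?_
  · simp only [pinv, Matrix.smul_apply, Matrix.add_apply, Matrix.mul_apply,
      Matrix.transpose_apply, smul_eq_mul]
    exact ((ha u v).1.add (Finset.aestronglyMeasurable_fun_sum _ fun q _ =>
      (Finset.aestronglyMeasurable_fun_sum _ fun r _ =>
        (hJm r u).mul (ha r q).1).mul (hJm q v))).const_mul _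
  · filter_upwards [ae_restrict_mem hO] with x hx
    refine (abs_le_nrm1 _ u v).trans ((nrm1_pinv_le ?_ (a x)).trans (le_abs_self _))
    exact (le_abs_self _).trans (hB x (subset_closure hx))

/-- The anti-invariant part of a square integrable field on a region with compact closure. -/
lemma isL2Field_panti {J : X → M} (hJ : IsACX J) (p : X) {O : Set E} (hO : MeasurableSet O)
    (hOc : IsCompact (closure O)) (hOt : closure O ⊆ (chartAt E p).target) {a : E → M}
    (ha : IsL2Field (volume.restrict O) a) :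
    IsL2Field (volume.restrict O) fun x => panti (repEnd p J x) (a x) := fun u v => by
  simp only [pinv_neg', Matrix.sub_apply]
  exact (ha u v).sub (isL2Field_pinv hJ p hO hOc hOt ha u v)

/-- The oriented pairing of square integrable fields on a region is integrable. -/
lemma integrable_wd {J : X → M} (hJ : IsACX J) (p : X) {O : Set E} (hO : MeasurableSet O)
    (hOt : O ⊆ (chartAt E p).target) {a b : E → M} (ha : IsL2Field (volume.restrict O) a)
    (hb : IsL2Field (volume.restrict O) b) :
    Integrable (fun x => wd (repEnd p J x) (a x) (b x)) (volume.restrict O) := by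
  have hi : Integrable (fun x => pfq (a x) (b x)) (volume.restrict O) := by
    simp only [pfq]
    exact ((((((ha 0 1).integrable_mul (hb 2 3)).sub ((ha 0 2).integrable_mul (hb 1 3))).add
      ((ha 0 3).integrable_mul (hb 1 2))).add ((hb 0 1).integrable_mul (ha 2 3))).sub
      ((hb 0 2).integrable_mul (ha 1 3))).add ((hb 0 3).integrable_mul (ha 1 2))
  exact hi.bdd_mul (c := 1) (aestronglyMeasurable_sgnJ_repEnd hJ p hO hOt)
    (Eventually.of_forall fun x => abs_sgnJ_le_one _)

variable [MeasurableSpace X] [BorelSpace X] [T2Space X] [CompactSpace X]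

/-- Pairings of a positive field with forms are integrable. -/
lemma integrable_pr_isForm {J w : X → M} (hJ : IsACX J) (hw : IsHerm J w) {μ : Measure X}
    {Θ : X → M} (hfin : IsFiniteMeasure μ)
    (hmeas : ∀ p i j, Measurable ((chartAt E p).target.indicator fun y => rep p Θ y i j))
    (hpsd : ∀ᵐ z ∂μ, Psd (J z) (Θ z)) (hunit : ∀ᵐ z ∂μ, pr (w z) (Θ z) (w z) = 1)
    {u : X → M} (hu : IsForm u) : Integrable (fun z => pr (w z) (Θ z) (u z)) μ := by
  have := hfin
  obtain ⟨A⟩ := nonempty_atlas (X := X)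
  have e : (fun z => pr (w z) (Θ z) (u z)) = fun z => ∑ i, pr (w z) (Θ z) (A.φ i z • u z) := by
    funext z
    simp only [pr_smul_right, ← Finset.sum_mul, A.sum_φ, one_mul]
  rw [e]
  refine integrable_finsetSum _ fun i _ => integrable_pr_chart A hJ hw hmeas hpsd hunit
    (hu.cont.fun_smul (A.φ_smooth i).continuous) (A.c i) fun z hz => ?_
  rw [image_eq_zero_of_notMem_tsupport fun h => hz ((A.φ_supp i).2 h), zero_smul]

/-- In a translation region the smoothed test field is the mollified test field. -/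
theorem exists_smX_test (B : Atlas X) {ρ : E → ℝ} (hρ : IsMol ρ) (R : Regions B) (i₀ : Fin B.n)
    {y₀ : E} {r : ℝ} (hr : 0 < r) (hsub : closedBall y₀ (2 * r) ⊆ R.O i₀)
    (hT : ∃ δ > 0, ∀ v ∈ closedBall (0 : Fin (B.n * 4) → ℝ) δ, ∀ y ∈ closedBall y₀ (2 * r),
      readTau B (B.c i₀) v y = y + unflat v i₀) :
    ∃ ε₀ > 0, ∀ ε ∈ Ioc (0 : ℝ) ε₀, ∀ f : E → ℝ, IsTest (ball y₀ r) f →
      cthickening ε (tsupport f) ⊆ ball y₀ r → ∀ β : M, βᵀ = -β →
        smX B ρ ε (ext (B.c i₀) ((R.O i₀).indicator fun x => f x • β)) =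
          ext (B.c i₀) fun y => convAt ρ ε f y • β := by
  classical
  set p := B.c i₀
  set O := R.O i₀
  set K := R.K i₀
  have hKt : K ⊆ (chartAt E p).target := R.target i₀
  have hF := smearFacts_of B hρ
  obtain ⟨ε₁, hε₁, hext⟩ := (smearUse_of smearUse B hρ).smear_ext p O (R.measurableSet i₀)
    (R.compact i₀).1 (R.closure_target i₀) K hKt (R.compact i₀).2 (R.inside i₀)
  obtain ⟨ε₂, hε₂, htr⟩ := exists_smL_translate B hρ i₀ (p := p) hT
  obtain ⟨W, hW, hW0, hσ⟩ := (hF.smoother p).smooth
  set L := K ∩ (ball y₀ (3 / 2 * r))ᶜ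
  have hL : IsCompact L := (R.compact i₀).2.inter_right isOpen_ball.isClosed_compl
  have hev : ∀ᶠ v in 𝓝 (0 : Fin (B.n * 4) → ℝ), ∀ y ∈ L,
      readTau B p v y ∈ (closedBall y₀ r)ᶜ := by
    refine hL.eventually_forall_of_forall_eventually
      (P := fun (v : Fin (B.n * 4) → ℝ) (y : E) => readTau B p v y ∈ (closedBall y₀ r)ᶜ)
      fun y hy => ?_
    have hyt : y ∈ (chartAt E p).target := hKt hy.1
    have hc : ContinuousAt (fun z : (Fin (B.n * 4) → ℝ) × E => readTau B p z.1 z.2) (0, y) :=
      hσ.continuousOn.continuousAt (hW.mem_nhds (hW0 ⟨rfl, hyt⟩))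
    refine hc.eventually_mem (isClosed_closedBall.isOpen_compl.mem_nhds ?_)
    show readTau B p 0 y ∈ (closedBall y₀ r)ᶜ
    rw [(hF.smoother p).base y hyt]
    intro h
    refine hy.2 ?_
    rw [mem_ball]
    exact (mem_closedBall.1 h).trans_lt (by linarith)
  obtain ⟨δ, hδ, hδs⟩ := nhds_basis_closedBall.mem_iff.1 hev
  refine ⟨min (min ε₁ ε₂) δ, lt_min (lt_min hε₁ hε₂) hδ, fun ε hε f hf hth β hβ => ?_⟩
  simp only [mem_Ioc, le_min_iff] at hε
  obtain ⟨hε0, ⟨h1, h2⟩, h3⟩ := hε
  have hball : ball y₀ r ⊆ O :=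
    (ball_subset_closedBall.trans (closedBall_subset_closedBall (by linarith))).trans hsub
  have hfO : ∀ x, x ∉ O → f x = 0 := fun x hx =>
    image_eq_zero_of_notMem_tsupport fun h => hx (hball (hf.supp h))
  have haL : IsL2Field (volume.restrict O) fun x => f x • β := fun a b => by
    simp only [Matrix.smul_apply, smul_eq_mul]
    exact (((hf.smooth.continuous).mul continuous_const).memLp_of_hasCompactSupport
      hf.compact.mul_right).restrict _
  obtain ⟨he, -, -⟩ := hext ε ⟨hε0, h1⟩ _ haL fun x => by rw [Matrix.transpose_smul, hβ, smul_neg]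
  rw [he]
  have hind : O.indicator (fun x => f x • β) = fun x => f x • β := by
    funext x
    by_cases hx : x ∈ O
    · exact indicator_of_mem hx _
    · rw [indicator_of_notMem hx, hfO x hx, zero_smul]
  rw [hind]
  set G := smL (readTau B p) (wgtA B.n ρ) ε fun x => f x • β with hG
  funext z
  simp only [ext]
  split_ifs with hz
  swap
  · rfl
  set y := chartAt E p z
  suffices h : K.indicator G y = convAt ρ ε f y • β by rw [h]
  by_cases hy : y ∈ ball y₀ (3 / 2 * r)
  · have hy2 : y ∈ closedBall y₀ (2 * r) :=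
      mem_closedBall.2 ((mem_ball.1 hy).le.trans (by linarith))
    have hyi : y ∈ interior (closedBall y₀ (2 * r)) := by
      refine interior_maximal ball_subset_closedBall isOpen_ball (mem_ball.2 ?_)
      exact (mem_ball.1 hy).trans_le (by linarith)
    rw [indicator_of_mem (interior_subset (R.inside i₀ (subset_closure (hsub hy2))))]
    ext a b
    rw [hG, htr ε ⟨hε0, h2⟩ _ y hyi a b]
    simp only [convAt, Matrix.smul_apply, smul_eq_mul]
    rw [mul_assoc, ← integral_mul_const]
    congr 1
    exact integral_congr_ae (Eventually.of_forall fun v => by ring)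
  · have hc0 : convAt ρ ε f y = 0 := by
      refine convAt_eq_zero hρ hε0 fun h => hy ?_
      exact mem_ball.2 ((mem_ball.1 (hth h)).trans_le (by linarith))
    rw [hc0, zero_smul]
    by_cases hyK : y ∈ K
    swap
    · exact indicator_of_notMem hyK _
    rw [indicator_of_mem hyK]
    ext a b
    simp only [hG, smL, Matrix.of_apply, kerOp, Matrix.zero_apply]
    refine Finset.sum_eq_zero fun c _ => Finset.sum_eq_zero fun d _ => ?_
    rw [integral_eq_zero_of_ae (Eventually.of_forall fun v => ?_), mul_zero]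
    rcases eq_or_ne (wgtA B.n ρ (ε⁻¹ • v)) 0 with hv | hv
    · simp [hv]
    · have hσv : readTau B p v y ∉ closedBall y₀ r :=
        hδs (mem_closedBall_zero_iff.2 ((norm_le_of_weight hF.weight hε0 hv).trans h3)) y ⟨hyK, hy⟩
      have : f (readTau B p v y) = 0 :=
        image_eq_zero_of_notMem_tsupport fun h => hσv (ball_subset_closedBall (hf.supp h))
      simp [this]

/-- The quadratic identity of an obstruction at a small scale. -/
theorem exists_identity (A : Atlas X) {J w : X → M} (hJ : IsACX J) (hw : IsHerm J w)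
    {μ : Measure X} {Θ : X → M} {Φ : (X → M) →ₗ[ℝ] ℝ} (hob : IsObstruction A J w μ Θ Φ)
    (B : Atlas X) {ρ : E → ℝ} (hρ : IsMol ρ) (R : Regions B) :
    ∃ ε₀ > 0, ∀ ε ∈ Ioc (0 : ℝ) ε₀, ∀ t s : Fin B.n → E → M,
      (∀ i, IsL2Field (volume.restrict (R.O i)) (t i)) → (∀ i x, (t i x)ᵀ = -t i x) →
      (∀ i, IsL2Field (volume.restrict (R.O i)) (s i)) → (∀ i x, (s i x)ᵀ = -s i x) →
      (∀ i, ∀ a : E → M, IsL2Field (volume.restrict (R.O i)) a → (∀ x, (a x)ᵀ = -a x) →
        ∫ z, pr (w z) (Θ z) (smX B ρ ε (ext (B.c i) ((R.O i).indicator a)) z) ∂μ =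
          ∫ x in R.O i, wd (repEnd (B.c i) J x) (t i x) (a x)) →
      (∀ i, ∀ a : E → M, IsL2Field (volume.restrict (R.O i)) a → (∀ x, (a x)ᵀ = -a x) →
        Φ (pantiX J (smX B ρ ε (ext (B.c i) ((R.O i).indicator a)))) =
          ∫ x in R.O i, wd (repEnd (B.c i) J x) (s i x) (a x)) →
      ∑ i, ∫ x in R.O i, B.φ i ((chartAt E (B.c i)).symm x) *
        wd (repEnd (B.c i) J x) (t i x + s i x) (t i x + s i x) = 0 := by
  have hU := smearUse_of smearUse B hρ
  obtain ⟨ε₁, hε₁, hlin⟩ := hU.linear
  obtain ⟨ε₂, hε₂, hform⟩ := (smearFacts_of B hρ).form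
  obtain ⟨ε₃, hε₃, hcl⟩ := hU.closed B J w hJ hw
  refine ⟨min (min ε₁ ε₂) ε₃, lt_min (lt_min hε₁ hε₂) hε₃,
    fun ε hε t s ht hts hs hss htr hsr => ?_⟩
  simp only [mem_Ioc, le_min_iff] at hε
  obtain ⟨hε0, ⟨h1, h2⟩, h3⟩ := hε
  set Q : (X → M) → ℝ := fun u =>
    (∫ z, pr (w z) (Θ z) (smX B ρ ε u z) ∂μ) + Φ (pantiX J (smX B ρ ε u)) with hQ
  have hint : ∀ u, IsL2X u → Integrable (fun z => pr (w z) (Θ z) (smX B ρ ε u z)) μ :=
    fun u hu => integrable_pr_isForm hJ hw hob.finite hob.meas hob.psd hob.unit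
      (hform ε ⟨hε0, h2⟩ u hu)
  have hvan : ∀ u, IsL2X u → IsWeakClosed B w u → Q u = 0 := fun u hu hwc =>
    hob.vanish _ (hform ε ⟨hε0, h2⟩ u hu) (hcl ε ⟨hε0, h3⟩ u hu hwc)
  have hadd : ∀ u v, IsL2X u → IsL2X v → Q (u + v) = Q u + Q v := fun u v hu hv => by
    have he := (hlin ε ⟨hε0, h1⟩ u v hu hv 0).1
    have hp : pantiX J (smX B ρ ε u + smX B ρ ε v)
        = pantiX J (smX B ρ ε u) + pantiX J (smX B ρ ε v) := (pantiL J).map_add _ _
    simp only [hQ, he, hp, map_add, Pi.add_apply, pr_add_right]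
    rw [integral_add (hint u hu) (hint v hv)]
    ring
  have hQc : ∀ i, ∀ a : E → M, IsL2Field (volume.restrict (R.O i)) a → (∀ x, (a x)ᵀ = -a x) →
      Q (ext (B.c i) ((R.O i).indicator a)) =
        ∫ x in R.O i, wd (repEnd (B.c i) J x) (t i x + s i x) (a x) := fun i a ha has => by
    simp only [hQ, htr i a ha has, hsr i a ha has]
    rw [← integral_add (integrable_wd hJ _ (R.measurableSet i) (R.subset_target i) (ht i) ha)
      (integrable_wd hJ _ (R.measurableSet i) (R.subset_target i) (hs i) ha)]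
    exact integral_congr_ae (Eventually.of_forall fun x => by
      simp only [wd, pfq, Matrix.add_apply]; ring)
  have hdS : ∀ S, IsForm1 S → Q (dX S) = 0 := fun S hS =>
    hvan _ (isL2X_of_isForm (isForm_dX hS)) fun S' hS' => by
      simp only [pr_comm _ (dX S _)]
      exact stokes B hJ hw (isForm_dX hS) (isClosedX_dX hS) hS'
  obtain ⟨hL, hW, hval⟩ := glueHolds X J w B hJ hw R Q hadd (fun i x => t i x + s i x)
    (fun i => (ht i).add (hs i))
    (fun i x => by simp only [Matrix.transpose_add, hts i x, hss i x, neg_add]) hQc hdS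
  rw [← hval]
  exact hvan _ hL hW

end Vale.Agent.P204.Tame.Mfd
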