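import Vale.Agent.P204.Tame.EllipticCoercive
import Vale.Agent.P204.Tame.EllipticAbstract
import Vale.Agent.P204.Tame.Linear
import Vale.Agent.P204.Tame.Mfd.Coord
import Vale.Agent.P204.Tame.Mfd.Kaehler

/-!
P204: the space of anti-invariant forms on a manifold with its two quadratic forms, the energy
of the exterior derivative and the mean square, read in charts.
-/

namespace Vale.Agent.P204.Tame

open scoped ContDiff Matrix Topology
open MeasureTheory Set Filter

set_option maxHeartbeats 1000000 in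
-- sixty-four cases by simplification
/-- The energy vector determines every component of the exterior derivative. -/
lemma altd_eq_dot {u : E → M} {x : E} (hs : ∀ᶠ y in 𝓝 x, (u y)ᵀ = -u y) (i j k : Fin 4) :
    altd u x i j k = -(dTwo u x ⬝ᵥ triple i j k) := by
  have hsk : ∀ c a b, pd c (fun y => u y b a) x = -pd c (fun y => u y a b) x := by
    intro c a b
    have he : (fun y => u y b a) =ᶠ[𝓝 x] fun y => -u y a b := by
      filter_upwards [hs] with y hy
      exact skew_apply hy a b
    rw [pd_congr c he]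
    simp [pd, fderiv_fun_neg]
  have hd : ∀ c a, pd c (fun y => u y a a) x = 0 := fun c a => by linarith [hsk c a a]
  fin_cases i <;> fin_cases j <;> fin_cases k <;>
    simp [altd, dTwo, triple, dotProduct, Fin.sum_univ_four, hd,
      hsk _ 0 1, hsk _ 0 2, hsk _ 0 3, hsk _ 1 2, hsk _ 1 3, hsk _ 2 3] <;> ring

set_option maxHeartbeats 1000000 in
-- two hundred and fifty-six terms
lemma sum_triple_det (u v w D : E) :
    ∑ a, ∑ b, ∑ c, u c * v a * w b * (D ⬝ᵥ triple c a b) =
      (Matrix.of ![u, v, w, D]).det := by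
  rw [Matrix.det_succ_row_zero]
  simp [dotProduct, triple, Fin.sum_univ_four, Matrix.det_fin_three, Fin.succAbove]
  ring

lemma det_mul_aux (P : M) (D : E) :
    P *ᵥ ![-(∑ a, ∑ b, ∑ c, P c 1 * P a 2 * P b 3 * (D ⬝ᵥ triple c a b)),
      ∑ a, ∑ b, ∑ c, P c 0 * P a 2 * P b 3 * (D ⬝ᵥ triple c a b),
      -(∑ a, ∑ b, ∑ c, P c 0 * P a 1 * P b 3 * (D ⬝ᵥ triple c a b)),
      ∑ a, ∑ b, ∑ c, P c 0 * P a 1 * P b 2 * (D ⬝ᵥ triple c a b)] = P.det • D := by
  rw [sum_triple_det (fun c => P c 1) (fun c => P c 2) (fun c => P c 3),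
    sum_triple_det (fun c => P c 0) (fun c => P c 2) (fun c => P c 3),
    sum_triple_det (fun c => P c 0) (fun c => P c 1) (fun c => P c 3),
    sum_triple_det (fun c => P c 0) (fun c => P c 1) (fun c => P c 2)]
  simp only [Matrix.det_succ_row_zero (n := 3), Matrix.det_fin_three, Fin.sum_univ_four]
  funext r
  fin_cases r <;>
    simp [Matrix.mulVec, dotProduct, Fin.sum_univ_four, Fin.succAbove] <;> ring

/-- The energy vector under a change of coordinates. -/
lemma dTwo_pullback {t : E → E} {U V : Set E} (hU : IsOpen U) (hV : IsOpen V)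
    (ht : ContDiffOn ℝ ∞ t U) (hm : MapsTo t U V) {u : E → M}
    (hu : ∀ a b, ContDiffOn ℝ ∞ (fun y => u y a b) V) (hs : ∀ y ∈ V, (u y)ᵀ = -u y)
    {x : E} (hx : x ∈ U) :
    Mfd.jac t x *ᵥ dTwo (fun y => (Mfd.jac t y)ᵀ * u (t y) * Mfd.jac t y) x =
      (Mfd.jac t x).det • dTwo u (t x) := by
  have h : ∀ i j k, altd (fun y => (Mfd.jac t y)ᵀ * u (t y) * Mfd.jac t y) x i j k =
      ∑ a, ∑ b, ∑ c, Mfd.jac t x c i * Mfd.jac t x a j * Mfd.jac t x b k *
        -(dTwo u (t x) ⬝ᵥ triple c a b) := fun i j k => by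
    refine (Mfd.cyc_pullback_eq hU hV ht hm hu hs hx i j k).trans ?_
    refine Finset.sum_congr rfl fun a _ => Finset.sum_congr rfl fun b _ =>
      Finset.sum_congr rfl fun c _ => ?_
    rw [← altd_eq_dot (by filter_upwards [hV.mem_nhds (hm hx)] with y hy using hs y hy) c a b]
    rfl
  rw [← det_mul_aux (Mfd.jac t x) (dTwo u (t x))]
  congr 1
  simp only [dTwo, h, mul_neg, Finset.sum_neg_distrib, neg_neg]

lemma dTwo_add {u v : E → M} {x : E} (hu : ∀ i j, DifferentiableAt ℝ (fun y => u y i j) x)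
    (hv : ∀ i j, DifferentiableAt ℝ (fun y => v y i j) x) :
    dTwo (fun y => u y + v y) x = dTwo u x + dTwo v x := by
  have h : ∀ i j k, altd (fun y => u y + v y) x i j k = altd u x i j k + altd v x i j k :=
    fun i j k => by
      simp only [altd, Matrix.add_apply, pd_add _ (hu _ _) (hv _ _)]
      ring
  funext r
  fin_cases r <;> simp [dTwo, h, add_comm]

lemma dTwo_smul {u : E → M} {x : E} (hu : ∀ i j, DifferentiableAt ℝ (fun y => u y i j) x) (c : ℝ) :
    dTwo (fun y => c • u y) x = c • dTwo u x := by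
  have h : ∀ i j k, altd (fun y => c • u y) x i j k = c * altd u x i j k := fun i j k => by
    simp only [altd, Matrix.smul_apply, smul_eq_mul, pd, fderiv_const_mul (hu _ _), smul_apply]
    ring
  funext r
  fin_cases r <;> simp [dTwo, h]

/-- The energy vector is bounded by the gradient. -/
lemma exists_dTwo_le : ∃ c : ℝ, 0 ≤ c ∧ ∀ (u : E → M) (x : E),
    dTwo u x ⬝ᵥ dTwo u x ≤
      c * ∑ i, ∑ j, (u x i j ^ 2 + ∑ a, pd a (fun y => u y i j) x ^ 2) := by
  refine ⟨∑ l, ∑ p : I3, lco l p ^ 2,
    Finset.sum_nonneg fun _ _ => Finset.sum_nonneg fun _ _ => sq_nonneg _, fun u x => ?_⟩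
  rw [dTwo_eq_dvec]
  refine (dvec_sq_le _).trans (mul_le_mul_of_nonneg_left ?_
    (Finset.sum_nonneg fun _ _ => Finset.sum_nonneg fun _ _ => sq_nonneg _))
  simp only [Fintype.sum_prod_type, gradT, Matrix.of_apply]
  rw [Finset.sum_comm]
  refine Finset.sum_le_sum fun i _ => ?_
  rw [Finset.sum_comm]
  refine Finset.sum_le_sum fun j _ => le_add_of_nonneg_left (sq_nonneg _)

lemma pfq_self_le (u : M) : |pfq u u| ≤ ∑ i, ∑ j, u i j ^ 2 := by
  simp only [pfq, Fin.sum_univ_four, abs_le]
  constructor <;>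
    nlinarith [sq_nonneg (u 0 1 + u 2 3), sq_nonneg (u 0 1 - u 2 3), sq_nonneg (u 0 2 + u 1 3),
      sq_nonneg (u 0 2 - u 1 3), sq_nonneg (u 0 3 + u 1 2), sq_nonneg (u 0 3 - u 1 2),
      sq_nonneg (u 0 0), sq_nonneg (u 1 1), sq_nonneg (u 2 2), sq_nonneg (u 3 3),
      sq_nonneg (u 1 0), sq_nonneg (u 2 0), sq_nonneg (u 3 0), sq_nonneg (u 2 1),
      sq_nonneg (u 3 1), sq_nonneg (u 3 2)]

namespace Mfd

open scoped Manifold

variable {X : Type} [TopologicalSpace X] [ChartedSpace E X] [IsManifold 𝓘(ℝ, E) ∞ X]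

/-- The energy vector at a point, in its preferred chart. -/
noncomputable def dTwoX (u : X → M) (z : X) : E := dTwo (rep z u) (chartAt E z z)

/-- The density of the energy pairing. -/
noncomputable def enr (J w u v : X → M) (z : X) : ℝ :=
  (dTwoX u z ⬝ᵥ ((w z * J z) *ᵥ dTwoX v z)) / pfq (w z) (w z) ^ 2

/-- The metric of the energy in a chart. -/
noncomputable def gChart (J w : X → M) (p : X) (y : E) : M :=
  |pfq (rep p w y) (rep p w y)|⁻¹ • (rep p w y * repEnd p J y)

/-- The orientation sign of the chart at `p`. -/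
noncomputable def oriC (w : X → M) (p : X) (y : E) : ℝ :=
  |pfq (rep p w y) (rep p w y)| / pfq (rep p w y) (rep p w y)

lemma oriC_sq {w : X → M} {p : X} {y : E} (h : pfq (rep p w y) (rep p w y) ≠ 0) :
    oriC w p y * oriC w p y = 1 := by
  rw [oriC, div_mul_div_comm, abs_mul_abs_self, div_self (mul_ne_zero h h)]

lemma chg_dTwo {u : X → M} (hu : IsForm u) {p q : X} {y : E} (hy : y ∈ trnDom p q) :
    chg p q ((chartAt E p).symm y) *ᵥ dTwo (rep p u) y =
      (chg p q ((chartAt E p).symm y)).det • dTwo (rep q u) (trn p q y) := by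
  have hj : ∀ x ∈ trnDom p q, jac (trn p q) x = chg p q ((chartAt E p).symm x) := fun x hx => by
    rw [← toLin_jac (hasFDerivAt_trn hx), chg]
  have h := dTwo_pullback (isOpen_trnDom p q) (chartAt E q).open_target (contDiffOn_trn p q)
    (fun x hx => trn_mem hx) (hu.smooth q) (fun x _ => skew_rep hu.skew q x) hy
  have he : (fun x => (jac (trn p q) x)ᵀ * rep q u (trn p q x) * jac (trn p q) x)
      =ᶠ[𝓝 y] rep p u := by
    filter_upwards [(isOpen_trnDom p q).mem_nhds hy] with x hx
    rw [hj x hx, rep_trn u hx]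
  have hd : dTwo (fun x => (jac (trn p q) x)ᵀ * rep q u (trn p q x) * jac (trn p q) x) y =
      dTwo (rep p u) y := by
    have h' : ∀ i j k, altd (fun x => (jac (trn p q) x)ᵀ * rep q u (trn p q x) *
        jac (trn p q) x) y i j k = altd (rep p u) y i j k := cyc_congr he
    simp only [dTwo, h']
  rwa [hd, hj y hy] at h

lemma dTwoX_chart {u : X → M} (hu : IsForm u) {p : X} {y : E} (hy : y ∈ (chartAt E p).target) :
    dTwoX u ((chartAt E p).symm y) =
      (chg p ((chartAt E p).symm y) ((chartAt E p).symm y)).det⁻¹ •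
        (chg p ((chartAt E p).symm y) ((chartAt E p).symm y) *ᵥ dTwo (rep p u) y) := by
  set z := (chartAt E p).symm y with hz
  have hzp : z ∈ (chartAt E p).source := (chartAt E p).map_target hy
  have h := chg_dTwo hu (q := z) (⟨hy, mem_chart_source E z⟩ : y ∈ trnDom p z)
  rw [← hz] at h
  rw [h, smul_smul, inv_mul_cancel₀ (isUnit_chg hzp (mem_chart_source E z)).ne_zero, one_smul]
  rfl

lemma enr_chart {J w u v : X → M} (hJ : IsACX J) (hw : IsHerm J w) (hu : IsForm u)
    (hv : IsForm v) {p : X} {y : E} (hy : y ∈ (chartAt E p).target) :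
    |pfq (rep p w y) (rep p w y)| * enr J w u v ((chartAt E p).symm y) =
      (gChart J w p y *ᵥ dTwo (rep p v) y) ⬝ᵥ dTwo (rep p u) y := by
  have hne := pfq_rep_herm_ne_zero hJ hw (p := p) hy
  set z := (chartAt E p).symm y with hz
  have hzp : z ∈ (chartAt E p).source := (chartAt E p).map_target hy
  set P := chg p z z with hP
  have hd : P.det ≠ 0 := (isUnit_chg hzp (mem_chart_source E z)).ne_zero
  have hPQ : P * chg z p z = 1 := chg_mul_chg (mem_chart_source E z) hzp
  have hg : rep p w y * repEnd p J y = Pᵀ * (w z * J z) * P := by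
    simp only [rep, repEnd, ← hz, ← hP]
    calc Pᵀ * w z * P * (chg z p z * J z * P) = Pᵀ * w z * (P * chg z p z) * J z * P := by
          simp only [Matrix.mul_assoc]
      _ = _ := by rw [hPQ]; simp [Matrix.mul_assoc]
  have hpf : pfq (rep p w y) (rep p w y) = P.det * pfq (w z) (w z) :=
    pfq_congr_skew P (hw.form.skew z) (hw.form.skew z)
  have hne' : pfq (w z) (w z) ≠ 0 := right_ne_zero_of_mul (hpf ▸ hne)
  have eu := dTwoX_chart hu hy
  have ev := dTwoX_chart hv hy
  rw [← hz, ← hP] at eu ev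
  simp only [enr, gChart, eu, ev]
  rw [hg, dotProduct_comm _ (dTwo (rep p u) y), Matrix.smul_mulVec, dotProduct_smul, smul_eq_mul,
    show dTwo (rep p u) y ⬝ᵥ ((Pᵀ * (w z * J z) * P) *ᵥ dTwo (rep p v) y) =
      val (w z * J z) (P *ᵥ dTwo (rep p u) y) (P *ᵥ dTwo (rep p v) y) from val_congr P _ _ _]
  simp only [val, Matrix.mulVec_smul, smul_dotProduct, dotProduct_smul, smul_eq_mul, hpf, abs_mul]
  field_simp
  rw [sq_abs, sq_abs]
  ring

lemma isPosDefOn_gChart {J w : X → M} (hJ : IsACX J) (hw : IsHerm J w) (p : X) :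
    IsPosDefOn (chartAt E p).target (gChart J w p) where
  smooth i j := by
    have hp : ContDiffOn ℝ ∞ (fun y => pfq (rep p w y) (rep p w y)) (chartAt E p).target := by
      have := hw.form.smooth p
      simp only [pfq]
      fun_prop
    simp only [gChart, Matrix.smul_apply, smul_eq_mul, Matrix.mul_apply]
    exact ((hp.abs fun y hy => pfq_rep_herm_ne_zero hJ hw hy).inv fun y hy =>
      abs_ne_zero.2 (pfq_rep_herm_ne_zero hJ hw hy)).mul
      (ContDiffOn.sum fun k _ => (hw.form.smooth p i k).mul (hJ.smooth p k j))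
  symm y hy := by
    have hi := inv_rep (J := J) hw.inv hy (u := w) (p := p)
    have hsq := repEnd_sq hJ.sq hy (p := p)
    have hs := skew_rep hw.form.skew p y
    have e : (repEnd p J y)ᵀ * rep p w y = -(rep p w y * repEnd p J y) := by
      have h2 : (repEnd p J y)ᵀ * rep p w y * repEnd p J y * repEnd p J y =
          rep p w y * repEnd p J y := by rw [hi]
      rw [Matrix.mul_assoc, hsq, mul_neg, Matrix.mul_one] at h2
      rw [← h2, neg_neg]
    rw [gChart, Matrix.transpose_smul, Matrix.transpose_mul, hs, Matrix.mul_neg, e, neg_neg]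
  pos y hy v hv := by
    rw [gChart, Matrix.smul_mulVec, dotProduct_smul, smul_eq_mul, ← Matrix.mulVec_mulVec]
    exact mul_pos (inv_pos.2 (abs_pos.2 (pfq_rep_herm_ne_zero hJ hw hy)))
      (tames_rep hw.tames hy v hv)

lemma enr_symm {J w u v : X → M} (hJ : IsACX J) (hw : IsHerm J w) (hu : IsForm u)
    (hv : IsForm v) (z : X) : enr J w u v z = enr J w v u z := by
  have hz := (chartAt E z).map_source (mem_chart_source E z)
  have hne := pfq_rep_herm_ne_zero hJ hw (p := z) hz
  have h1 := enr_chart hJ hw hu hv (p := z) hz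
  have h2 := enr_chart hJ hw hv hu (p := z) hz
  rw [(chartAt E z).left_inv (mem_chart_source E z)] at h1 h2
  refine mul_left_cancel₀ (abs_ne_zero.2 hne) (h1.trans (Eq.trans ?_ h2.symm))
  set G := gChart J w z (chartAt E z z)
  have hG : Gᵀ = G := (isPosDefOn_gChart hJ hw z).symm _ hz
  rw [dotProduct_comm, Matrix.dotProduct_mulVec, ← Matrix.mulVec_transpose, hG]

lemma enr_nonneg {J w u : X → M} (hw : IsHerm J w) (z : X) : 0 ≤ enr J w u u z := by
  refine div_nonneg ?_ (sq_nonneg _)
  rcases eq_or_ne (dTwoX u z) 0 with h | h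
  · simp [h]
  · have := hw.tames z _ h
    rw [val, Matrix.mulVec_mulVec] at this
    exact this.le

lemma continuousOn_dTwo {V : Set E} (hV : IsOpen V) {a : E → M}
    (ha : ∀ i j, ContDiffOn ℝ ∞ (fun y => a y i j) V) (r : Fin 4) :
    ContinuousOn (fun y => dTwo a y r) V := by
  have h : ∀ c i j, ContinuousOn (fun y => pd c (fun x => a x i j) y) V := fun c i j => by
    simp only [pd]
    exact (((ha i j).fderiv_of_isOpen hV le_rfl).clm_apply contDiffOn_const
      : ContDiffOn ℝ ∞ _ V).continuousOn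
  fin_cases r <;> simp only [dTwo, altd] <;>
    simp only [Fin.zero_eta, Fin.mk_one, Fin.reduceFinMk, Matrix.cons_val_zero,
      Matrix.cons_val_one, Matrix.cons_val, Fin.isValue] <;> fun_prop

lemma continuous_enr {J w u v : X → M} (hJ : IsACX J) (hw : IsHerm J w) (hu : IsForm u)
    (hv : IsForm v) : Continuous fun z => enr J w u v z := by
  rw [continuous_iff_continuousAt]
  intro z
  set c := chartAt E z
  have hd := continuousOn_dTwo c.open_target (hu.smooth z)
  have hd' := continuousOn_dTwo c.open_target (hv.smooth z)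
  have hG := fun i j => ((isPosDefOn_gChart hJ hw z).smooth i j).continuousOn
  have hp : ContinuousOn (fun y => |pfq (rep z w y) (rep z w y)|) c.target :=
    (continuousOn_pfq (hw.form.cont.cont z) (hw.form.cont.cont z)).abs
  have hin : ContinuousOn (fun y => ((gChart J w z y *ᵥ dTwo (rep z v) y) ⬝ᵥ dTwo (rep z u) y) /
      |pfq (rep z w y) (rep z w y)|) c.target := by
    refine ContinuousOn.div ?_ hp fun y hy => abs_ne_zero.2 (pfq_rep_herm_ne_zero hJ hw hy)
    simp only [dotProduct, Matrix.mulVec]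
    fun_prop
  refine ((hin.continuousAt (c.open_target.mem_nhds (c.map_source (mem_chart_source E z)))).comp
    (c.continuousAt (mem_chart_source E z))).congr ?_
  filter_upwards [c.open_source.mem_nhds (mem_chart_source E z)] with x hx
  show _ / _ = _
  rw [← enr_chart hJ hw hu hv (c.map_source hx), c.left_inv hx,
    mul_div_cancel_left₀ _ (abs_ne_zero.2 (pfq_rep_herm_ne_zero hJ hw (c.map_source hx)))]

/-- Smooth anti-invariant forms. -/
def antiF (J : X → M) : Submodule ℝ (X → M) where
  carrier := {u | IsForm u ∧ ∀ z, (J z)ᵀ * u z * J z = -u z}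
  zero_mem' := ⟨isForm_zero, fun z => by simp⟩
  add_mem' := fun hu hv => ⟨hu.1.add hv.1, fun z => by
    simp [Matrix.mul_add, Matrix.add_mul, hu.2 z, hv.2 z, add_comm]⟩
  smul_mem' := fun r _ hu => ⟨hu.1.smul r, fun z => by simp [hu.2 z]⟩

lemma antiF.form {J : X → M} (u : antiF J) : IsForm (u : X → M) := u.2.1

lemma antiF.isAntiOn {J : X → M} (u : antiF J) (p : X) :
    IsAntiOn (chartAt E p).target (repEnd p J) (rep p u) where
  smooth := u.2.1.smooth p
  skew y _ := skew_rep u.2.1.skew p y
  anti y hy := by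
    have hu := chg_mul_chg (p := (chartAt E p).symm y) (q := p)
      (mem_chart_source E _) ((chartAt E p).map_target hy)
    simp only [rep, repEnd]
    rw [congr_inv hu, u.2.2]
    simp

variable [MeasurableSpace X] [BorelSpace X] [T2Space X] [CompactSpace X]
  (A : Atlas X) {J w : X → M} (hJ : IsACX J) (hw : IsHerm J w)

omit [MeasurableSpace X] [BorelSpace X] [T2Space X] [CompactSpace X] in
lemma dTwoX_add {u v : X → M} (hu : IsForm u) (hv : IsForm v) (z : X) :
    dTwoX (u + v) z = dTwoX u z + dTwoX v z := by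
  have hz := (chartAt E z).open_target.mem_nhds ((chartAt E z).map_source (mem_chart_source E z))
  rw [dTwoX, show rep z (u + v) = fun y => rep z u y + rep z v y from funext fun y => rep_add z u v y]
  exact dTwo_add (fun i j => ((hu.smooth z i j).contDiffAt hz).differentiableAt (by simp))
    (fun i j => ((hv.smooth z i j).contDiffAt hz).differentiableAt (by simp))

omit [MeasurableSpace X] [BorelSpace X] [T2Space X] [CompactSpace X] in
lemma dTwoX_smul {u : X → M} (hu : IsForm u) (r : ℝ) (z : X) :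
    dTwoX (r • u) z = r • dTwoX u z := by
  have hz := (chartAt E z).open_target.mem_nhds ((chartAt E z).map_source (mem_chart_source E z))
  rw [dTwoX, show rep z (r • u) = fun y => r • rep z u y from funext fun y => rep_smul z r u y]
  exact dTwo_smul (fun i j => ((hu.smooth z i j).contDiffAt hz).differentiableAt (by simp)) r

/-- The energy form. -/
noncomputable def bilB : antiF J →ₗ[ℝ] antiF J →ₗ[ℝ] ℝ :=
  LinearMap.mk₂ ℝ (fun u v => ∫ z, enr J w (u : X → M) (v : X → M) z ∂vol A w)
    (fun u u' v => by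
      simp only [Submodule.coe_add, enr, dTwoX_add u.2.1 u'.2.1, add_dotProduct, add_div]
      exact integral_add (continuous_integrable A hw (continuous_enr hJ hw u.2.1 v.2.1))
        (continuous_integrable A hw (continuous_enr hJ hw u'.2.1 v.2.1)))
    (fun r u v => by
      rw [smul_eq_mul, ← integral_const_mul]
      refine integral_congr_ae (ae_of_all _ fun z => ?_)
      show enr J w (r • (u : X → M)) _ z = _
      unfold enr
      rw [dTwoX_smul u.2.1, smul_dotProduct, smul_eq_mul, mul_div_assoc])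
    (fun u v v' => by
      simp only [Submodule.coe_add, enr, dTwoX_add v.2.1 v'.2.1, Matrix.mulVec_add, dotProduct_add,
        add_div]
      exact integral_add (continuous_integrable A hw (continuous_enr hJ hw u.2.1 v.2.1))
        (continuous_integrable A hw (continuous_enr hJ hw u.2.1 v'.2.1)))
    (fun r u v => by
      rw [smul_eq_mul, ← integral_const_mul]
      refine integral_congr_ae (ae_of_all _ fun z => ?_)
      show enr J w _ (r • (v : X → M)) z = _
      unfold enr
      rw [dTwoX_smul v.2.1, Matrix.mulVec_smul, dotProduct_smul, smul_eq_mul,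
        mul_div_assoc])

/-- The mean square form. -/
noncomputable def bilP : antiF J →ₗ[ℝ] antiF J →ₗ[ℝ] ℝ :=
  LinearMap.mk₂ ℝ (fun u v => ∫ z, pr (w z) ((u : X → M) z) ((v : X → M) z) ∂vol A w)
    (fun u u' v => by
      rw [integral_congr_ae (g := fun z => pr (w z) ((u : X → M) z) ((v : X → M) z) +
        pr (w z) ((u' : X → M) z) ((v : X → M) z)) (ae_of_all _ fun z => by
          show pr (w z) ((u : X → M) z + (u' : X → M) z) _ = _
          rw [pr_comm, pr_add_right, pr_comm (w z) ((v : X → M) z), pr_comm (w z) ((v : X → M) z)])]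
      exact integral_add (continuous_integrable A hw (continuous_pr hJ hw u.2.1.cont v.2.1.cont))
        (continuous_integrable A hw (continuous_pr hJ hw u'.2.1.cont v.2.1.cont)))
    (fun r u v => by
      rw [smul_eq_mul, ← integral_const_mul]
      refine integral_congr_ae (ae_of_all _ fun z => ?_)
      show pr (w z) (r • (u : X → M) z) _ = _
      rw [pr_comm, pr_smul_right, pr_comm])
    (fun u v v' => by
      simp only [Submodule.coe_add, Pi.add_apply, pr_add_right]
      exact integral_add (continuous_integrable A hw (continuous_pr hJ hw u.2.1.cont v.2.1.cont))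
        (continuous_integrable A hw (continuous_pr hJ hw u.2.1.cont v'.2.1.cont)))
    (fun r u v => by
      simp only [Submodule.coe_smul, Pi.smul_apply, pr_smul_right]
      exact integral_const_mul r _)

lemma bilB_apply (u v : antiF J) :
    bilB A hJ hw u v = ∫ z, enr J w (u : X → M) (v : X → M) z ∂vol A w := rfl

lemma bilP_apply (u v : antiF J) :
    bilP A hJ hw u v = ∫ z, pr (w z) ((u : X → M) z) ((v : X → M) z) ∂vol A w := rfl

include hw in
/-- The integral of a nonnegative function over a chart is at most its whole integral. -/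
lemma setIntegral_chart_le (p : X) {g : X → ℝ} (hg : Continuous g) (h0 : ∀ z, 0 ≤ g z)
    {L : Set E} (hLc : IsCompact L) (hL : L ⊆ (chartAt E p).target) :
    ∫ y in L, |pfq (rep p w y) (rep p w y)| * g ((chartAt E p).symm y) ≤ ∫ z, g z ∂vol A w := by
  set c := chartAt E p
  obtain ⟨χ, hχ1, hχ2, hχ3, hχ4⟩ : ∃ χ : E → ℝ, IsTest c.target χ ∧ (∀ x, 0 ≤ χ x ∧ χ x ≤ 1) ∧
      (∀ x ∈ L, χ x = 1) ∧ True := by
    obtain ⟨η, h1, h2, U, -, hLU, -, h3⟩ := Tame.exists_cutoff c.open_target hLc hL
    exact ⟨η, h1, h2, fun x hx => h3 x (hLU hx), trivial⟩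
  classical
  set g' : X → ℝ := fun z => if z ∈ c.source then χ (c z) * g z else 0
  have hg' : Continuous g' := by
    rw [continuous_iff_continuousAt]
    intro z
    by_cases hz : z ∈ c.source
    · refine (((hχ1.smooth.continuous.continuousAt.comp (c.continuousAt hz))).mul
        hg.continuousAt).congr ?_
      filter_upwards [c.open_source.mem_nhds hz] with x hx
      simp [g', hx]
    · have hC : IsClosed (c.symm '' tsupport χ) :=
        (hχ1.compact.image_of_continuousOn (c.continuousOn_symm.mono hχ1.supp)).isClosed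
      have hzC : z ∈ (c.symm '' tsupport χ)ᶜ := by
        rintro ⟨x, hx, rfl⟩
        exact hz (c.map_target (hχ1.supp hx))
      refine continuousAt_const.congr (g := g') (f := fun _ => (0 : ℝ)) ?_
      filter_upwards [hC.isOpen_compl.mem_nhds hzC] with x hx
      by_cases hxs : x ∈ c.source
      · have : χ (c x) = 0 := image_eq_zero_of_notMem_tsupport fun h =>
          hx ⟨_, h, c.left_inv hxs⟩
        simp [g', hxs, this]
      · simp [g', hxs]
  have hle : ∀ z, g' z ≤ g z := fun z => by
    by_cases hz : z ∈ c.source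
    · simp only [g', if_pos hz]
      exact mul_le_of_le_one_left (h0 z) (hχ2 _).2
    · simp only [g', if_neg hz]
      exact h0 z
  refine le_trans ?_ (integral_mono (continuous_integrable A hw hg')
    (continuous_integrable A hw hg) hle)
  rw [integral_vol_chart A hw p hg' fun z hz => if_neg hz]
  have hF : ∀ y ∈ c.target, |pfq (rep p w y) (rep p w y)| * g' (c.symm y) =
      χ y * (|pfq (rep p w y) (rep p w y)| * g (c.symm y)) := fun y hy => by
    simp only [g', if_pos (c.map_target hy), c.right_inv hy]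
    ring
  have hbase : ContinuousOn (fun y => |pfq (rep p w y) (rep p w y)| * g (c.symm y)) c.target :=
    (continuousOn_pfq (hw.form.cont.cont p) (hw.form.cont.cont p)).abs.mul (continuousOn_read hg p)
  rw [setIntegral_congr_fun c.open_target.measurableSet hF]
  refine le_trans (le_of_eq (setIntegral_congr_fun hLc.measurableSet fun y hy => ?_))
    (setIntegral_mono_set ?_ (ae_restrict_of_forall_mem c.open_target.measurableSet fun y hy =>
      mul_nonneg (hχ2 y).1 (mul_nonneg (abs_nonneg _) (h0 _))) hL.eventuallyLE)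
  · simp [hχ3 y hy]
  · have hi : IntegrableOn (fun y => χ y * (|pfq (rep p w y) (rep p w y)| * g (c.symm y)))
        (tsupport χ) := ((hχ1.smooth.continuous.continuousOn).mul
          (hbase.mono hχ1.supp)).integrableOn_compact hχ1.compact
    exact hi.of_forall_sdiff_eq_zero c.open_target.measurableSet fun y hy => by
      simp [image_eq_zero_of_notMem_tsupport hy.2]

include hw in
/-- The whole integral is a sum of integrals over the cells. -/
lemma integral_le_cells {g : X → ℝ} (hg : Continuous g) (h0 : ∀ z, 0 ≤ g z) :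
    ∫ z, g z ∂vol A w ≤ ∑ i, ∫ y in cell A i,
      |pfq (rep (A.c i) w y) (rep (A.c i) w y)| * g ((chartAt E (A.c i)).symm y) := by
  have hsum : ∀ z, g z = ∑ i, A.φ i z * g z := fun z => by rw [← Finset.sum_mul, A.sum_φ, one_mul]
  rw [integral_congr_ae (ae_of_all _ hsum)]
  rw [integral_finsetSum _ fun i _ =>
    continuous_integrable A hw ((A.φ_smooth i).continuous.fun_mul hg)]
  refine Finset.sum_le_sum fun i _ => ?_
  set c := chartAt E (A.c i)
  rw [integral_vol_chart A hw (A.c i) ((A.φ_smooth i).continuous.fun_mul hg) fun z hz => by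
    simp [image_eq_zero_of_notMem_tsupport fun h => hz ((A.φ_supp i).2 h)]]
  have hvan : ∀ y ∈ c.target, y ∉ cell A i → A.φ i (c.symm y) = 0 := fun y hy hn =>
    image_eq_zero_of_notMem_tsupport fun h => hn ⟨_, h, c.right_inv hy⟩
  rw [setIntegral_eq_of_subset_of_forall_sdiff_eq_zero (s := cell A i)
    c.open_target.measurableSet (cell_subset A i) fun y hy => by simp [c, hvan y hy.1 hy.2]]
  have hbase : ContinuousOn (fun y => |pfq (rep (A.c i) w y) (rep (A.c i) w y)| * g (c.symm y))
      c.target := (continuousOn_pfq (hw.form.cont.cont (A.c i)) (hw.form.cont.cont (A.c i))).abs.mul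
        (continuousOn_read hg (A.c i))
  refine setIntegral_mono_on ?_ ((hbase.mono (cell_subset A i)).integrableOn_compact
    (isCompact_cell A i)) (isCompact_cell A i).measurableSet fun y _ => ?_
  · refine (ContinuousOn.mono ?_ (cell_subset A i)).integrableOn_compact (isCompact_cell A i)
    exact (continuousOn_pfq (hw.form.cont.cont (A.c i)) (hw.form.cont.cont (A.c i))).abs.mul
      (continuousOn_read ((A.φ_smooth i).continuous.fun_mul hg) (A.c i))
  · refine mul_le_mul_of_nonneg_left (mul_le_of_le_one_left (h0 _) ?_) (abs_nonneg _)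
    rw [← A.sum_φ (c.symm y)]
    exact Finset.single_le_sum (f := fun j => A.φ j (c.symm y))
      (fun j _ => A.φ_nonneg j _) (Finset.mem_univ i)

lemma semiForm_bilB : SemiForm (bilB A hJ hw) where
  symm u v := integral_congr_ae (ae_of_all _ fun z => enr_symm hJ hw u.2.1 v.2.1 z)
  nonneg u := integral_nonneg fun z => enr_nonneg hw z

lemma semiForm_bilP : SemiForm (bilP A hJ hw) where
  symm u v := integral_congr_ae (ae_of_all _ fun z => pr_comm _ _ _)
  nonneg u := integral_nonneg fun z =>
    pr_anti_nonneg (hJ.sq z) (hw.form.skew z) (hw.inv z) (hw.tames z) (u.2.1.skew z) (u.2.2 z)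

omit [MeasurableSpace X] [BorelSpace X] [T2Space X] [CompactSpace X] in
lemma continuousOn_sq_rep {u : X → M} (hu : IsForm u) (p : X) :
    ContinuousOn (fun y => ∑ i, ∑ j, rep p u y i j ^ 2) (chartAt E p).target :=
  continuousOn_finsetSum _ fun i _ => continuousOn_finsetSum _ fun j _ =>
    ((hu.smooth p i j).continuousOn).pow 2

omit [MeasurableSpace X] [BorelSpace X] [T2Space X] [CompactSpace X] in
lemma continuousOn_dTwo_sq {u : X → M} (hu : IsForm u) (p : X) :
    ContinuousOn (fun y => dTwo (rep p u) y ⬝ᵥ dTwo (rep p u) y) (chartAt E p).target := by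
  have := continuousOn_dTwo (chartAt E p).open_target (hu.smooth p)
  simp only [dotProduct]
  fun_prop

/-- The mean square on a compact part of a chart is bounded by the global one. -/
theorem exists_sq_le (p : X) {L : Set E} (hLc : IsCompact L) (hL : L ⊆ (chartAt E p).target) :
    ∃ C : ℝ, 0 ≤ C ∧ ∀ u : antiF J,
      ∫ y in L, ∑ i, ∑ j, rep p (u : X → M) y i j ^ 2 ≤ C * bilP A hJ hw u u := by
  have hS : IsCompact (repEnd p J '' L) := hLc.image_of_continuousOn
    (continuousOn_pi.2 fun i => continuousOn_pi.2 fun j => ((hJ.smooth p i j).continuousOn).mono hL)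
  obtain ⟨c, hc, hb⟩ := linearFacts.2.2.2 _ hS
    (by rintro _ ⟨y, hy, rfl⟩; exact repEnd_sq hJ.sq (hL hy))
  refine ⟨c⁻¹, (inv_pos.2 hc).le, fun u => ?_⟩
  have hpt : ∀ y ∈ L, c * ∑ i, ∑ j, rep p (u : X → M) y i j ^ 2 ≤
      |pfq (rep p w y) (rep p w y)| * pr (w ((chartAt E p).symm y))
        ((u : X → M) ((chartAt E p).symm y)) ((u : X → M) ((chartAt E p).symm y)) := by
    intro y hy
    have ha := antiF.isAntiOn u p
    have h1 := (hb _ ⟨y, hy, rfl⟩).1 _ (ha.skew y (hL hy)) (ha.anti y (hL hy))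
    have h2 : wd (repEnd p J y) (rep p (u : X → M) y) (rep p (u : X → M) y) ≤
        |pfq (rep p (u : X → M) y) (rep p (u : X → M) y)| := by
      rw [wd, sgnJ]
      rcases Real.sign_apply_eq (pfq (wmat (repEnd p J y)) (wmat (repEnd p J y))) with h | h | h <;>
        rw [h] <;> simp [neg_le_abs, le_abs_self]
    have h3 : 0 ≤ pr (rep p w y) (rep p (u : X → M) y) (rep p (u : X → M) y) :=
      pr_anti_nonneg (repEnd_sq hJ.sq (hL hy)) (skew_rep hw.form.skew p y) (inv_rep hw.inv (hL hy))
        (tames_rep hw.tames (hL hy)) (ha.skew y (hL hy)) (ha.anti y (hL hy))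
    have hne := pfq_rep_herm_ne_zero hJ hw (p := p) (hL hy)
    rw [← pr_rep_eq p hw u.2.1.skew u.2.1.skew (hL hy), ← abs_of_nonneg h3, pr, abs_div,
      mul_div_cancel₀ _ (abs_ne_zero.2 hne)]
    exact h1.trans h2
  have hgc : Continuous fun z => pr (w z) ((u : X → M) z) ((u : X → M) z) :=
    continuous_pr hJ hw u.2.1.cont u.2.1.cont
  rw [inv_mul_eq_div, le_div_iff₀ hc, mul_comm, ← integral_const_mul]
  refine (setIntegral_mono_on ?_ ?_ hLc.measurableSet hpt).trans
    (setIntegral_chart_le A hw p hgc (fun z => pr_anti_nonneg (hJ.sq z) (hw.form.skew z) (hw.inv z)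
      (hw.tames z) (u.2.1.skew z) (u.2.2 z)) hLc hL)
  · exact ((continuousOn_const.mul (continuousOn_sq_rep u.2.1 p)).mono hL).integrableOn_compact hLc
  · exact (((continuousOn_pfq (hw.form.cont.cont p) (hw.form.cont.cont p)).abs.mul
      (continuousOn_read hgc p)).mono hL).integrableOn_compact hLc

/-- The exterior derivative on a compact part of a chart is bounded by the energy. -/
theorem exists_dTwo_sq_le (p : X) {L : Set E} (hLc : IsCompact L)
    (hL : L ⊆ (chartAt E p).target) :
    ∃ C : ℝ, 0 ≤ C ∧ ∀ u : antiF J,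
      ∫ y in L, dTwo (rep p (u : X → M)) y ⬝ᵥ dTwo (rep p (u : X → M)) y ≤
        C * bilB A hJ hw u u := by
  obtain ⟨c, hc, Γ, hb⟩ := exists_posdef_bound (isPosDefOn_gChart hJ hw p) hLc hL
  refine ⟨c⁻¹, (inv_pos.2 hc).le, fun u => ?_⟩
  have hgc := continuous_enr hJ hw u.2.1 u.2.1
  rw [inv_mul_eq_div, le_div_iff₀ hc, mul_comm, ← integral_const_mul]
  refine (setIntegral_mono_on ?_ ?_ hLc.measurableSet fun y hy => ?_).trans
    (setIntegral_chart_le A hw p hgc (fun z => enr_nonneg hw z) hLc hL)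
  · exact ((continuousOn_const.mul (continuousOn_dTwo_sq u.2.1 p)).mono hL).integrableOn_compact hLc
  · exact (((continuousOn_pfq (hw.form.cont.cont p) (hw.form.cont.cont p)).abs.mul
      (continuousOn_read hgc p)).mono hL).integrableOn_compact hLc
  · rw [enr_chart hJ hw u.2.1 u.2.1 (hL hy)]
    exact ((hb y hy).1 (dTwo (rep p (u : X → M)) y)).trans_eq (dotProduct_comm _ _)

/-- The gradient estimate on a compact part of a chart. -/
theorem exists_h1On_le (hG : GardingLocal) (p : X) {L : Set E} (hLc : IsCompact L)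
    (hL : L ⊆ (chartAt E p).target) :
    ∃ C : ℝ, 0 ≤ C ∧ ∀ u : antiF J,
      h1On L (rep p (u : X → M)) ≤ C * (bilB A hJ hw u u + bilP A hJ hw u u) := by
  obtain ⟨C, K, hK, hKc, hG⟩ := hG _ _ (hJ.isACS p) L hL hLc
  obtain ⟨C₁, hC₁, h1⟩ := exists_sq_le A hJ hw p hKc hK
  obtain ⟨C₂, hC₂, h2⟩ := exists_dTwo_sq_le A hJ hw p hKc hK
  refine ⟨|C| * (C₁ + C₂), mul_nonneg (abs_nonneg C) (by positivity), fun u => ?_⟩
  refine (hG _ (antiF.isAntiOn u p)).trans ?_
  have i1 := ((continuousOn_dTwo_sq u.2.1 p).mono hK).integrableOn_compact hKc (μ := volume)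
  have i2 := ((continuousOn_sq_rep u.2.1 p).mono hK).integrableOn_compact hKc (μ := volume)
  rw [integral_add i1 i2]
  have hB := (semiForm_bilB A hJ hw).nonneg u
  have hP := (semiForm_bilP A hJ hw).nonneg u
  have n1 : 0 ≤ ∫ y in K, dTwo (rep p (u : X → M)) y ⬝ᵥ dTwo (rep p (u : X → M)) y :=
    integral_nonneg fun y => Finset.sum_nonneg fun i _ => mul_self_nonneg _
  have n2 : 0 ≤ ∫ y in K, ∑ i, ∑ j, rep p (u : X → M) y i j ^ 2 :=
    integral_nonneg fun y => Finset.sum_nonneg fun i _ => Finset.sum_nonneg fun j _ => sq_nonneg _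
  calc C * _ ≤ |C| * _ := mul_le_mul_of_nonneg_right (le_abs_self C) (add_nonneg n1 n2)
    _ ≤ |C| * (C₂ * bilB A hJ hw u u + C₁ * bilP A hJ hw u u) :=
        mul_le_mul_of_nonneg_left (add_le_add (h2 u) (h1 u)) (abs_nonneg C)
    _ ≤ _ := by
        rw [mul_assoc]
        refine mul_le_mul_of_nonneg_left ?_ (abs_nonneg C)
        nlinarith

/-- Both forms are bounded by the cells. -/
theorem exists_le_cells :
    ∃ C : ℝ, 0 ≤ C ∧ ∀ u : antiF J,
      bilB A hJ hw u u ≤ C * ∑ i, h1On (cell A i) (rep (A.c i) (u : X → M)) ∧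
      bilP A hJ hw u u ≤ ∑ i, ∫ y in cell A i, ∑ a, ∑ b, rep (A.c i) (u : X → M) y a b ^ 2 := by
  obtain ⟨c, hc, hcd⟩ := exists_dTwo_le
  have hex : ∀ i, ∃ Γ : ℝ, 0 ≤ Γ ∧ ∀ y ∈ cell A i, ∀ a : E,
      (gChart J w (A.c i) y *ᵥ a) ⬝ᵥ a ≤ Γ * (a ⬝ᵥ a) := by
    intro i
    obtain ⟨c', -, Γ, hb⟩ := exists_posdef_bound (isPosDefOn_gChart hJ hw (A.c i))
      (isCompact_cell A i) (cell_subset A i)
    refine ⟨|Γ| + 1, by positivity, fun y hy a => ?_⟩
    set G := gChart J w (A.c i) y
    have h1 : ((G *ᵥ a) ⬝ᵥ a) ^ 2 ≤ ((G *ᵥ a) ⬝ᵥ (G *ᵥ a)) * (a ⬝ᵥ a) := by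
      simp only [dotProduct, ← sq]
      exact Finset.sum_mul_sq_le_sq_mul_sq _ _ _
    have ha : 0 ≤ a ⬝ᵥ a := Finset.sum_nonneg fun j _ => mul_self_nonneg _
    have h2 : (G *ᵥ a) ⬝ᵥ (G *ᵥ a) ≤ (∑ r, ∑ s, G r s ^ 2) * (a ⬝ᵥ a) := by
      simp only [Matrix.mulVec, dotProduct, ← sq]
      rw [Finset.sum_mul]
      exact Finset.sum_le_sum fun r _ => Finset.sum_mul_sq_le_sq_mul_sq _ _ _
    have hΓ : ∑ r, ∑ s, G r s ^ 2 ≤ |Γ| := (hb y hy).2.trans (le_abs_self Γ)
    refine le_of_abs_le (abs_le_of_sq_le_sq ?_ (by positivity))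
    nlinarith [mul_le_mul_of_nonneg_right h2 ha, mul_le_mul_of_nonneg_right hΓ (mul_nonneg ha ha),
      mul_nonneg ha ha, abs_nonneg Γ]
  choose Γ hΓ0 hΓ using hex
  refine ⟨c * ∑ i, Γ i, mul_nonneg hc (Finset.sum_nonneg fun i _ => hΓ0 i), fun u => ⟨?_, ?_⟩⟩
  · rw [bilB_apply]
    refine (integral_le_cells A hw (continuous_enr hJ hw u.2.1 u.2.1)
      fun z => enr_nonneg hw z).trans ?_
    rw [Finset.mul_sum]
    refine Finset.sum_le_sum fun i _ => ?_
    have hh : 0 ≤ h1On (cell A i) (rep (A.c i) (u : X → M)) := integral_nonneg fun y =>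
      Finset.sum_nonneg fun a _ => Finset.sum_nonneg fun b _ =>
        add_nonneg (sq_nonneg _) (Finset.sum_nonneg fun d _ => sq_nonneg _)
    refine le_trans ?_ (mul_le_mul_of_nonneg_right (mul_le_mul_of_nonneg_left
      (Finset.single_le_sum (fun j _ => hΓ0 j) (Finset.mem_univ i)) hc) hh)
    rw [h1On, ← integral_const_mul]
    refine setIntegral_mono_on ?_ ?_ (isCompact_cell A i).measurableSet fun y hy => ?_
    · exact (((continuousOn_pfq (hw.form.cont.cont _) (hw.form.cont.cont _)).abs.mul
        (continuousOn_read (continuous_enr hJ hw u.2.1 u.2.1) _)).mono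
          (cell_subset A i)).integrableOn_compact (isCompact_cell A i)
    · refine ((continuousOn_const.mul (continuousOn_finsetSum _ fun a _ =>
        continuousOn_finsetSum _ fun b _ => ((u.2.1.smooth (A.c i) a b).continuousOn.pow 2).add
          (continuousOn_finsetSum _ fun d _ => ?_))).mono (cell_subset A i)).integrableOn_compact
            (isCompact_cell A i)
      refine ContinuousOn.pow ?_ 2
      show ContinuousOn (fun y => fderiv ℝ (fun x => rep (A.c i) (u : X → M) x a b) y (e d)) _
      exact (((u.2.1.smooth (A.c i) a b).fderiv_of_isOpen (chartAt E (A.c i)).open_target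
        le_rfl).clm_apply contDiffOn_const : ContDiffOn ℝ ∞ _ _).continuousOn
    · rw [enr_chart hJ hw u.2.1 u.2.1 (cell_subset A i hy)]
      calc _ ≤ Γ i * (dTwo (rep (A.c i) (u : X → M)) y ⬝ᵥ dTwo (rep (A.c i) (u : X → M)) y) :=
            hΓ i y hy _
        _ ≤ Γ i * _ := mul_le_mul_of_nonneg_left (hcd _ y) (hΓ0 i)
        _ = _ := by ring
  · rw [bilP_apply]
    refine (integral_le_cells A hw (continuous_pr hJ hw u.2.1.cont u.2.1.cont)
      fun z => pr_anti_nonneg (hJ.sq z) (hw.form.skew z) (hw.inv z) (hw.tames z) (u.2.1.skew z)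
        (u.2.2 z)).trans (Finset.sum_le_sum fun i _ => ?_)
    refine setIntegral_mono_on ?_ (((continuousOn_sq_rep u.2.1 _).mono
      (cell_subset A i)).integrableOn_compact (isCompact_cell A i))
      (isCompact_cell A i).measurableSet fun y hy => ?_
    · exact (((continuousOn_pfq (hw.form.cont.cont _) (hw.form.cont.cont _)).abs.mul
        (continuousOn_read (continuous_pr hJ hw u.2.1.cont u.2.1.cont) _)).mono
          (cell_subset A i)).integrableOn_compact (isCompact_cell A i)
    · have hne := pfq_rep_herm_ne_zero hJ hw (p := A.c i) (cell_subset A i hy)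
      rw [← pr_rep_eq _ hw u.2.1.skew u.2.1.skew (cell_subset A i hy), pr]
      calc _ ≤ |pfq (rep (A.c i) w y) (rep (A.c i) w y)| * |_ / _| :=
            mul_le_mul_of_nonneg_left (le_abs_self _) (abs_nonneg _)
        _ = |pfq (rep (A.c i) (u : X → M) y) (rep (A.c i) (u : X → M) y)| := by
            rw [abs_div, mul_div_cancel₀ _ (abs_ne_zero.2 hne)]
        _ ≤ _ := pfq_self_le _

end Mfd

end Vale.Agent.P204.Tame
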