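import Vale.Agent.P204.Tame.Mfd.EllipticForms
import Vale.Agent.P204.Tame.EllipticRellichIface

/-!
P204: on a closed four-manifold, energy-Cauchy sequences of anti-invariant forms solving the
equation asymptotically converge to smooth forms, and bounded sequences have mean square Cauchy
subsequences.
-/

namespace Vale.Agent.P204.Tame.Mfd

open scoped ContDiff Manifold Matrix Topology
open MeasureTheory Set Filter Metric

/-- The squared one-jet of a two-form. -/
noncomputable def jet1Sq (u : E → M) (y : E) : ℝ :=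
  ∑ i, ∑ j, (u y i j ^ 2 + ∑ a, pd a (fun x => u x i j) y ^ 2)

lemma jet1Sq_nonneg (u : E → M) (y : E) : 0 ≤ jet1Sq u y :=
  Finset.sum_nonneg fun _ _ => Finset.sum_nonneg fun _ _ =>
    add_nonneg (sq_nonneg _) (Finset.sum_nonneg fun _ _ => sq_nonneg _)

lemma h1On_eq_jet (L : Set E) (u : E → M) : h1On L u = ∫ y in L, jet1Sq u y := rfl

lemma le_jet1Sq (u : E → M) (y : E) (a b : Fin 4) :
    u y a b ^ 2 + ∑ d, pd d (fun x => u x a b) y ^ 2 ≤ jet1Sq u y :=
  (Finset.single_le_sum (f := fun j => u y a j ^ 2 + ∑ d, pd d (fun x => u x a j) y ^ 2)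
    (fun _ _ => add_nonneg (sq_nonneg _) (Finset.sum_nonneg fun _ _ => sq_nonneg _))
    (Finset.mem_univ b)).trans
    (Finset.single_le_sum (f := fun i => ∑ j, (u y i j ^ 2 + ∑ d, pd d (fun x => u x i j) y ^ 2))
      (fun _ _ => Finset.sum_nonneg fun _ _ =>
        add_nonneg (sq_nonneg _) (Finset.sum_nonneg fun _ _ => sq_nonneg _)) (Finset.mem_univ a))

lemma continuousOn_jet1Sq {V : Set E} (hV : IsOpen V) {u : E → M}
    (hu : ∀ i j, ContDiffOn ℝ ∞ (fun y => u y i j) V) : ContinuousOn (jet1Sq u) V :=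
  continuousOn_finsetSum _ fun i _ => continuousOn_finsetSum _ fun j _ =>
    ((hu i j).continuousOn.pow 2).add (continuousOn_finsetSum _ fun a _ =>
      ((((hu i j).fderiv_of_isOpen hV le_rfl).clm_apply contDiffOn_const :
        ContDiffOn ℝ ∞ (fun x => pd a (fun y => u y i j) x) V).continuousOn).pow 2)

lemma jet1Sq_congr {u v : E → M} {y : E} (h : u =ᶠ[𝓝 y] v) : jet1Sq u y = jet1Sq v y := by
  have h' : ∀ i j, (fun x => u x i j) =ᶠ[𝓝 y] fun x => v x i j := fun i j =>
    h.fun_comp fun m : M => m i j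
  simp only [jet1Sq, pd_congr _ (h' _ _), h.eq_of_nhds]

lemma eqOn_zero_of_setIntegral {U L : Set E} {g : E → ℝ} (hU : IsOpen U) (hUL : U ⊆ L)
    (hgi : IntegrableOn g L) (hg : ContinuousOn g U) (h0 : ∀ y, 0 ≤ g y)
    (h : ∫ y in L, g y ≤ 0) : ∀ y ∈ U, g y = 0 := by
  have h1 : ∫ y in U, g y = 0 :=
    le_antisymm ((setIntegral_mono_set hgi (ae_of_all _ h0) hUL.eventuallyLE).trans h)
      (integral_nonneg h0)
  have h2 : g =ᵐ[volume.restrict U] 0 :=
    (integral_eq_zero_iff_of_nonneg h0 (hgi.mono_set hUL)).1 h1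
  exact fun y hy => Measure.eqOn_open_of_ae_eq h2 hU hg continuousOn_const hy

/-- A subsequence good for finitely many requirements. -/
lemma exists_common_subseq {ι : Type*} (S : Finset ι) (G : ι → (ℕ → ℕ) → Prop)
    (hex : ∀ (k : ι) (ψ : ℕ → ℕ), StrictMono ψ → ∃ φ : ℕ → ℕ, StrictMono φ ∧ G k (ψ ∘ φ))
    (hsub : ∀ (k : ι) (ψ φ : ℕ → ℕ), G k ψ → StrictMono φ → G k (ψ ∘ φ)) :
    ∃ φ, StrictMono φ ∧ ∀ k ∈ S, G k φ := by
  classical
  induction S using Finset.induction with
  | empty => exact ⟨id, strictMono_id, by simp⟩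
  | insert k S _ ih =>
    obtain ⟨ψ, hψ, hS⟩ := ih
    obtain ⟨φ, hφ, hk⟩ := hex k ψ hψ
    refine ⟨ψ ∘ φ, hψ.comp hφ, fun l hl => ?_⟩
    rcases Finset.mem_insert.1 hl with rfl | hl
    · exact hk
    · exact hsub l ψ φ (hS l hl) hφ

variable {X : Type} [TopologicalSpace X] [ChartedSpace E X] [IsManifold 𝓘(ℝ, E) ∞ X]

lemma rep_coe_sub {J : X → M} (u v : antiF J) (p : X) :
    rep p ((u - v : antiF J) : X → M) = fun y => rep p (u : X → M) y - rep p (v : X → M) y :=
  funext fun y => by rw [Submodule.coe_sub, rep_sub]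

/-- A smooth anti-invariant field on a chart with compact support, extended by zero. -/
lemma ext_mem_antiF [T2Space X] {J : X → M} (p : X) {a : E → M} {K : Set E} (hK : IsCompact K)
    (hKt : K ⊆ (chartAt E p).target) (h0 : ∀ y ∈ (chartAt E p).target, y ∉ K → a y = 0)
    (ha : IsAntiOn (chartAt E p).target (repEnd p J) a) : ext p a ∈ antiF J := by
  refine ⟨isForm_ext p hK hKt h0 ha.smooth ha.skew, fun z => ?_⟩
  simp only [ext]
  split_ifs with hz
  · conv_lhs => rw [eq_repEnd J hz]
    rw [congr_inv (chg_mul_chg (p := p) (q := z) hz (mem_chart_source E z)),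
      ha.anti _ ((chartAt E p).map_source hz)]
    simp
  · simp

lemma dTwoX_eq_zero {u : X → M} {z : X} (h : ∀ᶠ y in 𝓝 (chartAt E z z), rep z u y = 0) :
    dTwoX u z = 0 := by
  have h' : ∀ i j k, altd (rep z u) (chartAt E z z) i j k = 0 := fun i j k => by
    have he : ∀ a b, (fun y => rep z u y a b) =ᶠ[𝓝 (chartAt E z z)] fun _ => (0 : ℝ) :=
      fun a b => by filter_upwards [h] with y hy; simp [hy]
    simp [altd, pd, (he _ _).fderiv_eq]
  funext r
  fin_cases r <;> simp [dTwoX, dTwo, h']

variable [MeasurableSpace X] [BorelSpace X] [T2Space X] [CompactSpace X]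
  (A : Atlas X) {J w : X → M} (hJ : IsACX J) (hw : IsHerm J w)

/-- The energy pairing with a form supported in a chart. -/
lemma bilB_ext (v : antiF J) (p : X) {h : E → M} {K : Set E} (hK : IsCompact K)
    (hKt : K ⊆ (chartAt E p).target) (h0 : ∀ y, y ∉ K → h y = 0)
    (hh : IsAntiOn (chartAt E p).target (repEnd p J) h)
    (hH : ext p h ∈ antiF J) :
    bilB A hJ hw v ⟨ext p h, hH⟩ =
      ∫ y, (gChart J w p y *ᵥ dTwo (rep p (v : X → M)) y) ⬝ᵥ dTwo h y := by
  set c := chartAt E p
  have h0' : ∀ y ∈ c.target, y ∉ K → h y = 0 := fun y _ => h0 y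
  rw [(semiForm_bilB A hJ hw).symm, bilB_apply]
  have hout : ∀ z ∉ c.source, enr J w (ext p h) (v : X → M) z = 0 := fun z hz => by
    rcases ext_local hK hKt h0' z ((chartAt E z).map_source (mem_chart_source E z)) with h' | h'
    · exact absurd (by simpa [(chartAt E z).left_inv (mem_chart_source E z)] using h'.2) hz
    · simp [enr, dTwoX_eq_zero h']
  rw [integral_vol_chart A hw p (continuous_enr hJ hw hH.1 v.2.1) hout]
  refine (setIntegral_congr_fun c.open_target.measurableSet fun y hy => ?_).trans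
    (setIntegral_eq_integral_of_forall_compl_eq_zero (s := c.target) fun y hy => ?_)
  · 
    rw [enr_chart hJ hw hH.1 v.2.1 hy]
    have he : rep p (ext p h) =ᶠ[𝓝 y] h := by
      filter_upwards [c.open_target.mem_nhds hy] with x hx using rep_ext h hx
    have hd : dTwo (rep p (ext p h)) y = dTwo h y := by
      have h' : ∀ i j k, altd (rep p (ext p h)) y i j k = altd h y i j k := cyc_congr he
      simp only [dTwo, h']
    rw [hd]
  · have hz : h =ᶠ[𝓝 y] fun _ => (0 : M) := by
      filter_upwards [hK.isClosed.isOpen_compl.mem_nhds fun hk => hy (hKt hk)] with x hx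
      exact h0 x hx
    have hd : dTwo h y = 0 := by
      have h' : ∀ i j k, altd h y i j k = 0 := fun i j k => by
        refine (cyc_congr hz i j k).trans ?_
        simp [cyc, pd]
      funext r
      fin_cases r <;> simp [dTwo, h']
    simp [hd]

/-- The mean square pairing with a form supported in a chart. -/
lemma bilP_ext (f : antiF J) (p : X) {h : E → M} {K : Set E} (hK : IsCompact K)
    (hKt : K ⊆ (chartAt E p).target) (h0 : ∀ y, y ∉ K → h y = 0)
    (hh : IsAntiOn (chartAt E p).target (repEnd p J) h) (hH : ext p h ∈ antiF J) :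
    bilP A hJ hw f ⟨ext p h, hH⟩ =
      ∫ y, pfq (oriC w p y • rep p (f : X → M) y) (h y) := by
  set c := chartAt E p
  rw [bilP_apply, integral_vol_chart A hw p (continuous_pr hJ hw f.2.1.cont hH.1.cont) fun z hz =>
    by simp [ext, c, hz, pr, pfq]]
  refine (setIntegral_congr_fun c.open_target.measurableSet fun y hy => ?_).trans
    (setIntegral_eq_integral_of_forall_compl_eq_zero (s := c.target) fun y hy => ?_)
  · 
    rw [← pr_rep_eq p hw f.2.1.skew hH.1.skew hy, rep_ext h hy, pfq_smul_left, pr, oriC]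
    ring
  · simp [h0 y fun hk => hy (hKt hk), pfq]

lemma eventually_oriC (hJ : IsACX J) (hw : IsHerm J w) {p : X} {y : E}
    (hy : y ∈ (chartAt E p).target) : ∀ᶠ x in 𝓝 y, oriC w p x = oriC w p y := by
  have hc : ContinuousAt (fun x => pfq (rep p w x) (rep p w x)) y :=
    ((continuousOn_pfq (hw.form.cont.cont p) (hw.form.cont.cont p)).continuousAt
      ((chartAt E p).open_target.mem_nhds hy))
  rcases lt_or_gt_of_ne (pfq_rep_herm_ne_zero hJ hw hy) with h | h
  · filter_upwards [hc.eventually (gt_mem_nhds h)] with x hx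
    simp [oriC, abs_of_neg hx, abs_of_neg h, div_self hx.ne, div_self h.ne, neg_div]
  · filter_upwards [hc.eventually (lt_mem_nhds h)] with x hx
    simp [oriC, abs_of_pos hx, abs_of_pos h, div_self hx.ne', div_self h.ne']

lemma contDiffOn_oriC (hJ : IsACX J) (hw : IsHerm J w) (p : X) :
    ContDiffOn ℝ ∞ (oriC w p) (chartAt E p).target := fun y hy =>
  ((contDiffAt_const (c := oriC w p y)).congr_of_eventuallyEq
    (eventually_oriC hJ hw hy)).contDiffWithinAt

lemma abs_oriC_le (p : X) (y : E) : |oriC w p y| ≤ 1 := by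
  rw [oriC, abs_div, abs_abs]
  exact div_self_le_one _

lemma isAntiOn_source (hJ : IsACX J) (hw : IsHerm J w) (f : antiF J) (p : X) :
    IsAntiOn (chartAt E p).target (repEnd p J) fun y => oriC w p y • rep p (f : X → M) y where
  smooth i j := (contDiffOn_oriC hJ hw p).mul (f.2.1.smooth p i j)
  skew y hy := by simp [(antiF.isAntiOn f p).skew y hy]
  anti y hy := by simp [(antiF.isAntiOn f p).anti y hy]

/-- The asymptotic equation read in a chart. -/
lemma tendsto_local_eqn (f : antiF J) {v : ℕ → antiF J}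
    (hv : ∀ k, Tendsto (fun n => bilB A hJ hw (v n) k) atTop (𝓝 (bilP A hJ hw f k))) (p : X)
    {h : E → M} (hh : IsAntiOn (chartAt E p).target (repEnd p J) h)
    (ht : ∀ i j, IsTest (chartAt E p).target fun x => h x i j) :
    Tendsto (fun n => ∫ y, (gChart J w p y *ᵥ dTwo (rep p (v n : X → M)) y) ⬝ᵥ dTwo h y) atTop
      (𝓝 (∫ y, pfq (oriC w p y • rep p (f : X → M) y) (h y))) := by
  set K := ⋃ i : Fin 4, ⋃ j : Fin 4, tsupport fun x => h x i j
  have hK : IsCompact K := isCompact_iUnion fun i => isCompact_iUnion fun j => (ht i j).compact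
  have hKt : K ⊆ (chartAt E p).target := iUnion_subset fun i => iUnion_subset fun j => (ht i j).supp
  have h0 : ∀ y, y ∉ K → h y = 0 := fun y hy => by
    ext i j
    exact image_eq_zero_of_notMem_tsupport (f := fun x => h x i j) fun hm =>
      hy (mem_iUnion.2 ⟨i, mem_iUnion.2 ⟨j, hm⟩⟩)
  have hH := ext_mem_antiF p hK hKt (fun y _ => h0 y) hh
  have := hv ⟨ext p h, hH⟩
  rw [bilP_ext A hJ hw f p hK hKt h0 hh hH] at this
  exact this.congr fun n => bilB_ext A hJ hw (v n) p hK hKt h0 hh hH

/-- Limits of asymptotic solutions are smooth forms. -/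
theorem exists_limit_antiF (hG : GardingLocal) (hR : RegularityLocal) (f : antiF J)
    (v : ℕ → antiF J)
    (hc : ∀ δ > 0, ∃ N, ∀ n ≥ N, ∀ m ≥ N,
      bilB A hJ hw (v n - v m) (v n - v m) + bilP A hJ hw (v n - v m) (v n - v m) < δ)
    (hv : ∀ k, Tendsto (fun n => bilB A hJ hw (v n) k) atTop (𝓝 (bilP A hJ hw f k))) :
    ∃ u, Tendsto (fun n => bilB A hJ hw (v n - u) (v n - u)) atTop (𝓝 0) ∧
      Tendsto (fun n => bilP A hJ hw (v n - u) (v n - u)) atTop (𝓝 0) := by
  classical
  have hB := semiForm_bilB A hJ hw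
  have hP := semiForm_bilP A hJ hw
  have hloc : ∀ p, ∃ u : E → M, IsAntiOn (chartAt E p).target (repEnd p J) u ∧
      ∀ K ⊆ (chartAt E p).target, IsCompact K →
        Tendsto (fun n => h1On K ((fun k => rep p (v k : X → M)) n - u)) atTop (𝓝 0) := by
    intro p
    obtain ⟨u, hu, hlim, -⟩ := (hR _ _ _ (hJ.isACS p) (isPosDefOn_gChart hJ hw p)).1 _
      (isAntiOn_source hJ hw f p) (fun n => rep p (v n : X → M)) (fun n => antiF.isAntiOn _ p)
      (fun K hK hKc δ hδ => by
        obtain ⟨C, hC, hb⟩ := exists_h1On_le A hJ hw hG p hKc hK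
        obtain ⟨N, hN⟩ := hc (δ / (C + 1)) (by positivity)
        refine ⟨N, fun n hn m hm => ?_⟩
        have hle := hb (v n - v m)
        rw [rep_coe_sub] at hle
        have h1 := hN n hn m hm
        rw [lt_div_iff₀ (by positivity)] at h1
        have h2 := hB.nonneg (v n - v m)
        have h3 := hP.nonneg (v n - v m)
        refine lt_of_le_of_lt hle ?_
        nlinarith)
      fun h hh ht => tendsto_local_eqn A hJ hw f hv p hh ht
    exact ⟨u, hu, hlim⟩
  choose U hU hlim using hloc
  -- glue the limits over the atlas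
  set a : Fin A.n → E → M := fun i y =>
    A.φ i ((chartAt E (A.c i)).symm y) • U (A.c i) y
  have hvan : ∀ i, ∀ y ∈ (chartAt E (A.c i)).target, y ∉ cell A i →
      A.φ i ((chartAt E (A.c i)).symm y) = 0 := fun i y hy hn =>
    image_eq_zero_of_notMem_tsupport fun h => hn ⟨_, h, (chartAt E (A.c i)).right_inv hy⟩
  have haA : ∀ i, IsAntiOn (chartAt E (A.c i)).target (repEnd (A.c i) J) (a i) := fun i =>
    { smooth := fun r s => (contDiffOn_read (A.φ_smooth i) _).mul ((hU (A.c i)).smooth r s)
      skew := fun y hy => by simp [a, (hU (A.c i)).skew y hy]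
      anti := fun y hy => by simp [a, (hU (A.c i)).anti y hy] }
  have ha : ∀ i, ext (A.c i) (a i) ∈ antiF J := fun i =>
    ext_mem_antiF (A.c i) (isCompact_cell A i) (cell_subset A i)
      (fun y hy hn => by simp [a, hvan i y hy hn]) (haA i)
  set u : antiF J := ∑ i, ⟨ext (A.c i) (a i), ha i⟩
  have hcut : ∀ i (n : ℕ), (fun z => A.φ i z • (v n : X → M) z) ∈ antiF J := fun i n =>
    ⟨(v n).2.1.fun_smul (A.φ_smooth i), fun z => by simp [(v n).2.2 z]⟩
  set d : Fin A.n → ℕ → antiF J := fun i n => ⟨_, hcut i n⟩ - ⟨ext (A.c i) (a i), ha i⟩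
  have hsum : ∀ n, v n - u = ∑ i, d i n := fun n => by
    simp only [d, u, Finset.sum_sub_distrib]
    congr 1
    apply Subtype.ext
    rw [Submodule.coe_sum]
    funext z
    rw [Finset.sum_apply]
    simp [← Finset.sum_smul, A.sum_φ]
  have hd : ∀ i, Tendsto (fun n => bilP A hJ hw (d i n) (d i n)) atTop (𝓝 0) := by
    intro i
    refine squeeze_zero (fun n => hP.nonneg _) (fun n => ?_)
      (hlim (A.c i) _ (cell_subset A i) (isCompact_cell A i))
    set c := chartAt E (A.c i)
    set g : X → ℝ := fun z => pr (w z) ((d i n : X → M) z) ((d i n : X → M) z)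
    have hgc : Continuous g := continuous_pr hJ hw (d i n).2.1.cont (d i n).2.1.cont
    have hrep : ∀ y ∈ c.target, rep (A.c i) (d i n : X → M) y =
        A.φ i (c.symm y) • (rep (A.c i) (v n : X → M) y - U (A.c i) y) := fun y hy => by
      rw [rep_coe_sub]
      simp only [rep_fun_smul, rep_ext (a i) hy, a, smul_sub]
      rfl
    rw [bilP_apply, integral_vol_chart A hw (A.c i) hgc fun z hz => by
      have h1 : A.φ i z = 0 := image_eq_zero_of_notMem_tsupport fun h => hz ((A.φ_supp i).2 h)
      simp [g, d, h1, ext, c, hz, pr, pfq]]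
    rw [setIntegral_eq_of_subset_of_forall_sdiff_eq_zero (s := cell A i)
      c.open_target.measurableSet (cell_subset A i) fun y hy => by
        have h1 := hrep y hy.1
        rw [hvan i y hy.1 hy.2, zero_smul] at h1
        simp only [g]
        rw [← pr_rep_eq (A.c i) hw (d i n).2.1.skew (d i n).2.1.skew hy.1, h1]
        simp [pr, pfq],
      h1On_eq_jet]
    refine setIntegral_mono_on ?_ ?_ (isCompact_cell A i).measurableSet fun y hy => ?_
    · exact (((continuousOn_pfq (hw.form.cont.cont _) (hw.form.cont.cont _)).abs.mul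
        (continuousOn_read hgc _)).mono (cell_subset A i)).integrableOn_compact (isCompact_cell A i)
    · exact ((continuousOn_jet1Sq c.open_target fun r s =>
        ((v n).2.1.smooth (A.c i) r s).sub ((hU (A.c i)).smooth r s)).mono
          (cell_subset A i)).integrableOn_compact (isCompact_cell A i)
    · have hyt := cell_subset A i hy
      have hne := pfq_rep_herm_ne_zero hJ hw (p := A.c i) hyt
      simp only [g]
      rw [← pr_rep_eq (A.c i) hw (d i n).2.1.skew (d i n).2.1.skew hyt, pr]
      calc _ ≤ |pfq (rep (A.c i) w y) (rep (A.c i) w y)| * |_ / _| :=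
            mul_le_mul_of_nonneg_left (le_abs_self _) (abs_nonneg _)
        _ = |pfq (rep (A.c i) (d i n : X → M) y) (rep (A.c i) (d i n : X → M) y)| := by
            rw [abs_div, mul_div_cancel₀ _ (abs_ne_zero.2 hne)]
        _ ≤ ∑ r, ∑ s, rep (A.c i) (d i n : X → M) y r s ^ 2 := pfq_self_le _
        _ ≤ _ := Finset.sum_le_sum fun r _ => Finset.sum_le_sum fun s _ => by
            rw [hrep y hyt, Matrix.smul_apply, smul_eq_mul, mul_pow]
            refine le_add_of_le_of_nonneg ?_ (Finset.sum_nonneg fun _ _ => sq_nonneg _)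
            refine mul_le_of_le_one_left (sq_nonneg _) (pow_le_one₀ (A.φ_nonneg i _) ?_)
            exact (Finset.single_le_sum (f := fun j => A.φ j (c.symm y))
              (fun j _ => A.φ_nonneg j _) (Finset.mem_univ i)).trans (A.sum_φ _).le
  have huP : Tendsto (fun n => bilP A hJ hw (v n - u) (v n - u)) atTop (𝓝 0) := by
    simp only [hsum]
    induction (Finset.univ : Finset (Fin A.n)) using Finset.induction with
    | empty => simp
    | insert i S hi ih =>
      simp only [Finset.sum_insert hi]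
      refine squeeze_zero (fun n => hP.nonneg _) (fun n => ?_)
        (by simpa only [mul_zero, add_zero] using (hd i |>.const_mul 2).add (ih.const_mul 2))
      have h1 := hP.nonneg (d i n - ∑ j ∈ S, d j n)
      rw [hP.sub_self] at h1
      have h2 := hP.expand (d i n) (∑ j ∈ S, d j n) 1
      rw [one_smul] at h2
      linarith
  -- the limit agrees with the chart limits
  have hagree : ∀ p, ∀ y ∈ (chartAt E p).target, rep p (u : X → M) y = U p y := by
    intro p y hy
    obtain ⟨K, hKc, hyK, hKt⟩ := exists_compact_between (isCompact_singleton (x := y))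
      (chartAt E p).open_target (singleton_subset_iff.2 hy)
    obtain ⟨C, hC, hb⟩ := exists_sq_le A hJ hw p hKc hKt
    have hcd : ∀ r s, ContDiffOn ℝ ∞ (fun x => U p x r s - rep p (u : X → M) x r s)
        (chartAt E p).target := fun r s => ((hU p).smooth r s).sub (u.2.1.smooth p r s)
    set g : E → ℝ := fun x => ∑ r, ∑ s, (U p x r s - rep p (u : X → M) x r s) ^ 2
    have hgc : ContinuousOn g (chartAt E p).target :=
      continuousOn_finsetSum _ fun r _ => continuousOn_finsetSum _ fun s _ =>
        (hcd r s).continuousOn.pow 2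
    have hg0 : ∀ x, 0 ≤ g x := fun x => Finset.sum_nonneg fun _ _ => Finset.sum_nonneg
      fun _ _ => sq_nonneg _
    have hle : ∀ n, ∫ x in K, g x ≤ 2 * h1On K (rep p (v n : X → M) - U p) +
        2 * (C * bilP A hJ hw (v n - u) (v n - u)) := fun n => by
      have hi1 := ((continuousOn_jet1Sq (chartAt E p).open_target
        (u := rep p (v n : X → M) - U p) fun r s =>
          ((v n).2.1.smooth p r s).sub ((hU p).smooth r s)).mono hKt).integrableOn_compact
            hKc (μ := volume)
      have hi2 := ((continuousOn_sq_rep (v n - u).2.1 p).mono hKt).integrableOn_compact hKc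
        (μ := volume)
      refine le_trans ?_ (add_le_add_right (mul_le_mul_of_nonneg_left (hb (v n - u)) zero_le_two) _)
      rw [h1On_eq_jet, ← integral_const_mul, ← integral_const_mul,
        ← integral_add (hi1.const_mul 2) (hi2.const_mul 2)]
      refine setIntegral_mono_on ((hgc.mono hKt).integrableOn_compact hKc)
        ((hi1.const_mul 2).add (hi2.const_mul 2)) hKc.measurableSet fun x _ => ?_
      show g x ≤ 2 * jet1Sq (rep p (v n : X → M) - U p) x +
        2 * ∑ r, ∑ s, rep p ((v n - u : antiF J) : X → M) x r s ^ 2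
      rw [rep_coe_sub]
      simp only [g, jet1Sq, Finset.mul_sum, ← Finset.sum_add_distrib]
      refine Finset.sum_le_sum fun r _ => Finset.sum_le_sum fun s _ => ?_
      rw [show (rep p (v n : X → M) - U p) x r s = rep p (v n : X → M) x r s - U p x r s from rfl,
        Matrix.sub_apply]
      have h1 : ∀ a b c q : ℝ, 0 ≤ q →
          (b - c) ^ 2 ≤ 2 * ((a - b) ^ 2 + q) + 2 * (a - c) ^ 2 := fun a b c q hq => by
        nlinarith [sq_nonneg (2 * a - b - c)]
      refine le_of_le_of_eq (h1 (rep p (v n : X → M) x r s) (U p x r s) (rep p (u : X → M) x r s)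
        (∑ t, pd t (fun z => (rep p (v n : X → M) - U p) z r s) x ^ 2)
        (Finset.sum_nonneg fun _ _ => sq_nonneg _)) ?_
      simp [mul_add, Finset.mul_sum]
    have hz : ∫ x in K, g x ≤ 0 := by
      refine ge_of_tendsto' (x := atTop) ?_ hle
      simpa using ((hlim p K hKt hKc).const_mul 2).add ((huP.const_mul C).const_mul 2)
    have h0 := eqOn_zero_of_setIntegral isOpen_interior interior_subset
      ((hgc.mono hKt).integrableOn_compact hKc) (hgc.mono (interior_subset.trans hKt)) hg0 hz y
      (hyK rfl)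
    ext r s
    have h1 := (Finset.sum_eq_zero_iff_of_nonneg fun r _ => Finset.sum_nonneg
      fun s _ => sq_nonneg (U p y r s - rep p (u : X → M) y r s)).1 h0 r (Finset.mem_univ r)
    have h2 := (Finset.sum_eq_zero_iff_of_nonneg fun s _ =>
      sq_nonneg (U p y r s - rep p (u : X → M) y r s)).1 h1 s (Finset.mem_univ s)
    linarith [pow_eq_zero_iff two_ne_zero |>.1 h2]
  refine ⟨u, ?_, huP⟩
  obtain ⟨C, hC, hcells⟩ := exists_le_cells A hJ hw
  refine squeeze_zero (fun n => hB.nonneg _) (fun n => (hcells (v n - u)).1) ?_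
  have hz : ∀ i, Tendsto (fun n => h1On (cell A i) (rep (A.c i) ((v n - u : antiF J) : X → M)))
      atTop (𝓝 0) := fun i => by
    refine (hlim (A.c i) _ (cell_subset A i) (isCompact_cell A i)).congr fun n => ?_
    rw [h1On_eq_jet, h1On_eq_jet]
    refine setIntegral_congr_fun (isCompact_cell A i).measurableSet fun y hy => ?_
    refine jet1Sq_congr ?_
    filter_upwards [(chartAt E (A.c i)).open_target.mem_nhds (cell_subset A i hy)] with x hx
    rw [rep_coe_sub]
    show rep (A.c i) (v n : X → M) x - U (A.c i) x = _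
    rw [← hagree (A.c i) x hx]
  simpa using (tendsto_finsetSum Finset.univ fun i _ => hz i).const_mul C

/-- Bounded sequences have mean square Cauchy subsequences. -/
theorem exists_cauchy_antiF (hG : GardingLocal) (hRe : RellichTest) (v : ℕ → antiF J)
    (hv : ∀ n, bilB A hJ hw (v n) (v n) + bilP A hJ hw (v n) (v n) ≤ 2) :
    ∃ φ : ℕ → ℕ, StrictMono φ ∧ ∀ δ > 0, ∃ N, ∀ n ≥ N, ∀ m ≥ N,
      bilP A hJ hw (v (φ n) - v (φ m)) (v (φ n) - v (φ m)) < δ := by
  classical
  set cut : Fin A.n → E → ℝ := fun i y => A.ζ i ((chartAt E (A.c i)).symm y)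
  set L : Fin A.n → Set E := fun i => chartAt E (A.c i) '' tsupport (A.ζ i)
  have hLc : ∀ i, IsCompact (L i) := fun i => (A.ζ_supp i).1.image_of_continuousOn
    ((chartAt E (A.c i)).continuousOn.mono (A.ζ_supp i).2)
  have hLt : ∀ i, L i ⊆ (chartAt E (A.c i)).target := fun i => by
    rintro _ ⟨z, hz, rfl⟩
    exact (chartAt E (A.c i)).map_source ((A.ζ_supp i).2 hz)
  have hcut0 : ∀ i, ∀ y ∈ (chartAt E (A.c i)).target, y ∉ L i → cut i y = 0 := fun i y hy hn =>
    image_eq_zero_of_notMem_tsupport (f := A.ζ i) fun h =>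
      hn ⟨_, h, (chartAt E (A.c i)).right_inv hy⟩
  set F : Fin A.n × Fin 4 × Fin 4 → ℕ → E → ℝ := fun k n => (chartAt E (A.c k.1)).target.indicator
    fun y => cut k.1 y * rep (A.c k.1) (v n : X → M) y k.2.1 k.2.2
  have hFs : ∀ k n, tsupport (F k n) ⊆ L k.1 := fun k n => by
    refine closure_minimal (fun y hy => by_contra fun hn => hy ?_) (hLc k.1).isClosed
    by_cases hyt : y ∈ (chartAt E (A.c k.1)).target
    · simp [F, hyt, hcut0 k.1 y hyt hn]
    · simp [F, hyt]
  have hFd : ∀ k n, IsTest univ (F k n) := fun k n =>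
    ⟨contDiff_of_tsupport (chartAt E (A.c k.1)).open_target
      (((contDiffOn_read (A.ζ_smooth k.1) _).mul ((v n).2.1.smooth _ _ _)).congr
        fun y hy => indicator_of_mem hy _) ((hFs k n).trans (hLt k.1)),
      (hLc k.1).of_isClosed_subset (isClosed_tsupport _) (hFs k n), subset_univ _⟩
  have hbd : ∀ k, ∃ B : ℝ, ∀ n,
      (∫ x, F k n x ^ 2) + ∑ a, ∫ x, pd a (F k n) x ^ 2 ≤ B := by
    rintro ⟨i, r, s⟩
    set c := chartAt E (A.c i)
    obtain ⟨C, hC, hb⟩ := exists_h1On_le A hJ hw hG (A.c i) (hLc i) (hLt i)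
    have hgs : ContDiffOn ℝ ∞ (cut i) c.target := contDiffOn_read (A.ζ_smooth i) _
    have hpc : ∀ a, ContinuousOn (fun y => pd a (cut i) y) c.target := fun a =>
      ((hgs.fderiv_of_isOpen c.open_target le_rfl).clm_apply contDiffOn_const :
        ContDiffOn ℝ ∞ (fun y => pd a (cut i) y) c.target).continuousOn
    obtain ⟨G, hG'⟩ := (hLc i).exists_bound_of_continuousOn
      (f := fun y => cut i y ^ 2 + ∑ a, pd a (cut i) y ^ 2)
      (((hgs.continuousOn.pow 2).add (continuousOn_finsetSum _ fun a _ => (hpc a).pow 2)).mono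
        (hLt i))
    refine ⟨11 * |G| * (C * 2), fun n => ?_⟩
    set u := rep (A.c i) (v n : X → M)
    have hu := (v n).2.1.smooth (A.c i)
    set f := F (i, r, s) n
    have hf := hFd (i, r, s) n
    rw [← integral_finsetSum (f := fun a x => pd a f x ^ 2) _ fun a _ =>
      ((contDiff_pd hf.smooth a).continuous.pow 2).integrable_of_hasCompactSupport
        (by simpa [pow_two] using (hasCompactSupport_pd hf.compact a).mul_left)]
    have i1 : Integrable fun x => f x ^ 2 :=
      (hf.smooth.continuous.pow 2).integrable_of_hasCompactSupport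
        (by simpa [pow_two] using hf.compact.mul_left)
    have i2 : Integrable fun x => ∑ a, pd a f x ^ 2 := integrable_finsetSum _ fun a _ =>
      ((contDiff_pd hf.smooth a).continuous.pow 2).integrable_of_hasCompactSupport
        (by simpa [pow_two] using (hasCompactSupport_pd hf.compact a).mul_left)
    rw [← integral_add i1 i2]
    have hI : IntegrableOn (jet1Sq u) (L i) :=
      ((continuousOn_jet1Sq c.open_target hu).mono (hLt i)).integrableOn_compact (hLc i)
    refine le_trans ?_ (mul_le_mul_of_nonneg_left ((hb (v n)).trans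
      (mul_le_mul_of_nonneg_left (hv n) hC)) (by positivity))
    rw [h1On_eq_jet, ← integral_const_mul, ← setIntegral_eq_integral_of_forall_compl_eq_zero
      (s := L i) fun y hy => by
        have hz : f =ᶠ[𝓝 y] fun _ => (0 : ℝ) :=
          notMem_tsupport_iff_eventuallyEq.1 fun h => hy (hFs (i, r, s) n h)
        simp [hz.eq_of_nhds, pd, hz.fderiv_eq]]
    refine setIntegral_mono_on (i1.add i2).integrableOn (hI.const_mul _) (hLc i).measurableSet
      fun y hy => ?_
    have hyt := hLt i hy
    have hfe : f =ᶠ[𝓝 y] fun x => cut i x * u x r s := by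
      filter_upwards [c.open_target.mem_nhds hyt] with x hx
      simp [f, F, u, c, hx]
    have hd : ∀ a, pd a f y = pd a (cut i) y * u y r s + cut i y * pd a (fun x => u x r s) y :=
      fun a => by
        rw [pd_congr a hfe, pd_mul a
          ((hgs.contDiffAt (c.open_target.mem_nhds hyt)).differentiableAt (by simp))
          (((hu r s).contDiffAt (c.open_target.mem_nhds hyt)).differentiableAt (by simp))]
    have hg1 := (le_abs_self _).trans ((hG' y hy).trans (le_abs_self G))
    have hj := le_jet1Sq u y r s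
    simp only [hfe.eq_of_nhds, hd]
    have hsum0 : 0 ≤ ∑ a, pd a (fun x => u x r s) y ^ 2 := Finset.sum_nonneg fun _ _ => sq_nonneg _
    have hsum1 : 0 ≤ ∑ a, pd a (cut i) y ^ 2 := Finset.sum_nonneg fun _ _ => sq_nonneg _
    calc (cut i y * u y r s) ^ 2 +
          ∑ a, (pd a (cut i) y * u y r s + cut i y * pd a (fun x => u x r s) y) ^ 2
        ≤ (cut i y * u y r s) ^ 2 + ∑ a, (2 * (pd a (cut i) y ^ 2 * u y r s ^ 2) +
          2 * (cut i y ^ 2 * pd a (fun x => u x r s) y ^ 2)) := by
          refine add_le_add le_rfl (Finset.sum_le_sum fun a _ => ?_)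
          nlinarith [sq_nonneg (pd a (cut i) y * u y r s - cut i y * pd a (fun x => u x r s) y)]
      _ = cut i y ^ 2 * u y r s ^ 2 + 2 * ((∑ a, pd a (cut i) y ^ 2) * u y r s ^ 2) +
          2 * (cut i y ^ 2 * ∑ a, pd a (fun x => u x r s) y ^ 2) := by
          rw [Finset.sum_add_distrib, ← Finset.mul_sum, ← Finset.mul_sum, ← Finset.sum_mul,
            ← Finset.mul_sum]
          ring
      _ ≤ 11 * |G| * jet1Sq u y := by
          nlinarith [sq_nonneg (u y r s), sq_nonneg (cut i y), hg1, hj, hsum0, hsum1,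
            mul_le_mul_of_nonneg_right hg1 (sq_nonneg (u y r s)),
            mul_le_mul_of_nonneg_right hg1 hsum0, mul_le_mul_of_nonneg_left hj (abs_nonneg G)]
  choose B hB using hbd
  obtain ⟨φ, hφ, hgood⟩ := exists_common_subseq (Finset.univ : Finset (Fin A.n × Fin 4 × Fin 4))
    (fun k ψ => ∀ δ > 0, ∃ N, ∀ n ≥ N, ∀ m ≥ N, ∫ x, (F k (ψ n) x - F k (ψ m) x) ^ 2 < δ)
    (fun k ψ _ => hRe (L k.1) (hLc k.1) (fun n => F k (ψ n)) (fun n => hFd k _)
      (fun n => hFs k _) (B k) fun n => hB k _)
    fun k ψ φ h hφ δ hδ => by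
      obtain ⟨N, hN⟩ := h δ hδ
      exact ⟨N, fun n hn m hm => hN _ (le_trans hn hφ.le_apply) _ (le_trans hm hφ.le_apply)⟩
  refine ⟨φ, hφ, fun δ hδ => ?_⟩
  set T : ℝ := (A.n : ℝ) * 16 + 1
  choose N hN using fun k => hgood k (Finset.mem_univ k) (δ / T) (by positivity)
  refine ⟨Finset.univ.sup N, fun n hn m hm => ?_⟩
  obtain ⟨_, _, hcells⟩ := exists_le_cells A hJ hw
  refine ((hcells (v (φ n) - v (φ m))).2).trans_lt ?_
  have hk : ∀ i, (∫ y in cell A i, ∑ a, ∑ b,
      rep (A.c i) ((v (φ n) - v (φ m) : antiF J) : X → M) y a b ^ 2) ≤ 16 * (δ / T) := by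
    intro i
    have hint : ∀ a b, Integrable fun x => (F (i, a, b) (φ n) x - F (i, a, b) (φ m) x) ^ 2 :=
      fun a b => (((hFd (i, a, b) _).smooth.sub (hFd (i, a, b) _).smooth).continuous.pow 2
        ).integrable_of_hasCompactSupport (by
          simpa [pow_two, Pi.sub_def, Pi.mul_def] using ((hFd (i, a, b) (φ n)).compact.sub
            (hFd (i, a, b) (φ m)).compact).mul_left)
    have he : ∀ y ∈ cell A i, (∑ a, ∑ b,
        rep (A.c i) ((v (φ n) - v (φ m) : antiF J) : X → M) y a b ^ 2) =
        ∑ a, ∑ b, (F (i, a, b) (φ n) y - F (i, a, b) (φ m) y) ^ 2 := by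
      intro y hy
      obtain ⟨z, hz, rfl⟩ := hy
      have hzs := (A.φ_supp i).2 hz
      have hone : cut i (chartAt E (A.c i) z) = 1 := by
        simp only [cut, (chartAt E (A.c i)).left_inv hzs]
        exact A.ζ_one i z hz
      simp [F, rep_sub, (chartAt E (A.c i)).map_source hzs, hone]
    rw [setIntegral_congr_fun (isCompact_cell A i).measurableSet he,
      integral_finsetSum _ fun a _ => integrable_finsetSum _ fun b _ => (hint a b).integrableOn]
    refine (Finset.sum_le_sum (g := fun _ => 4 * (δ / T)) fun a _ => ?_).trans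
      (by simp; linarith)
    rw [integral_finsetSum _ fun b _ => (hint a b).integrableOn]
    refine (Finset.sum_le_sum (g := fun _ => δ / T) fun b _ => ?_).trans (by simp)
    exact (setIntegral_le_integral (hint a b) (ae_of_all _ fun x => sq_nonneg _)).trans
      (hN (i, a, b) n (le_trans (Finset.le_sup (Finset.mem_univ _)) hn) m
        (le_trans (Finset.le_sup (Finset.mem_univ _)) hm)).le
  refine (Finset.sum_le_sum fun i _ => hk i).trans_lt ?_
  rw [Finset.sum_const, Finset.card_univ, Fintype.card_fin, nsmul_eq_mul, ← mul_assoc, mul_div,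
    div_lt_iff₀ (by positivity)]
  nlinarith

end Vale.Agent.P204.Tame.Mfd
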