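import Vale.Agent.P204.Tame.Mfd.Global
import Vale.Agent.P204.Tame.Loc.Alg

/-!
The semiclassical size of the anti-invariant functional of an obstruction and the statements
recovering it from its values on mollified fields.
-/

namespace Vale.Agent.P204.Tame.Mfd

open scoped ContDiff Manifold Matrix
open MeasureTheory Metric Set Filter

variable {X : Type} [TopologicalSpace X] [ChartedSpace E X] [IsManifold 𝓘(ℝ, E) ∞ X]

/-- The dual semiclassical norm of `Φ` on anti-invariant parts. -/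
noncomputable def gPhi (A : Atlas X) (J : X → M) (Φ : (X → M) →ₗ[ℝ] ℝ) (ε : ℝ) : ℝ :=
  sSup {r | ∃ u, IsForm u ∧ r = |Φ (pantiX J u)| / hnorm A 8 ε u}

/-- `L t` bounds `Φ` on fields mollified at scale `t` inside a chart region. -/
def LowBound (J : X → M) (Φ : (X → M) →ₗ[ℝ] ℝ) (ρ : E → ℝ) (c : X) (O : Set E) (t₀ : ℝ)
    (L : ℝ → ℝ) : Prop :=
  ∀ t ∈ Ioc (0 : ℝ) t₀, ∀ f : E → ℝ, IsTest O f → cthickening t (tsupport f) ⊆ O →
    ∀ a b : Fin 4, |Φ (pantiX J (ext c fun y => convAt ρ t f y • starF (wedge2 (e a) (e b))))|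
      ≤ L t * Real.sqrt (∫ y, f y ^ 2)

/-- Module GNorm: the size is recovered from the low frequency bounds over a cover. -/
def GTel : Prop :=
  ∀ (X : Type) [TopologicalSpace X] [T2Space X] [CompactSpace X] [ChartedSpace E X]
    [IsManifold 𝓘(ℝ, E) ∞ X] (A : Atlas X) (J : X → M) (ρ : E → ℝ), IsACX J → IsMol ρ →
    ∀ (k : ℕ) (c : Fin k → X) (O : Fin k → Set E) (t₀ : ℝ), 0 < t₀ →
      (∀ i, IsOpen (O i) ∧ O i ⊆ (chartAt E (c i)).target) →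
      (∀ z, ∃ i, z ∈ (chartAt E (c i)).source ∧ chartAt E (c i) z ∈ O i) →
      ∃ C : ℝ, ∃ t₁ > 0, ∀ Φ : (X → M) →ₗ[ℝ] ℝ,
        (∃ B : ℝ, ∀ u, IsForm u → |Φ u| ≤ B * hnorm A 4 1 u) →
        ∀ L : ℝ → ℝ, (∀ t, 0 ≤ L t) → (∀ i, LowBound J Φ ρ (c i) (O i) t₀ L) →
        ∀ ε ∈ Ioc (0 : ℝ) t₁, ∀ S : ℝ,
          (∀ N, ∑ j ∈ Finset.range N, (2 ^ (8 * j) : ℝ)⁻¹ * L (ε / 2 ^ j) ≤ S) →
          gPhi A J Φ ε ≤ C * S

/-- Module GNorm: `Φ` on a test field from the low frequency bounds. -/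
def STel : Prop :=
  ∀ (X : Type) [TopologicalSpace X] [T2Space X] [CompactSpace X] [ChartedSpace E X]
    [IsManifold 𝓘(ℝ, E) ∞ X] (A : Atlas X) (J : X → M) (ρ : E → ℝ), IsACX J → IsMol ρ →
    ∀ (c : X) (O K : Set E) (t₀ : ℝ), 0 < t₀ → IsOpen O → O ⊆ (chartAt E c).target →
      K ⊆ O → IsCompact K →
      ∃ C : ℝ, ∃ t₁ > 0, ∀ Φ : (X → M) →ₗ[ℝ] ℝ,
        (∃ B : ℝ, ∀ u, IsForm u → |Φ u| ≤ B * hnorm A 4 1 u) →
        ∀ L : ℝ → ℝ, (∀ t, 0 ≤ L t) → LowBound J Φ ρ c O t₀ L →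
        ∀ ε ∈ Ioc (0 : ℝ) t₁, ∀ f : E → ℝ, IsTest O f → tsupport f ⊆ K →
        ∀ a b : Fin 4, ∀ S : ℝ,
          (∀ N, ∑ j ∈ Finset.range N, L (ε / 2 ^ j) * min (Real.sqrt (∫ y, f y ^ 2))
            (if j = 0 then Real.sqrt (∫ y, f y ^ 2) else
              (ε / 2 ^ j) ^ 2 * Real.sqrt (∫ y, ‖iteratedFDeriv ℝ 2 f y‖ ^ 2)) ≤ S) →
          |Φ (pantiX J (ext c fun y => f y • starF (wedge2 (e a) (e b))))| ≤ C * S

end Vale.Agent.P204.Tame.Mfd
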