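import Vale.Agent.P204.Tame.Mfd.SmearUseDefs
import Vale.Agent.P204.Tame.Mfd.Alg

/-!
Square integrable fields on a four-manifold: algebra, and fields given in one chart.
-/

namespace Vale.Agent.P204.Tame.Mfd

open scoped ContDiff Manifold Matrix Topology ENNReal
open MeasureTheory Metric Set Filter

variable {X : Type} [TopologicalSpace X] [ChartedSpace E X] [IsManifold 𝓘(ℝ, E) ∞ X]

lemma IsL2X.add {u v : X → M} (hu : IsL2X u) (hv : IsL2X v) : IsL2X (u + v) where
  skew z := by simp [hu.skew z, hv.skew z, add_comm]
  memLp p K hK hKc i j := by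
    simp only [rep_add, Matrix.add_apply]
    exact (hu.memLp p K hK hKc i j).add (hv.memLp p K hK hKc i j)

lemma IsL2X.smul {u : X → M} (r : ℝ) (hu : IsL2X u) : IsL2X (r • u) where
  skew z := by simp [hu.skew z]
  memLp p K hK hKc i j := by
    simp only [rep_smul, Matrix.smul_apply, smul_eq_mul]
    exact (hu.memLp p K hK hKc i j).const_mul r

/-- The reading of a square integrable field, cut off to a compact set. -/
lemma IsL2X.indicator {u : X → M} (hu : IsL2X u) (p : X) {K : Set E}
    (hK : K ⊆ (chartAt E p).target) (hKc : IsCompact K) :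
    IsL2Field volume (K.indicator (rep p u)) :=
  (hu.memLp p K hK hKc).indicator hKc.measurableSet

lemma isL2X_of_isForm {u : X → M} (hu : IsForm u) : IsL2X u where
  skew := hu.skew
  memLp p K hK hKc i j := by
    have hc : ContinuousOn (fun y => rep p u y i j) K := (hu.smooth p i j).continuousOn.mono hK
    obtain ⟨B, hB⟩ := hKc.exists_bound_of_continuousOn hc
    haveI : IsFiniteMeasure (volume.restrict K) := ⟨by simpa using hKc.measure_lt_top⟩
    exact MemLp.of_bound (hc.aestronglyMeasurable hKc.measurableSet) B
      ((ae_restrict_mem hKc.measurableSet).mono fun y hy => hB y hy)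

/-- A square integrable function composed with a transition map. -/
lemma memLp_comp_trn {p q : X} {L : Set E} (hL : IsCompact L) (hLV : L ⊆ trnDom q p)
    {f : E → ℝ} (hf : MemLp f 2 volume) :
    MemLp (fun y => f (trn q p y)) 2 (volume.restrict L) := by
  set t := trn q p
  set t' := trn p q
  have hLm : MeasurableSet L := hL.measurableSet
  have htc : ContinuousOn t L := (contDiffOn_trn q p).continuousOn.mono hLV
  have hback : ∀ y ∈ trnDom q p, t y ∈ trnDom p q ∧ t' (t y) = y := fun y hy => by
    have hs : (chartAt E p).symm (t y) = (chartAt E q).symm y := symm_trn hy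
    refine ⟨⟨trn_mem hy, ?_⟩, ?_⟩
    · show (chartAt E p).symm (t y) ∈ (chartAt E q).source
      rw [hs]
      exact (chartAt E q).map_target hy.1
    · show chartAt E q ((chartAt E p).symm (t y)) = y
      rw [hs, (chartAt E q).right_inv hy.1]
  have hL' : IsCompact (t '' L) := hL.image_of_continuousOn htc
  have hL'V : t '' L ⊆ trnDom p q := by
    rintro _ ⟨y, hy, rfl⟩
    exact (hback y (hLV hy)).1
  have hd : ∀ x ∈ trnDom p q, HasFDerivAt t' (fderiv ℝ t' x) x := fun x hx =>
    (hasFDerivAt_trn hx).differentiableAt.hasFDerivAt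
  obtain ⟨B, hB⟩ := hL'.exists_bound_of_continuousOn
    ((ContinuousLinearMap.continuous_det.comp_continuousOn
      ((contDiffOn_trn p q).continuousOn_fderiv_of_isOpen (isOpen_trnDom p q)
        (WithTop.coe_le_coe.2 le_top))).mono hL'V)
  have hle : Measure.map t (volume.restrict L) ≤ ENNReal.ofReal B • (volume : Measure E) := by
    refine Measure.le_iff.2 fun s hs => ?_
    rw [Measure.map_apply_of_aemeasurable (htc.aemeasurable hLm) hs,
      Measure.restrict_apply₀' hLm.nullMeasurableSet, Measure.smul_apply, smul_eq_mul]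
    have hset : t ⁻¹' s ∩ L = t' '' (s ∩ t '' L) := by
      ext y
      constructor
      · rintro ⟨hys, hyL⟩
        exact ⟨t y, ⟨hys, mem_image_of_mem t hyL⟩, (hback y (hLV hyL)).2⟩
      · rintro ⟨_, ⟨hxs, z, hz, rfl⟩, rfl⟩
        rw [(hback z (hLV hz)).2]
        exact ⟨hxs, hz⟩
    have hinj : InjOn t' (s ∩ t '' L) := by
      rintro _ ⟨-, z, hz, rfl⟩ _ ⟨-, z', hz', rfl⟩ he
      rw [(hback z (hLV hz)).2, (hback z' (hLV hz')).2] at he
      rw [he]
    have hm : MeasurableSet (s ∩ t '' L) := hs.inter hL'.measurableSet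
    have hv := lintegral_image_eq_lintegral_abs_det_fderiv_mul (volume : Measure E) hm
      (f := t') (f' := fun x => fderiv ℝ t' x)
      (fun x hx => (hd x (hL'V hx.2)).hasFDerivWithinAt) hinj fun _ => 1
    simp only [mul_one, setLIntegral_one] at hv
    rw [hset, hv]
    refine (setLIntegral_mono measurable_const fun x hx =>
      ENNReal.ofReal_le_ofReal (hB x hx.2)).trans ?_
    rw [setLIntegral_const]
    exact mul_le_mul' le_rfl (measure_mono inter_subset_left)
  have hmap := hf.of_measure_le_smul ENNReal.ofReal_ne_top hle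
  exact (memLp_map_measure_iff hmap.1 (htc.aemeasurable hLm)).1 hmap

/-- A field given in one chart by square integrable coefficients. -/
theorem isL2X_ext [T2Space X] (p : X) {O : Set E} (hO : MeasurableSet O)
    (hOc : IsCompact (closure O)) (hOt : closure O ⊆ (chartAt E p).target) {a : E → M}
    (ha : IsL2Field (volume.restrict O) a) (hs : ∀ x, (a x)ᵀ = -a x) :
    IsL2X (ext p (O.indicator a)) := by
  set b := O.indicator a with hb
  have hb2 : IsL2Field volume b := ha.indicator hO
  refine ⟨skew_ext p fun y _ => ?_, fun q K hK hKc i j => ?_⟩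
  · by_cases hy : y ∈ O <;> simp [hb, hy, hs]
  set Z' : Set X := (chartAt E p).symm '' closure O
  have hZ' : IsClosed Z' :=
    (hOc.image_of_continuousOn ((chartAt E p).continuousOn_symm.mono hOt)).isClosed
  set L := K ∩ (chartAt E q).symm ⁻¹' Z'
  have hL : IsCompact L := hKc.of_isClosed_subset
    (((chartAt E q).continuousOn_symm.mono hK).preimage_isClosed_of_isClosed hKc.isClosed hZ')
    inter_subset_left
  have hLV : L ⊆ trnDom q p := fun y hy => by
    obtain ⟨x, hx, hxy⟩ := hy.2
    exact ⟨hK hy.1, show (chartAt E q).symm y ∈ (chartAt E p).source from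
      hxy ▸ (chartAt E p).map_target (hOt hx)⟩
  set F : E → ℝ := fun y => ∑ k, ∑ l, chg q p ((chartAt E q).symm y) l i *
    chg q p ((chartAt E q).symm y) k j * b (trn q p y) l k with hF
  have hFL : MemLp F 2 (volume.restrict L) := by
    refine memLp_finsetSum _ fun k _ => memLp_finsetSum _ fun l _ => ?_
    have hcc : ContinuousOn (fun y => chg q p ((chartAt E q).symm y) l i *
        chg q p ((chartAt E q).symm y) k j) L :=
      ((contDiffOn_chg q p l i).continuousOn.mul (contDiffOn_chg q p k j).continuousOn).mono hLV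
    obtain ⟨B, hB⟩ := hL.exists_bound_of_continuousOn hcc
    exact MemLp.mul' (p := ∞) (memLp_comp_trn hL hLV (hb2 l k))
      (memLp_top_of_bound (hcc.aestronglyMeasurable hL.measurableSet) B
        ((ae_restrict_mem hL.measurableSet).mono fun y hy => hB y hy))
  refine (((memLp_indicator_iff_restrict hL.measurableSet).2 hFL).restrict K).ae_eq ?_
  filter_upwards [ae_restrict_mem hKc.measurableSet] with y hy
  by_cases hyL : y ∈ L
  · rw [indicator_of_mem hyL, hF, rep_ext_trn b (hLV hyL)]
    simp only [Matrix.mul_apply, Matrix.transpose_apply, Finset.sum_mul]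
    exact Finset.sum_congr rfl fun k _ => Finset.sum_congr rfl fun l _ => by ring
  · rw [indicator_of_notMem hyL, rep_ext_eq_zero b fun hz => ?_]
    · rfl
    · refine indicator_of_notMem (fun hc => hyL ⟨hy, _, subset_closure hc, ?_⟩) a
      exact (chartAt E p).left_inv hz

end Vale.Agent.P204.Tame.Mfd
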