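import Vale.Agent.P204.Tame.Mfd.RepDefs
import Vale.Agent.P204.Tame.Mfd.Poles
import Vale.Agent.P204.Tame.Mfd.Norm
import Vale.Agent.P204.Tame.Mfd.SmearL2

/-!
Chart regions of an atlas, splitting a field into chart pieces, and pairings of chart pieces with
respect to the volume.
-/

namespace Vale.Agent.P204.Tame.Mfd

open scoped ContDiff Manifold Matrix ENNReal
open MeasureTheory Metric Set Filter

variable {X : Type} [TopologicalSpace X] [ChartedSpace E X] [IsManifold 𝓘(ℝ, E) ∞ X]

theorem nonempty_regions (B : Atlas X) : Nonempty (Regions B) := by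
  have h : ∀ i, ∃ r > 0, cthickening r (cell B i) ⊆ (chartAt E (B.c i)).target := fun i =>
    (isCompact_cell B i).exists_cthickening_subset_open (chartAt E (B.c i)).open_target
      (cell_subset B i)
  choose r hr hsub using h
  refine ⟨⟨fun i => thickening (r i / 2) (cell B i), fun i => cthickening (r i) (cell B i),
    fun i => isOpen_thickening, fun i => self_subset_thickening (half_pos (hr i)) _,
    fun i => ⟨(isCompact_cell B i).cthickening.of_isClosed_subset isClosed_closure
      (closure_thickening_subset_cthickening _ _), (isCompact_cell B i).cthickening⟩,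
    fun i => (closure_thickening_subset_cthickening _ _).trans
      ((cthickening_subset_thickening' (hr i) (half_lt_self (hr i)) _).trans
        (interior_maximal (thickening_subset_cthickening _ _) isOpen_thickening)), hsub⟩⟩

namespace Regions

variable {B : Atlas X} (R : Regions B)

lemma closure_target (i : Fin B.n) : closure (R.O i) ⊆ (chartAt E (B.c i)).target :=
  ((R.inside i).trans interior_subset).trans (R.target i)

lemma subset_target (i : Fin B.n) : R.O i ⊆ (chartAt E (B.c i)).target :=
  subset_closure.trans (R.closure_target i)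

lemma measurableSet (i : Fin B.n) : MeasurableSet (R.O i) := (R.isOpen i).measurableSet

lemma volume_lt_top (i : Fin B.n) : volume (R.O i) < ⊤ :=
  (measure_mono subset_closure).trans_lt (R.compact i).1.measure_lt_top

end Regions

omit [IsManifold 𝓘(ℝ, E) ∞ X] in
lemma φ_le_one (B : Atlas X) (i : Fin B.n) (z : X) : B.φ i z ≤ 1 :=
  le_of_le_of_eq (Finset.single_le_sum (f := fun i => B.φ i z) (fun i _ => B.φ_nonneg i z)
    (Finset.mem_univ i)) (B.sum_φ z)

/-- A field is glued from its own readings. -/
lemma glue_self (B : Atlas X) (R : Regions B) (u : X → M) :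
    glue B R (fun i => rep (B.c i) u) = u := by
  funext z
  rw [glue, Finset.sum_apply]
  conv_rhs => rw [← one_smul ℝ (u z), ← B.sum_φ z, Finset.sum_smul]
  refine Finset.sum_congr rfl fun i _ => ?_
  set c := chartAt E (B.c i)
  by_cases hz : z ∈ c.source
  · by_cases hO : c z ∈ R.O i
    · simp only [ext, if_pos hz, c, indicator_of_mem hO, Matrix.mul_smul, Matrix.smul_mul]
      rw [← eq_rep u hz, c.left_inv hz]
    · have h0 : B.φ i z = 0 := image_eq_zero_of_notMem_tsupport fun h =>
        hO (R.cell i ⟨z, h, rfl⟩)
      simp [ext, if_pos hz, c, indicator_of_notMem hO, h0]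
  · have h0 : B.φ i z = 0 :=
      image_eq_zero_of_notMem_tsupport fun h => hz ((B.φ_supp i).2 h)
    simp [ext, c, hz, h0]

lemma isL2X_zero : IsL2X (0 : X → M) where
  skew z := by simp
  memLp p K _ _ i j := by simp [rep_zero]

lemma isL2X_sum {ι : Type*} (s : Finset ι) {u : ι → X → M} (h : ∀ i ∈ s, IsL2X (u i)) :
    IsL2X (∑ i ∈ s, u i) := by
  classical
  induction s using Finset.induction with
  | empty => simpa using isL2X_zero
  | insert k s hk ih =>
    rw [Finset.sum_insert hk]
    exact (h k (Finset.mem_insert_self _ _)).add (ih fun l hl => h l (Finset.mem_insert_of_mem hl))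

/-- A cut reading of a square integrable field is square integrable on the region. -/
lemma isL2Field_cut (B : Atlas X) (R : Regions B) (i : Fin B.n) {g : E → M}
    (hg : IsL2Field (volume.restrict (R.O i)) g) :
    IsL2Field (volume.restrict (R.O i))
      fun y => B.φ i ((chartAt E (B.c i)).symm y) • g y := fun a b => by
  refine (hg a b).of_le ?_ (Eventually.of_forall fun y => ?_)
  · exact (((continuousOn_read (B.φ_smooth i).continuous (B.c i)).mono
      (R.subset_target i)).aestronglyMeasurable (R.measurableSet i)).mul (hg a b).1
  · simp only [Matrix.smul_apply, smul_eq_mul, norm_mul]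
    refine mul_le_of_le_one_left (norm_nonneg _) ?_
    rw [Real.norm_eq_abs, abs_of_nonneg (B.φ_nonneg i _)]
    exact φ_le_one B i _

lemma IsL2X.onRegion {u : X → M} (hu : IsL2X u) {B : Atlas X} (R : Regions B) (i : Fin B.n) :
    IsL2Field (volume.restrict (R.O i)) (rep (B.c i) u) := fun a b =>
  (hu.memLp (B.c i) _ (R.closure_target i) (R.compact i).1 a b).mono_measure
    (Measure.restrict_mono_set _ subset_closure)

variable [MeasurableSpace X] [BorelSpace X] [T2Space X] [CompactSpace X]

/-- The pairing of a chart piece with a form, with respect to the volume. -/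
lemma integral_vol_ext (A : Atlas X) {J w u : X → M} (hJ : IsACX J) (hw : IsHerm J w)
    (hu : IsForm u) (p : X) {O : Set E} (hO : MeasurableSet O) (hOc : IsCompact (closure O))
    (hOt : closure O ⊆ (chartAt E p).target) {a : E → M}
    (ha : IsL2Field (volume.restrict O) a) (has : ∀ x, (a x)ᵀ = -a x) :
    Integrable (fun z => pr (w z) (ext p (O.indicator a) z) (u z)) (vol A w) ∧
      ∫ z, pr (w z) (ext p (O.indicator a) z) (u z) ∂vol A w =
        ∫ y in O, wd (repEnd p J y) (a y) (rep p u y) := by
  classical
  set c := chartAt E p
  have hOt' : O ⊆ c.target := subset_closure.trans hOt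
  haveI : IsFiniteMeasure (volume.restrict O) :=
    ⟨by simpa using (measure_mono subset_closure).trans_lt hOc.measure_lt_top⟩
  have hask : ∀ x, (O.indicator a x)ᵀ = -O.indicator a x := fun x => by
    by_cases hx : x ∈ O <;> simp [hx, has x]
  set f : E → ℝ := fun y => pr (rep p w y) (O.indicator a y) (rep p u y) with hf
  set G : E → ℝ := fun y => |pfq (rep p w y) (rep p w y)| * f y with hG
  have hwc : ContinuousOn (fun y => pfq (rep p w y) (rep p w y)) c.target :=
    continuousOn_pfq (hw.form.cont.cont p) (hw.form.cont.cont p)
  have hwd : ∀ y ∈ O, G y = wd (repEnd p J y) (a y) (rep p u y) := by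
    intro y hy
    simp only [hG, hf, indicator_of_mem hy, pr, wd, sign_pfq_eq hJ hw p (hOt' hy)]
    have hne := pfq_rep_herm_ne_zero hJ hw (p := p) (hOt' hy)
    rcases lt_or_gt_of_ne hne with h | h
    · rw [Real.sign_of_neg h, abs_of_neg h]; field_simp
    · rw [Real.sign_of_pos h, abs_of_pos h]; field_simp
  have hi : Integrable (fun y => pfq (a y) (rep p u y)) (volume.restrict O) := by
    have hb : ∀ i j, MemLp (fun y => rep p u y i j) 2 (volume.restrict O) := fun i j =>
      ((isL2X_of_isForm hu).memLp p _ hOt hOc i j).mono_measure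
        (Measure.restrict_mono_set _ subset_closure)
    simp only [pfq]
    exact ((((((ha 0 1).integrable_mul (hb 2 3)).sub ((ha 0 2).integrable_mul (hb 1 3))).add
      ((ha 0 3).integrable_mul (hb 1 2))).add ((hb 0 1).integrable_mul (ha 2 3))).sub
      ((hb 0 2).integrable_mul (ha 1 3))).add ((hb 0 3).integrable_mul (ha 1 2))
  have hiG : IntegrableOn G O := by
    refine hi.norm.mono' ?_ ?_
    · refine (((hwc.mono hOt').abs.aestronglyMeasurable hO).mul ((hi.1.mul
        (((hwc.mono hOt').inv₀ fun y hy => pfq_rep_herm_ne_zero hJ hw
          (hOt' hy)).aestronglyMeasurable hO)).congr ?_))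
      filter_upwards [ae_restrict_mem hO] with y hy
      simp [hf, indicator_of_mem hy, pr, div_eq_mul_inv]
    · filter_upwards [ae_restrict_mem hO] with y hy
      rw [hwd y hy, wd, norm_mul, Real.norm_eq_abs]
      exact mul_le_of_le_one_left (norm_nonneg _) (abs_sgnJ_le_one _)
  have hG0 : ∀ y, y ∉ O → G y = 0 := fun y hy => by simp [hG, hf, hy, pr, pfq]
  have hiGt : IntegrableOn G c.target :=
    hiG.of_forall_diff_eq_zero c.open_target.measurableSet fun y hy => hG0 y hy.2
  have hd : Measurable fun y => c.target.indicator (fun y => |pfq (rep p w y) (rep p w y)|) y :=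
    measurable_indicator_of_continuousOn c.open_target hwc.abs
  have hμ : chartMeas p (vol A w) = (volume.restrict c.target).withDensity fun y =>
      ENNReal.ofReal (c.target.indicator (fun y => |pfq (rep p w y) (rep p w y)|) y) := by
    rw [chartMeas_vol A hw p]
    refine withDensity_congr_ae ?_
    filter_upwards [ae_restrict_mem c.open_target.measurableSet] with y hy
    exact congrArg ENNReal.ofReal (indicator_of_mem hy (fun y => |pfq (rep p w y) (rep p w y)|)).symm
  have hae : ∀ᵐ y ∂volume.restrict c.target,
      (ENNReal.ofReal (c.target.indicator (fun y => |pfq (rep p w y) (rep p w y)|) y)).toReal •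
        f y = G y := by
    filter_upwards [ae_restrict_mem c.open_target.measurableSet] with y hy
    simp [hy, hG, ENNReal.toReal_ofReal (abs_nonneg _)]
  have hfi : Integrable f (chartMeas p (vol A w)) := by
    rw [hμ, integrable_withDensity_iff_integrable_smul' hd.ennreal_ofReal
      (Eventually.of_forall fun y => ENNReal.ofReal_lt_top)]
    exact hiGt.congr (hae.mono fun y hy => hy.symm)
  have hint : IntegrableOn (fun z => f (c z)) c.source (vol A w) :=
    (integrable_map_measure hfi.1 (aemeasurable_chart p _)).1 hfi
  have hev : (fun z => pr (w z) (ext p (O.indicator a) z) (u z)) =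
      c.source.indicator (fun z => f (c z)) := by
    funext z
    by_cases hz : z ∈ c.source
    · rw [indicator_of_mem hz]
      have hy := c.map_source hz
      have h2 := pr_rep_eq p hw (skew_ext p fun y _ => hask y) hu.skew hy (θ := ext p (O.indicator a))
      rw [rep_ext _ hy, c.left_inv hz] at h2
      simp [hf, h2]
    · simp [indicator_of_notMem hz, ext, c, hz, pr, pfq]
  rw [hev]
  refine ⟨(integrable_indicator_iff c.open_source.measurableSet).2 hint, ?_⟩
  rw [integral_indicator c.open_source.measurableSet]
  calc ∫ z in c.source, f (c z) ∂vol A w = ∫ y, f y ∂chartMeas p (vol A w) :=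
        (integral_map (aemeasurable_chart p _) hfi.1).symm
    _ = ∫ y in c.target, G y := by
        rw [hμ, integral_withDensity_eq_integral_toReal_smul hd.ennreal_ofReal
          (Eventually.of_forall fun y => ENNReal.ofReal_lt_top)]
        exact integral_congr_ae hae
    _ = ∫ y in O, G y := setIntegral_eq_of_subset_of_forall_sdiff_eq_zero
        c.open_target.measurableSet hOt' fun y hy => hG0 y hy.2
    _ = _ := setIntegral_congr_fun hO hwd

end Vale.Agent.P204.Tame.Mfd
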