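import Vale.Agent.P204.Tame.Mfd.Alg

/-!
P204: the two-form dual to a bivector under the wedge pairing, positivity of the Hermitian
form, and domination of continuous invariant forms by the Hermitian form.
-/

namespace Vale.Agent.P204.Tame

open scoped Matrix

/-- The two-form representing `u ↦ ∑ G a b * u a b` under the wedge pairing. -/
def dualF (G : M) : M :=
  skew6 (G 2 3 - G 3 2) (-(G 1 3 - G 3 1)) (G 1 2 - G 2 1) (G 0 3 - G 3 0) (-(G 0 2 - G 2 0))
    (G 0 1 - G 1 0)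

lemma skew6_transpose (a b c d f g : ℝ) : (skew6 a b c d f g)ᵀ = -skew6 a b c d f g := by
  ext i j
  fin_cases i <;> fin_cases j <;> simp [skew6]

lemma skew_dualF (G : M) : (dualF G)ᵀ = -dualF G := skew6_transpose _ _ _ _ _ _

lemma pfq_dualF (G : M) {u : M} (hu : uᵀ = -u) :
    pfq (dualF G) u = ∑ a, ∑ b, G a b * u a b := by
  rw [eq_skew6 hu]
  simp [pfq, dualF, skew6, Fin.sum_univ_four]
  ring

lemma sum_mul_eq_trace (A B : M) : ∑ a, ∑ b, A a b * B a b = (Aᵀ * B).trace := by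
  simp only [Matrix.trace, Matrix.diag_apply, Matrix.mul_apply, Matrix.transpose_apply]
  exact Finset.sum_comm

lemma eq_of_pfq_eq {x y : M} (hx : xᵀ = -x) (hy : yᵀ = -y)
    (h : ∀ u : M, uᵀ = -u → pfq x u = pfq y u) : x = y := by
  have h1 := h _ (skew6_transpose 1 0 0 0 0 0)
  have h2 := h _ (skew6_transpose 0 1 0 0 0 0)
  have h3 := h _ (skew6_transpose 0 0 1 0 0 0)
  have h4 := h _ (skew6_transpose 0 0 0 1 0 0)
  have h5 := h _ (skew6_transpose 0 0 0 0 1 0)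
  have h6 := h _ (skew6_transpose 0 0 0 0 0 1)
  simp [pfq, skew6] at h1 h2 h3 h4 h5 h6
  rw [eq_skew6 hx, eq_skew6 hy, h1, h2, h3, h4, h5, h6]

lemma dualF_congr {P Q : M} (hQP : Q * P = 1) (G : M) :
    Pᵀ * dualF (P * G * Pᵀ) * P = P.det • dualF G := by
  have hPQ : P * Q = 1 := mul_eq_one_comm.1 hQP
  have h' : Pᵀ * Qᵀ = 1 := by rw [← Matrix.transpose_mul, hQP, Matrix.transpose_one]
  refine eq_of_pfq_eq (Mfd.skew_congr _ (skew_dualF _)) (by simp [skew_dualF]) fun u hu => ?_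
  have e : u = Pᵀ * (Qᵀ * u * Q) * P := by
    calc u = (Pᵀ * Qᵀ) * u * (Q * P) := by rw [h', hQP]; simp
      _ = _ := by simp only [Matrix.mul_assoc]
  rw [pfq_smul_left, pfq_dualF _ hu]
  conv_lhs => rw [e]
  rw [pfq_congr_skew P (skew_dualF _) (Mfd.skew_congr _ hu), pfq_dualF _ (Mfd.skew_congr _ hu),
    sum_mul_eq_trace, sum_mul_eq_trace]
  congr 1
  rw [Matrix.transpose_mul, Matrix.transpose_mul, Matrix.transpose_transpose, Matrix.trace_mul_comm]
  calc (Qᵀ * u * Q * (P * (Gᵀ * Pᵀ))).trace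
      = (Qᵀ * u * (Q * P) * Gᵀ * Pᵀ).trace := by simp only [Matrix.mul_assoc]
    _ = (Pᵀ * (Qᵀ * u * Gᵀ)).trace := by
        rw [hQP, Matrix.mul_one, Matrix.trace_mul_comm]
    _ = (u * Gᵀ).trace := by
        rw [← Matrix.mul_assoc, ← Matrix.mul_assoc, h', Matrix.one_mul]
    _ = (Gᵀ * u).trace := Matrix.trace_mul_comm _ _

lemma pfq_self_pos_std {u : M} (hu : uᵀ = -u) (hinv : stdJᵀ * u * stdJ = u)
    (hpos : ∀ v, v ≠ 0 → 0 < val u v (stdJ *ᵥ v)) : 0 < pfq u u := by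
  have h02 := congrFun (congrFun hinv 0) 2
  have h03 := congrFun (congrFun hinv 0) 3
  simp [Matrix.mul_apply, stdJ, Fin.sum_univ_four] at h02 h03
  have s := skew_apply hu
  have hg := hpos ![0, 0, 1, 0] fun h => by simpa using congrFun h 2
  simp [val, stdJ, Matrix.mulVec, dotProduct, Fin.sum_univ_four] at hg
  have hv := hpos ![u 2 3, 0, -u 0 3, u 0 2] fun h => by
    have := congrFun h 0
    simp at this
    linarith
  simp [val, stdJ, Matrix.mulVec, dotProduct, Fin.sum_univ_four, skew_diag hu] at hv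
  rw [s 1 2, s 1 3, s 2 3] at hv
  have h12 : u 1 2 = -u 0 3 := by linarith
  rw [h02, h12] at hv
  have h' : 0 < u 2 3 * (u 0 1 * u 2 3 - u 0 2 ^ 2 - u 0 3 ^ 2) := by
    convert hv using 1; ring
  have h2 := (mul_pos_iff_of_pos_left hg).1 h'
  simp only [pfq, h02, h12]
  linarith

/-- The frame of a taming invariant form is oriented by it. -/
lemma exists_oriented_frame {J w : M} (hJ : J * J = -1) (hw : wᵀ = -w) (hinv : Jᵀ * w * J = w)
    (ht : ∀ v, v ≠ 0 → 0 < val w v (J *ᵥ v)) :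
    ∃ P Q : M, P * Q = 1 ∧ Q * P = 1 ∧ J = P * stdJ * Q ∧ 0 < pfq w w * P.det := by
  obtain ⟨P, hP, hJP⟩ := exists_frame hJ
  have hPQ : P * P⁻¹ = 1 := Matrix.mul_nonsing_inv P hP
  have hQP : P⁻¹ * P = 1 := Matrix.nonsing_inv_mul P hP
  have hJ0 : J = P * stdJ * P⁻¹ := by
    rw [← hJP, Matrix.mul_assoc, hPQ, Matrix.mul_one]
  have hs : stdJ = P⁻¹ * J * P := by rw [Matrix.mul_assoc, hJP, ← Matrix.mul_assoc, hQP, Matrix.one_mul]
  refine ⟨P, P⁻¹, hPQ, hQP, hJ0, ?_⟩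
  rw [mul_comm, ← pfq_congr_skew P hw hw]
  refine pfq_self_pos_std (Mfd.skew_congr _ hw) ?_ fun v hv => ?_
  · rw [hs, Mfd.congr_inv hPQ, hinv]
  · rw [hs, Mfd.val_congr_end hPQ]
    refine ht _ fun h => hv ?_
    simpa [Matrix.mulVec_mulVec, hQP] using congrArg (fun x => P⁻¹ *ᵥ x) h

lemma pfq_self_ne_zero {J w : M} (hJ : J * J = -1) (hw : wᵀ = -w) (hinv : Jᵀ * w * J = w)
    (ht : ∀ v, v ≠ 0 → 0 < val w v (J *ᵥ v)) : pfq w w ≠ 0 := by
  obtain ⟨P, Q, -, -, -, h⟩ := exists_oriented_frame hJ hw hinv ht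
  exact left_ne_zero_of_mul h.ne'

lemma psd_dual_std (a : E) : Psd stdJ (dualF (Matrix.vecMulVec a (stdJ *ᵥ a))) where
  skew := skew_dualF _
  inv := by
    ext i j
    fin_cases i <;> fin_cases j <;>
      simp [dualF, skew6, stdJ, Matrix.mul_apply, Matrix.vecMulVec_apply,
        dotProduct, Fin.sum_univ_four] <;> ring
  nonneg x := by
    have : val (dualF (Matrix.vecMulVec a (stdJ *ᵥ a))) x (stdJ *ᵥ x) =
        (a 0 * x 2 - a 1 * x 3 - a 2 * x 0 + a 3 * x 1) ^ 2 +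
        (a 0 * x 3 + a 1 * x 2 - a 2 * x 1 - a 3 * x 0) ^ 2 := by
      simp [val, dualF, skew6, stdJ, Matrix.vecMulVec_apply, Matrix.mulVec, dotProduct,
        Fin.sum_univ_four]
      ring
    rw [this]
    positivity

/-- The semipositive form pairing with `θ` to `θ (v, J v)`. -/
lemma psd_dual {J w : M} (hJ : J * J = -1) (hw : wᵀ = -w) (hinv : Jᵀ * w * J = w)
    (ht : ∀ v, v ≠ 0 → 0 < val w v (J *ᵥ v)) (v : E) :
    Psd J (pfq w w • dualF (Matrix.vecMulVec v (J *ᵥ v))) := by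
  obtain ⟨P, Q, hPQ, hQP, rfl, hpos⟩ := exists_oriented_frame hJ hw hinv ht
  set a := Q *ᵥ v with ha
  have hv : v = P *ᵥ a := by rw [ha, Matrix.mulVec_mulVec, hPQ, Matrix.one_mulVec]
  have hG : Matrix.vecMulVec v ((P * stdJ * Q) *ᵥ v) =
      P * Matrix.vecMulVec a (stdJ *ᵥ a) * Pᵀ := by
    rw [Matrix.mul_vecMulVec, Matrix.vecMulVec_mul, Matrix.vecMul_transpose,
      ← hv, ha, Matrix.mulVec_mulVec, Matrix.mulVec_mulVec]
  set G := Matrix.vecMulVec a (stdJ *ᵥ a)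
  rw [hG]
  have h : Psd stdJ (Pᵀ * (pfq w w • dualF (P * G * Pᵀ)) * P) := by
    rw [Matrix.mul_smul, Matrix.smul_mul, dualF_congr hQP, smul_smul]
    exact ⟨by simp [G, skew_dualF], by simp [G, (psd_dual_std a).inv],
      fun x => by
        simp only [val, Matrix.smul_mulVec, dotProduct_smul, smul_eq_mul]
        exact mul_nonneg hpos.le ((psd_dual_std a).nonneg x)⟩
  have h' := Mfd.psd_congr hQP h
  convert h' using 1
  calc pfq w w • dualF (P * G * Pᵀ)
      = (P * Q)ᵀ * (pfq w w • dualF (P * G * Pᵀ)) * (P * Q) := by rw [hPQ]; simp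
    _ = _ := by simp only [Matrix.transpose_mul, Matrix.mul_assoc]

lemma pinv_of_inv {J u : M} (h : Jᵀ * u * J = u) : pinv J u = u := by
  simp [pinv, h, ← two_smul ℝ, smul_smul]

lemma skew_pinv {J u : M} (h : uᵀ = -u) : (pinv J u)ᵀ = -pinv J u := by
  simp [pinv, Mfd.skew_congr J h, h, add_comm]

lemma inv_pinv {J u : M} (hJ : J * J = -1) : Jᵀ * pinv J u * J = pinv J u := by
  have hT : Jᵀ * Jᵀ = -1 := by rw [← Matrix.transpose_mul, hJ]; simp
  have e : Jᵀ * (Jᵀ * u * J) * J = u := by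
    calc Jᵀ * (Jᵀ * u * J) * J = (Jᵀ * Jᵀ) * u * (J * J) := by simp only [Matrix.mul_assoc]
      _ = u := by rw [hT, hJ]; simp
  simp only [pinv, Matrix.mul_smul, Matrix.smul_mul, Matrix.mul_add, Matrix.add_mul, e]
  rw [add_comm]

lemma pfq_pinv_left {J a u : M} (hJ : J * J = -1) (ha : aᵀ = -a) (hu : uᵀ = -u)
    (hinv : Jᵀ * u * J = u) : pfq (pinv J a) u = pfq a u := by
  obtain ⟨P, hP, hJP⟩ := exists_frame hJ
  have hd : J.det = 1 := by
    have h := congrArg Matrix.det hJP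
    simp only [Matrix.det_mul] at h
    have hs : stdJ.det = 1 := by
      rw [Matrix.det_succ_row_zero]
      simp [stdJ, Matrix.det_fin_three, Fin.sum_univ_four, Fin.succAbove]
    rw [hs, mul_one] at h
    exact mul_right_cancel₀ hP.ne_zero (by rw [h, one_mul])
  have : pfq (Jᵀ * a * J) u = pfq a u := by
    conv_lhs => rw [← hinv]
    rw [pfq_congr_skew J ha hu, hd, one_mul]
  simp only [pinv, pfq_smul_left, pfq_add_left, this]
  ring

lemma pfq_sum_left {ι : Type*} (s : Finset ι) (a : ι → M) (b : M) :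
    pfq (∑ i ∈ s, a i) b = ∑ i ∈ s, pfq (a i) b := by
  classical
  induction s using Finset.induction_on with
  | empty => simp [pfq]
  | insert i s hi ih => rw [Finset.sum_insert hi, Finset.sum_insert hi, pfq_add_left, ih]

end Vale.Agent.P204.Tame
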