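import Vale.Agent.P204.Tame.Mfd.CoreDefs

/-!
Statements representing smoothed pairings by chart fields and gluing them to a weakly closed field.
-/

namespace Vale.Agent.P204.Tame.Mfd

open scoped ContDiff Manifold Matrix ENNReal
open MeasureTheory Metric Set Filter

/-- Module Reps: the pairing of a positive field with smoothed chart fields is given by a chart
field controlled by scaled ball masses. -/
def PairRep : Prop :=
  ∀ (X : Type) [TopologicalSpace X] [T2Space X] [CompactSpace X] [MeasurableSpace X]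
    [BorelSpace X] [ChartedSpace E X] [IsManifold 𝓘(ℝ, E) ∞ X]
    (J w : X → M) (μ : Measure X) (Θ : X → M) (B : Atlas X) (ρ : E → ℝ),
    IsACX J → IsHerm J w → IsFiniteMeasure μ →
    (∀ p i j, Measurable ((chartAt E p).target.indicator fun y => rep p Θ y i j)) →
    (∀ᵐ z ∂μ, Psd (J z) (Θ z)) → (∀ᵐ z ∂μ, pr (w z) (Θ z) (w z) = 1) → IsMol ρ →
    ∀ (R : Regions B) (i : Fin B.n), ∃ C : ℝ, 0 ≤ C ∧ ∃ ε₀ > 0, ∀ ε ∈ Ioc (0 : ℝ) ε₀,
      ∃ t : E → M, IsL2Field (volume.restrict (R.O i)) t ∧ (∀ x, (t x)ᵀ = -t x) ∧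
        (∀ a : E → M, IsL2Field (volume.restrict (R.O i)) a → (∀ x, (a x)ᵀ = -a x) →
          ∫ z, pr (w z) (Θ z) (smX B ρ ε (ext (B.c i) ((R.O i).indicator a)) z) ∂μ =
            ∫ x in R.O i, wd (repEnd (B.c i) J x) (t x) (a x)) ∧
        ∀ᵐ x ∂volume.restrict (R.O i),
          nrm1 (t x) ≤ C * kball (chartMeas (B.c i) μ) (R.K i) C ε x ∧
          nrm1 (panti (repEnd (B.c i) J x) (t x)) ≤
            C * ε * kball (chartMeas (B.c i) μ) (R.K i) C ε x ∧
          ∀ v, -(C * ε ^ 2 * kball (chartMeas (B.c i) μ) (R.K i) C ε x * (v ⬝ᵥ v)) ≤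
            val (t x) v (repEnd (B.c i) J x *ᵥ v)

/-- Module Glue: a functional given by chart fields and vanishing on exact forms is given by a
weakly closed field. -/
def GlueHolds : Prop :=
  ∀ (X : Type) [TopologicalSpace X] [T2Space X] [CompactSpace X] [MeasurableSpace X]
    [BorelSpace X] [ChartedSpace E X] [IsManifold 𝓘(ℝ, E) ∞ X]
    (J w : X → M) (B : Atlas X), IsACX J → IsHerm J w →
    ∀ (R : Regions B) (Q : (X → M) → ℝ),
      (∀ u v, IsL2X u → IsL2X v → Q (u + v) = Q u + Q v) →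
      ∀ f : Fin B.n → E → M, (∀ i, IsL2Field (volume.restrict (R.O i)) (f i)) →
        (∀ i x, (f i x)ᵀ = -f i x) →
        (∀ i, ∀ a : E → M, IsL2Field (volume.restrict (R.O i)) a → (∀ x, (a x)ᵀ = -a x) →
          Q (ext (B.c i) ((R.O i).indicator a)) =
            ∫ x in R.O i, wd (repEnd (B.c i) J x) (f i x) (a x)) →
        (∀ S, IsForm1 S → Q (dX S) = 0) →
        IsL2X (glue B R f) ∧ IsWeakClosed B w (glue B R f) ∧
          Q (glue B R f) = ∑ i, ∫ x in R.O i, B.φ i ((chartAt E (B.c i)).symm x) *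
            wd (repEnd (B.c i) J x) (f i x) (f i x)

end Vale.Agent.P204.Tame.Mfd
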