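import Vale.Agent.P204.Tame.Mfd.Global
import Vale.Agent.P204.Tame.Loc.TDef

/-!
The global smoother read in charts: definitions and the statements connecting it to the local
averaged pullback.
-/

namespace Vale.Agent.P204.Tame.Mfd

open scoped ContDiff Manifold Matrix ENNReal
open MeasureTheory Metric Set Filter

variable {X : Type} [TopologicalSpace X] [ChartedSpace E X] [IsManifold 𝓘(ℝ, E) ∞ X]

/-- The parameters of the smoother as points of a coordinate space. -/
noncomputable def unflat {k : ℕ} (v : Fin (k * 4) → ℝ) : Fin k → E :=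
  fun i j => v (finProdFinEquiv (i, j))

/-- The product weight on the parameter space. -/
noncomputable def wgtA (k : ℕ) (ρ : E → ℝ) (v : Fin (k * 4) → ℝ) : ℝ := ∏ i, ρ (unflat v i)

/-- The smoother map read in the chart at `p`. -/
noncomputable def readTau (A : Atlas X) (p : X) (v : Fin (A.n * 4) → ℝ) (y : E) : E :=
  chartAt E p (tau A (unflat v) ((chartAt E p).symm y))

/-- The smoother at scale `ε`. -/
noncomputable def smX (A : Atlas X) (ρ : E → ℝ) (ε : ℝ) (u : X → M) : X → M :=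
  smear A (fun v => ∏ i, ρ (v i)) ε u

/-- A field with square integrable coefficients on compact sets of every chart. -/
structure IsL2X (u : X → M) : Prop where
  skew : ∀ z, (u z)ᵀ = -u z
  memLp : ∀ p, ∀ K ⊆ (chartAt E p).target, IsCompact K →
    IsL2Field (volume.restrict K) (rep p u)

/-- The statements about the smoother of a fixed atlas. -/
structure SmearFacts (A : Atlas X) (ρ : E → ℝ) : Prop where
  weight : IsWeight (wgtA A.n ρ)
  smoother : ∀ p, IsSmoother (chartAt E p).target (readTau A p)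
  chart : ∀ p, ∀ K ⊆ (chartAt E p).target, IsCompact K → ∃ K' ⊆ (chartAt E p).target,
    IsCompact K' ∧ K ⊆ interior K' ∧ ∃ ε₀ > 0, ∀ ε ∈ Ioc (0 : ℝ) ε₀, ∀ u, IsL2X u → ∀ y ∈ K,
      rep p (smX A ρ ε u) y = smL (readTau A p) (wgtA A.n ρ) ε (K'.indicator (rep p u)) y
  form : ∃ ε₀ > 0, ∀ ε ∈ Ioc (0 : ℝ) ε₀, ∀ u, IsL2X u → IsForm (smX A ρ ε u)
  supp : ∀ Z N : Set X, IsCompact Z → IsOpen N → Z ⊆ N → ∃ ε₀ > 0, ∀ ε ∈ Ioc (0 : ℝ) ε₀,
    ∀ u, (∀ z ∉ Z, u z = 0) → ∀ z ∉ N, smX A ρ ε u z = 0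

/-- Module SmearFacts: the facts hold for every atlas and mollifier. -/
def SmearFactsHold : Prop :=
  ∀ (X : Type) [TopologicalSpace X] [T2Space X] [CompactSpace X] [ChartedSpace E X]
    [IsManifold 𝓘(ℝ, E) ∞ X] (A : Atlas X) (ρ : E → ℝ),
    SmootherFibre → SmootherSobolev → IsMol ρ → SmearFacts A ρ

/-- Module SmearFacts: on a region where only one bump acts, the smoother is a translation. -/
def ReadTauTranslation : Prop :=
  ∀ (X : Type) [TopologicalSpace X] [T2Space X] [CompactSpace X] [ChartedSpace E X]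
    [IsManifold 𝓘(ℝ, E) ∞ X] (z₀ : X), ∃ (A : Atlas X) (i₀ : Fin A.n) (O : Set E),
      IsOpen O ∧ O ⊆ (chartAt E (A.c i₀)).target ∧ z₀ ∈ (chartAt E (A.c i₀)).source ∧
      chartAt E (A.c i₀) z₀ ∈ O ∧
      (∀ y ∈ O, A.φ i₀ ((chartAt E (A.c i₀)).symm y) = 1) ∧
      ∀ K ⊆ O, IsCompact K → ∃ δ > 0, ∀ v ∈ closedBall (0 : Fin (A.n * 4) → ℝ) δ, ∀ y ∈ K,
        readTau A (A.c i₀) v y = y + unflat v i₀

end Vale.Agent.P204.Tame.Mfd
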