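import Vale.Agent.P204.Tame.Mfd.SmearL2
import Vale.Agent.P204.Tame.Mfd.Norm
import Vale.Agent.P204.Tame.Mfd.Coord
import Vale.Agent.P204.Tame.Loc.SmL

/-!
Linearity of the smoother and its action on fields given in one chart.
-/

namespace Vale.Agent.P204.Tame.Mfd

open scoped ContDiff Manifold Matrix Topology
open MeasureTheory Metric Set Filter

variable {X : Type} [TopologicalSpace X] [ChartedSpace E X] [IsManifold 𝓘(ℝ, E) ∞ X]

/-- A positive lower bound of finitely many positive numbers. -/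
lemma exists_pos_le {ι : Type*} (s : Finset ι) {f : ι → ℝ} (hf : ∀ i ∈ s, 0 < f i) {c : ℝ}
    (hc : 0 < c) : ∃ ε > 0, ε ≤ c ∧ ∀ i ∈ s, ε ≤ f i := by
  classical
  induction s using Finset.induction with
  | empty => exact ⟨c, hc, le_rfl, by simp⟩
  | insert a s ha ih =>
    obtain ⟨ε, hε, hεc, hεs⟩ := ih fun i hi => hf i (Finset.mem_insert_of_mem hi)
    refine ⟨min ε (f a), lt_min hε (hf a (Finset.mem_insert_self _ _)),
      (min_le_left _ _).trans hεc, fun i hi => ?_⟩
    rcases Finset.mem_insert.1 hi with rfl | hi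
    · exact min_le_right _ _
    · exact (min_le_left _ _).trans (hεs i hi)

theorem smX_linear (B : Atlas X) {ρ : E → ℝ} (hF : SmootherFibre) (h : SmearFacts B ρ) :
    ∃ ε₀ > 0, ∀ ε ∈ Ioc (0 : ℝ) ε₀, ∀ u v, IsL2X u → IsL2X v → ∀ r : ℝ,
      smX B ρ ε (u + v) = smX B ρ ε u + smX B ρ ε v ∧
        smX B ρ ε (r • u) = r • smX B ρ ε u := by
  choose K' hK't hK'c hint ε₁ hε₁ hchart using
    fun i => h.chart (B.c i) (cell B i) (cell_subset B i) (isCompact_cell B i)
  choose C hC ε₂ hε₂ hfacts using fun i =>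
    exists_smL_facts hF (h.smoother (B.c i)) h.weight (cell_subset B i) (isCompact_cell B i)
  obtain ⟨ε₀, hε₀, -, hle⟩ := exists_pos_le (Finset.univ : Finset (Fin B.n))
    (f := fun i => min (ε₁ i) (ε₂ i)) (fun i _ => lt_min (hε₁ i) (hε₂ i)) one_pos
  refine ⟨ε₀, hε₀, fun ε hε u v hu hv r => ?_⟩
  have hloc : ∀ i, ∀ y ∈ cell B i,
      rep (B.c i) (smX B ρ ε (u + v)) y = rep (B.c i) (smX B ρ ε u + smX B ρ ε v) y ∧
      rep (B.c i) (smX B ρ ε (r • u)) y = rep (B.c i) (r • smX B ρ ε u) y := by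
    intro i y hy
    have he := hle i (Finset.mem_univ i)
    have hch := hchart i ε ⟨hε.1, hε.2.trans (he.trans (min_le_left _ _))⟩
    have hf := hfacts i ε ⟨hε.1, hε.2.trans (he.trans (min_le_right _ _))⟩ y hy
    have hadd : (K' i).indicator (rep (B.c i) (u + v)) =
        (K' i).indicator (rep (B.c i) u) + (K' i).indicator (rep (B.c i) v) := by
      rw [funext (rep_add (B.c i) u v)]
      exact indicator_add (K' i) _ _
    have hsmul : (K' i).indicator (rep (B.c i) (r • u)) =
        r • (K' i).indicator (rep (B.c i) u) := by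
      rw [funext (rep_smul (B.c i) r u)]
      exact indicator_const_smul (K' i) r _
    rw [rep_add, rep_smul, hch _ (hu.add hv) y hy, hch _ hu y hy, hch _ hv y hy,
      hch _ (hu.smul r) y hy, hadd, hsmul]
    exact ⟨hf.2.1 _ _ (hu.indicator _ (hK't i) (hK'c i)) (hv.indicator _ (hK't i) (hK'c i)),
      hf.2.2.1 r _⟩
  have hat : ∀ z, smX B ρ ε (u + v) z = (smX B ρ ε u + smX B ρ ε v) z ∧
      smX B ρ ε (r • u) z = (r • smX B ρ ε u) z := by
    intro z
    obtain ⟨i, hi⟩ : ∃ i, B.φ i z ≠ 0 := by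
      by_contra hn
      push Not at hn
      simpa [hn] using B.sum_φ z
    have hz : z ∈ tsupport (B.φ i) := subset_tsupport _ hi
    have hs := (B.φ_supp i).2 hz
    have hy : chartAt E (B.c i) z ∈ cell B i := mem_image_of_mem _ hz
    constructor
    · rw [eq_rep (smX B ρ ε (u + v)) hs, eq_rep (smX B ρ ε u + smX B ρ ε v) hs, (hloc i _ hy).1]
    · rw [eq_rep (smX B ρ ε (r • u)) hs, eq_rep (r • smX B ρ ε u) hs, (hloc i _ hy).2]
  exact ⟨funext fun z => (hat z).1, funext fun z => (hat z).2⟩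

/-- Extension by zero of a function smooth on an open set and supported in a compact subset. -/
lemma contDiff_indicator {V K : Set E} (hV : IsOpen V) (hK : IsCompact K) (hKV : K ⊆ V)
    {f : E → ℝ} (hf : ContDiffOn ℝ ∞ f V) (h0 : ∀ y ∈ V, y ∉ K → f y = 0) :
    ContDiff ℝ ∞ (V.indicator f) ∧ tsupport (V.indicator f) ⊆ K := by
  have hs : tsupport (V.indicator f) ⊆ K := by
    refine closure_minimal (fun y hy => by_contra fun h => hy ?_) hK.isClosed
    by_cases hv : y ∈ V
    · simp [hv, h0 y hv h]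
    · simp [hv]
  refine ⟨contDiff_of_tsupport hV (hf.congr fun y hy => by simp [hy]) (hs.trans hKV), hs⟩


theorem smX_ext [T2Space X] (B : Atlas X) {ρ : E → ℝ} (h : SmearFacts B ρ) (p : X) {O : Set E}
    (hO : MeasurableSet O) (hOc : IsCompact (closure O))
    (hOt : closure O ⊆ (chartAt E p).target) {K : Set E} (hKt : K ⊆ (chartAt E p).target)
    (hK : IsCompact K) (hOK : closure O ⊆ interior K) :
    ∃ ε₀ > 0, ∀ ε ∈ Ioc (0 : ℝ) ε₀, ∀ a : E → M,
      IsL2Field (volume.restrict O) a → (∀ x, (a x)ᵀ = -a x) →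
      smX B ρ ε (ext p (O.indicator a)) =
          ext p (K.indicator (smL (readTau B p) (wgtA B.n ρ) ε (O.indicator a))) ∧
      (∀ i j, ContDiff ℝ ∞
        (fun y => K.indicator (smL (readTau B p) (wgtA B.n ρ) ε (O.indicator a)) y i j)) ∧
      ∀ i j, tsupport
        (fun y => K.indicator (smL (readTau B p) (wgtA B.n ρ) ε (O.indicator a)) y i j) ⊆ K := by
  set c := chartAt E p
  set σ := readTau B p
  obtain ⟨K', hK't, hK'c, hKK', ε₁, hε₁, hchart⟩ := h.chart p K hKt hK
  obtain ⟨ε₂, hε₂, hform⟩ := h.form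
  set Z : Set X := c.symm '' closure O
  set N : Set X := c.source ∩ c ⁻¹' interior K
  have hZ : IsCompact Z := hOc.image_of_continuousOn (c.continuousOn_symm.mono hOt)
  have hN : IsOpen N := c.isOpen_inter_preimage isOpen_interior
  have hZN : Z ⊆ N := by
    rintro _ ⟨x, hx, rfl⟩
    exact ⟨c.map_target (hOt hx), show c (c.symm x) ∈ interior K by
      rw [c.right_inv (hOt hx)]; exact hOK hx⟩
  obtain ⟨ε₃, hε₃, hsupp⟩ := h.supp Z N hZ hN hZN
  obtain ⟨W, hW, hW0, hWσ⟩ := (h.smoother p).smooth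
  set W₁ := W ∩ (fun z : (Fin (B.n * 4) → ℝ) × E => σ z.1 z.2) ⁻¹' interior K'
  have hW₁ : IsOpen W₁ := hWσ.continuousOn.isOpen_inter_preimage hW isOpen_interior
  have h01 : ({0} : Set (Fin (B.n * 4) → ℝ)) ×ˢ K ⊆ W₁ := by
    rintro ⟨v, y⟩ ⟨rfl, hy⟩
    exact ⟨hW0 ⟨rfl, hKt hy⟩, show σ 0 y ∈ interior K' by
      rw [show σ 0 y = y from (h.smoother p).base y (hKt hy)]; exact hKK' hy⟩
  obtain ⟨δ, hδ, htube⟩ := exists_tube hW₁ hK h01
  refine ⟨min (min ε₁ ε₂) (min ε₃ δ), lt_min (lt_min hε₁ hε₂) (lt_min hε₃ hδ),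
    fun ε hε a ha hs => ?_⟩
  have hle := hε.2
  simp only [le_min_iff] at hle
  set b := O.indicator a with hb
  set u := ext p b
  have hu : IsL2X u := isL2X_ext p hO hOc hOt ha hs
  set S := smL σ (wgtA B.n ρ) ε b
  have hloc : ∀ y ∈ K, rep p (smX B ρ ε u) y = S y := by
    intro y hy
    rw [hchart ε ⟨hε.1, hle.1.1⟩ u hu y hy]
    ext i j
    simp only [S, smL, Matrix.of_apply]
    refine Finset.sum_congr rfl fun k _ => Finset.sum_congr rfl fun l _ => ?_
    simp only [kerOp]
    congr 1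
    refine integral_congr_ae (Eventually.of_forall fun v => ?_)
    simp only
    by_cases hv : v ∈ closedBall (0 : Fin (B.n * 4) → ℝ) ε
    · have hW₁' : (v, y) ∈ W₁ :=
        htube ⟨closedBall_subset_closedBall hle.2.2 hv, hy⟩
      have hin : σ v y ∈ interior K' := hW₁'.2
      rw [indicator_of_mem (interior_subset hin), rep_ext b (hK't (interior_subset hin))]
    · rw [h.weight.eq_zero hε.1 (by simpa using hv)]
      simp
  have hout : ∀ z ∉ N, smX B ρ ε u z = 0 := by
    refine hsupp ε ⟨hε.1, hle.2.1⟩ u fun z hz => ?_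
    simp only [u, ext]
    split_ifs with hzs
    · rw [hb, indicator_of_notMem fun hc => hz ⟨_, subset_closure hc, c.left_inv hzs⟩]
      simp
    · rfl
  have hrep0 : ∀ y ∈ c.target, y ∉ K → rep p (smX B ρ ε u) y = 0 := fun y hy hyK => by
    simp only [rep]
    rw [hout _ fun hz => hyK (interior_subset (by
      have := hz.2
      rwa [mem_preimage, c.right_inv hy] at this))]
    simp
  have hsm : ∀ i j, (fun y => K.indicator S y i j) =
      c.target.indicator fun y => rep p (smX B ρ ε u) y i j := by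
    intro i j
    funext y
    by_cases hy : y ∈ c.target
    · rw [indicator_of_mem hy]
      by_cases hyK : y ∈ K
      · rw [indicator_of_mem hyK, hloc y hyK]
      · rw [indicator_of_notMem hyK, hrep0 y hy hyK]
    · rw [indicator_of_notMem hy, indicator_of_notMem fun hk => hy (hKt hk)]
      rfl
  have hcd : ∀ i j, ContDiff ℝ ∞ (fun y => K.indicator S y i j) ∧
      tsupport (fun y => K.indicator S y i j) ⊆ K := fun i j => by
    rw [hsm i j]
    exact contDiff_indicator c.open_target hK hKt ((hform ε ⟨hε.1, hle.1.2⟩ u hu).smooth p i j)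
      fun y hy hyK => by rw [hrep0 y hy hyK, Matrix.zero_apply]
  refine ⟨?_, fun i j => (hcd i j).1, fun i j => (hcd i j).2⟩
  funext z
  by_cases hz : z ∈ c.source
  · have hy := c.map_source hz
    have he : rep p (smX B ρ ε u) (c z) = K.indicator S (c z) := by
      by_cases hyK : c z ∈ K
      · rw [indicator_of_mem hyK, hloc _ hyK]
      · rw [indicator_of_notMem hyK, hrep0 _ hy hyK]
    rw [eq_rep (smX B ρ ε u) hz, he]
    simp only [ext, if_pos hz, c]
  · rw [hout z fun hn => hz hn.1]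
    simp only [ext, if_neg hz, c]

end Vale.Agent.P204.Tame.Mfd
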