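import Vale.Agent.P204.Tame.Mfd.SmearDefs
import Vale.Agent.P204.Tame.Mfd.Coord

/-!
P204, manifold layer: the smoother maps `tau` of an atlas are jointly smooth near the zero
parameter, move points in all directions, and their pullbacks read in a chart.
-/

namespace Vale.Agent.P204.Tame.Mfd

open scoped ContDiff Manifold Matrix Topology
open MeasureTheory Metric Set Filter

lemma jac_congr {f g : E → E} {x : E} (h : f =ᶠ[𝓝 x] g) : jac f x = jac g x := by
  ext a j
  simp only [jac, Matrix.of_apply]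
  exact pd_congr j (h.fun_comp fun v : E => v a)

lemma jac_comp {f g : E → E} {x : E} (hg : DifferentiableAt ℝ g (f x))
    (hf : DifferentiableAt ℝ f x) :
    jac (fun y => g (f y)) x = jac g (f x) * jac f x := by
  rw [← toLin_jac (t := fun y => g (f y)) (hg.hasFDerivAt.comp x hf.hasFDerivAt),
    ← toLin_jac hg.hasFDerivAt, ← toLin_jac hf.hasFDerivAt, ← LinearMap.toMatrix'_comp]
  rfl

variable {X : Type*} [TopologicalSpace X] [ChartedSpace E X]

lemma bump_of_zeta {q : X} {ζ : X → ℝ} {v : E} {z : X} (h : ζ z = 0) : bump q ζ v z = z := by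
  simp only [bump]
  split_ifs with hz
  · simp [h, (chartAt E q).left_inv hz]
  · rfl

lemma bump_zero (q : X) (ζ : X → ℝ) (z : X) : bump q ζ 0 z = z := by
  simp only [bump]
  split_ifs with hz
  · simp [(chartAt E q).left_inv hz]
  · rfl

lemma tau_fold_id {n : ℕ} (c : Fin n → X) (ζ : Fin n → X → ℝ) (v : Fin n → E) :
    ∀ (l : List (Fin n)) (z : X), (∀ i ∈ l, v i = 0 ∨ ζ i z = 0) →
      l.foldl (fun x i => bump (c i) (ζ i) (v i) x) z = z := by
  intro l
  induction l with
  | nil => simp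
  | cons i l ih =>
    intro z h
    rw [List.foldl_cons]
    have : bump (c i) (ζ i) (v i) z = z := by
      rcases h i List.mem_cons_self with h' | h'
      · rw [h', bump_zero]
      · exact bump_of_zeta h'
    rw [this]
    exact ih z fun k hk => h k (List.mem_cons_of_mem _ hk)

lemma tau_zero (A : Atlas X) (z : X) : tau A 0 z = z :=
  tau_fold_id A.c A.ζ 0 _ z fun _ _ => Or.inl rfl

/-- If all bumps but one are inactive along the way, `tau` is that bump. -/
lemma tau_eq_bump (A : Atlas X) (v : Fin A.n → E) (j : Fin A.n) (z : X)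
    (h : ∀ i, i ≠ j → v i = 0 ∨ (A.ζ i z = 0 ∧ A.ζ i (bump (A.c j) (A.ζ j) (v j) z) = 0)) :
    tau A v z = bump (A.c j) (A.ζ j) (v j) z := by
  obtain ⟨s, t, hst⟩ := List.mem_iff_append.1 (List.mem_finRange j)
  have hnd := List.nodup_finRange A.n
  rw [hst, List.nodup_append'] at hnd
  have hs : ∀ i ∈ s, i ≠ j := fun i hi hij =>
    hnd.2.2 hi (hij ▸ List.mem_cons_self)
  have ht : ∀ i ∈ t, i ≠ j := fun i hi hij =>
    (List.nodup_cons.1 hnd.2.1).1 (hij ▸ hi)
  rw [tau, hst, List.foldl_append, List.foldl_cons,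
    tau_fold_id A.c A.ζ v s z fun i hi => (h i (hs i hi)).imp id And.left,
    tau_fold_id A.c A.ζ v t _ fun i hi => (h i (ht i hi)).imp id And.right]

lemma continuous_unflat (k : ℕ) : Continuous (unflat (k := k)) :=
  continuous_pi fun i => continuous_pi fun j => continuous_apply _

lemma contDiff_unflat (k : ℕ) : ContDiff ℝ ∞ (unflat (k := k)) :=
  contDiff_pi.2 fun i => contDiff_pi.2 fun j => contDiff_apply ℝ ℝ _

/-- The parameters as a point of the flat coordinate space. -/
noncomputable def flat {k : ℕ} (w : Fin k → E) : Fin (k * 4) → ℝ :=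
  fun m => w (finProdFinEquiv.symm m).1 (finProdFinEquiv.symm m).2

lemma unflat_flat {k : ℕ} (w : Fin k → E) : unflat (flat w) = w := by
  funext i j
  simp [unflat, flat]

lemma unflat_smul {k : ℕ} (t : ℝ) (w : Fin (k * 4) → ℝ) : unflat (t • w) = t • unflat w := rfl

variable [IsManifold 𝓘(ℝ, E) ∞ X]

lemma contMDiffAt_chart_comp {P : Type*} [NormedAddCommGroup P] [NormedSpace ℝ P] {g : P → X}
    {q : X} {a : P} (hg : ContMDiffAt 𝓘(ℝ, P) 𝓘(ℝ, E) ∞ g a)
    (hq : g a ∈ (chartAt E q).source) : ContDiffAt ℝ ∞ (fun b => chartAt E q (g b)) a :=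
  ((contMDiffOn_chart.contMDiffAt ((chartAt E q).open_source.mem_nhds hq)).comp a hg).contDiffAt

/-- One bump applied to a smooth family is smooth near a point where its parameter vanishes. -/
lemma eventually_contMDiffAt_bump {P : Type*} [NormedAddCommGroup P] [NormedSpace ℝ P] {q : X}
    {ζ : X → ℝ} (hζ : ContMDiff 𝓘(ℝ, E) 𝓘(ℝ) ∞ ζ) (hs : tsupport ζ ⊆ (chartAt E q).source)
    {g : P → X} {h : P → E} (hh : ContDiff ℝ ∞ h) {a₀ : P}
    (hg : ∀ᶠ a in 𝓝 a₀, ContMDiffAt 𝓘(ℝ, P) 𝓘(ℝ, E) ∞ g a) (h0 : h a₀ = 0) :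
    ∀ᶠ a in 𝓝 a₀, ContMDiffAt 𝓘(ℝ, P) 𝓘(ℝ, E) ∞ (fun a => bump q ζ (h a) (g a)) a := by
  set c := chartAt E q
  have hgc : ContinuousAt g a₀ := hg.self_of_nhds.continuousAt
  by_cases hz : g a₀ ∈ c.source
  · have hin : ContinuousAt (fun a => c (g a) + ζ (g a) • h a) a₀ :=
      ((c.continuousAt hz).comp hgc).add
        ((hζ.continuous.continuousAt.comp hgc).smul hh.continuous.continuousAt)
    have e1 : ∀ᶠ a in 𝓝 a₀, g a ∈ c.source := hgc.eventually_mem (c.open_source.mem_nhds hz)
    have e2 : ∀ᶠ a in 𝓝 a₀, c (g a) + ζ (g a) • h a ∈ c.target :=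
      hin.eventually_mem (c.open_target.mem_nhds (by simpa [h0] using c.map_source hz))
    filter_upwards [(e1.and (e2.and hg)).eventually_nhds] with a ha
    obtain ⟨ha1, ha2, ha3⟩ := ha.self_of_nhds
    have hinner : ContDiffAt ℝ ∞ (fun b => c (g b) + ζ (g b) • h b) a :=
      (contMDiffAt_chart_comp ha3 ha1).add
        (((hζ.contMDiffAt).comp a ha3).contDiffAt.smul hh.contDiffAt)
    refine ((contMDiffOn_chart_symm.contMDiffAt (c.open_target.mem_nhds ha2)).comp a
      hinner.contMDiffAt).congr_of_eventuallyEq ?_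
    filter_upwards [ha] with b hb
    simp [bump, c, hb.1]
  · have e1 : ∀ᶠ a in 𝓝 a₀, g a ∈ (tsupport ζ)ᶜ := hgc.eventually_mem
      ((isClosed_tsupport ζ).isOpen_compl.mem_nhds fun h => hz (hs h))
    filter_upwards [(e1.and hg).eventually_nhds] with a ha
    refine ha.self_of_nhds.2.congr_of_eventuallyEq ?_
    filter_upwards [ha] with b hb
    exact bump_of_zeta (image_eq_zero_of_notMem_tsupport hb.1)

lemma eventually_contMDiffAt_fold {P : Type*} [NormedAddCommGroup P] [NormedSpace ℝ P]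
    (A : Atlas X) {V : P → Fin A.n → E} (hV : ContDiff ℝ ∞ V) {a₀ : P} (h0 : V a₀ = 0) :
    ∀ (l : List (Fin A.n)) (g : P → X),
      (∀ᶠ a in 𝓝 a₀, ContMDiffAt 𝓘(ℝ, P) 𝓘(ℝ, E) ∞ g a) →
      ∀ᶠ a in 𝓝 a₀, ContMDiffAt 𝓘(ℝ, P) 𝓘(ℝ, E) ∞
        (fun a => l.foldl (fun x i => bump (A.c i) (A.ζ i) (V a i) x) (g a)) a := by
  intro l
  induction l with
  | nil => exact fun g hg => hg
  | cons i l ih =>
    intro g hg
    exact ih (fun a => bump (A.c i) (A.ζ i) (V a i) (g a))
      (eventually_contMDiffAt_bump (A.ζ_smooth i) (A.ζ_supp i).2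
        (contDiff_pi.1 hV i) hg (by simp [h0]))

/-- `tau` read on the chart at `p` is jointly smooth near the zero parameter. -/
lemma eventually_contMDiffAt_tau (A : Atlas X) {p : X} {y : E}
    (hy : y ∈ (chartAt E p).target) :
    ∀ᶠ a in 𝓝 ((0 : Fin (A.n * 4) → ℝ), y), ContMDiffAt 𝓘(ℝ, (Fin (A.n * 4) → ℝ) × E) 𝓘(ℝ, E) ∞
      (fun b : (Fin (A.n * 4) → ℝ) × E => tau A (unflat b.1) ((chartAt E p).symm b.2)) a := by
  refine eventually_contMDiffAt_fold A (V := fun b : (Fin (A.n * 4) → ℝ) × E => unflat b.1)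
    ((contDiff_unflat A.n).comp contDiff_fst) ?_ (List.finRange A.n)
    (fun b => (chartAt E p).symm b.2) ?_
  · funext i j; simp [unflat]
  · filter_upwards [continuous_snd.continuousAt.eventually_mem
      ((chartAt E p).open_target.mem_nhds (x := y) hy)] with a ha
    exact (contMDiffOn_chart_symm.contMDiffAt ((chartAt E p).open_target.mem_nhds ha)).comp a
      contDiff_snd.contDiffAt.contMDiffAt

/-- The open set on which the reading of `tau` in the chart at `p` is valid and smooth. -/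
def tauDom (A : Atlas X) (p : X) : Set ((Fin (A.n * 4) → ℝ) × E) :=
  interior {a | a.2 ∈ (chartAt E p).target ∧
    ContMDiffAt 𝓘(ℝ, (Fin (A.n * 4) → ℝ) × E) 𝓘(ℝ, E) ∞
      (fun b : (Fin (A.n * 4) → ℝ) × E => tau A (unflat b.1) ((chartAt E p).symm b.2)) a ∧
    tau A (unflat a.1) ((chartAt E p).symm a.2) ∈ (chartAt E p).source}

lemma isOpen_tauDom (A : Atlas X) (p : X) : IsOpen (tauDom A p) := isOpen_interior

lemma mem_tauDom_zero (A : Atlas X) (p : X) :
    ({0} : Set (Fin (A.n * 4) → ℝ)) ×ˢ (chartAt E p).target ⊆ tauDom A p := by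
  rintro ⟨v, y⟩ ⟨rfl : v = 0, hy : y ∈ _⟩
  refine mem_interior_iff_mem_nhds.2 ?_
  have h1 := eventually_contMDiffAt_tau A hy
  have h2 : tau A (unflat (0 : Fin (A.n * 4) → ℝ)) ((chartAt E p).symm y) ∈
      (chartAt E p).source := by
    rw [show unflat (0 : Fin (A.n * 4) → ℝ) = 0 from rfl, tau_zero]
    exact (chartAt E p).map_target hy
  filter_upwards [h1, continuous_snd.continuousAt.eventually_mem
    ((chartAt E p).open_target.mem_nhds (x := y) hy),
    h1.self_of_nhds.continuousAt.eventually_mem ((chartAt E p).open_source.mem_nhds h2)]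
    with a ha1 ha2 ha3
  exact ⟨ha2, ha1, ha3⟩

lemma tauDom_spec {A : Atlas X} {p : X} {a : (Fin (A.n * 4) → ℝ) × E} (ha : a ∈ tauDom A p) :
    a.2 ∈ (chartAt E p).target ∧
    ContMDiffAt 𝓘(ℝ, (Fin (A.n * 4) → ℝ) × E) 𝓘(ℝ, E) ∞
      (fun b : (Fin (A.n * 4) → ℝ) × E => tau A (unflat b.1) ((chartAt E p).symm b.2)) a ∧
    tau A (unflat a.1) ((chartAt E p).symm a.2) ∈ (chartAt E p).source :=
  interior_subset (s := {a : (Fin (A.n * 4) → ℝ) × E | a.2 ∈ (chartAt E p).target ∧
    ContMDiffAt 𝓘(ℝ, (Fin (A.n * 4) → ℝ) × E) 𝓘(ℝ, E) ∞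
      (fun b : (Fin (A.n * 4) → ℝ) × E => tau A (unflat b.1) ((chartAt E p).symm b.2)) a ∧
    tau A (unflat a.1) ((chartAt E p).symm a.2) ∈ (chartAt E p).source}) ha

section Read

variable {X : Type} [TopologicalSpace X] [ChartedSpace E X] [IsManifold 𝓘(ℝ, E) ∞ X]

lemma contDiffOn_readTau (A : Atlas X) (p : X) :
    ContDiffOn ℝ ∞ (fun a : (Fin (A.n * 4) → ℝ) × E => readTau A p a.1 a.2) (tauDom A p) :=
  fun a ha => (contMDiffAt_chart_comp (q := p) (tauDom_spec ha).2.1
    (tauDom_spec ha).2.2).contDiffWithinAt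

omit [IsManifold 𝓘(ℝ, E) ∞ X] in
lemma readTau_zero (A : Atlas X) {p : X} {y : E} (hy : y ∈ (chartAt E p).target) :
    readTau A p 0 y = y := by
  rw [readTau, show unflat (0 : Fin (A.n * 4) → ℝ) = 0 from rfl, tau_zero,
    (chartAt E p).right_inv hy]

/-- The smoother moves every point in all directions. -/
lemma readTau_onto (A : Atlas X) {p : X} {y : E} (hy : y ∈ (chartAt E p).target) :
    Function.Surjective (fderiv ℝ (fun v => readTau A p v y) 0) := by
  intro u
  set z := (chartAt E p).symm y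
  have hzp : z ∈ (chartAt E p).source := (chartAt E p).map_target hy
  obtain ⟨j, hj⟩ : ∃ j, A.φ j z ≠ 0 := by
    by_contra! h
    simpa [h] using A.sum_φ z
  have hjs : z ∈ tsupport (A.φ j) := subset_tsupport _ hj
  have hzc : z ∈ (chartAt E (A.c j)).source := (A.φ_supp j).2 hjs
  set w : E := chg p (A.c j) z *ᵥ u
  refine ⟨flat (Pi.single j w), ?_⟩
  have hd : DifferentiableAt ℝ (fun v => readTau A p v y) 0 := by
    have hm : ((0 : Fin (A.n * 4) → ℝ), y) ∈ tauDom A p := mem_tauDom_zero A p ⟨rfl, hy⟩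
    exact (((contDiffOn_readTau A p).contDiffAt ((isOpen_tauDom A p).mem_nhds hm)).comp 0
      (contDiffAt_id.prodMk contDiffAt_const)).differentiableAt (by simp)
  have hline : ∀ x : E → E, ∀ (d : E), HasDerivAt (fun t : ℝ => t • d) d 0 := fun _ d => by
    simpa using (hasDerivAt_id (0 : ℝ)).smul_const d
  have h1 : HasDerivAt (fun t : ℝ => readTau A p (t • flat (Pi.single j w)) y)
      (fderiv ℝ (fun v => readTau A p v y) 0 (flat (Pi.single j w))) 0 := by
    have hl : HasDerivAt (fun t : ℝ => t • flat (Pi.single j w)) (flat (Pi.single j w)) 0 := by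
      simpa using (hasDerivAt_id (0 : ℝ)).smul_const (flat (Pi.single j w))
    exact HasFDerivAt.comp_hasDerivAt (l := fun v => readTau A p v y) 0
      (by simpa using hd.hasFDerivAt) hl
  set y' := chartAt E (A.c j) z
  have hy' : y' ∈ trnDom (A.c j) p := ⟨(chartAt E (A.c j)).map_source hzc, by
    rw [mem_preimage, show (chartAt E (A.c j)).symm y' = z from
      (chartAt E (A.c j)).left_inv hzc]
    exact hzp⟩
  have h2 : HasDerivAt (fun t : ℝ => readTau A p (t • flat (Pi.single j w)) y)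
      (tangentCoordChange 𝓘(ℝ, E) (A.c j) p z w) 0 := by
    have hl : HasDerivAt (fun t : ℝ => y' + t • w) w 0 :=
      (hline id w).const_add y'
    have hT : HasFDerivAt (trn (A.c j) p) (tangentCoordChange 𝓘(ℝ, E) (A.c j) p z) y' := by
      simpa [y', (chartAt E (A.c j)).left_inv hzc] using hasFDerivAt_trn hy'
    refine (HasFDerivAt.comp_hasDerivAt 0 (by simpa using hT) hl).congr_of_eventuallyEq ?_
    have hev : ∀ᶠ t : ℝ in 𝓝 0, y' + t • w ∈ (chartAt E (A.c j)).target :=
      hl.continuousAt.eventually_mem ((chartAt E (A.c j)).open_target.mem_nhds (by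
        simpa using hy'.1))
    filter_upwards [hev] with t ht
    have hb : tau A (unflat (t • flat (Pi.single j w))) z =
        bump (A.c j) (A.ζ j) (t • w) z := by
      rw [tau_eq_bump A _ j z fun i hi => Or.inl (by simp [unflat_smul, unflat_flat, hi])]
      simp [unflat_smul, unflat_flat]
    simp only [readTau, Function.comp_apply, trn]
    rw [show (chartAt E p).symm y = z from rfl, hb]
    simp [bump, hzc, A.ζ_one j z hjs, y']
  rw [h1.unique h2, ← chg_mulVec, Matrix.mulVec_mulVec, chg_mul_chg hzp hzc,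
    Matrix.one_mulVec]

theorem isSmoother_readTau (A : Atlas X) (p : X) :
    IsSmoother (chartAt E p).target (readTau A p) where
  isOpen := (chartAt E p).open_target
  smooth := ⟨tauDom A p, isOpen_tauDom A p, mem_tauDom_zero A p, contDiffOn_readTau A p⟩
  base := fun _ hy => readTau_zero A hy
  onto := fun _ hy => readTau_onto A hy

/-- The pullback of a two-form read in a chart is the pullback by the map read in the chart. -/
theorem rep_pullX {f : X → X} (u : X → M) {p : X} {y : E} (hy : y ∈ (chartAt E p).target)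
    (hf : ContMDiffAt 𝓘(ℝ, E) 𝓘(ℝ, E) ∞ (fun x => f ((chartAt E p).symm x)) y)
    (hfp : f ((chartAt E p).symm y) ∈ (chartAt E p).source) :
    rep p (pullX f u) y =
      (jac (fun x => chartAt E p (f ((chartAt E p).symm x))) y)ᵀ *
        rep p u (chartAt E p (f ((chartAt E p).symm y))) *
          jac (fun x => chartAt E p (f ((chartAt E p).symm x))) y := by
  set cp := chartAt E p
  set z := cp.symm y with hz
  set F : E → E := fun x => cp (f (cp.symm x))
  have hzp : z ∈ cp.source := cp.map_target hy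
  set cz := chartAt E z
  set S : E → E := fun x => chartAt E (f z) (f (cp.symm x))
  have hzy : cz z ∈ trnDom z p := ⟨cz.map_source (mem_chart_source E z), by
    rw [mem_preimage, show cz.symm (cz z) = z from cz.left_inv (mem_chart_source E z)]; exact hzp⟩
  have htz : trn z p (cz z) = y := by
    simp [trn, cz, cp, hz, (chartAt E z).left_inv (mem_chart_source E z), cp.right_inv hy]
  have hSd : DifferentiableAt ℝ S y :=
    (contMDiffAt_chart_comp hf (mem_chart_source E (f z))).differentiableAt (by simp)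
  have hFd : DifferentiableAt ℝ F y :=
    (contMDiffAt_chart_comp hf hfp).differentiableAt (by simp)
  have hF : F y ∈ trnDom p (f z) := ⟨cp.map_source hfp, by
    rw [mem_preimage, show cp.symm (F y) = f z from cp.left_inv hfp]
    exact mem_chart_source E (f z)⟩
  have e1 : dMap f z = jac S y * chg z p z := by
    have he : (fun x => chartAt E (f z) (f (cz.symm x))) =ᶠ[𝓝 (cz z)] fun x => S (trn z p x) := by
      filter_upwards [(isOpen_trnDom z p).mem_nhds hzy] with x hx
      simp only [S]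
      rw [show cp.symm (trn z p x) = cz.symm x from symm_trn hx]
    have hjac : dMap f z = jac (fun x => chartAt E (f z) (f (cz.symm x))) (cz z) := rfl
    rw [hjac, jac_congr he, jac_comp (g := S) (f := trn z p) (by rw [htz]; exact hSd)
      ((hasFDerivAt_trn hzy).differentiableAt), htz, ← toLin_jac (hasFDerivAt_trn hzy)]
    simp [chg, cz, (chartAt E z).left_inv (mem_chart_source E z)]
  have e2 : jac S y = chg p (f z) (f z) * jac F y := by
    have he : S =ᶠ[𝓝 y] fun x => trn p (f z) (F x) := by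
      filter_upwards [hf.continuousAt.eventually_mem (cp.open_source.mem_nhds hfp)] with x hx
      simp only [S, F, trn]
      rw [cp.left_inv hx]
    rw [jac_congr he, jac_comp (g := trn p (f z)) ((hasFDerivAt_trn hF).differentiableAt) hFd,
      ← toLin_jac (hasFDerivAt_trn hF)]
    simp [chg, F, cp, z, cp.left_inv hfp]
  have hone : chg z p z * chg p z z = 1 := chg_mul_chg hzp (mem_chart_source E z)
  have hd : dMap f z * chg p z z = chg p (f z) (f z) * jac F y := by
    rw [e1, e2, Matrix.mul_assoc, Matrix.mul_assoc, hone, Matrix.mul_one]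
  simp only [rep, pullX, ← hz, show cp.symm (cp (f z)) = f z from cp.left_inv hfp, cp]
  calc (chg p z z)ᵀ * ((dMap f z)ᵀ * u (f z) * dMap f z) * chg p z z
      = (dMap f z * chg p z z)ᵀ * u (f z) * (dMap f z * chg p z z) := by
        rw [Matrix.transpose_mul]; simp only [Matrix.mul_assoc]
    _ = (jac F y)ᵀ * ((chg p (f z) (f z))ᵀ * u (f z) * chg p (f z) (f z)) * jac F y := by
        rw [hd, Matrix.transpose_mul]; simp only [Matrix.mul_assoc]

lemma rep_pullX_tau (A : Atlas X) (u : X → M) {p : X} {v : Fin (A.n * 4) → ℝ} {y : E}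
    (h : (v, y) ∈ tauDom A p) :
    rep p (pullX (tau A (unflat v)) u) y = pullV (readTau A p) v (rep p u) y := by
  obtain ⟨hy, hs, hp⟩ := tauDom_spec h
  have hf : ContMDiffAt 𝓘(ℝ, E) 𝓘(ℝ, E) ∞
      (fun x => tau A (unflat v) ((chartAt E p).symm x)) y :=
    hs.comp y (contDiffAt_const.prodMk contDiffAt_id).contMDiffAt
  exact rep_pullX u hy hf hp

end Read

end Vale.Agent.P204.Tame.Mfd
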